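import Mathlib

/-!
# Row 338, module HOGauss (helper789): the Gaussian `exp (-‖x‖²/2)` as a Schwartz function
-/

set_option autoImplicit false

open MeasureTheory Real SchwartzMap
open scoped Nat ContDiff

noncomputable section

namespace Crest.Agent.R338.HO

variable {H : Type*} [NormedAddCommGroup H] [InnerProductSpace ℝ H]

theorem one_add_pow_mul_exp_le (m : ℕ) {t : ℝ} (ht : 0 ≤ t) :
    (1 + t) ^ m * Real.exp (-(t ^ 2) / 2) ≤ m ! * Real.exp (3 / 2) := by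
  have h1 : (1 + t) ^ m / m ! ≤ Real.exp (1 + t) := by
    exact Real.pow_div_factorial_le_exp (1 + t) (by linarith) m
  have h1' : (1 + t) ^ m ≤ m ! * Real.exp (1 + t) := by
    rw [div_le_iff₀ (by positivity)] at h1
    linarith
  have h2 : Real.exp (-(t ^ 2) / 2) ≤ Real.exp (1 / 2 - t) := by
    apply Real.exp_le_exp.2
    nlinarith [sq_nonneg (t - 1)]
  calc (1 + t) ^ m * Real.exp (-(t ^ 2) / 2)
      ≤ (m ! * Real.exp (1 + t)) * Real.exp (1 / 2 - t) :=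
        mul_le_mul h1' h2 (Real.exp_pos _).le (by positivity)
    _ = m ! * Real.exp (3 / 2) := by
        rw [mul_assoc, ← Real.exp_add]
        norm_num

theorem contDiff_gaussR : ContDiff ℝ ∞ (fun x : H => Real.exp (-(‖x‖ ^ 2) / 2)) := by
  have : ContDiff ℝ ∞ (fun x : H => ‖x‖ ^ 2) := contDiff_norm_sq ℝ
  fun_prop

theorem gaussR_decay (k n : ℕ) : ∃ C : ℝ, ∀ x : H,
    ‖x‖ ^ k * ‖iteratedFDeriv ℝ n (fun x : H => Real.exp (-(‖x‖ ^ 2) / 2)) x‖ ≤ C := by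
  have htg : Function.HasTemperateGrowth (fun x : H => -(‖x‖ ^ 2) / 2) := by
    have h := (Function.hasTemperateGrowth_norm_sq H).neg
    have h2 := (Function.HasTemperateGrowth.const (E := H) (1 / 2 : ℝ)).mul h
    have e : (fun x : H => -(‖x‖ ^ 2) / 2) = fun x : H => (1 / 2 : ℝ) * (-(fun x : H => ‖x‖ ^ 2)) x := by
      funext x; simp; ring
    rw [e]
    exact h2
  obtain ⟨k₁, C₁, hC₁, h₁⟩ := htg.norm_iteratedFDeriv_le_uniform n
  refine ⟨n ! * (1 + C₁) ^ n * ((k + k₁ * n) ! * Real.exp (3 / 2)), fun x => ?_⟩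
  have hb : ‖iteratedFDeriv ℝ n (fun x : H => Real.exp (-(‖x‖ ^ 2) / 2)) x‖ ≤
      n ! * Real.exp (-(‖x‖ ^ 2) / 2) * ((1 + C₁) * (1 + ‖x‖) ^ k₁) ^ n := by
    have := norm_iteratedFDeriv_comp_le (𝕜 := ℝ) (g := Real.exp)
      (f := fun x : H => -(‖x‖ ^ 2) / 2) (n := n) (N := (∞ : WithTop ℕ∞)) Real.contDiff_exp htg.1
      (mod_cast le_top) x
      (C := Real.exp (-(‖x‖ ^ 2) / 2)) (D := (1 + C₁) * (1 + ‖x‖) ^ k₁)
      (fun i _ => by
        rw [norm_iteratedFDeriv_eq_norm_iteratedDeriv, iteratedDeriv_eq_iterate, Real.iter_deriv_exp,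
          Real.norm_eq_abs, abs_of_pos (Real.exp_pos _)])
      (fun i hi hi' => by
        calc _ ≤ C₁ * (1 + ‖x‖) ^ k₁ := h₁ i hi' x
          _ ≤ (1 + C₁) * (1 + ‖x‖) ^ k₁ := by gcongr; simp
          _ ≤ _ := by
            apply le_self_pow₀ (one_le_mul_of_one_le_of_one_le (by simp [hC₁]) (by simp [one_le_pow₀]))
            grind)
    exact this
  have hx : ‖x‖ ^ k ≤ (1 + ‖x‖) ^ k := by
    gcongr; simp
  calc ‖x‖ ^ k * ‖iteratedFDeriv ℝ n (fun x : H => Real.exp (-(‖x‖ ^ 2) / 2)) x‖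
      ≤ (1 + ‖x‖) ^ k * (n ! * Real.exp (-(‖x‖ ^ 2) / 2) * ((1 + C₁) * (1 + ‖x‖) ^ k₁) ^ n) := by
        gcongr
    _ = n ! * (1 + C₁) ^ n * ((1 + ‖x‖) ^ (k + k₁ * n) * Real.exp (-(‖x‖ ^ 2) / 2)) := by
        rw [mul_pow, pow_add, pow_mul]; ring
    _ ≤ _ :=
        mul_le_mul_of_nonneg_left (one_add_pow_mul_exp_le _ (norm_nonneg x)) (by positivity)

/-- the real Gaussian as a Schwartz function -/
def gaussRS (H : Type*) [NormedAddCommGroup H] [InnerProductSpace ℝ H] : 𝓢(H, ℝ) where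
  toFun x := Real.exp (-(‖x‖ ^ 2) / 2)
  smooth' := contDiff_gaussR
  decay' k n := gaussR_decay k n

@[simp] theorem gaussRS_apply (x : H) : gaussRS H x = Real.exp (-(‖x‖ ^ 2) / 2) := rfl

/-- the Gaussian as a complex Schwartz function -/
def gaussS (H : Type*) [NormedAddCommGroup H] [InnerProductSpace ℝ H] : 𝓢(H, ℂ) :=
  (gaussRS H).postcompCLM Complex.ofRealCLM

@[simp] theorem gaussS_apply (x : H) : gaussS H x = ((Real.exp (-(‖x‖ ^ 2) / 2) : ℝ) : ℂ) := by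
  unfold gaussS
  rw [SchwartzMap.postcompCLM_apply, gaussRS_apply]
  rfl

end Crest.Agent.R338.HO
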