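import Crest.Agent.R338.Iface

/-!
# Row 338, module XF4 (helper345): sums over the core and the shell as nested range sums
-/

set_option autoImplicit false

open Finset

namespace Crest.Agent.R338.XF

theorem vec3_eta (m : Idx) : ![m 0, m 1, m 2] = m := by
  ext i; fin_cases i <;> rfl

theorem sum3 (m : Idx) : ∑ c, m c = m 0 + m 1 + m 2 := by
  rw [Fin.sum_univ_three]

theorem mem_core (n0 : ℕ) (m : Idx) : m ∈ core n0 ↔ m 0 + m 1 + m 2 < n0 := by
  unfold core
  rw [mem_filter, Fintype.mem_piFinset, sum3]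
  constructor
  · rintro ⟨_, h⟩; exact h
  · intro h
    refine ⟨fun i => ?_, h⟩
    rw [mem_range]
    fin_cases i <;> simp <;> omega

theorem mem_shell (n0 : ℕ) (m : Idx) : m ∈ shell n0 ↔ m 0 + m 1 + m 2 = n0 := by
  unfold shell
  rw [mem_filter, Fintype.mem_piFinset, sum3]
  constructor
  · rintro ⟨_, h⟩; exact h
  · intro h
    refine ⟨fun i => ?_, h⟩
    rw [mem_range]
    fin_cases i <;> simp <;> omega

/-- core sums -/
theorem sum_core {M : Type*} [AddCommMonoid M] (n0 : ℕ) (f : Idx → M) :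
    ∑ c ∈ core n0, f c =
      ∑ c0 ∈ range n0, ∑ c1 ∈ range (n0 - c0), ∑ c2 ∈ range (n0 - c0 - c1), f ![c0, c1, c2] := by
  rw [sum_sigma', sum_sigma']
  refine sum_nbij' (fun m => (⟨⟨m 0, m 1⟩, m 2⟩ : (_ : (_ : ℕ) × ℕ) × ℕ))
    (fun p => ![p.1.1, p.1.2, p.2]) ?_ ?_ ?_ ?_ ?_
  · intro m hm
    rw [mem_core] at hm
    simp only [mem_sigma, mem_range]
    omega
  · rintro ⟨⟨a, b⟩, c⟩ h
    simp only [mem_sigma, mem_range] at h
    rw [mem_core]
    simp only [Matrix.cons_val_zero, Matrix.cons_val_one, Matrix.cons_val]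
    omega
  · intro m _
    exact vec3_eta m
  · rintro ⟨⟨a, b⟩, c⟩ h
    simp
  · intro m _
    simp only [vec3_eta]

/-- shell sums -/
theorem sum_shell {M : Type*} [AddCommMonoid M] (n0 : ℕ) (f : Idx → M) :
    ∑ c ∈ shell n0, f c =
      ∑ c0 ∈ range (n0 + 1), ∑ c1 ∈ range (n0 + 1 - c0), f ![c0, c1, n0 - c0 - c1] := by
  rw [sum_sigma']
  refine sum_nbij' (fun m => (⟨m 0, m 1⟩ : (_ : ℕ) × ℕ))
    (fun p => ![p.1, p.2, n0 - p.1 - p.2]) ?_ ?_ ?_ ?_ ?_
  · intro m hm
    rw [mem_shell] at hm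
    simp only [mem_sigma, mem_range]
    omega
  · rintro ⟨a, b⟩ h
    simp only [mem_sigma, mem_range] at h
    rw [mem_shell]
    simp only [Matrix.cons_val_zero, Matrix.cons_val_one, Matrix.cons_val]
    omega
  · intro m hm
    rw [mem_shell] at hm
    have : n0 - m 0 - m 1 = m 2 := by omega
    simp only [this, vec3_eta]
  · rintro ⟨a, b⟩ h
    simp
  · intro m hm
    rw [mem_shell] at hm
    have : n0 - m 0 - m 1 = m 2 := by omega
    simp only [this, vec3_eta]

/-- number of pairs with sum `< n` -/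
theorem tri_sum (n : ℕ) : 2 * ∑ b ∈ range n, (n - b) = n * (n + 1) := by
  induction n with
  | zero => simp
  | succ n ih =>
    rw [sum_range_succ']
    simp only [Nat.add_sub_add_right, Nat.sub_zero]
    have : ∑ b ∈ range n, (n - b) = ∑ b ∈ range n, (n - b) := rfl
    rw [mul_add, ih]; ring

/-- core orbitals with `c0 = m` -/
theorem card_core_fst (n0 m : ℕ) :
    2 * #{c ∈ core n0 | c 0 = m} = (n0 - m) * (n0 - m + 1) := by
  rw [← tri_sum, card_filter, sum_core]
  by_cases h : m < n0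
  · rw [sum_eq_single m]
    · simp
    · intro c _ hc
      simp [hc]
    · intro h'
      rw [mem_range] at h'
      exact absurd h h'
  · have e : n0 - m = 0 := by omega
    rw [e, range_zero, sum_empty, sum_eq_zero]
    intro c hc
    rw [mem_range] at hc
    have : c ≠ m := by omega
    simp [this]

/-- core orbitals with `c2 = m` -/
theorem card_core_thd (n0 m : ℕ) :
    2 * #{c ∈ core n0 | c 2 = m} = (n0 - m) * (n0 - m + 1) := by
  rw [← card_core_fst]
  congr 1
  refine card_nbij' (fun c => ![c 2, c 1, c 0]) (fun c => ![c 2, c 1, c 0]) ?_ ?_ ?_ ?_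
  · intro c hc
    simp only [coe_filter, Set.mem_ofPred_eq, mem_core] at hc ⊢
    simp only [Matrix.cons_val_zero, Matrix.cons_val_one, Matrix.cons_val]
    omega
  · intro c hc
    simp only [coe_filter, Set.mem_ofPred_eq, mem_core] at hc ⊢
    simp only [Matrix.cons_val_zero, Matrix.cons_val_one, Matrix.cons_val]
    omega
  · intro c _
    simpa using vec3_eta c
  · intro c _
    simpa using vec3_eta c

/-- `6 · #core = n0 (n0+1)(n0+2)` -/
theorem card_core (n0 : ℕ) : 6 * #(core n0) = n0 * (n0 + 1) * (n0 + 2) := by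
  have h : #(core n0) = ∑ c0 ∈ range n0, ∑ c1 ∈ range (n0 - c0), (n0 - c0 - c1) := by
    rw [card_eq_sum_ones, sum_core]
    simp
  have h2 : ∀ n : ℕ, 6 * ∑ c0 ∈ range n, ∑ c1 ∈ range (n - c0), (n - c0 - c1) =
      n * (n + 1) * (n + 2) := by
    intro n
    induction n with
    | zero => simp
    | succ n ih =>
      rw [sum_range_succ']
      simp only [Nat.add_sub_add_right, Nat.sub_zero]
      have := tri_sum (n + 1)
      nlinarith
  rw [h, h2]

theorem card_core_choose (n0 : ℕ) : #(core n0) = (n0 + 2).choose 3 := by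
  have h := card_core n0
  have h2 := Nat.add_one_mul_choose_eq (n0 + 1) 2
  have h3 := Nat.add_one_mul_choose_eq n0 1
  simp only [Nat.choose_one_right] at h2 h3
  norm_num [add_assoc] at h2 h3
  have h4 : 6 * (n0 + 2).choose 3 = n0 * (n0 + 1) * (n0 + 2) := by
    nlinarith
  omega

theorem card_shell (n0 : ℕ) : 2 * #(shell n0) = (n0 + 1) * (n0 + 2) := by
  have h : #(shell n0) = ∑ c0 ∈ range (n0 + 1), (n0 + 1 - c0) := by
    rw [card_eq_sum_ones, sum_shell]
    simp
  rw [h, tri_sum]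

theorem numEl_eq (n0 Nv : ℕ) : numEl n0 Nv = 2 * (n0 + 2).choose 3 + Nv := by
  unfold numEl; rw [card_core_choose]

/-- closed form of `Σ_core (|c| + 3/2)` : `(n0-1) n0 (n0+1)(n0+2)/8 + (3/2) n0(n0+1)(n0+2)/6` -/
theorem sum_core_deg (n0 : ℕ) :
    8 * ∑ c ∈ core n0, ((∑ i, c i : ℕ) : ℝ) = ((n0 : ℝ) - 1) * n0 * (n0 + 1) * (n0 + 2) := by
  have key : ∀ n : ℕ, core (n + 1) = core n ∪ shell n := by
    intro n; ext m; rw [mem_union, mem_core, mem_core, mem_shell]; omega
  have disj : ∀ n : ℕ, Disjoint (core n) (shell n) := by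
    intro n; rw [disjoint_left]; intro m hm hm'; rw [mem_core] at hm; rw [mem_shell] at hm'; omega
  induction n0 with
  | zero =>
    have : core 0 = ∅ := by
      ext m; rw [mem_core]; simp
    rw [this]; simp
  | succ n ih =>
    rw [key, sum_union (disj n), mul_add, ih]
    have h1 : ∑ c ∈ shell n, ((∑ i, c i : ℕ) : ℝ) = ((#(shell n) : ℕ) : ℝ) * n := by
      rw [← nsmul_eq_mul, ← sum_const]
      refine sum_congr rfl fun c hc => ?_
      rw [mem_shell] at hc
      rw [sum3, hc]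
    have h2 : (2 * ((#(shell n) : ℕ) : ℝ)) = ((n : ℝ) + 1) * (n + 2) := by
      exact_mod_cast card_shell n
    rw [h1]
    push_cast
    nlinarith

theorem EN_eq (n0 Nv : ℕ) : EN n0 Nv =
    ((n0 : ℝ) - 1) * n0 * (n0 + 1) * (n0 + 2) / 4 + (n0 : ℝ) * (n0 + 1) * (n0 + 2) / 2 +
      Nv * ((n0 : ℝ) + 3 / 2) := by
  unfold EN
  rw [sum_add_distrib, sum_const, nsmul_eq_mul]
  have h1 := sum_core_deg n0
  have h2 : (6 * ((#(core n0) : ℕ) : ℝ)) = (n0 : ℝ) * (n0 + 1) * (n0 + 2) := by
    exact_mod_cast card_core n0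
  linarith

end Crest.Agent.R338.XF
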