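import Crest.Agent.R338.SCB
import Crest.Agent.R338.XF4

/-!
Row 338 (S0529): `ThmABStmt` from `TheoremALower`, `TheoremAUpper` and SCB. helper426.
-/

set_option autoImplicit false
set_option linter.unusedVariables false

open Finset Function MeasureTheory
open Crest.MathPhysics.ElectronicCoulomb

noncomputable section

namespace Crest.Agent.R338.AB

theorem infLE_mono {n : ℕ} {W : Config n → ℝ} {a b : ℝ} (h : InfEnergyLE W a) (hab : a ≤ b) :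
    InfEnergyLE W b := by
  intro ε hε
  obtain ⟨Ψ, h1, h2, h3⟩ := h ε hε
  exact ⟨Ψ, h1, h2, h3.trans (by linarith)⟩

theorem infGE_mono {n : ℕ} {W : Config n → ℝ} {a b : ℝ} (h : InfEnergyGE W b) (hab : a ≤ b) :
    InfEnergyGE W a := fun Ψ h1 h2 => hab.trans (h Ψ h1 h2)

theorem TA_EN_eq (n0 Nv : ℕ) : TA.EN n0 Nv = EN n0 Nv := by
  rw [XF.EN_eq]
  unfold TA.EN
  congr 1
  induction n0 with
  | zero => simp
  | succ n ih =>
    rw [Finset.sum_range_succ, ih]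
    push_cast
    ring

theorem Vnuc_eq (lam : ℝ) {K : ℕ} (P : Fin K → Pos3) (x : Pos3) :
    TA.Vnuc lam P x = -lam * ∑ α, 1 / ‖x - P α‖ := by
  unfold TA.Vnuc
  rw [Finset.mul_sum]
  refine Finset.sum_congr rfl fun α _ => ?_
  ring

theorem deg3_eq (m : Idx) : TA.deg3 m = ∑ c, m c := by
  rw [XF.sum3]; rfl

/-- bridge of the two `NucOK` structures -/
theorem nucOK_bridge {n0 : ℕ} {lam C0 R eps1 eps2 kF Wb : ℝ} {K : ℕ} {nuc : Fin K → Pos3}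
    {w : Pos3 → ℝ} (h : NucOK n0 lam C0 R eps1 eps2 kF Wb nuc w) (hlam : lam ≤ 1) (hR : 1 ≤ R)
    (he1 : 0 ≤ eps1) (he2 : 0 ≤ eps2) (he2' : eps2 ≤ 1) :
    ∃ (Vs : Pos3 → ℝ) (F : Pos3 → Pos3), TA.NucOK lam nuc n0 Vs w F C0 R eps1 eps2 kF Wb := by
  obtain ⟨Vs, F, hc, hneg, ⟨b, hb⟩, hFm, hF, h0, h1, h2, h3⟩ := h.decomp
  refine ⟨Vs, F, ?_⟩
  exact
    { lam_pos := h.lam_pos
      lam_le := hlam
      one_le_R := hR
      C0_nonneg := h.C0_nonneg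
      eps1_nonneg := he1
      eps2_nonneg := he2
      eps2_le := he2'
      kF_nonneg := h.kF_nonneg
      W_nonneg := (abs_nonneg (w 0)).trans (h.w_bdd 0)
      Vs_cont := hc
      Vs_nonpos := hneg
      Vs_bdd := ⟨|b|, fun x => by
        rw [abs_le]
        exact ⟨by linarith [hb x, le_abs_self b], (hneg x).trans (abs_nonneg b)⟩⟩
      w_cont := h.w_cont
      w_le := h.w_bdd
      F_meas := hFm
      F_le := hF
      N0 := by
        intro f hf1 hf2 hf3 hf4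
        simp_rw [Vnuc_eq]
        exact h0 f hf1 hf2 hf3 hf4
      N1 := h1
      N2 := h2
      N3 := by
        intro a b ha hb
        simp_rw [Vnuc_eq, ← Br.orb_eq_Phi]
        exact h3 a b (by rw [← deg3_eq]; exact ha) (by rw [← deg3_eq]; exact hb) }

/-- size comparison -/
theorem size_le {n0 Nv : ℕ} (hn0 : 1 ≤ n0) (hNv : Nv ≤ (n0 + 1) * (n0 + 2)) {W : ℝ} (hW : 0 ≤ W) :
    TA.sizeP n0 Nv W ≤ ((n0 : ℝ) + 2 + W) ^ 3 := by
  unfold TA.sizeP TA.Nel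
  have h1 : 6 * ((n0 + 2).choose 3) = n0 * (n0 + 1) * (n0 + 2) := by
    rw [← XF.card_core_choose]; exact XF.card_core n0
  have h2 : (6 : ℝ) * ((n0 + 2).choose 3 : ℝ) = (n0 : ℝ) * (n0 + 1) * (n0 + 2) := by
    exact_mod_cast h1
  have h3 : (Nv : ℝ) ≤ ((n0 : ℝ) + 1) * (n0 + 2) := by exact_mod_cast hNv
  have hn : (1 : ℝ) ≤ (n0 : ℝ) := by exact_mod_cast hn0
  push_cast
  have h4 : ((n0 : ℝ) + 2) ^ 3 + 9 * W ≤ ((n0 : ℝ) + 2 + W) ^ 3 := by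
    have : ((n0 : ℝ) + 2 + W) ^ 3 = ((n0 : ℝ) + 2) ^ 3 + 3 * ((n0 : ℝ) + 2) ^ 2 * W +
        3 * ((n0 : ℝ) + 2) * W ^ 2 + W ^ 3 := by ring
    rw [this]
    have h5 : (9 : ℝ) ≤ ((n0 : ℝ) + 2) ^ 2 := by nlinarith
    have h6 : 9 * W ≤ 3 * ((n0 : ℝ) + 2) ^ 2 * W := by nlinarith
    have h7 : 0 ≤ 3 * ((n0 : ℝ) + 2) * W ^ 2 := by positivity
    have h8 : 0 ≤ W ^ 3 := by positivity
    linarith
  nlinarith [mul_nonneg (mul_nonneg (by linarith : (0 : ℝ) ≤ n0) (by linarith : (0 : ℝ) ≤ n0))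
    (by linarith : (0 : ℝ) ≤ n0), mul_nonneg (by linarith : (0 : ℝ) ≤ n0) (by linarith : (0 : ℝ) ≤ n0)]

theorem transport_LE {n m : ℕ} (h : n = m) {K : ℕ} {nuc : Fin K → Pos3} {lam a : ℝ}
    (H : InfEnergyLE (n := n) (fun x => lam * unitNucleiPotential nuc x) a) :
    InfEnergyLE (n := m) (fun x => lam * unitNucleiPotential nuc x) a := by
  subst h; exact H

theorem transport_GE {n m : ℕ} (h : n = m) {K : ℕ} {nuc : Fin K → Pos3} {lam a : ℝ}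
    (H : InfEnergyGE (n := n) (fun x => lam * unitNucleiPotential nuc x) a) :
    InfEnergyGE (n := m) (fun x => lam * unitNucleiPotential nuc x) a := by
  subst h; exact H

/-- **Theorem AB from Theorem A.** -/
theorem thmAB_of (hL : TA.TheoremALower) (hU : TA.TheoremAUpper) : ThmABStmt := by
  obtain ⟨DL, hDL⟩ := hL
  obtain ⟨DU, hDU⟩ := hU 5
  refine ⟨3 * DL + 3 * DU + 1, ?_⟩
  intro n0 Nv hn0 hNv1 hNv2 lam C0 R eps1 eps2 kF Wb K nuc w hN hsm hR he1 he2 he2' Err Eref Wp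
  have hWb : 0 ≤ Wb := (abs_nonneg (w 0)).trans (hN.w_bdd 0)
  have hn : (1 : ℝ) ≤ (n0 : ℝ) := by exact_mod_cast hn0
  set t : ℝ := (n0 : ℝ) + 2 + Wb with ht
  have ht3 : 3 ≤ t := by rw [ht]; linarith
  have ht1 : 1 ≤ t := by linarith
  have htC : 1 ≤ t ^ (3 * DL + 3 * DU + 1) := one_le_pow₀ ht1
  have hR1 : 1 ≤ R := htC.trans hR
  have hsum0 : 0 < lam + kF := by linarith [hN.lam_pos, hN.kF_nonneg]
  have hlam1 : lam ≤ 1 := by
    have : 1 * (lam + kF) ≤ t ^ (3 * DL + 3 * DU + 1) * (lam + kF) :=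
      mul_le_mul_of_nonneg_right htC hsum0.le
    linarith [hN.kF_nonneg]
  obtain ⟨Vs, F, hTA⟩ := nucOK_bridge hN hlam1 hR1 he1 he2 he2'
  set z : ℝ := TA.sizeP n0 Nv Wb with hz
  have hz3 : z ≤ t ^ 3 := size_le hn0 hNv2 hWb
  have hz0 : 0 ≤ z := by rw [hz]; unfold TA.sizeP; positivity
  have hzp : ∀ D, z ^ D ≤ t ^ (3 * D) := by
    intro D
    rw [pow_mul]
    exact pow_le_pow_left₀ hz0 hz3 D
  have hzL : z ^ DL ≤ t ^ (3 * DL + 3 * DU + 1) :=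
    (hzp DL).trans (pow_le_pow_right₀ ht1 (by omega))
  have hzU : 2 * z ^ DU ≤ t ^ (3 * DL + 3 * DU + 1) := by
    have h1 := hzp DU
    have h2 : t ^ (3 * DU + 1) ≤ t ^ (3 * DL + 3 * DU + 1) := pow_le_pow_right₀ ht1 (by omega)
    have h3 : 2 * t ^ (3 * DU) ≤ t ^ (3 * DU + 1) := by
      rw [pow_succ]
      have : 0 ≤ t ^ (3 * DU) := by positivity
      nlinarith
    linarith
  have hzLR : z ^ DL ≤ R ^ 2 := hzL.trans (hR.trans (by nlinarith))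
  have hsmL : z ^ DL * (lam + kF) ≤ 1 :=
    (mul_le_mul_of_nonneg_right hzL hsum0.le).trans hsm
  have hR2 : 0 < R ^ 2 := by positivity
  have hEr0 : 0 ≤ lam ^ 2 + kF ^ 2 + eps1 + eps2 + 1 / R ^ 2 := by positivity
  constructor
  · intro β hβ
    obtain ⟨T, hTa, hTf, hT1, hTle⟩ := SC.SCB_upper w β hβ
    have h := hDU lam K nuc n0 Nv Vs w F C0 R eps1 eps2 kF Wb (Ecc n0 w + β) hTA hNv1 hNv2
      ⟨T, hTa, hTf, hT1, hTle⟩
    have h' := transport_LE (SC.Nel_eq_numEl (n0 := n0) Nv) h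
    refine infLE_mono h' ?_
    have e1 : ((TA.Nel n0 Nv : ℕ) : ℝ) = ((numEl n0 Nv : ℕ) : ℝ) := by
      rw [SC.Nel_eq_numEl]
    rw [TA_EN_eq, e1]
    have h4 : (C0 + 1) / R ^ (2 * 5) ≤ 2 * (1 / R ^ 2) := by
      rw [div_le_iff₀ (by positivity)]
      have h5 : 2 * (1 / R ^ 2) * R ^ (2 * 5) = 2 * R ^ 8 := by field_simp
      rw [h5]
      have := hN.C0_le
      have h6 : 1 ≤ R ^ 8 := one_le_pow₀ hR1
      linarith
    have h5 : TA.sizeP n0 Nv Wb ^ DU * (eps1 + eps2 + (C0 + 1) / R ^ (2 * 5)) ≤ Err := by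
      have hs : eps1 + eps2 + (C0 + 1) / R ^ (2 * 5) ≤
          2 * (lam ^ 2 + kF ^ 2 + eps1 + eps2 + 1 / R ^ 2) := by
        have : 0 ≤ lam ^ 2 := sq_nonneg _
        have : 0 ≤ kF ^ 2 := sq_nonneg _
        linarith
      calc z ^ DU * (eps1 + eps2 + (C0 + 1) / R ^ (2 * 5))
          ≤ z ^ DU * (2 * (lam ^ 2 + kF ^ 2 + eps1 + eps2 + 1 / R ^ 2)) :=
            mul_le_mul_of_nonneg_left hs (by positivity)
        _ = (2 * z ^ DU) * (lam ^ 2 + kF ^ 2 + eps1 + eps2 + 1 / R ^ 2) := by ring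
        _ ≤ _ := mul_le_mul_of_nonneg_right hzU hEr0
    have h6 : Eref = EN n0 Nv - numEl n0 Nv * C0 + lam * Ecc n0 w := rfl
    rw [h6]
    linarith
  · intro β hβ
    have h := hDL lam K nuc n0 Nv Vs w F C0 R eps1 eps2 kF Wb (Ecc n0 w + β) hTA hNv1 hNv2
      hsmL hzLR (fun T hTa hTf => SC.SCB_lower w β hβ T hTa hTf)
    have h' := transport_GE (SC.Nel_eq_numEl (n0 := n0) Nv) h
    refine infGE_mono h' ?_
    have e1 : ((TA.Nel n0 Nv : ℕ) : ℝ) = ((numEl n0 Nv : ℕ) : ℝ) := by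
      rw [SC.Nel_eq_numEl]
    rw [TA_EN_eq, e1]
    have h5 : TA.sizeP n0 Nv Wb ^ DL * (lam ^ 2 + kF ^ 2 + eps1 + eps2 + 1 / R ^ 2) ≤ Err :=
      mul_le_mul_of_nonneg_right hzL hEr0
    have h6 : Eref = EN n0 Nv - numEl n0 Nv * C0 + lam * Ecc n0 w := rfl
    rw [h6]
    linarith

end Crest.Agent.R338.AB
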