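import Crest.Agent.R338.Iface

/-! # Row 338: top level assembly -/

set_option autoImplicit false

open Crest.Quantum.QMA Crest.MathPhysics.CoulombProblem
open Crest.Agent.Lib.PT

namespace Crest.Agent.R338

/-- assembly of the two parts -/
theorem qmaHard_of (h1 : PartIStmt) (h2 : PartIIStmt) : QMAHard groundEnergyProblem := by
  intro P hP
  obtain ⟨g, hg, hv, hy, hn⟩ := h1 P hP
  obtain ⟨F, hF, hFy, hFn⟩ := h2
  refine ⟨fun x => (F (g ⟨x⟩)).val, ?_, ?_, ?_⟩
  · have h : PTF (fun x : Bits => F (g x)) := PTF.comp hF hg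
    have h' : PT (fun x : List Bool => (F (g ⟨x⟩)).val) := by
      apply PTF.toPT
      exact h
    exact h'.polyTime
  · intro x hx
    exact hFy _ (hv ⟨x⟩) (hy ⟨x⟩ hx)
  · intro x hx
    exact hFn _ (hv ⟨x⟩) (hn ⟨x⟩ hx)

end Crest.Agent.R338
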