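import Crest.Agent.R338.BH2

/-!
Row 338 (S0529): Theorem BH from the Coulomb estimates and the selection theorem.
-/

set_option autoImplicit false
set_option maxSynthPendingDepth 3

noncomputable section

open Crest.MathPhysics.ElectronicCoulomb
open scoped ComplexConjugate BigOperators

namespace Crest.Agent.R338.BH

theorem shellForm_smul (n0 : ℕ) (w : Pos3 → ℝ) {k : ℕ} (r : ℝ) (D : (Fin k → Val n0) → ℂ) :
    shellForm n0 w (fun v => (r : ℂ) * D v) = r ^ 2 * shellForm n0 w D := by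
  have hre : ∀ z z' : ℂ, (conj ((r : ℂ) * z) * ((r : ℂ) * z')).re = r ^ 2 * (conj z * z').re := by
    intro z z'
    rw [map_mul, Complex.conj_ofReal]
    have : (r : ℂ) * conj z * ((r : ℂ) * z') = ((r ^ 2 : ℝ) : ℂ) * (conj z * z') := by
      push_cast; ring
    rw [this, Complex.re_ofReal_mul]
  simp only [shellForm, form1, form2, hre, mul_add]
  congr 1
  · rw [Finset.mul_sum]
    refine Finset.sum_congr rfl fun i _ => ?_
    rw [Finset.mul_sum]
    refine Finset.sum_congr rfl fun v _ => ?_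
    rw [Finset.mul_sum]
    refine Finset.sum_congr rfl fun b _ => ?_
    ring
  · rw [Finset.mul_sum]
    refine Finset.sum_congr rfl fun i _ => ?_
    rw [Finset.mul_sum]
    refine Finset.sum_congr rfl fun j _ => ?_
    split_ifs
    · rw [Finset.mul_sum]
      refine Finset.sum_congr rfl fun v _ => ?_
      rw [Finset.mul_sum]
      refine Finset.sum_congr rfl fun b _ => ?_
      rw [Finset.mul_sum]
      refine Finset.sum_congr rfl fun d _ => ?_
      ring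
    · rw [mul_zero]

/-- the parameter facts -/
theorem par_of {C1 C' n q k : ℕ} (hC1 : 1 ≤ C1) (hC' : 4 * C1 + 14 ≤ C') (hn : 2 ≤ n) (hq : 1 ≤ q)
    (hk : (2 * C' * n * q) ^ (2 * (2 * C')) ≤ k) :
    Par n q k ((C1 : ℝ) * (n : ℝ) ^ C1) (((n : ℝ) * q) ^ C') := by
  have hn' : (2 : ℝ) ≤ n := by exact_mod_cast hn
  have hq' : (1 : ℝ) ≤ q := by exact_mod_cast hq
  have hC1' : (1 : ℝ) ≤ C1 := by exact_mod_cast hC1
  set N : ℝ := (n : ℝ) * q with hN
  have hN2 : 2 ≤ N := by rw [hN]; nlinarith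
  have hnN : (n : ℝ) ≤ N := by rw [hN]; nlinarith
  have hqN : (q : ℝ) ≤ N := by rw [hN]; nlinarith
  refine ⟨hn, hq, ?_, ?_, ?_⟩
  · exact one_le_mul_of_one_le_of_one_le hC1' (one_le_pow₀ (by linarith))
  · have e1 : (256 : ℝ) ≤ N ^ 8 := by
      calc (256 : ℝ) = 2 ^ 8 := by norm_num
        _ ≤ N ^ 8 := pow_le_pow_left₀ (by norm_num) hN2 8
    have e2 : (n : ℝ) ^ 5 ≤ N ^ 5 := pow_le_pow_left₀ (by linarith) hnN 5
    have e3 : (C1 : ℝ) ≤ N ^ C1 := by
      have : (C1 : ℝ) ≤ 2 ^ C1 := by exact_mod_cast (Nat.lt_two_pow_self).le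
      exact this.trans (pow_le_pow_left₀ (by norm_num) hN2 C1)
    have e4 : (n : ℝ) ^ C1 ≤ N ^ C1 := pow_le_pow_left₀ (by linarith) hnN C1
    have e5 : (C1 : ℝ) * (n : ℝ) ^ C1 ≤ N ^ C1 * N ^ C1 :=
      mul_le_mul e3 e4 (by positivity) (by positivity)
    calc 256 * (q : ℝ) * (n : ℝ) ^ 5 * ((C1 : ℝ) * (n : ℝ) ^ C1) ^ 2
        ≤ N ^ 8 * N * N ^ 5 * (N ^ C1 * N ^ C1) ^ 2 := by gcongr
      _ = N ^ (4 * C1 + 14) := by ring
      _ ≤ N ^ C' := pow_le_pow_right₀ (by linarith) hC'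
  · have e1 : ((2 * C' * n * q : ℕ) : ℝ) ^ (2 * (2 * C')) ≤ k := by exact_mod_cast hk
    refine le_trans ?_ e1
    have e2 : N ≤ ((2 * C' * n * q : ℕ) : ℝ) := by
      push_cast
      have : (1 : ℝ) ≤ 2 * C' := by
        have : (14 : ℝ) ≤ C' := by exact_mod_cast (by omega : 14 ≤ C')
        linarith
      rw [hN]
      nlinarith [mul_nonneg (show (0 : ℝ) ≤ n by linarith) (show (0 : ℝ) ≤ q by linarith)]
    calc (N ^ C') ^ 4 = N ^ (2 * (2 * C')) := by ring
      _ ≤ ((2 * C' * n * q : ℕ) : ℝ) ^ (2 * (2 * C')) := pow_le_pow_left₀ (by linarith) e2 _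

theorem pow_le_k {C1 C' n q k : ℕ} (hC1 : C1 ≤ C') (h1 : 1 ≤ C1) (hn : 2 ≤ n) (hq : 1 ≤ q)
    (hk : (2 * C' * n * q) ^ (2 * (2 * C')) ≤ k) : (C1 * n) ^ C1 ≤ k := by
  refine le_trans ?_ hk
  have e1 : C1 * n ≤ 2 * C' * n * q := by
    calc C1 * n ≤ 2 * C' * n := Nat.mul_le_mul_right n (by omega)
      _ ≤ 2 * C' * n * q := Nat.le_mul_of_pos_right _ hq
  have e2 : 1 ≤ 2 * C' * n * q := by
    exact Nat.mul_pos (Nat.mul_pos (by omega) (by omega)) hq
  calc (C1 * n) ^ C1 ≤ (2 * C' * n * q) ^ C1 := Nat.pow_le_pow_left e1 _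
    _ ≤ (2 * C' * n * q) ^ (2 * (2 * C')) := Nat.pow_le_pow_right e2 (by omega)

theorem n0_ge {n k : ℕ} (hn : 2 ≤ n) : (k : ℝ) ^ 6 ≤ (n0' n k : ℝ) := by
  have h1 : k ^ 6 ≤ n0' n k := by
    rw [n0']
    have hY : 1 ≤ Yn n := by
      rw [Yn]
      have : 1 ≤ n ^ 3 := Nat.one_le_pow _ _ (by omega)
      omega
    have hY2 : 1 ≤ (Yn n) ^ 2 := Nat.one_le_pow _ _ hY
    calc k ^ 6 = 1 * (k ^ 3) ^ 2 * 1 := by ring
      _ ≤ 16 * (k ^ 3) ^ 2 * (Yn n) ^ 2 := by
          refine Nat.mul_le_mul (Nat.mul_le_mul_right _ (by norm_num)) hY2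
  exact_mod_cast h1

set_option maxHeartbeats 2000000 in
/-- **Theorem BH** (with the corrected constants) from its inputs. -/
theorem thmBH_of (hs : W4Symm) (hC : CoulStmt) (hS : SelStmt) : ThmBH' := by
  obtain ⟨C1, hC1, hC⟩ := hC
  obtain ⟨C2, hC2, hS⟩ := hS
  set C' : ℕ := 4 * C1 + C2 + 20 with hC'
  refine ⟨2 * C', by omega, ?_⟩
  intro n q k hn hq hk Lam Amax J A a j0 hJ hA ha hAmax hLam hcal
  have hpar := par_of (C1 := C1) (C' := C') (n := n) (q := q) (k := k) hC1 (by omega) hn hq hk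
  have hk1 := pow_le_k (C1 := C1) (C' := C') (by omega) hC1 hn hq hk
  have hk2 := pow_le_k (C1 := C2) (C' := C') (by omega) hC2 hn hq hk
  obtain ⟨hV, hW, hch⟩ := hC n k hn hk1
  set a1 : ℝ := (C1 : ℝ) * (n : ℝ) ^ C1 with ha1
  set P : ℝ := ((n : ℝ) * q) ^ C' with hP
  have hcoul : Coul n k a1 := ⟨hs, hV, hW, hch⟩
  have hPsq : ((n : ℝ) * q) ^ (2 * C') = P ^ 2 := by rw [hP]; ring
  have hj0 : j0 = 1 / (P ^ 2 * (k : ℝ) ^ 4) := by
    show 1 / (((n : ℝ) * q) ^ (2 * C') * (k : ℝ) ^ 4) = _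
    rw [hPsq]
  have hPpos := hpar.Ppos
  have hkpos := hpar.kpos
  have hq1 := hpar.q1
  have hn2 := hpar.n2
  have hj0p : 0 < j0 := by rw [hj0]; positivity
  have hcal' : Calib n k (1 / (P ^ 2 * (k : ℝ) ^ 4)) J A a
      ((1 / (P ^ 2 * (k : ℝ) ^ 4)) / P ^ 2) := by
    rw [← hj0, ← hPsq]; exact hcal
  -- the selection bound
  have hkn : 1 ≤ k := by exact_mod_cast hkpos
  have hn0 : (k : ℝ) ^ 6 ≤ (n0' n k : ℝ) := n0_ge hn
  have hk1' : (1 : ℝ) ≤ k := by exact_mod_cast hkn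
  have hk6 : (1 : ℝ) ≤ (k : ℝ) ^ 6 := one_le_pow₀ hk1'
  set B : ℝ := (n0' n k : ℝ) + Amax with hB
  have hB1 : 1 ≤ B := by rw [hB]; linarith
  have hLamC : B ^ C2 ≤ Lam := (pow_le_pow_right₀ hB1 (by omega)).trans hLam
  have hLampos : 0 < Lam := lt_of_lt_of_le (by positivity) hLam
  have hsel : B ^ C2 / Lam ≤ j0 / (128 * q) := by
    have e1 : B ^ C2 * B ≤ Lam := by
      rw [← pow_succ]
      exact (pow_le_pow_right₀ hB1 (by omega)).trans hLam
    have e2 : 128 * (q : ℝ) * (P ^ 2 * (k : ℝ) ^ 4) ≤ B := by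
      have f1 : 128 * (q : ℝ) ≤ P := by
        refine le_trans ?_ hpar.hP
        have g1 : (1 : ℝ) ≤ (n : ℝ) ^ 5 := one_le_pow₀ (by linarith)
        have g2 : (1 : ℝ) ≤ a1 ^ 2 := one_le_pow₀ hpar.ha
        have g3 : (1 : ℝ) ≤ (n : ℝ) ^ 5 * a1 ^ 2 := one_le_mul_of_one_le_of_one_le g1 g2
        have g4 : (q : ℝ) * 1 ≤ q * ((n : ℝ) ^ 5 * a1 ^ 2) :=
          mul_le_mul_of_nonneg_left g3 (by linarith)
        nlinarith
      calc 128 * (q : ℝ) * (P ^ 2 * (k : ℝ) ^ 4) ≤ P * (P ^ 2 * (k : ℝ) ^ 4) :=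
            mul_le_mul_of_nonneg_right f1 (by positivity)
        _ = P ^ 3 * (k : ℝ) ^ 4 := by ring
        _ ≤ k * (k : ℝ) ^ 4 := mul_le_mul_of_nonneg_right hpar.kP3 (by positivity)
        _ = (k : ℝ) ^ 5 := by ring
        _ ≤ (k : ℝ) ^ 6 := pow_le_pow_right₀ hk1' (by norm_num)
        _ ≤ B := by rw [hB]; linarith
    rw [hj0, div_div, div_le_div_iff₀ hLampos (by positivity)]
    calc B ^ C2 * (P ^ 2 * (k : ℝ) ^ 4 * (128 * q))
        = B ^ C2 * (128 * (q : ℝ) * (P ^ 2 * (k : ℝ) ^ 4)) := by ring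
      _ ≤ B ^ C2 * B := mul_le_mul_of_nonneg_left e2 (by positivity)
      _ ≤ 1 * Lam := by linarith
  obtain ⟨hup, hlow⟩ := hS n k hn hk2 Lam Amax A a hA ha hAmax hLamC
  have hfrac : j0 / (32 * (q : ℝ)) + j0 / (128 * q) ≤ j0 / (16 * q) := by
    rw [div_add_div _ _ (by positivity) (by positivity), div_le_div_iff₀ (by positivity)
      (by positivity)]
    have : 0 ≤ j0 * q ^ 2 := by positivity
    nlinarith
  have hfrac0 : 0 ≤ j0 / (128 * (q : ℝ)) := by positivity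
  constructor
  · intro ψ hψ
    obtain ⟨c, hcs, hc1, hce⟩ := site_upper hpar hcoul hJ (Lam := Lam) hcal' hψ
    rw [← hj0] at hce
    obtain ⟨D, hD, hDn, hDe⟩ := hup c hcs
    refine ⟨D, hD, by rw [hDn, hc1]; norm_num, ?_⟩
    rw [hDe]
    refine hce.trans ?_
    linarith
  · intro e he D hD
    -- bounded version of `e`
    have hJs0 : 0 ≤ SX.Js (dat hpar hcoul hJ).J := Js_nonneg' hpar hcoul hJ
    have hJsl := Js_le hpar hcoul hJ
    have hj0s := hpar.j0_small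
    have hJs1 : SX.Js (dat hpar hcoul hJ).J ≤ 1 / 16 := hJsl.trans hj0s
    have hHeis : ∀ ψ : (Fin n → Bool) → ℂ,
        SX.Heis (dat hpar hcoul hJ).J ψ = j0 * heis (fun i j : Fin n => J i j) ψ := by
      intro ψ
      rw [hj0]
      exact Heis_eq n (1 / (P ^ 2 * (k : ℝ) ^ 4)) J ψ
    have hbd := fun ψ => SX.Heis_bounds (J := (dat hpar hcoul hJ).J)
      (fun i j _ => (dat hpar hcoul hJ).J_nonneg i j) ψ
    set e' := max e (-(3 / 4 * SX.Js (dat hpar hcoul hJ).J) / j0) with he'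
    have he1 : ∀ ψ : (Fin n → Bool) → ℂ, e' * nrmSq ψ ≤ heis (fun i j : Fin n => J i j) ψ := by
      intro ψ
      rcases le_total e (-(3 / 4 * SX.Js (dat hpar hcoul hJ).J) / j0) with h | h
      · rw [he', max_eq_right h]
        have h2 := (hbd ψ).1
        rw [hHeis ψ] at h2
        rw [div_mul_eq_mul_div, div_le_iff₀ hj0p, mul_comm (heis _ _) j0]
        exact h2
      · rw [he', max_eq_left h]; exact he ψ
    have hlb : -(3 / 4 * SX.Js (dat hpar hcoul hJ).J) ≤ j0 * e' := by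
      have h2 : -(3 / 4 * SX.Js (dat hpar hcoul hJ).J) / j0 ≤ e' := le_max_right _ _
      rw [div_le_iff₀ hj0p] at h2
      linarith
    have hub : j0 * e' ≤ SX.Js (dat hpar hcoul hJ).J / 4 := by
      have h1 := he1 (fun _ => 1)
      have h2 := (hbd (fun _ => 1)).2
      rw [hHeis] at h2
      have h3 : 0 < nrmSq (fun _ : Fin n → Bool => (1 : ℂ)) := by
        unfold nrmSq; simp
      have h4 : j0 * (e' * nrmSq (fun _ : Fin n → Bool => (1 : ℂ))) ≤
          SX.Js (dat hpar hcoul hJ).J / 4 * nrmSq (fun _ : Fin n → Bool => (1 : ℂ)) :=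
        (mul_le_mul_of_nonneg_left h1 hj0p.le).trans h2
      have h5 : (j0 * e') * nrmSq (fun _ : Fin n → Bool => (1 : ℂ)) ≤
          SX.Js (dat hpar hcoul hJ).J / 4 * nrmSq (fun _ : Fin n → Bool => (1 : ℂ)) := by
        rw [mul_assoc]; exact h4
      exact le_of_mul_le_mul_right h5 h3
    have hee : e ≤ e' := le_max_left _ _
    set β : ℝ := constH n k Lam j0 J + j0 * e' - j0 / (32 * q) with hβ
    have hcH : constH n k Lam j0 J = n * (-2 * Lam) + SX.const0 (Dn n k) -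
        SX.Js (dat hpar hcoul hJ).J / 4 := by
      rw [hj0]
      exact constH_eq n k (1 / (P ^ 2 * (k : ℝ) ^ 4)) J Lam
    have hc0 : |SX.const0 (Dn n k)| ≤ 1 / 2 := by
      have hb : (0 : ℝ) ≤ a1 / (k : ℝ) ^ 2 := by have := hpar.ha; positivity
      have hDb : ∀ i j : Fin n, |Dn n k i j| ≤ a1 / (k : ℝ) ^ 2 := by
        intro i j
        have := hV i i.2 j j.2
        rw [abs_le]; constructor
        · have : 0 ≤ Dn n k i j := this.1
          linarith
        · exact this.2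
      have g1 := sum_if_le (n := n) (F := Dn n k) hb hDb
      have g2 : |(∑ i, Dn n k i i) / 2| ≤ (n : ℝ) ^ 2 * (a1 / (k : ℝ) ^ 2) := by
        rw [abs_div, abs_of_pos (by norm_num : (0 : ℝ) < 2)]
        have g3 : |∑ i, Dn n k i i| ≤ n * (a1 / (k : ℝ) ^ 2) := by
          calc |∑ i, Dn n k i i| ≤ ∑ _i : Fin n, a1 / (k : ℝ) ^ 2 :=
                (Finset.abs_sum_le_sum_abs _ _).trans (Finset.sum_le_sum fun i _ => hDb i i)
            _ = _ := by simp
        have g4 : (n : ℝ) * (a1 / (k : ℝ) ^ 2) ≤ (n : ℝ) ^ 2 * (a1 / (k : ℝ) ^ 2) := by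
          refine mul_le_mul_of_nonneg_right ?_ hb
          nlinarith
        have g5 : 0 ≤ (n : ℝ) ^ 2 * (a1 / (k : ℝ) ^ 2) := by positivity
        linarith
      have g6 := hpar.const_small
      rw [SX.const0]
      have g7 := abs_sub (-((∑ i, Dn n k i i) / 2)) (∑ i, ∑ j, if i < j then Dn n k i j else 0)
      rw [abs_neg] at g7
      refine g7.trans ?_
      linarith
    have hj01 : j0 / (32 * (q : ℝ)) ≤ 1 / 16 := by
      have g1 : j0 ≤ 1 / 16 := by
        have g2 : 1 * j0 ≤ (n : ℝ) ^ 2 * j0 := by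
          refine mul_le_mul_of_nonneg_right ?_ hj0p.le
          nlinarith
        rw [hj0] at g2 ⊢
        linarith
      have g3 : j0 / (32 * (q : ℝ)) ≤ j0 := by
        rw [div_le_iff₀ (by positivity)]
        nlinarith
      linarith
    have hj02 : 0 ≤ j0 / (32 * (q : ℝ)) := by positivity
    have hβ2 : |β + 2 * Lam * n| ≤ 2 := by
      have g0 : β + 2 * Lam * n = SX.const0 (Dn n k) - SX.Js (dat hpar hcoul hJ).J / 4 +
          j0 * e' - j0 / (32 * q) := by rw [hβ, hcH]; ring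
      obtain ⟨g1, g2⟩ := abs_le.1 hc0
      rw [g0, abs_le]
      constructor
      · linarith
      · linarith
    have h7 := hlow β hβ2 (fun c hcs => by
      have := site_lower hpar hcoul hJ (Lam := Lam) hcal' he1 hcs
      rw [← hj0] at this
      rw [hβ]; exact this) D hD
    have hD0 : 0 ≤ tnSq D := Finset.sum_nonneg fun _ _ => by positivity
    refine le_trans ?_ h7
    refine mul_le_mul_of_nonneg_right ?_ hD0
    have g8 : j0 * e ≤ j0 * e' := mul_le_mul_of_nonneg_left hee hj0p.le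
    rw [hβ]
    linarith

end Crest.Agent.R338.BH

end
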