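import Crest.Agent.R338.BHDefs

/-!
Row 338 (S0529): Theorem BH, part 1: symmetry of the site matrices, the superexchange data built
from the Coulomb integrals, comparison of constants.
-/

set_option autoImplicit false
set_option maxSynthPendingDepth 3

noncomputable section

open Crest.MathPhysics.ElectronicCoulomb
open scoped ComplexConjugate BigOperators

namespace Crest.Agent.R338.BH

theorem w1_comm (w : Pos3 → ℝ) (a b : Idx) : w1 w a b = w1 w b a := by
  simp only [w1, mul_comm (orb a _) (orb b _)]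

theorem W4_comm12 (a b c d : Idx) : W4 a b c d = W4 b a c d := by
  simp only [W4]
  congr 1
  funext x
  ring

theorem W4_comm34 (a b c d : Idx) : W4 a b c d = W4 a b d c := by
  simp only [W4]
  congr 1
  funext x
  ring

theorem fock_symm (h : W4Symm) (n0 : ℕ) (a b : Idx) : fock n0 a b = fock n0 b a := by
  simp only [fock]
  refine Finset.sum_congr rfl fun c _ => ?_
  rw [W4_comm12 a b c c]
  have : W4 a c c b = W4 b c c a := by
    rw [h b c c a, W4_comm12 c a b c, W4_comm34 a c b c]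
  rw [this]

theorem Vc_symm (h : W4Symm) (n k i j : ℕ) : Vc n k i j = Vc n k j i := h _ _ _ _

variable (n k : ℕ) (j0 : ℝ) (J : ℕ → ℕ → ℝ)

/-- charging matrix -/
def Dn (a b : Fin n) : ℝ := Vc n k a b

/-- couplings -/
def Jn (a b : Fin n) : ℝ := if a = b then 0 else j0 * J (min a b : Fin n) (max a b : Fin n)

/-- hopping amplitudes -/
def tn (a b : Fin n) : ℝ :=
  if a = b then 0 else (1 / 2) * √(Jn n j0 J a b * SX.Del (Dn n k) a b)

theorem Jn_symm (a b : Fin n) : Jn n j0 J a b = Jn n j0 J b a := by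
  by_cases h : a = b
  · subst h; rfl
  · rw [Jn, Jn, if_neg h, if_neg (Ne.symm h), min_comm, max_comm]

theorem Jn_lt {a b : Fin n} (h : a < b) : Jn n j0 J a b = j0 * J a b := by
  rw [Jn, if_neg h.ne, min_eq_left h.le, max_eq_right h.le]

theorem Dn_symm (h : W4Symm) (a b : Fin n) : Dn n k a b = Dn n k b a := Vc_symm h _ _ _ _

theorem tn_symm (h : W4Symm) (a b : Fin n) : tn n k j0 J a b = tn n k j0 J b a := by
  by_cases hab : a = b
  · subst hab; rfl
  · rw [tn, tn, if_neg hab, if_neg (Ne.symm hab), Jn_symm, SX.Del_symm (Dn_symm n k h)]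

theorem Del_ge' {D : Fin n → Fin n → ℝ} (hD : ∀ a b, D a b = D b a) {g : ℝ}
    (hDg : ∀ δ : Fin n → ℤ, (∀ i, |δ i| ≤ 1) → ∑ i, δ i = 0 → δ ≠ 0 →
      2 * g ≤ ∑ i, ∑ j, D i j * ((δ i : ℝ) * (δ j : ℝ))) {a b : Fin n} (hab : a ≠ b) :
    g ≤ SX.Del D a b := by
  have h1 := hDg (fun i => (if a = i then 1 else 0) - (if b = i then 1 else 0)) (fun i => by
    split_ifs <;> simp) (by
    simp [Finset.sum_sub_distrib]) (fun h => by
    have := congrFun h a
    simp [hab.symm] at this)
  have h2 : (∑ i, ∑ j, D i j * (((((if a = i then 1 else 0) - (if b = i then 1 else 0) : ℤ)) : ℝ) *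
      ((((if a = j then 1 else 0) - (if b = j then 1 else 0) : ℤ)) : ℝ))) = 2 * SX.Del D a b := by
    have h1 : ∀ i j, D i j * (((((if a = i then 1 else 0) - (if b = i then 1 else 0) : ℤ)) : ℝ) *
      ((((if a = j then 1 else 0) - (if b = j then 1 else 0) : ℤ)) : ℝ)) =
        (if a = i then (if a = j then D i j else 0) else 0) -
        (if a = i then (if b = j then D i j else 0) else 0) -
        (if b = i then (if a = j then D i j else 0) else 0) +
        (if b = i then (if b = j then D i j else 0) else 0) := by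
      intro i j
      split_ifs <;> push_cast <;> ring
    simp only [h1, Finset.sum_add_distrib, Finset.sum_sub_distrib]
    have h2 : ∀ x y : Fin n, (∑ i, ∑ j, if x = i then (if y = j then D i j else 0) else 0) =
        D x y := by
      intro x y
      rw [Finset.sum_eq_single x]
      · simp
      · intro b _ hb
        simp [Ne.symm hb]
      · simp
    rw [h2, h2, h2, h2]
    simp only [SX.Del]
    rw [hD b a]
    ring
  rw [h2] at h1
  linarith

/-- the superexchange data -/
def data (hs : W4Symm) (hj0 : 0 ≤ j0) (hJ : ∀ i j, 0 ≤ J i j) (g : ℝ) (hg : 0 < g)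
    (hDg : ∀ δ : Fin n → ℤ, (∀ i, |δ i| ≤ 1) → ∑ i, δ i = 0 → δ ≠ 0 →
      2 * g ≤ ∑ i, ∑ j, Dn n k i j * ((δ i : ℝ) * (δ j : ℝ))) : SX.Data n where
  t := tn n k j0 J
  D := Dn n k
  J := Jn n j0 J
  g := g
  ht := tn_symm n k j0 J hs
  ht0 a := by simp [tn]
  hD := Dn_symm n k hs
  hg := hg
  hDg := hDg
  hJ a b := by
    by_cases hab : a = b
    · subst hab; simp [tn, Jn]
    · have h1 : 0 ≤ SX.Del (Dn n k) a b :=
        hg.le.trans (Del_ge' n (Dn_symm n k hs) hDg hab)
      have h2 : 0 ≤ Jn n j0 J a b := by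
        rw [Jn, if_neg hab]; exact mul_nonneg hj0 (hJ _ _)
      rw [tn, if_neg hab, mul_pow, Real.sq_sqrt (mul_nonneg h2 h1)]
      ring
  hJ0 a := by simp [Jn]

/-- the Heisenberg forms agree -/
theorem Heis_eq (χ : (Fin n → Bool) → ℂ) :
    SX.Heis (Jn n j0 J) χ = j0 * heis (fun i j : Fin n => J i j) χ := by
  rw [SX.Heis, heis, Finset.mul_sum]
  refine Finset.sum_congr rfl fun i _ => ?_
  rw [Finset.mul_sum]
  refine Finset.sum_congr rfl fun j _ => ?_
  by_cases h : i < j
  · rw [if_pos h, if_pos h, Jn_lt n j0 J h]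
    show j0 * J i j * (swapExp i j χ / 2 - nrmSq χ / 4) = _
    ring
  · rw [if_neg h, if_neg h, mul_zero]

theorem Js_eq : SX.Js (Jn n j0 J) =
    j0 * ∑ i ∈ Finset.range n, ∑ j ∈ Finset.range n, if i < j then J i j else 0 := by
  rw [SX.Js, Finset.sum_range, Finset.mul_sum]
  refine Finset.sum_congr rfl fun i _ => ?_
  rw [Finset.sum_range, Finset.mul_sum]
  refine Finset.sum_congr rfl fun j _ => ?_
  by_cases h : i < j
  · rw [if_pos h, if_pos (by exact_mod_cast h), Jn_lt n j0 J h]
  · rw [if_neg h, if_neg (by exact_mod_cast h), mul_zero]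

theorem const0_eq : SX.const0 (Dn n k) =
    -((∑ i ∈ Finset.range n, Vc n k i i) / 2) -
      ∑ i ∈ Finset.range n, ∑ j ∈ Finset.range n, if i < j then Vc n k i j else 0 := by
  rw [SX.const0, Finset.sum_range, Finset.sum_range]
  congr 1
  refine Finset.sum_congr rfl fun i _ => ?_
  rw [Finset.sum_range]
  refine Finset.sum_congr rfl fun j _ => ?_
  by_cases h : i < j
  · rw [if_pos h, if_pos (by exact_mod_cast h)]; rfl
  · rw [if_neg h, if_neg (by exact_mod_cast h)]

theorem mu_eq (i : Fin n) : SX.mu (Dn n k) i = muS n k i := by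
  rw [SX.mu, muS]
  have h1 : ∑ j ∈ Finset.univ.erase i, Dn n k i j = (∑ j, Dn n k i j) - Dn n k i i := by
    rw [← Finset.add_sum_erase _ _ (Finset.mem_univ i)]; ring
  have h2 : ∑ j ∈ (Finset.range n).erase (i : ℕ), Vc n k i j =
      (∑ j ∈ Finset.range n, Vc n k i j) - Vc n k i i := by
    rw [← Finset.add_sum_erase _ _ (Finset.mem_range.2 i.2)]; ring
  rw [h1, h2, Finset.sum_range]
  rfl

theorem constH_eq (Lam : ℝ) : constH n k Lam j0 J =
    n * (-2 * Lam) + SX.const0 (Dn n k) - SX.Js (Jn n j0 J) / 4 := by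
  rw [constH, Js_eq, const0_eq]
  ring

theorem hSite_off (hs : W4Symm) {Lam : ℝ} {A : ℕ → ℕ → ℝ} {a : ℕ → ℝ} {ec : ℝ}
    (hC : Calib n k j0 J A a ec) {i j : Fin n} (hij : i ≠ j) :
    |hSite n k Lam A a i j - tn n k j0 J i j| ≤ ec := by
  have key : ∀ i j : Fin n, i < j → |hSite n k Lam A a i j - tn n k j0 J i j| ≤ ec := by
    intro i j h
    have h1 := hC.1 i i.2 j j.2 h
    rw [hSite, if_neg h.ne, add_zero, tn, if_neg h.ne, Jn_lt n j0 J h]
    exact h1
  rcases lt_or_gt_of_ne hij with h | h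
  · exact key i j h
  · have h1 := key j i h
    rw [tn_symm n k j0 J hs i j]
    have h2 : hSite n k Lam A a i j = hSite n k Lam A a j i := by
      rw [hSite, hSite, if_neg hij, if_neg (Ne.symm hij), fock_symm hs]
      congr 2
      refine Finset.sum_congr rfl fun i' _ => Finset.sum_congr rfl fun j' _ => ?_
      rw [Mhop, Mhop, w1_comm]
    rw [h2]; exact h1

theorem hSite_diag {Lam : ℝ} {A : ℕ → ℕ → ℝ} {a : ℕ → ℝ} {ec : ℝ}
    (hC : Calib n k j0 J A a ec) (i : Fin n) :
    |hSite n k Lam A a i i - (SX.mu (Dn n k) i + (-2 * Lam))| ≤ ec := by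
  have h1 := hC.2 i i.2
  rw [hSite, if_pos rfl, mu_eq]
  convert h1 using 2
  ring

end Crest.Agent.R338.BH

end
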