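import Crest.Agent.R338.BH1

/-!
Row 338 (S0529): Theorem BH, part 2: two-sided comparison of the site form with the Heisenberg form.
-/

set_option autoImplicit false
set_option maxSynthPendingDepth 3

noncomputable section

open Crest.MathPhysics.ElectronicCoulomb
open scoped ComplexConjugate BigOperators

namespace Crest.Agent.R338.BH

/-- numerical facts about the parameters; `P = (nq)^{C'}` -/
structure Par (n q k : ℕ) (a1 P : ℝ) : Prop where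
  hn : 2 ≤ n
  hq : 1 ≤ q
  ha : 1 ≤ a1
  hP : 256 * (q : ℝ) * (n : ℝ) ^ 5 * a1 ^ 2 ≤ P
  hk : P ^ 4 ≤ (k : ℝ)

namespace Par

variable {n q k : ℕ} {a1 P : ℝ} (h : Par n q k a1 P)
include h

theorem n2 : (2 : ℝ) ≤ n := by exact_mod_cast h.hn
theorem q1 : (1 : ℝ) ≤ q := by exact_mod_cast h.hq

theorem P256 : 256 ≤ P := by
  have h1 := h.n2; have h2 := h.q1; have h3 := h.ha
  have e1 : (1 : ℝ) ≤ (n : ℝ) ^ 5 := one_le_pow₀ (by linarith)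
  have e2 : (1 : ℝ) ≤ a1 ^ 2 := one_le_pow₀ h3
  have e3 : (1 : ℝ) ≤ (q : ℝ) * (n : ℝ) ^ 5 := one_le_mul_of_one_le_of_one_le h2 e1
  have e4 : (1 : ℝ) ≤ (q : ℝ) * (n : ℝ) ^ 5 * a1 ^ 2 := one_le_mul_of_one_le_of_one_le e3 e2
  have := h.hP
  nlinarith

theorem kP : P ≤ k := by
  have h1 := h.P256
  have h2 : P ^ 1 ≤ P ^ 4 := pow_le_pow_right₀ (by linarith) (by norm_num)
  rw [pow_one] at h2
  exact h2.trans h.hk

theorem kP3 : P ^ 3 ≤ k := by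
  have h1 := h.P256
  have h2 : P ^ 3 ≤ P ^ 4 := pow_le_pow_right₀ (by linarith) (by norm_num)
  exact h2.trans h.hk

theorem kpos : (0 : ℝ) < k := by have := h.kP; have := h.P256; linarith

theorem Ppos : 0 < P := by have := h.P256; linarith

/-- (1) -/
theorem b1 : 2 * (n : ℝ) ^ 5 * a1 ^ 2 / P ≤ 1 / (128 * q) := by
  have hq := h.q1
  rw [div_le_div_iff₀ h.Ppos (by linarith)]
  have := h.hP
  nlinarith

/-- (2) -/
theorem b2 : 8 * (n : ℝ) ^ 4 * a1 / (P ^ 2 * k) ≤ 1 / (128 * q) := by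
  have hq := h.q1
  have hk := h.kpos
  have hP := h.Ppos
  have hn := h.n2
  have ha := h.ha
  rw [div_le_div_iff₀ (by positivity) (by positivity)]
  have e1 : (n : ℝ) ^ 4 * a1 ≤ (n : ℝ) ^ 5 * a1 ^ 2 := by
    have : (n : ℝ) ^ 4 * a1 * 1 ≤ (n : ℝ) ^ 4 * a1 * (n * a1) := by
      refine mul_le_mul_of_nonneg_left ?_ (by positivity)
      nlinarith
    nlinarith
  have e2 : 256 * ((q : ℝ) * ((n : ℝ) ^ 4 * a1)) ≤ P := by
    refine le_trans ?_ h.hP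
    have : (q : ℝ) * ((n : ℝ) ^ 4 * a1) ≤ q * ((n : ℝ) ^ 5 * a1 ^ 2) :=
      mul_le_mul_of_nonneg_left e1 (by linarith)
    nlinarith
  have e3 : 1024 * ((q : ℝ) * ((n : ℝ) ^ 4 * a1)) ≤ 4 * P := by linarith
  have e4 : 4 * P ≤ P ^ 2 * k := by
    have f1 := h.kP
    have f2 := h.P256
    have f3 : 4 ≤ P * k := by nlinarith
    nlinarith
  calc 8 * (n : ℝ) ^ 4 * a1 * (128 * q) = 1024 * ((q : ℝ) * ((n : ℝ) ^ 4 * a1)) := by ring
    _ ≤ 1 * (P ^ 2 * k) := by linarith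

/-- (3) -/
theorem b3 : (n : ℝ) ^ 3 / P ^ 2 ≤ 1 / (128 * q) := by
  have hq := h.q1
  have hP := h.Ppos
  have hn := h.n2
  have ha := h.ha
  rw [div_le_div_iff₀ (by positivity) (by positivity)]
  have e1 : (n : ℝ) ^ 3 ≤ (n : ℝ) ^ 5 * a1 ^ 2 := by
    have f1 : (n : ℝ) ^ 3 ≤ (n : ℝ) ^ 5 := pow_le_pow_right₀ (by linarith) (by norm_num)
    have f2 : (1 : ℝ) ≤ a1 ^ 2 := one_le_pow₀ ha
    calc (n : ℝ) ^ 3 ≤ (n : ℝ) ^ 5 * 1 := by linarith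
      _ ≤ (n : ℝ) ^ 5 * a1 ^ 2 := mul_le_mul_of_nonneg_left f2 (by positivity)
  have e2 : 256 * ((q : ℝ) * (n : ℝ) ^ 3) ≤ P := by
    refine le_trans ?_ h.hP
    have : (q : ℝ) * (n : ℝ) ^ 3 ≤ q * ((n : ℝ) ^ 5 * a1 ^ 2) :=
      mul_le_mul_of_nonneg_left e1 (by linarith)
    nlinarith
  have e3 : P ≤ P ^ 2 := by
    have := h.P256
    nlinarith
  nlinarith

/-- (4) -/
theorem b4 : (n : ℝ) ^ 4 * (a1 / (k : ℝ) ^ 5) ≤ 1 / (P ^ 2 * (k : ℝ) ^ 4) / (128 * q) := by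
  have hq := h.q1
  have hk := h.kpos
  have hP := h.Ppos
  have hn := h.n2
  have ha := h.ha
  rw [← mul_div_assoc, div_div, div_le_div_iff₀ (by positivity) (by positivity)]
  have e1 : (n : ℝ) ^ 4 * a1 ≤ (n : ℝ) ^ 5 * a1 ^ 2 := by
    have : (n : ℝ) ^ 4 * a1 * 1 ≤ (n : ℝ) ^ 4 * a1 * (n * a1) := by
      refine mul_le_mul_of_nonneg_left ?_ (by positivity)
      nlinarith
    nlinarith
  have e2 : 256 * ((q : ℝ) * ((n : ℝ) ^ 4 * a1)) ≤ P := by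
    refine le_trans ?_ h.hP
    have : (q : ℝ) * ((n : ℝ) ^ 4 * a1) ≤ q * ((n : ℝ) ^ 5 * a1 ^ 2) :=
      mul_le_mul_of_nonneg_left e1 (by linarith)
    nlinarith
  have e3 : 128 * ((q : ℝ) * ((n : ℝ) ^ 4 * a1)) * P ^ 2 ≤ k := by
    have f1 : 128 * ((q : ℝ) * ((n : ℝ) ^ 4 * a1)) ≤ P := by
      have : (0 : ℝ) ≤ q * ((n : ℝ) ^ 4 * a1) := by positivity
      linarith
    calc 128 * ((q : ℝ) * ((n : ℝ) ^ 4 * a1)) * P ^ 2 ≤ P * P ^ 2 :=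
          mul_le_mul_of_nonneg_right f1 (by positivity)
      _ = P ^ 3 := by ring
      _ ≤ k := h.kP3
  calc (n : ℝ) ^ 4 * a1 * (P ^ 2 * (k : ℝ) ^ 4 * (128 * q))
      = (128 * ((q : ℝ) * ((n : ℝ) ^ 4 * a1)) * P ^ 2) * (k : ℝ) ^ 4 := by ring
    _ ≤ k * (k : ℝ) ^ 4 := mul_le_mul_of_nonneg_right e3 (by positivity)
    _ = 1 * (k : ℝ) ^ 5 := by ring

/-- `j0` is small -/
theorem j0_small : (n : ℝ) ^ 2 * (1 / (P ^ 2 * (k : ℝ) ^ 4)) ≤ 1 / 16 := by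
  have hq := h.q1
  have hk := h.kpos
  have hP := h.Ppos
  have hn := h.n2
  have ha := h.ha
  rw [mul_one_div, div_le_div_iff₀ (by positivity) (by norm_num)]
  have e1 : (n : ℝ) ^ 2 ≤ (n : ℝ) ^ 3 := pow_le_pow_right₀ (by linarith) (by norm_num)
  have e2 := h.b3
  rw [div_le_div_iff₀ (by positivity) (by positivity)] at e2
  have e3 : (n : ℝ) ^ 3 * 128 ≤ P ^ 2 := by
    have : (n : ℝ) ^ 3 * 128 * 1 ≤ (n : ℝ) ^ 3 * 128 * q :=
      mul_le_mul_of_nonneg_left hq (by positivity)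
    nlinarith
  have e4 : (1 : ℝ) ≤ (k : ℝ) ^ 4 := one_le_pow₀ (by have := h.kP; have := h.P256; linarith)
  have e5 : P ^ 2 * 1 ≤ P ^ 2 * (k : ℝ) ^ 4 := mul_le_mul_of_nonneg_left e4 (by positivity)
  nlinarith [pow_pos (show (0 : ℝ) < n by linarith) 3]

/-- the classical constant is small -/
theorem const_small : 2 * (n : ℝ) ^ 2 * (a1 / (k : ℝ) ^ 2) ≤ 1 / 2 := by
  have hq := h.q1
  have hk := h.kpos
  have hP := h.Ppos
  have hn := h.n2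
  have ha := h.ha
  rw [← mul_div_assoc, div_le_div_iff₀ (by positivity) (by norm_num)]
  have e1 : (n : ℝ) ^ 2 * a1 ≤ (n : ℝ) ^ 5 * a1 ^ 2 := by
    have f1 : (n : ℝ) ^ 2 ≤ (n : ℝ) ^ 5 := pow_le_pow_right₀ (by linarith) (by norm_num)
    have f2 : a1 ≤ a1 ^ 2 := by nlinarith
    exact mul_le_mul f1 f2 (by linarith) (by positivity)
  have e2 : 256 * ((n : ℝ) ^ 2 * a1) ≤ P := by
    refine le_trans ?_ h.hP
    have : 1 * ((n : ℝ) ^ 5 * a1 ^ 2) ≤ q * ((n : ℝ) ^ 5 * a1 ^ 2) :=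
      mul_le_mul_of_nonneg_right hq (by positivity)
    nlinarith
  have e3 := h.kP
  have e4 := h.P256
  have e5 : (k : ℝ) ≤ (k : ℝ) ^ 2 := by nlinarith
  have e6 : 0 ≤ (n : ℝ) ^ 2 * a1 := by positivity
  nlinarith

end Par

variable {n q k : ℕ} {a1 P : ℝ} {J : ℕ → ℕ → ℝ}

theorem sum_if_le {F : Fin n → Fin n → ℝ} {b : ℝ} (hb : 0 ≤ b) (hF : ∀ i j, |F i j| ≤ b) :
    |∑ i, ∑ j, if i < j then F i j else 0| ≤ n ^ 2 * b := by
  calc |∑ i, ∑ j, if i < j then F i j else 0| ≤ ∑ _i : Fin n, ∑ _j : Fin n, b := by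
        refine (Finset.abs_sum_le_sum_abs _ _).trans (Finset.sum_le_sum fun i _ => ?_)
        refine (Finset.abs_sum_le_sum_abs _ _).trans (Finset.sum_le_sum fun j _ => ?_)
        split_ifs
        · exact hF i j
        · rw [abs_zero]; exact hb
    _ = n ^ 2 * b := by
        simp only [Finset.sum_const, Finset.card_univ, Fintype.card_fin, nsmul_eq_mul]; ring

/-- the coulomb hypotheses at fixed `n`, `k` -/
structure Coul (n k : ℕ) (a1 : ℝ) : Prop where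
  hs : W4Symm
  hV : ∀ i < n, ∀ j < n, 0 ≤ Vc n k i j ∧ Vc n k i j ≤ a1 / (k : ℝ) ^ 2
  hW : ∀ i < n, ∀ j < n, ∀ i' < n, ∀ j' < n, (i ≠ j ∨ i' ≠ j') →
    |W4 (site n k i) (site n k j) (site n k i') (site n k j')| ≤ a1 / (k : ℝ) ^ 5
  hC : ∀ δ : Fin n → ℤ, (∀ i, |δ i| ≤ 1) → ∑ i, δ i = 0 → δ ≠ 0 →
    1 / (a1 * (k : ℝ) ^ 3) ≤
      ∑ i : Fin n, ∑ j : Fin n, Vc n k i j * ((δ i : ℝ) * (δ j : ℝ))

/-- the data -/
def dat (h : Par n q k a1 P) (hc : Coul n k a1) (hJ : ∀ i j, 0 ≤ J i j ∧ J i j ≤ 1) :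
    SX.Data n :=
  data n k (1 / (P ^ 2 * (k : ℝ) ^ 4)) J hc.hs (by have := h.kpos; have := h.Ppos; positivity)
    (fun i j => (hJ i j).1) (1 / (2 * (a1 * (k : ℝ) ^ 3)))
    (by have := h.kpos; have := h.ha; positivity)
    (fun δ h1 h2 h3 => by
      have h4 := hc.hC δ h1 h2 h3
      have : 2 * (1 / (2 * (a1 * (k : ℝ) ^ 3))) = 1 / (a1 * (k : ℝ) ^ 3) := by
        have := h.kpos; have := h.ha
        field_simp
      rw [this]; exact h4)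

section
variable (h : Par n q k a1 P) (hc : Coul n k a1) (hJ : ∀ i j, 0 ≤ J i j ∧ J i j ≤ 1)

theorem Js_le : SX.Js (dat h hc hJ).J ≤ (n : ℝ) ^ 2 * (1 / (P ^ 2 * (k : ℝ) ^ 4)) := by
  have hk := h.kpos
  have hP := h.Ppos
  have hb : (0 : ℝ) ≤ 1 / (P ^ 2 * (k : ℝ) ^ 4) := by positivity
  have := sum_if_le (n := n) (F := (dat h hc hJ).J) hb (fun i j => by
    show |Jn n (1 / (P ^ 2 * (k : ℝ) ^ 4)) J i j| ≤ _
    rw [Jn]
    split_ifs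
    · rw [abs_zero]; exact hb
    · rw [abs_mul, abs_of_nonneg hb, abs_of_nonneg (hJ _ _).1]
      exact mul_le_of_le_one_right hb (hJ _ _).2)
  exact (le_abs_self _).trans this

theorem Js_nonneg' : 0 ≤ SX.Js (dat h hc hJ).J :=
  SX.Js_nonneg fun i j _ => (dat h hc hJ).J_nonneg i j

theorem Del_le (hc : Coul n k a1) {a b : Fin n} : SX.Del (Dn n k) a b ≤ a1 / (k : ℝ) ^ 2 := by
  have h1 := (hc.hV a a.2 a a.2).2
  have h2 := (hc.hV b b.2 b b.2).2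
  have h3 := (hc.hV a a.2 b b.2).1
  simp only [SX.Del, Dn]
  linarith

theorem t_le (a b : Fin n) : |(dat h hc hJ).t a b| ≤ (1 / 2) * (a1 / (P * (k : ℝ) ^ 3)) := by
  have hk := h.kpos
  have hP := h.Ppos
  have ha := h.ha
  show |tn n k (1 / (P ^ 2 * (k : ℝ) ^ 4)) J a b| ≤ _
  rw [tn]
  split_ifs with hab
  · rw [abs_zero]; positivity
  · rw [abs_mul, abs_of_nonneg (by norm_num : (0 : ℝ) ≤ 1 / 2), abs_of_nonneg (Real.sqrt_nonneg _)]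
    refine mul_le_mul_of_nonneg_left ?_ (by norm_num)
    refine Real.sqrt_le_sqrt (y := (a1 / (P * (k : ℝ) ^ 3)) ^ 2) ?_ |>.trans ?_
    · have hb : (0 : ℝ) ≤ 1 / (P ^ 2 * (k : ℝ) ^ 4) := by positivity
      have e1 : Jn n (1 / (P ^ 2 * (k : ℝ) ^ 4)) J a b ≤ 1 / (P ^ 2 * (k : ℝ) ^ 4) := by
        rw [Jn, if_neg hab]
        exact mul_le_of_le_one_right hb (hJ _ _).2
      have e2 : SX.Del (Dn n k) a b ≤ a1 / (k : ℝ) ^ 2 := Del_le hc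
      have e3 : 0 ≤ SX.Del (Dn n k) a b := ((dat h hc hJ).Del_pos hab).le
      calc Jn n (1 / (P ^ 2 * (k : ℝ) ^ 4)) J a b * SX.Del (Dn n k) a b
          ≤ (1 / (P ^ 2 * (k : ℝ) ^ 4)) * (a1 / (k : ℝ) ^ 2) :=
            mul_le_mul e1 e2 e3 hb
        _ = a1 * (1 / (P * (k : ℝ) ^ 3)) ^ 2 := by field_simp
        _ ≤ a1 ^ 2 * (1 / (P * (k : ℝ) ^ 3)) ^ 2 := by
            refine mul_le_mul_of_nonneg_right ?_ (by positivity)
            nlinarith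
        _ = (a1 / (P * (k : ℝ) ^ 3)) ^ 2 := by field_simp
    · rw [Real.sqrt_sq (by positivity)]

theorem tau_le : (dat h hc hJ).tau ≤ (n : ℝ) ^ 2 * ((1 / 2) * (a1 / (P * (k : ℝ) ^ 3))) := by
  calc (dat h hc hJ).tau ≤ ∑ _a : Fin n, ∑ _b : Fin n, (1 / 2) * (a1 / (P * (k : ℝ) ^ 3)) :=
        Finset.sum_le_sum fun a _ => Finset.sum_le_sum fun b _ => t_le h hc hJ a b
    _ = _ := by
        simp only [Finset.sum_const, Finset.card_univ, Fintype.card_fin, nsmul_eq_mul]; ring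

theorem x_le : (dat h hc hJ).x ≤ (n : ℝ) ^ 3 * a1 ^ 2 / P := by
  have hk := h.kpos
  have hP := h.Ppos
  have ha := h.ha
  have hn := h.n2
  have h1 := tau_le h hc hJ
  show (n : ℝ) * (dat h hc hJ).tau / (1 / (2 * (a1 * (k : ℝ) ^ 3))) ≤ _
  rw [div_div_eq_mul_div, div_one]
  calc (n : ℝ) * (dat h hc hJ).tau * (2 * (a1 * (k : ℝ) ^ 3))
      ≤ (n : ℝ) * ((n : ℝ) ^ 2 * ((1 / 2) * (a1 / (P * (k : ℝ) ^ 3)))) * (2 * (a1 * (k : ℝ) ^ 3)) := by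
        gcongr
    _ = (n : ℝ) ^ 3 * a1 ^ 2 / P := by field_simp

theorem Jsg_le : 2 * SX.Js (dat h hc hJ).J / (dat h hc hJ).g ≤
    4 * (n : ℝ) ^ 2 * a1 / (P ^ 2 * k) := by
  have hk := h.kpos
  have hP := h.Ppos
  have ha := h.ha
  have h1 := Js_le h hc hJ
  show 2 * SX.Js (dat h hc hJ).J / (1 / (2 * (a1 * (k : ℝ) ^ 3))) ≤ _
  rw [div_div_eq_mul_div, div_one]
  calc 2 * SX.Js (dat h hc hJ).J * (2 * (a1 * (k : ℝ) ^ 3))
      ≤ 2 * ((n : ℝ) ^ 2 * (1 / (P ^ 2 * (k : ℝ) ^ 4))) * (2 * (a1 * (k : ℝ) ^ 3)) := by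
        gcongr
    _ = 4 * (n : ℝ) ^ 2 * a1 / (P ^ 2 * k) := by field_simp; ring

theorem xg_le : 2 * (n : ℝ) ^ 2 * ((dat h hc hJ).x + 2 * SX.Js (dat h hc hJ).J / (dat h hc hJ).g) ≤
    1 / (64 * q) := by
  have hk := h.kpos
  have hP := h.Ppos
  have ha := h.ha
  have hq := h.q1
  have h1 := x_le h hc hJ
  have h2 := Jsg_le h hc hJ
  have h3 := h.b1
  have h4 := h.b2
  calc 2 * (n : ℝ) ^ 2 * ((dat h hc hJ).x + 2 * SX.Js (dat h hc hJ).J / (dat h hc hJ).g)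
      ≤ 2 * (n : ℝ) ^ 2 * ((n : ℝ) ^ 3 * a1 ^ 2 / P + 4 * (n : ℝ) ^ 2 * a1 / (P ^ 2 * k)) := by
        gcongr
    _ = 2 * (n : ℝ) ^ 5 * a1 ^ 2 / P + 8 * (n : ℝ) ^ 4 * a1 / (P ^ 2 * k) := by ring
    _ ≤ 1 / (128 * q) + 1 / (128 * q) := add_le_add h3 h4
    _ = 1 / (64 * q) := by field_simp; norm_num

theorem hc_le : (dat h hc hJ).x + 2 * SX.Js (dat h hc hJ).J / (dat h hc hJ).g ≤ 1 / 2 := by
  have h1 := xg_le h hc hJ
  have hq := h.q1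
  have hn := h.n2
  have h2 : 1 / (64 * (q : ℝ)) ≤ 1 := by
    rw [div_le_one (by positivity)]; linarith
  have h0 : 0 ≤ (dat h hc hJ).x + 2 * SX.Js (dat h hc hJ).J / (dat h hc hJ).g := by
    have := (dat h hc hJ).x_nonneg
    have := Js_nonneg' h hc hJ
    have := (dat h hc hJ).hg
    positivity
  have h3 : (4 : ℝ) ≤ (n : ℝ) ^ 2 := by nlinarith
  nlinarith

theorem err_le : (dat h hc hJ).err ≤ (1 / (P ^ 2 * (k : ℝ) ^ 4)) / (64 * q) := by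
  have h1 := xg_le h hc hJ
  have h2 := Js_le h hc hJ
  have hk := h.kpos
  have hP := h.Ppos
  have hq := h.q1
  have h0 : 0 ≤ (dat h hc hJ).x + 2 * SX.Js (dat h hc hJ).J / (dat h hc hJ).g := by
    have := (dat h hc hJ).x_nonneg
    have := Js_nonneg' h hc hJ
    have := (dat h hc hJ).hg
    positivity
  calc (dat h hc hJ).err = 2 * SX.Js (dat h hc hJ).J *
        ((dat h hc hJ).x + 2 * SX.Js (dat h hc hJ).J / (dat h hc hJ).g) := rfl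
    _ ≤ 2 * ((n : ℝ) ^ 2 * (1 / (P ^ 2 * (k : ℝ) ^ 4))) *
        ((dat h hc hJ).x + 2 * SX.Js (dat h hc hJ).J / (dat h hc hJ).g) := by
        refine mul_le_mul_of_nonneg_right ?_ h0
        linarith
    _ = (1 / (P ^ 2 * (k : ℝ) ^ 4)) * (2 * (n : ℝ) ^ 2 *
        ((dat h hc hJ).x + 2 * SX.Js (dat h hc hJ).J / (dat h hc hJ).g)) := by ring
    _ ≤ (1 / (P ^ 2 * (k : ℝ) ^ 4)) * (1 / (64 * q)) := by
        refine mul_le_mul_of_nonneg_left h1 (by positivity)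
    _ = _ := by rw [mul_one_div]

end

/-- comparison of the site form with `const + energy` -/
theorem site_approx (h : Par n q k a1 P) (hc : Coul n k a1) (hJ : ∀ i j, 0 ≤ J i j ∧ J i j ≤ 1)
    {Lam : ℝ} {A : ℕ → ℕ → ℝ} {a : ℕ → ℝ}
    (hcal : Calib n k (1 / (P ^ 2 * (k : ℝ) ^ 4)) J A a ((1 / (P ^ 2 * (k : ℝ) ^ 4)) / P ^ 2))
    (c : SX.X n) :
    |SX.siteForm (hSite n k Lam A a) (WSite n k) c -
      ((n * (-2 * Lam) + SX.const0 (Dn n k)) * ‖c‖ ^ 2 +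
        SX.energy (dat h hc hJ).t (dat h hc hJ).D c)| ≤
      (1 / (P ^ 2 * (k : ℝ) ^ 4)) / (64 * q) * ‖c‖ ^ 2 := by
  have hk := h.kpos
  have hP := h.Ppos
  have hq := h.q1
  have ha := h.ha
  have key := SX.siteForm_approx (n := n) (t := tn n k (1 / (P ^ 2 * (k : ℝ) ^ 4)) J)
    (D := Dn n k) (h := hSite n k Lam A a) (W := WSite n k) (s := -2 * Lam)
    (ec := (1 / (P ^ 2 * (k : ℝ) ^ 4)) / P ^ 2) (r := a1 / (k : ℝ) ^ 5)
    (Dn_symm n k hc.hs) (fun a => by simp [tn]) (fun a b => rfl)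
    (fun i j hij => hSite_off n k _ J hc.hs hcal hij)
    (fun i => hSite_diag n k _ J hcal i) (by positivity)
    (fun i j i' j' hne => by
      refine hc.hW i i.2 j j.2 i' i'.2 j' j'.2 ?_
      rcases hne with h1 | h1
      · exact Or.inl fun e => h1 (Fin.ext e)
      · exact Or.inr fun e => h1 (Fin.ext e)) c
  refine key.trans ?_
  refine mul_le_mul_of_nonneg_right ?_ (sq_nonneg _)
  have e3 := h.b3
  have e4 := h.b4
  have e5 : (n : ℝ) ^ 3 * ((1 / (P ^ 2 * (k : ℝ) ^ 4)) / P ^ 2) ≤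
      (1 / (P ^ 2 * (k : ℝ) ^ 4)) / (128 * q) := by
    calc (n : ℝ) ^ 3 * ((1 / (P ^ 2 * (k : ℝ) ^ 4)) / P ^ 2)
        = (1 / (P ^ 2 * (k : ℝ) ^ 4)) * ((n : ℝ) ^ 3 / P ^ 2) := by ring
      _ ≤ (1 / (P ^ 2 * (k : ℝ) ^ 4)) * (1 / (128 * q)) :=
          mul_le_mul_of_nonneg_left e3 (by positivity)
      _ = _ := by rw [mul_one_div]
  calc (n : ℝ) ^ 3 * ((1 / (P ^ 2 * (k : ℝ) ^ 4)) / P ^ 2) + (n : ℝ) ^ 4 * (a1 / (k : ℝ) ^ 5)
      ≤ (1 / (P ^ 2 * (k : ℝ) ^ 4)) / (128 * q) + (1 / (P ^ 2 * (k : ℝ) ^ 4)) / (128 * q) :=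
        add_le_add e5 e4
    _ = _ := by field_simp; norm_num

/-- lower bound for the site form -/
theorem site_lower (h : Par n q k a1 P) (hc : Coul n k a1) (hJ : ∀ i j, 0 ≤ J i j ∧ J i j ≤ 1)
    {Lam : ℝ} {A : ℕ → ℕ → ℝ} {a : ℕ → ℝ}
    (hcal : Calib n k (1 / (P ^ 2 * (k : ℝ) ^ 4)) J A a ((1 / (P ^ 2 * (k : ℝ) ^ 4)) / P ^ 2))
    {e : ℝ} (he : ∀ ψ : (Fin n → Bool) → ℂ, e * nrmSq ψ ≤ heis (fun i j : Fin n => J i j) ψ)
    {c : SX.X n} (hcs : c ∈ SX.antiS n) :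
    (constH n k Lam (1 / (P ^ 2 * (k : ℝ) ^ 4)) J + (1 / (P ^ 2 * (k : ℝ) ^ 4)) * e -
      (1 / (P ^ 2 * (k : ℝ) ^ 4)) / (32 * q)) * ‖c‖ ^ 2 ≤
      SX.siteForm (hSite n k Lam A a) (WSite n k) c := by
  have hk := h.kpos
  have hP := h.Ppos
  have hq := h.q1
  set j0 : ℝ := 1 / (P ^ 2 * (k : ℝ) ^ 4) with hj0
  have hj0p : 0 ≤ j0 := by rw [hj0]; positivity
  have h1 := (abs_le.1 (site_approx h hc hJ (Lam := Lam) hcal c)).1
  have h2 := (dat h hc hJ).lower (hc_le h hc hJ) (e := j0 * e) (fun χ => by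
    have e1 : SX.Heis (dat h hc hJ).J χ = j0 * heis (fun i j : Fin n => J i j) χ :=
      Heis_eq n j0 J χ
    rw [e1, mul_assoc]
    exact mul_le_mul_of_nonneg_left (he χ) hj0p) hcs
  have h3 := err_le h hc hJ
  rw [← hj0] at h1 h3
  have h4 : constH n k Lam j0 J = n * (-2 * Lam) + SX.const0 (Dn n k) -
      SX.Js (dat h hc hJ).J / 4 := constH_eq n k j0 J Lam
  rw [h4]
  have h5 : (dat h hc hJ).err * ‖c‖ ^ 2 ≤ j0 / (64 * q) * ‖c‖ ^ 2 :=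
    mul_le_mul_of_nonneg_right h3 (sq_nonneg _)
  have h6 : j0 / (32 * (q : ℝ)) = j0 / (64 * q) + j0 / (64 * q) := by field_simp; ring
  rw [h6]
  have e9 : (j0 * e - SX.Js (dat h hc hJ).J / 4 - (dat h hc hJ).err) * ‖c‖ ^ 2 =
    (j0 * e - SX.Js (dat h hc hJ).J / 4) * ‖c‖ ^ 2 - (dat h hc hJ).err * ‖c‖ ^ 2 := by ring
  rw [e9] at h2
  nlinarith

theorem energy_smul (t D : Fin n → Fin n → ℝ) (r : ℝ) (c : SX.X n) :
    SX.energy t D ((r : ℂ) • c) = r ^ 2 * SX.energy t D c := by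
  rw [SX.energy, SX.energy, map_smul, inner_smul_left, inner_smul_right, mul_add]
  congr 1
  · rw [Complex.conj_ofReal, ← mul_assoc, ← Complex.ofReal_mul]
    rw [show RCLike.re (((r * r : ℝ) : ℂ) * inner ℂ c (SX.hop t c)) =
      (r * r) * RCLike.re (inner ℂ c (SX.hop t c)) from Complex.re_ofReal_mul _ _]
    ring
  · rw [Finset.mul_sum]
    refine Finset.sum_congr rfl fun f _ => ?_
    rw [PiLp.smul_apply, smul_eq_mul, norm_mul, Complex.norm_real, Real.norm_eq_abs, mul_pow,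
      sq_abs]
    ring

/-- upper bound for the site form -/
theorem site_upper (h : Par n q k a1 P) (hc : Coul n k a1) (hJ : ∀ i j, 0 ≤ J i j ∧ J i j ≤ 1)
    {Lam : ℝ} {A : ℕ → ℕ → ℝ} {a : ℕ → ℝ}
    (hcal : Calib n k (1 / (P ^ 2 * (k : ℝ) ^ 4)) J A a ((1 / (P ^ 2 * (k : ℝ) ^ 4)) / P ^ 2))
    {ψ : (Fin n → Bool) → ℂ} (hψ : nrmSq ψ = 1) :
    ∃ c ∈ SX.antiS n, ‖c‖ = 1 ∧ SX.siteForm (hSite n k Lam A a) (WSite n k) c ≤
      constH n k Lam (1 / (P ^ 2 * (k : ℝ) ^ 4)) J +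
        (1 / (P ^ 2 * (k : ℝ) ^ 4)) * heis (fun i j : Fin n => J i j) ψ +
        (1 / (P ^ 2 * (k : ℝ) ^ 4)) / (32 * q) := by
  have hk := h.kpos
  have hP := h.Ppos
  have hq := h.q1
  set j0 : ℝ := 1 / (P ^ 2 * (k : ℝ) ^ 4) with hj0
  have hj0p : 0 ≤ j0 := by rw [hj0]; positivity
  have e1 : SX.Heis (dat h hc hJ).J ψ = j0 * heis (fun i j : Fin n => J i j) ψ :=
    Heis_eq n j0 J ψ
  have hψ' : SX.nsq ψ = 1 := hψ
  obtain ⟨c, hcs, hc0, hce⟩ := (dat h hc hJ).upper (χ := ψ)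
    (e := j0 * heis (fun i j : Fin n => J i j) ψ) (by rw [hψ']; norm_num)
    (by rw [hψ', mul_one, e1])
  refine ⟨((‖c‖⁻¹ : ℝ) : ℂ) • c, (SX.antiS n).smul_mem _ hcs, ?_, ?_⟩
  · rw [norm_smul, Complex.norm_real, Real.norm_eq_abs, abs_of_nonneg (by positivity)]
    exact inv_mul_cancel₀ hc0.ne'
  · have hn1 : ‖((‖c‖⁻¹ : ℝ) : ℂ) • c‖ = 1 := by
      rw [norm_smul, Complex.norm_real, Real.norm_eq_abs, abs_of_nonneg (by positivity)]
      exact inv_mul_cancel₀ hc0.ne'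
    have h1 := (abs_le.1 (site_approx h hc hJ (Lam := Lam) hcal (((‖c‖⁻¹ : ℝ) : ℂ) • c))).2
    rw [hn1, energy_smul] at h1
    have h3 := err_le h hc hJ
    rw [← hj0] at h1 h3
    have h4 : constH n k Lam j0 J = n * (-2 * Lam) + SX.const0 (Dn n k) -
        SX.Js (dat h hc hJ).J / 4 := constH_eq n k j0 J Lam
    have h5 : ‖c‖⁻¹ ^ 2 * SX.energy (dat h hc hJ).t (dat h hc hJ).D c ≤
        j0 * heis (fun i j : Fin n => J i j) ψ - SX.Js (dat h hc hJ).J / 4 +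
          (dat h hc hJ).err := by
      have h6 := mul_le_mul_of_nonneg_left hce (sq_nonneg ‖c‖⁻¹)
      refine h6.trans (le_of_eq ?_)
      field_simp
    have h6 : j0 / (32 * (q : ℝ)) = j0 / (64 * q) + j0 / (64 * q) := by field_simp; ring
    rw [h4, h6]
    linarith

end Crest.Agent.R338.BH

end
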