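import Crest.Agent.R338.SX4

/-!
Row 338 (S0529), node SX / B.4: the form of one-body + two-body operators on site tensors is
`const + energy t D` up to the non-classical integrals.
-/

set_option autoImplicit false
set_option maxSynthPendingDepth 3

open scoped ComplexConjugate BigOperators
open Function

namespace Crest.Agent.R338.SX

variable {n : ℕ}

/-- one-body form on site tensors -/
noncomputable def site1 (h : Fin n → Fin n → ℝ) (c : X n) : ℝ :=
  ∑ f : Cfg n, ∑ k, ∑ j, h (f k).1 j * (conj (c f) * c (mv f k j)).re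

/-- two-body form on site tensors -/
noncomputable def site2 (W : Fin n → Fin n → Fin n → Fin n → ℝ) (c : X n) : ℝ :=
  ∑ f : Cfg n, ∑ k, ∑ l, if k < l then ∑ i, ∑ j, W (f k).1 i (f l).1 j *
    (conj (c f) * c (mv (mv f k i) l j)).re else 0

/-- the full form -/
noncomputable def siteForm (h : Fin n → Fin n → ℝ) (W : Fin n → Fin n → Fin n → Fin n → ℝ)
    (c : X n) : ℝ := site1 h c + site2 W c

theorem site1_eq (h : Fin n → Fin n → ℝ) (c : X n) :
    site1 h c = RCLike.re (inner ℂ c (hop h c)) := by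
  rw [inner_def, map_sum, site1]
  refine Finset.sum_congr rfl fun f _ => ?_
  rw [hop_sum, Finset.mul_sum, map_sum]
  refine Finset.sum_congr rfl fun k _ => ?_
  rw [Finset.mul_sum, map_sum]
  refine Finset.sum_congr rfl fun j _ => ?_
  have : conj (c f) * (((h (f k).1 j : ℝ) : ℂ) * c (mv f k j)) =
      ((h (f k).1 j : ℝ) : ℂ) * (conj (c f) * c (mv f k j)) := by ring
  rw [this]
  exact (Complex.re_ofReal_mul _ _).symm

theorem site1_add (h h' : Fin n → Fin n → ℝ) (c : X n) :
    site1 (fun a b => h a b + h' a b) c = site1 h c + site1 h' c := by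
  simp only [site1, add_mul, Finset.sum_add_distrib]

theorem site1_abs (h : Fin n → Fin n → ℝ) (c : X n) :
    |site1 h c| ≤ (n * ∑ a, ∑ b, |h a b|) * ‖c‖ ^ 2 := by
  rw [site1_eq]
  refine (RCLike.abs_re_le_norm _).trans ((norm_inner_le_norm _ _).trans ?_)
  calc ‖c‖ * ‖hop h c‖ ≤ ‖c‖ * ((n * ∑ a, ∑ b, |h a b|) * ‖c‖) := by
        gcongr; exact hop_norm h c
    _ = _ := by ring

/-- diagonal one-body operators -/
theorem site1_diag (m : Fin n → ℝ) (c : X n) :
    site1 (fun a b => if a = b then m a else 0) c = ∑ f : Cfg n, (∑ k, m (f k).1) * ‖c f‖ ^ 2 := by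
  rw [site1]
  refine Finset.sum_congr rfl fun f _ => ?_
  rw [Finset.sum_mul]
  refine Finset.sum_congr rfl fun k _ => ?_
  rw [Finset.sum_eq_single (f k).1]
  · rw [if_pos rfl, mv_self, Complex.conj_mul']
    norm_cast
  · intro b _ hb
    rw [if_neg (Ne.symm hb), zero_mul]
  · intro h; exact absurd (Finset.mem_univ _) h

/-- the classical part of the two-body form -/
theorem site2_split (W : Fin n → Fin n → Fin n → Fin n → ℝ) (c : X n) :
    site2 W c = (∑ f : Cfg n, (∑ k, ∑ l, if k < l then W (f k).1 (f k).1 (f l).1 (f l).1 else 0) *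
        ‖c f‖ ^ 2) +
      site2 (fun a b a' b' => if a = b ∧ a' = b' then 0 else W a b a' b') c := by
  rw [site2, site2, ← Finset.sum_add_distrib]
  refine Finset.sum_congr rfl fun f _ => ?_
  rw [Finset.sum_mul, ← Finset.sum_add_distrib]
  refine Finset.sum_congr rfl fun k _ => ?_
  rw [Finset.sum_mul, ← Finset.sum_add_distrib]
  refine Finset.sum_congr rfl fun l _ => ?_
  by_cases hkl : k < l
  · simp only [if_pos hkl]
    have h1 : ∀ i j, W (f k).1 i (f l).1 j * (conj (c f) * c (mv (mv f k i) l j)).re =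
        (if (f k).1 = i ∧ (f l).1 = j then W (f k).1 i (f l).1 j *
          (conj (c f) * c (mv (mv f k i) l j)).re else 0) +
        (if (f k).1 = i ∧ (f l).1 = j then 0 else W (f k).1 i (f l).1 j) *
          (conj (c f) * c (mv (mv f k i) l j)).re := by
      intro i j
      split_ifs <;> ring
    rw [Finset.sum_congr rfl fun i _ => Finset.sum_congr rfl fun j _ => h1 i j]
    simp only [Finset.sum_add_distrib]
    congr 1
    rw [Finset.sum_eq_single (f k).1, Finset.sum_eq_single (f l).1]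
    · rw [if_pos ⟨rfl, rfl⟩, mv_self, mv_self, Complex.conj_mul']
      norm_cast
    · intro b _ hb
      rw [if_neg (fun h => hb h.2.symm)]
    · intro h; exact absurd (Finset.mem_univ _) h
    · intro b _ hb
      refine Finset.sum_eq_zero fun b' _ => ?_
      rw [if_neg (fun h => hb h.1.symm)]
    · intro h; exact absurd (Finset.mem_univ _) h
  · simp only [if_neg hkl]; ring

/-- counting: summing over all moves of one electron -/
theorem sum_mv_all (F : Cfg n → ℝ) (k : Fin n) :
    ∑ f : Cfg n, ∑ i, F (mv f k i) = n * ∑ f, F f := by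
  rw [Finset.sum_comm]
  have h1 : ∀ i : Fin n, ∑ f : Cfg n, F (mv f k i) =
      ∑ _a : Fin n, ∑ g : Cfg n, if (g k).1 = i then F g else 0 := by
    intro i
    have h2 : ∀ f : Cfg n, F (mv f k i) = ∑ a : Fin n, if (f k).1 = a then F (mv f k i) else 0 := by
      intro f; simp
    calc ∑ f : Cfg n, F (mv f k i)
        = ∑ f : Cfg n, ∑ a : Fin n, if (f k).1 = a then F (mv f k i) else 0 :=
          Finset.sum_congr rfl fun f _ => h2 f
      _ = ∑ a : Fin n, ∑ f : Cfg n, if (f k).1 = a then F (mv f k i) else 0 := Finset.sum_comm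
      _ = _ := Finset.sum_congr rfl fun a _ => sum_mv a i k (fun _ g => F g)
  have h3 : (∑ i : Fin n, ∑ g : Cfg n, if (g k).1 = i then F g else 0) = ∑ g, F g := by
    rw [Finset.sum_comm]
    refine Finset.sum_congr rfl fun g _ => ?_
    simp
  calc ∑ i : Fin n, ∑ f : Cfg n, F (mv f k i)
      = ∑ i : Fin n, ∑ _a : Fin n, ∑ g : Cfg n, (if (g k).1 = i then F g else 0) :=
        Finset.sum_congr rfl fun i _ => h1 i
    _ = ∑ _a : Fin n, ∑ i : Fin n, ∑ g : Cfg n, (if (g k).1 = i then F g else 0) :=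
        Finset.sum_comm
    _ = n * ∑ f, F f := by rw [h3]; simp

theorem site2_abs {W : Fin n → Fin n → Fin n → Fin n → ℝ} {r : ℝ}
    (hW : ∀ a b a' b', |W a b a' b'| ≤ r) (c : X n) :
    |site2 W c| ≤ n ^ 4 * r * ‖c‖ ^ 2 := by
  have hr0 : n = 0 ∨ 0 ≤ r := by
    rcases Nat.eq_zero_or_pos n with h | h
    · exact Or.inl h
    · exact Or.inr ((abs_nonneg _).trans (hW ⟨0, h⟩ ⟨0, h⟩ ⟨0, h⟩ ⟨0, h⟩))
  rcases hr0 with h0 | hr
  · subst h0
    simp [site2]
  have key : ∀ k l : Fin n, |∑ f : Cfg n, if k < l then ∑ i, ∑ j, W (f k).1 i (f l).1 j *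
      (conj (c f) * c (mv (mv f k i) l j)).re else 0| ≤ n ^ 2 * r * ‖c‖ ^ 2 := by
    intro k l
    by_cases hkl : k < l
    · simp only [if_pos hkl]
      have h1 : ∀ (f : Cfg n) (i j : Fin n), |W (f k).1 i (f l).1 j *
          (conj (c f) * c (mv (mv f k i) l j)).re| ≤
          r * ((‖c f‖ ^ 2 + ‖c (mv (mv f k i) l j)‖ ^ 2) / 2) := by
        intro f i j
        rw [abs_mul]
        refine mul_le_mul (hW _ _ _ _) ?_ (abs_nonneg _) hr
        refine (Complex.abs_re_le_norm _).trans ?_
        rw [norm_mul, Complex.norm_conj]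
        nlinarith [sq_nonneg (‖c f‖ - ‖c (mv (mv f k i) l j)‖)]
      have h2 : |∑ f : Cfg n, ∑ i, ∑ j, W (f k).1 i (f l).1 j *
          (conj (c f) * c (mv (mv f k i) l j)).re| ≤
          ∑ f : Cfg n, ∑ i, ∑ j, r * ((‖c f‖ ^ 2 + ‖c (mv (mv f k i) l j)‖ ^ 2) / 2) := by
        refine (Finset.abs_sum_le_sum_abs _ _).trans (Finset.sum_le_sum fun f _ => ?_)
        refine (Finset.abs_sum_le_sum_abs _ _).trans (Finset.sum_le_sum fun i _ => ?_)
        exact (Finset.abs_sum_le_sum_abs _ _).trans (Finset.sum_le_sum fun j _ => h1 f i j)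
      refine h2.trans (le_of_eq ?_)
      have h3 : ∑ f : Cfg n, ∑ i, ∑ j, ‖c (mv (mv f k i) l j)‖ ^ 2 = n ^ 2 * ‖c‖ ^ 2 := by
        have e1 := sum_mv_all (fun g : Cfg n => ∑ j, ‖c (mv g l j)‖ ^ 2) k
        have e2 := sum_mv_all (fun g : Cfg n => ‖c g‖ ^ 2) l
        calc ∑ f : Cfg n, ∑ i, ∑ j, ‖c (mv (mv f k i) l j)‖ ^ 2
            = n * ∑ f : Cfg n, ∑ j, ‖c (mv f l j)‖ ^ 2 := e1
          _ = n * (n * ∑ f : Cfg n, ‖c f‖ ^ 2) := by rw [e2]
          _ = n ^ 2 * ‖c‖ ^ 2 := by rw [← norm_sq_def]; ring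
      have h4 : ∑ f : Cfg n, ∑ _i : Fin n, ∑ _j : Fin n, ‖c f‖ ^ 2 = n ^ 2 * ‖c‖ ^ 2 := by
        simp only [Finset.sum_const, Finset.card_univ, Fintype.card_fin, nsmul_eq_mul]
        rw [norm_sq_def, ← Finset.mul_sum, ← Finset.mul_sum]
        ring
      calc ∑ f : Cfg n, ∑ i, ∑ j, r * ((‖c f‖ ^ 2 + ‖c (mv (mv f k i) l j)‖ ^ 2) / 2)
          = r / 2 * (∑ f : Cfg n, ∑ _i : Fin n, ∑ _j : Fin n, ‖c f‖ ^ 2) +
            r / 2 * ∑ f : Cfg n, ∑ i, ∑ j, ‖c (mv (mv f k i) l j)‖ ^ 2 := by
            rw [← mul_add, ← Finset.sum_add_distrib, Finset.mul_sum]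
            refine Finset.sum_congr rfl fun f _ => ?_
            rw [← Finset.sum_add_distrib, Finset.mul_sum]
            refine Finset.sum_congr rfl fun i _ => ?_
            rw [← Finset.sum_add_distrib, Finset.mul_sum]
            refine Finset.sum_congr rfl fun j _ => ?_
            ring
        _ = n ^ 2 * r * ‖c‖ ^ 2 := by rw [h3, h4]; ring
    · simp only [if_neg hkl, Finset.sum_const_zero, abs_zero]
      positivity
  have h5 : site2 W c = ∑ k, ∑ l, ∑ f : Cfg n, if k < l then ∑ i, ∑ j, W (f k).1 i (f l).1 j *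
      (conj (c f) * c (mv (mv f k i) l j)).re else 0 := by
    rw [site2, Finset.sum_comm]
    refine Finset.sum_congr rfl fun k _ => ?_
    rw [Finset.sum_comm]
  rw [h5]
  calc |∑ k, ∑ l, ∑ f : Cfg n, if k < l then ∑ i, ∑ j, W (f k).1 i (f l).1 j *
      (conj (c f) * c (mv (mv f k i) l j)).re else 0|
      ≤ ∑ k : Fin n, ∑ l : Fin n, n ^ 2 * r * ‖c‖ ^ 2 := by
        refine (Finset.abs_sum_le_sum_abs _ _).trans (Finset.sum_le_sum fun k _ => ?_)
        exact (Finset.abs_sum_le_sum_abs _ _).trans (Finset.sum_le_sum fun l _ => key k l)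
    _ = n ^ 4 * r * ‖c‖ ^ 2 := by
        simp only [Finset.sum_const, Finset.card_univ, Fintype.card_fin, nsmul_eq_mul]
        ring

/-- sums over electrons in terms of occupation numbers -/
theorem sum_occ (m : Fin n → ℝ) (f : Cfg n) : ∑ k, m (f k).1 = ∑ i, (occ f i : ℝ) * m i := by
  have h1 : ∀ i, (occ f i : ℝ) * m i = ∑ k, if (f k).1 = i then m i else 0 := by
    intro i
    simp only [occ]
    push_cast
    rw [Finset.sum_mul]
    refine Finset.sum_congr rfl fun k _ => ?_
    split_ifs <;> simp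
  simp_rw [h1]
  rw [Finset.sum_comm]
  refine Finset.sum_congr rfl fun k _ => ?_
  simp

/-- the classical energy -/
theorem charge_identity {D : Fin n → Fin n → ℝ} (hD : ∀ a b, D a b = D b a) (f : Cfg n) :
    (∑ k, (-(D (f k).1 (f k).1) / 2 - ∑ j ∈ Finset.univ.erase (f k).1, D (f k).1 j)) +
      (∑ k, ∑ l, if k < l then D (f k).1 (f l).1 else 0) =
    G D f - (∑ i, D i i) / 2 - ∑ i, ∑ j, if i < j then D i j else 0 := by
  -- pair sum
  have h1 : ∑ k, ∑ l, D (f k).1 (f l).1 =
      2 * (∑ k, ∑ l, if k < l then D (f k).1 (f l).1 else 0) + ∑ k, D (f k).1 (f k).1 := by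
    have e := sum_ne_eq_two_lt (F := fun k l : Fin n => if k = l then 0 else D (f k).1 (f l).1)
      (fun i j => by
        by_cases h : i = j
        · subst h; rfl
        · simp only [if_neg h, if_neg (Ne.symm h)]; exact hD _ _) (fun i => by simp)
    have e2 : ∀ k l : Fin n, (if k < l then (if k = l then 0 else D (f k).1 (f l).1) else 0) =
        if k < l then D (f k).1 (f l).1 else 0 := by
      intro k l
      by_cases h : k < l
      · simp only [if_pos h, if_neg h.ne]
      · simp only [if_neg h]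
    simp_rw [e2] at e
    rw [← e, ← Finset.sum_add_distrib]
    refine Finset.sum_congr rfl fun k _ => ?_
    have e3 : ∀ l, D (f k).1 (f l).1 = (if k = l then 0 else D (f k).1 (f l).1) +
        if k = l then D (f k).1 (f k).1 else 0 := by
      intro l
      by_cases h : k = l
      · subst h; simp
      · simp [h]
    calc ∑ l, D (f k).1 (f l).1 = ∑ l, ((if k = l then 0 else D (f k).1 (f l).1) +
        if k = l then D (f k).1 (f k).1 else 0) := Finset.sum_congr rfl fun l _ => e3 l
      _ = _ := by rw [Finset.sum_add_distrib]; simp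
  have h2 : ∑ i, ∑ j, D i j = 2 * (∑ i, ∑ j, if i < j then D i j else 0) + ∑ i, D i i := by
    have e := sum_ne_eq_two_lt (F := fun k l : Fin n => if k = l then 0 else D k l)
      (fun i j => by
        by_cases h : i = j
        · subst h; rfl
        · simp only [if_neg h, if_neg (Ne.symm h)]; exact hD _ _) (fun i => by simp)
    have e2 : ∀ k l : Fin n, (if k < l then (if k = l then 0 else D k l) else 0) =
        if k < l then D k l else 0 := by
      intro k l
      by_cases h : k < l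
      · simp only [if_pos h, if_neg h.ne]
      · simp only [if_neg h]
    simp_rw [e2] at e
    rw [← e, ← Finset.sum_add_distrib]
    refine Finset.sum_congr rfl fun k _ => ?_
    have e3 : ∀ l, D k l = (if k = l then 0 else D k l) + if k = l then D k k else 0 := by
      intro l
      by_cases h : k = l
      · subst h; simp
      · simp [h]
    calc ∑ l, D k l = ∑ l, ((if k = l then 0 else D k l) +
        if k = l then D k k else 0) := Finset.sum_congr rfl fun l _ => e3 l
      _ = _ := by rw [Finset.sum_add_distrib]; simp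
  have h3 : ∀ i, ∑ j ∈ Finset.univ.erase i, D i j = ∑ j, D i j - D i i := by
    intro i
    rw [← Finset.add_sum_erase _ _ (Finset.mem_univ i)]; ring
  simp_rw [h3]
  -- occupation numbers
  have h4 : ∑ k, ∑ l, D (f k).1 (f l).1 = ∑ i, ∑ j, (occ f i : ℝ) * (occ f j : ℝ) * D i j := by
    rw [sum_occ (fun i => ∑ l, D i (f l).1) f]
    refine Finset.sum_congr rfl fun i _ => ?_
    rw [sum_occ (fun j => D i j) f, Finset.mul_sum]
    refine Finset.sum_congr rfl fun j _ => ?_
    ring
  have h5 : ∑ k, (-(D (f k).1 (f k).1) / 2 - (∑ j, D (f k).1 j - D (f k).1 (f k).1)) =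
      (∑ k, D (f k).1 (f k).1) / 2 - ∑ i, ∑ j, (occ f i : ℝ) * D i j := by
    have e1 := sum_occ (fun i => ∑ j, D i j) f
    have e2 : ∑ i, ∑ j, (occ f i : ℝ) * D i j = ∑ k, ∑ j, D (f k).1 j := by
      rw [e1]
      refine Finset.sum_congr rfl fun i _ => ?_
      rw [Finset.mul_sum]
    rw [e2, Finset.sum_div, ← Finset.sum_sub_distrib]
    refine Finset.sum_congr rfl fun k _ => ?_
    ring
  have h6 : G D f = (1 / 2) * ∑ i, ∑ j, (occ f i : ℝ) * (occ f j : ℝ) * D i j -
      ∑ i, ∑ j, (occ f i : ℝ) * D i j + (1 / 2) * ∑ i, ∑ j, D i j := by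
    have e1 : ∑ i, ∑ j, (occ f j : ℝ) * D i j = ∑ i, ∑ j, (occ f i : ℝ) * D i j := by
      rw [Finset.sum_comm]
      refine Finset.sum_congr rfl fun i _ => Finset.sum_congr rfl fun j _ => ?_
      rw [hD j i]
    have e2 : ∑ i, ∑ j, D i j * (((occ f i - 1 : ℤ) : ℝ) * ((occ f j - 1 : ℤ) : ℝ)) =
        ∑ i, ∑ j, (occ f i : ℝ) * (occ f j : ℝ) * D i j - ∑ i, ∑ j, (occ f i : ℝ) * D i j -
        ∑ i, ∑ j, (occ f j : ℝ) * D i j + ∑ i, ∑ j, D i j := by
      simp only [← Finset.sum_sub_distrib, ← Finset.sum_add_distrib]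
      refine Finset.sum_congr rfl fun i _ => Finset.sum_congr rfl fun j _ => ?_
      push_cast; ring
    rw [G, e2, e1]; ring
  rw [h5, h6]
  linarith

/-- the constant of B.4 (without the selection energy) -/
noncomputable def const0 (D : Fin n → Fin n → ℝ) : ℝ :=
  -((∑ i, D i i) / 2) - ∑ i, ∑ j, if i < j then D i j else 0

/-- offsets -/
noncomputable def mu (D : Fin n → Fin n → ℝ) (i : Fin n) : ℝ :=
  -(D i i) / 2 - ∑ j ∈ Finset.univ.erase i, D i j

/-- **B.4**: one-body matrix `t + diag (mu + s)` and classical two-body form give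
`const + energy t D`; the rest is small. -/
theorem siteForm_approx {t D h : Fin n → Fin n → ℝ} {W : Fin n → Fin n → Fin n → Fin n → ℝ}
    {s ec r : ℝ} (hD : ∀ a b, D a b = D b a) (ht0 : ∀ a, t a a = 0)
    (hDW : ∀ a b, D a b = W a a b b)
    (hh : ∀ a b, a ≠ b → |h a b - t a b| ≤ ec) (hh0 : ∀ a, |h a a - (mu D a + s)| ≤ ec)
    (hr : 0 ≤ r) (hW : ∀ a b a' b', (a ≠ b ∨ a' ≠ b') → |W a b a' b'| ≤ r) (c : X n) :
    |siteForm h W c - ((n * s + const0 D) * ‖c‖ ^ 2 + energy t D c)| ≤
      (n ^ 3 * ec + n ^ 4 * r) * ‖c‖ ^ 2 := by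
  -- decompose the one-body matrix
  have h1 : site1 h c = site1 t c + ∑ f : Cfg n, (∑ k, (mu D (f k).1 + s)) * ‖c f‖ ^ 2 +
      site1 (fun a b => h a b - t a b - if a = b then mu D a + s else 0) c := by
    rw [← site1_diag (fun a => mu D a + s), ← site1_add, ← site1_add]
    congr 1
    funext a b
    ring
  have h2 : |site1 (fun a b => h a b - t a b - if a = b then mu D a + s else 0) c| ≤
      n ^ 3 * ec * ‖c‖ ^ 2 := by
    refine (site1_abs _ c).trans ?_
    refine mul_le_mul_of_nonneg_right ?_ (sq_nonneg _)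
    have : (∑ a : Fin n, ∑ b : Fin n, |h a b - t a b - if a = b then mu D a + s else 0|) ≤
        ∑ a : Fin n, ∑ b : Fin n, ec := by
      refine Finset.sum_le_sum fun a _ => Finset.sum_le_sum fun b _ => ?_
      by_cases hab : a = b
      · subst hab
        rw [if_pos rfl, ht0, sub_zero]; exact hh0 a
      · rw [if_neg hab, sub_zero]; exact hh a b hab
    calc (n : ℝ) * (∑ a : Fin n, ∑ b : Fin n, |h a b - t a b - if a = b then mu D a + s else 0|)
        ≤ n * ∑ a : Fin n, ∑ b : Fin n, ec := by gcongr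
      _ = n ^ 3 * ec := by
          simp only [Finset.sum_const, Finset.card_univ, Fintype.card_fin, nsmul_eq_mul]; ring
  have h3 : |site2 (fun a b a' b' => if a = b ∧ a' = b' then 0 else W a b a' b') c| ≤
      n ^ 4 * r * ‖c‖ ^ 2 := by
    refine site2_abs (fun a b a' b' => ?_) c
    split_ifs with hc
    · rw [abs_zero]; exact hr
    · refine hW a b a' b' ?_
      by_contra hne
      push Not at hne
      exact hc hne
  have h4 : (∑ f : Cfg n, (∑ k, (mu D (f k).1 + s)) * ‖c f‖ ^ 2) +
      (∑ f : Cfg n, (∑ k, ∑ l, if k < l then W (f k).1 (f k).1 (f l).1 (f l).1 else 0) *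
        ‖c f‖ ^ 2) = (n * s + const0 D) * ‖c‖ ^ 2 + ∑ f, G D f * ‖c f‖ ^ 2 := by
    rw [norm_sq_def, Finset.mul_sum, ← Finset.sum_add_distrib, ← Finset.sum_add_distrib]
    refine Finset.sum_congr rfl fun f _ => ?_
    have e := charge_identity hD f
    have e1 : (∑ k, ∑ l, if k < l then W (f k).1 (f k).1 (f l).1 (f l).1 else 0) =
        ∑ k, ∑ l, if k < l then D (f k).1 (f l).1 else 0 := by
      refine Finset.sum_congr rfl fun k _ => Finset.sum_congr rfl fun l _ => ?_
      rw [hDW]
    have e2 : ∑ k, (mu D (f k).1 + s) = (∑ k, mu D (f k).1) + n * s := by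
      rw [Finset.sum_add_distrib]; simp
    rw [e1, e2, ← add_mul, ← add_mul]
    congr 1
    simp only [mu, const0]
    linarith
  have h5 : siteForm h W c - ((n * s + const0 D) * ‖c‖ ^ 2 + energy t D c) =
      site1 (fun a b => h a b - t a b - if a = b then mu D a + s else 0) c +
      site2 (fun a b a' b' => if a = b ∧ a' = b' then 0 else W a b a' b') c := by
    rw [siteForm, h1, site2_split W c, energy, ← site1_eq]
    linarith
  rw [h5]
  refine (abs_add_le _ _).trans ?_
  linarith

end Crest.Agent.R338.SX
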