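import Crest.Agent.R338.Iface
import Crest.Agent.R338.SX5

/-!
Row 338 (S0529): frozen inputs of Theorem BH (`ThmBHStmt` of `Iface.lean`), helper370.

* `CoulStmt` : Coulomb estimates for the site orbitals (blueprint part 5), in terms of `n`, `k`.
* `SelStmt`  : selection (blueprint B.3), from the shell to the sites.
-/

set_option autoImplicit false

noncomputable section

open Crest.MathPhysics.ElectronicCoulomb
open scoped ComplexConjugate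

namespace Crest.Agent.R338.BH

/-- symmetry of the Coulomb integrals (Fubini) -/
def W4Symm : Prop := ∀ a b c d : Idx, W4 a b c d = W4 c d a b

/-- Coulomb estimates for the sites (part 5: D.8, D.9, D.10). -/
def CoulStmt : Prop := ∃ C : ℕ, 1 ≤ C ∧ ∀ n k : ℕ, 2 ≤ n → (C * n) ^ C ≤ k →
  (∀ i < n, ∀ j < n, 0 ≤ Vc n k i j ∧ Vc n k i j ≤ (C : ℝ) * (n : ℝ) ^ C / (k : ℝ) ^ 2) ∧
  (∀ i < n, ∀ j < n, ∀ i' < n, ∀ j' < n, (i ≠ j ∨ i' ≠ j') →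
    |W4 (site n k i) (site n k j) (site n k i') (site n k j')| ≤
      (C : ℝ) * (n : ℝ) ^ C / (k : ℝ) ^ 5) ∧
  (∀ δ : Fin n → ℤ, (∀ i, |δ i| ≤ 1) → ∑ i, δ i = 0 → δ ≠ 0 →
    1 / ((C : ℝ) * (n : ℝ) ^ C * (k : ℝ) ^ 3) ≤
      ∑ i : Fin n, ∑ j : Fin n, Vc n k i j * ((δ i : ℝ) * (δ j : ℝ)))

/-- one-body matrix on the sites -/
def hSite (n k : ℕ) (Lam : ℝ) (A : ℕ → ℕ → ℝ) (a : ℕ → ℝ) (i j : Fin n) : ℝ :=
  fock (n0' n k) (site n k i) (site n k j) +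
    (∑ i' ∈ Finset.range n, ∑ j' ∈ Finset.range n,
      if i' < j' then A i' j' * Mhop n k i' j' i j else 0) +
    (if i = j then -2 * Lam + a i else 0)

/-- two-electron integrals of the sites -/
def WSite (n k : ℕ) (i j i' j' : Fin n) : ℝ :=
  W4 (site n k i) (site n k j) (site n k i') (site n k j')

/-- Selection: from the shell to the sites (B.3). -/
def SelStmt : Prop := ∃ C : ℕ, 1 ≤ C ∧ ∀ n k : ℕ, 2 ≤ n → (C * n) ^ C ≤ k →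
  ∀ (Lam Amax : ℝ) (A : ℕ → ℕ → ℝ) (a : ℕ → ℝ), (∀ i j, |A i j| ≤ Amax) → (∀ i, |a i| ≤ Amax) →
  1 ≤ Amax → ((n0' n k : ℝ) + Amax) ^ C ≤ Lam →
  (∀ c ∈ SX.antiS n, ∃ D : (Fin n → Val (n0' n k)) → ℂ, AntiSym D ∧ tnSq D = ‖c‖ ^ 2 ∧
    shellForm (n0' n k) (wpot n k Lam A a) D =
      SX.siteForm (hSite n k Lam A a) (WSite n k) c) ∧
  (∀ β : ℝ, |β + 2 * Lam * n| ≤ 2 →
    (∀ c ∈ SX.antiS n, β * ‖c‖ ^ 2 ≤ SX.siteForm (hSite n k Lam A a) (WSite n k) c) →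
    ∀ D : (Fin n → Val (n0' n k)) → ℂ, AntiSym D →
      (β - ((n0' n k : ℝ) + Amax) ^ C / Lam) * tnSq D ≤
        shellForm (n0' n k) (wpot n k Lam A a) D)

/-- the statement proved from `W4Symm`, `CoulStmt` and `SelStmt` : `ThmBHStmt` with the two corrections
`(C n q)^(2C) ≤ k` and margin `j0/(16 q)` -/
def ThmBH' : Prop := ∃ C : ℕ, 1 ≤ C ∧ ∀ (n q k : ℕ), 2 ≤ n → 1 ≤ q → (C * n * q) ^ (2 * C) ≤ k →
  ∀ (Lam Amax : ℝ) (J : ℕ → ℕ → ℝ) (A : ℕ → ℕ → ℝ) (a : ℕ → ℝ),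
  let j0 : ℝ := 1 / (((n : ℝ) * q) ^ C * (k : ℝ) ^ 4)
  (∀ i j, 0 ≤ J i j ∧ J i j ≤ 1) → (∀ i j, |A i j| ≤ Amax) → (∀ i, |a i| ≤ Amax) → 1 ≤ Amax →
  ((n0' n k : ℝ) + Amax) ^ C ≤ Lam →
  Calib n k j0 J A a (j0 / (((n : ℝ) * q) ^ C)) →
  (∀ ψ : (Fin n → Bool) → ℂ, nrmSq ψ = 1 → ∃ D : (Fin n → Val (n0' n k)) → ℂ, AntiSym D ∧
    tnSq D = 1 ∧
    shellForm (n0' n k) (wpot n k Lam A a) D ≤
      constH n k Lam j0 J + j0 * heis (fun i j => J i j) ψ + j0 / (16 * q)) ∧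
  (∀ e : ℝ, (∀ ψ : (Fin n → Bool) → ℂ, e * nrmSq ψ ≤ heis (fun i j => J i j) ψ) →
    ∀ D : (Fin n → Val (n0' n k)) → ℂ, AntiSym D →
      (constH n k Lam j0 J + j0 * e - j0 / (16 * q)) * tnSq D ≤
        shellForm (n0' n k) (wpot n k Lam A a) D)

end Crest.Agent.R338.BH

end
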