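import Mathlib

/-!
# Row 338, module HO1a (helper789): normalized Hermite functions on `ℝ`

`hP m` : the polynomial, `hf m x = (hP m).eval x * exp (-x^2/2)`.

* `x_mul_hf` : `x h_m = √((m+1)/2) h_{m+1} + √(m/2) h_{m-1}`
* `hasDerivAt_hf` : `h_m' = √(m/2) h_{m-1} - √((m+1)/2) h_{m+1}`
* `integral_hf_mul_hf` : orthonormality
* `integrable_poly_gauss`
-/

set_option autoImplicit false

open MeasureTheory Polynomial Real

noncomputable section

namespace Crest.Agent.R338.HO

/-- normalized Hermite polynomials (for the weight `exp (-x^2)`) -/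
def hP : ℕ → Polynomial ℝ
  | 0 => C (π ^ (-(1 / 4) : ℝ))
  | (m + 1) => C (1 / √(2 * ((m : ℝ) + 1))) * (2 * X * hP m - derivative (hP m))

/-- normalized Hermite functions -/
def hf (m : ℕ) (x : ℝ) : ℝ := (hP m).eval x * Real.exp (-(x ^ 2) / 2)

theorem hP_zero : hP 0 = C (π ^ (-(1 / 4) : ℝ)) := by simp [hP]

theorem hP_succ (m : ℕ) : hP (m + 1) =
    C (1 / √(2 * ((m : ℝ) + 1))) * (2 * X * hP m - derivative (hP m)) := by
  rw [hP]

theorem sqrt_ne (m : ℕ) : √(2 * ((m : ℝ) + 1)) ≠ 0 := by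
  have : (0 : ℝ) < 2 * ((m : ℝ) + 1) := by positivity
  exact (Real.sqrt_pos.2 this).ne'

theorem hP_succ' (m : ℕ) : C (√(2 * ((m : ℝ) + 1))) * hP (m + 1) =
    2 * X * hP m - derivative (hP m) := by
  rw [hP_succ, ← mul_assoc, ← C_mul, mul_one_div_cancel (sqrt_ne m), C_1, one_mul]

theorem derivative_hP_zero : derivative (hP 0) = 0 := by rw [hP_zero, derivative_C]

theorem derivative_hP (m : ℕ) : derivative (hP (m + 1)) = C (√(2 * ((m : ℝ) + 1))) * hP m := by
  induction m with
  | zero =>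
    have h := hP_succ 0
    rw [derivative_hP_zero, sub_zero] at h
    have h2 : derivative (hP 0) = 0 := derivative_hP_zero
    have h3 : derivative (2 * X * hP 0) = C 2 * hP 0 := by
      rw [derivative_mul, h2, mul_zero, add_zero, derivative_mul]
      simp only [derivative_ofNat, zero_mul, derivative_X, mul_one, zero_add]
      rfl
    rw [h, derivative_mul, derivative_C, zero_mul, zero_add, h3, ← mul_assoc, ← C_mul]
    congr 2
    have h4 : (0 : ℝ) ≤ 2 * (((0 : ℕ) : ℝ) + 1) := by positivity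
    have h5 := Real.mul_self_sqrt h4
    have h6 := sqrt_ne 0
    field_simp
    push_cast at *
    nlinarith
  | succ m ih =>
    have ih2 : derivative (derivative (hP (m + 1))) = C (√(2 * ((m : ℝ) + 1))) * derivative (hP m) := by
      rw [ih, derivative_mul, derivative_C, zero_mul, zero_add]
    have key : derivative (2 * X * hP (m + 1) - derivative (hP (m + 1))) =
        C (2 * (((m + 1 : ℕ) : ℝ) + 1)) * hP (m + 1) := by
      rw [derivative_sub, ih2, derivative_mul, ih]
      have e1 : derivative (2 * X : ℝ[X]) = C 2 := by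
        rw [derivative_mul]
        simp only [derivative_ofNat, zero_mul, derivative_X, mul_one, zero_add]
        rfl
      rw [e1]
      have e2 : 2 * X * (C (√(2 * ((m : ℝ) + 1))) * hP m) - C (√(2 * ((m : ℝ) + 1))) * derivative (hP m)
          = C (√(2 * ((m : ℝ) + 1))) * (2 * X * hP m - derivative (hP m)) := by ring
      rw [add_sub_assoc, e2, ← hP_succ', ← mul_assoc, ← C_mul, ← add_mul, ← C_add]
      congr 2
      have h4 : (0 : ℝ) ≤ 2 * ((m : ℝ) + 1) := by positivity
      have h5 := Real.mul_self_sqrt h4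
      rw [h5]; push_cast; ring
    rw [hP_succ (m + 1), derivative_mul, derivative_C, zero_mul, zero_add, key, ← mul_assoc, ← C_mul]
    congr 2
    have h4 : (0 : ℝ) ≤ 2 * (((m + 1 : ℕ) : ℝ) + 1) := by positivity
    have h5 := Real.mul_self_sqrt h4
    have h6 := sqrt_ne (m + 1)
    field_simp
    nlinarith

theorem x_mul_hP (m : ℕ) (x : ℝ) : x * (hP (m + 1)).eval x =
    √(((m : ℝ) + 1 + 1) / 2) * (hP (m + 2)).eval x + √(((m : ℝ) + 1) / 2) * (hP m).eval x := by
  have h := congrArg (Polynomial.eval x) (hP_succ' (m + 1))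
  rw [derivative_hP] at h
  simp only [eval_mul, eval_C, eval_sub, eval_X, eval_ofNat] at h
  have e1 : √(2 * (((m + 1 : ℕ) : ℝ) + 1)) = 2 * √(((m : ℝ) + 1 + 1) / 2) := by
    have : (2 * (((m + 1 : ℕ) : ℝ) + 1)) = 2 ^ 2 * (((m : ℝ) + 1 + 1) / 2) := by push_cast; ring
    rw [this, Real.sqrt_mul (by positivity), Real.sqrt_sq (by norm_num)]
  have e2 : √(2 * ((m : ℝ) + 1)) = 2 * √(((m : ℝ) + 1) / 2) := by
    have : (2 * ((m : ℝ) + 1)) = 2 ^ 2 * (((m : ℝ) + 1) / 2) := by ring
    rw [this, Real.sqrt_mul (by positivity), Real.sqrt_sq (by norm_num)]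
  rw [e1, e2] at h
  have h' : m + 1 + 1 = m + 2 := rfl
  rw [h'] at h
  linarith

theorem x_mul_hP_zero (x : ℝ) : x * (hP 0).eval x = √(1 / 2) * (hP 1).eval x := by
  have h := congrArg (Polynomial.eval x) (hP_succ' 0)
  rw [derivative_hP_zero] at h
  simp only [eval_mul, eval_C, eval_sub, eval_X, eval_ofNat, eval_zero] at h
  have e1 : √(2 * (((0 : ℕ) : ℝ) + 1)) = 2 * √(1 / 2) := by
    have : (2 * (((0 : ℕ) : ℝ) + 1)) = 2 ^ 2 * (1 / 2) := by push_cast; ring
    rw [this, Real.sqrt_mul (by positivity), Real.sqrt_sq (by norm_num)]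
  rw [e1] at h
  simp only [zero_add] at h
  linarith

/-- `x h_m = √((m+1)/2) h_{m+1} + √(m/2) h_{m-1}` (for `m = 0` the last term vanishes) -/
theorem x_mul_hf (m : ℕ) (x : ℝ) : x * hf m x =
    √(((m : ℝ) + 1) / 2) * hf (m + 1) x + √((m : ℝ) / 2) * hf (m - 1) x := by
  unfold hf
  cases m with
  | zero =>
    have := x_mul_hP_zero x
    simp only [Nat.cast_zero, zero_div, Real.sqrt_zero, zero_mul, add_zero, zero_add]
    rw [← mul_assoc, this, mul_assoc]
  | succ m =>
    have := x_mul_hP m x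
    simp only [Nat.cast_add, Nat.cast_one, Nat.add_sub_cancel]
    rw [← mul_assoc, this]
    ring

theorem hasDerivAt_gauss (x : ℝ) :
    HasDerivAt (fun x : ℝ => Real.exp (-(x ^ 2) / 2)) (-x * Real.exp (-(x ^ 2) / 2)) x := by
  have h1 : HasDerivAt (fun x : ℝ => -(x ^ 2) / 2) (-x) x := by
    have := ((hasDerivAt_pow 2 x).neg).div_const 2
    refine this.congr_deriv ?_
    norm_num
    ring
  refine h1.exp.congr_deriv ?_
  ring

/-- `h_m' = √(m/2) h_{m-1} - √((m+1)/2) h_{m+1}` -/
theorem hasDerivAt_hf (m : ℕ) (x : ℝ) : HasDerivAt (hf m)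
    (√((m : ℝ) / 2) * hf (m - 1) x - √(((m : ℝ) + 1) / 2) * hf (m + 1) x) x := by
  have h := (Polynomial.hasDerivAt (hP m) x).mul (hasDerivAt_gauss x)
  have hx := x_mul_hf m x
  refine HasDerivAt.congr_deriv (f := hf m) h ?_
  symm
  cases m with
  | zero =>
    rw [derivative_hP_zero]
    simp only [Nat.cast_zero, zero_div, Real.sqrt_zero, zero_mul, add_zero, zero_add, zero_sub,
      eval_zero] at hx ⊢
    rw [← hx]; unfold hf; ring
  | succ m =>
    rw [derivative_hP]
    simp only [Nat.cast_add, Nat.cast_one, Nat.add_sub_cancel, eval_mul, eval_C] at hx ⊢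
    have e2 : √(2 * ((m : ℝ) + 1)) = 2 * √(((m : ℝ) + 1) / 2) := by
      have : (2 * ((m : ℝ) + 1)) = 2 ^ 2 * (((m : ℝ) + 1) / 2) := by ring
      rw [this, Real.sqrt_mul (by positivity), Real.sqrt_sq (by norm_num)]
    rw [e2]
    have : (hP (m + 1)).eval x * (-x * Real.exp (-(x ^ 2) / 2)) = - (x * hf (m + 1) x) := by
      unfold hf; ring
    rw [this, hx]
    unfold hf; ring

theorem continuous_hf (m : ℕ) : Continuous (hf m) := by
  unfold hf
  fun_prop

theorem contDiff_hf (m : ℕ) : ContDiff ℝ ⊤ (hf m) := by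
  unfold hf
  have h1 : ContDiff ℝ ⊤ (fun x : ℝ => (hP m).eval x) := by
    have := (hP m).contDiff_aeval (n := ⊤) (𝕜 := ℝ)
    simpa using this
  fun_prop

/-- polynomial times Gaussian is integrable -/
theorem integrable_poly_gauss (P : Polynomial ℝ) {b : ℝ} (hb : 0 < b) :
    Integrable (fun x : ℝ => P.eval x * Real.exp (-b * x ^ 2)) := by
  induction P using Polynomial.induction_on' with
  | add p q hp hq =>
    simp only [eval_add, add_mul]
    exact hp.add hq
  | monomial n a =>
    simp only [eval_monomial]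
    have h := integrable_rpow_mul_exp_neg_mul_sq hb (s := (n : ℝ)) (by
      have := n.cast_nonneg (α := ℝ); linarith)
    have h2 := h.const_mul a
    refine h2.congr (Filter.Eventually.of_forall fun x => ?_)
    simp only [Real.rpow_natCast]
    ring

theorem hf_mul_hf (m k : ℕ) (x : ℝ) :
    hf m x * hf k x = (hP m * hP k).eval x * Real.exp (-1 * x ^ 2) := by
  unfold hf
  rw [eval_mul]
  have : Real.exp (-1 * x ^ 2) = Real.exp (-(x ^ 2) / 2) * Real.exp (-(x ^ 2) / 2) := by
    rw [← Real.exp_add]; ring_nf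
  rw [this]; ring

theorem integrable_hf_mul_hf (m k : ℕ) : Integrable (fun x => hf m x * hf k x) := by
  simp only [hf_mul_hf]
  exact integrable_poly_gauss _ one_pos

theorem integral_hf_zero_sq : ∫ x, hf 0 x * hf 0 x = 1 := by
  simp only [hf_mul_hf, hP_zero, ← C_mul, eval_C]
  rw [integral_const_mul, integral_gaussian, div_one, ← Real.rpow_add Real.pi_pos]
  rw [Real.sqrt_eq_rpow, ← Real.rpow_add Real.pi_pos]
  norm_num

/-- integration by parts: `∫ h_{m+1} h_k = √(k/(m+1)) ∫ h_m h_{k-1}` in the form without quotients -/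
theorem integral_hf_succ (m k : ℕ) : √(((m : ℝ) + 1) / 2) * ∫ x, hf (m + 1) x * hf k x =
    √((k : ℝ) / 2) * ∫ x, hf m x * hf (k - 1) x := by
  -- ∫ (x h_m - h_m') h_k = ∫ h_m (x h_k + h_k')
  have hd : ∀ n x, HasDerivAt (hf n)
    (√((n : ℝ) / 2) * hf (n - 1) x - √(((n : ℝ) + 1) / 2) * hf (n + 1) x) x := hasDerivAt_hf
  have hint : ∀ a b : ℕ, Integrable (fun x => hf a x * hf b x) := integrable_hf_mul_hf
  have ibp := integral_mul_deriv_eq_deriv_mul_of_integrable
    (u := hf m) (v := hf k)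
    (u' := fun x => √((m : ℝ) / 2) * hf (m - 1) x - √(((m : ℝ) + 1) / 2) * hf (m + 1) x)
    (v' := fun x => √((k : ℝ) / 2) * hf (k - 1) x - √(((k : ℝ) + 1) / 2) * hf (k + 1) x)
    (fun x _ => hd m x) (fun x _ => hd k x) ?_ ?_ (hint m k)
  · have e1 : ∫ x, hf m x * (√((k : ℝ) / 2) * hf (k - 1) x - √(((k : ℝ) + 1) / 2) * hf (k + 1) x) =
        √((k : ℝ) / 2) * (∫ x, hf m x * hf (k - 1) x) -
        √(((k : ℝ) + 1) / 2) * ∫ x, hf m x * hf (k + 1) x := by
      rw [← integral_const_mul, ← integral_const_mul, ← integral_sub]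
      · congr 1; ext x; ring
      · exact (hint _ _).const_mul _
      · exact (hint _ _).const_mul _
    have e2 : ∫ x, (√((m : ℝ) / 2) * hf (m - 1) x - √(((m : ℝ) + 1) / 2) * hf (m + 1) x) * hf k x =
        √((m : ℝ) / 2) * (∫ x, hf (m - 1) x * hf k x) -
        √(((m : ℝ) + 1) / 2) * ∫ x, hf (m + 1) x * hf k x := by
      rw [← integral_const_mul, ← integral_const_mul, ← integral_sub]
      · congr 1; ext x; ring
      · exact (hint _ _).const_mul _
      · exact (hint _ _).const_mul _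
    rw [e1, e2] at ibp
    -- ∫ x h_m h_k in two ways
    have e3 : ∫ x, (x * hf m x) * hf k x =
        √(((m : ℝ) + 1) / 2) * (∫ x, hf (m + 1) x * hf k x) +
        √((m : ℝ) / 2) * ∫ x, hf (m - 1) x * hf k x := by
      rw [← integral_const_mul, ← integral_const_mul, ← integral_add]
      · congr 1; ext x; rw [x_mul_hf]; ring
      · exact (hint _ _).const_mul _
      · exact (hint _ _).const_mul _
    have e4 : ∫ x, (x * hf m x) * hf k x =
        √(((k : ℝ) + 1) / 2) * (∫ x, hf m x * hf (k + 1) x) +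
        √((k : ℝ) / 2) * ∫ x, hf m x * hf (k - 1) x := by
      rw [← integral_const_mul, ← integral_const_mul, ← integral_add]
      · congr 1; ext x
        have : x * hf m x * hf k x = hf m x * (x * hf k x) := by ring
        rw [this, x_mul_hf]; ring
      · exact (hint _ _).const_mul _
      · exact (hint _ _).const_mul _
    linarith
  · have : (hf m * fun x => √((k : ℝ) / 2) * hf (k - 1) x - √(((k : ℝ) + 1) / 2) * hf (k + 1) x) =
      fun x => √((k : ℝ) / 2) * (hf m x * hf (k - 1) x) -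
        √(((k : ℝ) + 1) / 2) * (hf m x * hf (k + 1) x) := by
      ext x; simp only [Pi.mul_apply]; ring
    rw [this]
    exact ((hint _ _).const_mul _).sub ((hint _ _).const_mul _)
  · have : ((fun x => √((m : ℝ) / 2) * hf (m - 1) x - √(((m : ℝ) + 1) / 2) * hf (m + 1) x) * hf k) =
      fun x => √((m : ℝ) / 2) * (hf (m - 1) x * hf k x) -
        √(((m : ℝ) + 1) / 2) * (hf (m + 1) x * hf k x) := by
      ext x; simp only [Pi.mul_apply]; ring
    rw [this]
    exact ((hint _ _).const_mul _).sub ((hint _ _).const_mul _)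

theorem integral_hf_mul_hf (m k : ℕ) : ∫ x, hf m x * hf k x = if m = k then 1 else 0 := by
  induction m generalizing k with
  | zero =>
    cases k with
    | zero => simpa using integral_hf_zero_sq
    | succ k =>
      have h := integral_hf_succ k 0
      simp only [Nat.cast_zero, zero_div, Real.sqrt_zero, zero_mul] at h
      have hk : √(((k : ℝ) + 1) / 2) ≠ 0 := (Real.sqrt_pos.2 (by positivity)).ne'
      have h2 : ∫ x, hf (k + 1) x * hf 0 x = 0 := by
        rcases mul_eq_zero.1 h with h | h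
        · exact absurd h hk
        · exact h
      rw [if_neg (by omega)]
      rw [← h2]
      congr 1; ext x; ring
  | succ m ih =>
    have h := integral_hf_succ m k
    have hm : √(((m : ℝ) + 1) / 2) ≠ 0 := (Real.sqrt_pos.2 (by positivity)).ne'
    cases k with
    | zero =>
      simp only [Nat.cast_zero, zero_div, Real.sqrt_zero, zero_mul] at h
      rw [if_neg (by omega)]
      rcases mul_eq_zero.1 h with h | h
      · exact absurd h hm
      · exact h
    | succ k =>
      rw [Nat.add_sub_cancel, ih k] at h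
      by_cases hmk : m = k
      · subst hmk
        simp only [if_true, mul_one, Nat.cast_add, Nat.cast_one] at h ⊢
        exact mul_left_cancel₀ hm (by rw [h, mul_one])
      · rw [if_neg hmk, mul_zero] at h
        rw [if_neg (by omega)]
        rcases mul_eq_zero.1 h with h | h
        · exact absurd h hm
        · exact h

theorem hf_zero (x : ℝ) : hf 0 x = π ^ (-(1 / 4) : ℝ) * Real.exp (-(x ^ 2) / 2) := by
  unfold hf; rw [hP_zero, eval_C]

theorem differentiable_hf (m : ℕ) : Differentiable ℝ (hf m) :=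
  fun x => (hasDerivAt_hf m x).differentiableAt

theorem deriv_hf (m : ℕ) (x : ℝ) : deriv (hf m) x =
    √((m : ℝ) / 2) * hf (m - 1) x - √(((m : ℝ) + 1) / 2) * hf (m + 1) x :=
  (hasDerivAt_hf m x).deriv

/-- Hermite's equation `h_m'' = (x^2 - (2m+1)) h_m` (derivative of the formula for `h_m'`) -/
theorem hasDerivAt_deriv_hf (m : ℕ) (x : ℝ) :
    HasDerivAt (fun y => √((m : ℝ) / 2) * hf (m - 1) y - √(((m : ℝ) + 1) / 2) * hf (m + 1) y)
      ((x ^ 2 - (2 * m + 1)) * hf m x) x := by
  have h1 := ((hasDerivAt_hf (m - 1) x).const_mul √((m : ℝ) / 2)).sub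
    ((hasDerivAt_hf (m + 1) x).const_mul √(((m : ℝ) + 1) / 2))
  refine h1.congr_deriv ?_
  have s1 : √(((m : ℝ) + 1) / 2) * √(((m : ℝ) + 1) / 2) = ((m : ℝ) + 1) / 2 :=
    Real.mul_self_sqrt (by positivity)
  have e0 := x_mul_hf m x
  have e2 := x_mul_hf (m + 1) x
  have ex : x ^ 2 * hf m x = x * (x * hf m x) := by ring
  rw [sub_mul, ex, e0, mul_add, mul_left_comm, e2]
  rcases Nat.eq_zero_or_pos m with rfl | hm
  · simp only [Nat.cast_zero, zero_div, Real.sqrt_zero, zero_mul, add_zero, zero_add, zero_sub,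
      Nat.cast_one, mul_zero, Nat.zero_sub] at *
    push_cast at *
    linear_combination (hf 0 x) * (-2 * s1)
  · obtain ⟨k, rfl⟩ : ∃ k, m = k + 1 := ⟨m - 1, by omega⟩
    have e1 := x_mul_hf k x
    have s2 : √(((k : ℝ) + 1) / 2) * √(((k : ℝ) + 1) / 2) = ((k : ℝ) + 1) / 2 :=
      Real.mul_self_sqrt (by positivity)
    simp only [Nat.add_sub_cancel] at *
    push_cast at *
    have e3 : x * (√(((k : ℝ) + 1) / 2) * hf k x) =
      √(((k : ℝ) + 1) / 2) * (√(((k : ℝ) + 1) / 2) * hf (k + 1) x + √((k : ℝ) / 2) * hf (k - 1) x) := by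
      rw [← e1]; ring
    rw [e3]
    linear_combination (hf (k + 1) x) * (-2 * s1) + (hf (k + 1) x) * (-2 * s2)

end Crest.Agent.R338.HO
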