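import Mathlib
import Crest.Agent.R338.HO1a

/-!
Row 338, part 5 (Coulomb estimates), definitions.

* `P3 = EuclideanSpace ℝ (Fin 3)` (the frozen `Pos3` is the same abbreviation);
* `D f g = ∫∫ f(x) g(y) / ‖x - y‖`, the Coulomb form of two real functions on `ℝ³`, written as one
  integral over `P3 × P3`;
* `Q τ f g = ∫∫ f(x) g(y) exp(-τ²‖x-y‖²)`;
* `phi a x = ∏ c, h_{a c}(x c)`, the Hermite product functions (`h = HO.hf`);
* `W a b c d = D (phi a * phi b) (phi c * phi d)`.
-/

open MeasureTheory Real Set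

noncomputable section

namespace Crest.Agent.R338.CE

/-- Euclidean ℝ³. -/
abbrev P3 := EuclideanSpace ℝ (Fin 3)

/-- The Coulomb form of two real functions on ℝ³. -/
def D (f g : P3 → ℝ) : ℝ := ∫ z : P3 × P3, f z.1 * g z.2 / ‖z.1 - z.2‖

/-- The Gaussian form of two real functions on ℝ³. -/
def Q (τ : ℝ) (f g : P3 → ℝ) : ℝ :=
  ∫ z : P3 × P3, f z.1 * g z.2 * Real.exp (-(τ ^ 2 * ‖z.1 - z.2‖ ^ 2))

/-- Hermite product function on ℝ³. -/
def phi (a : Fin 3 → ℕ) (x : P3) : ℝ := ∏ c, HO.hf (a c) (x c)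

/-- The Coulomb integrals of the Hermite product functions. -/
def W (a b c d : Fin 3 → ℕ) : ℝ :=
  D (fun x => phi a x * phi b x) (fun x => phi c x * phi d x)

theorem D_symm (f g : P3 → ℝ) : D f g = D g f := by
  unfold D
  rw [Measure.volume_eq_prod, ← integral_prod_swap]
  refine integral_congr_ae (Filter.Eventually.of_forall fun z => ?_)
  simp only [Prod.fst_swap, Prod.snd_swap]
  rw [norm_sub_rev, mul_comm]

theorem Q_symm (τ : ℝ) (f g : P3 → ℝ) : Q τ f g = Q τ g f := by
  unfold Q
  rw [Measure.volume_eq_prod, ← integral_prod_swap]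
  refine integral_congr_ae (Filter.Eventually.of_forall fun z => ?_)
  simp only [Prod.fst_swap, Prod.snd_swap]
  rw [norm_sub_rev, mul_comm (f z.2)]

theorem W_symm (a b c d : Fin 3 → ℕ) : W a b c d = W c d a b := D_symm _ _

theorem W_swap_left (a b c d : Fin 3 → ℕ) : W a b c d = W b a c d := by
  unfold W; congr 1; funext x; ring

theorem W_swap_right (a b c d : Fin 3 → ℕ) : W a b c d = W a b d c := by
  unfold W; congr 1; funext x; ring

/-- The class of functions on which everything is absolutely convergent: integrable, bounded. -/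
structure Nice (f : P3 → ℝ) : Prop where
  int : Integrable f
  bdd : ∃ C : ℝ, ∀ x, |f x| ≤ C

end Crest.Agent.R338.CE
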