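import Mathlib
import Crest.Agent.R338.CE0

/-!
Row 338, part 5: heat-kernel representation of the Coulomb form.
-/

open MeasureTheory Real Set

noncomputable section

namespace Crest.Agent.R338.CE

/-- `1/r = (2/√π) ∫_0^∞ exp(-τ²r²) dτ`, also true for `r = 0` with Lean's conventions. -/
theorem integral_exp_tau (r : ℝ) (hr : 0 ≤ r) :
    ∫ τ in Ioi (0 : ℝ), Real.exp (-(τ ^ 2 * r ^ 2)) = √π / 2 / r := by
  rcases hr.eq_or_lt with h | h
  · subst h
    simp [Measure.real]
  · have := integral_gaussian_Ioi (r ^ 2)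
    have e : ∀ τ : ℝ, Real.exp (-(τ ^ 2 * r ^ 2)) = Real.exp (-r ^ 2 * τ ^ 2) := by
      intro τ; congr 1; ring
    simp_rw [e]
    rw [this, Real.sqrt_div' _ (by positivity), Real.sqrt_sq hr]
    ring

theorem integrable_exp_norm {τ : ℝ} (hτ : 0 < τ) :
    Integrable (fun v : P3 => Real.exp (-(τ ^ 2 * ‖v‖ ^ 2))) := by
  have h := (GaussianFourier.integrable_cexp_neg_mul_sq_norm_add (V := P3)
    (b := ((τ ^ 2 : ℝ) : ℂ)) (by rw [Complex.ofReal_re]; positivity) 0 0).norm
  refine h.congr (Filter.Eventually.of_forall fun v => ?_)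
  simp only [Complex.norm_exp]
  congr 1
  simp [← Complex.ofReal_pow, ← Complex.ofReal_mul, ← Complex.ofReal_neg]

theorem integral_exp_norm {τ : ℝ} (hτ : 0 < τ) :
    ∫ v : P3, Real.exp (-(τ ^ 2 * ‖v‖ ^ 2)) = (√π / τ) ^ 3 := by
  have h := GaussianFourier.integral_rexp_neg_mul_sq_norm (V := P3) (b := τ ^ 2) (by positivity)
  have e : ∀ v : P3, Real.exp (-(τ ^ 2 * ‖v‖ ^ 2)) = Real.exp (-τ ^ 2 * ‖v‖ ^ 2) := by
    intro v; congr 1; ring
  simp_rw [e]
  rw [h]
  simp only [finrank_euclideanSpace, Fintype.card_fin]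
  have : (π / τ ^ 2) = (√π / τ) ^ 2 := by rw [div_pow, Real.sq_sqrt pi_pos.le]
  rw [this, ← Real.rpow_natCast, ← Real.rpow_natCast, ← Real.rpow_mul (by positivity)]
  norm_num

theorem continuous_gauss_prod : Continuous (fun z : (P3 × P3) × ℝ =>
    Real.exp (-(z.2 ^ 2 * ‖z.1.1 - z.1.2‖ ^ 2))) := by fun_prop

theorem exp_le_one' (τ : ℝ) (v : P3) : Real.exp (-(τ ^ 2 * ‖v‖ ^ 2)) ≤ 1 := by
  rw [Real.exp_le_one_iff]; nlinarith [mul_nonneg (sq_nonneg τ) (sq_nonneg ‖v‖)]

/-- integrability of `f(x) g(y)` -/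
theorem integrable_fg {f g : P3 → ℝ} (hf : Integrable f) (hg : Integrable g) :
    Integrable (fun z : P3 × P3 => f z.1 * g z.2) := hf.mul_prod hg

theorem integrable_Q {f g : P3 → ℝ} (hf : Integrable f) (hg : Integrable g) (τ : ℝ) :
    Integrable (fun z : P3 × P3 => f z.1 * g z.2 * Real.exp (-(τ ^ 2 * ‖z.1 - z.2‖ ^ 2))) := by
  refine Integrable.mono (integrable_fg hf hg) ?_ (Filter.Eventually.of_forall fun z => ?_)
  · exact (integrable_fg hf hg).aestronglyMeasurable.mul
      (by fun_prop : Continuous fun z : P3 × P3 =>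
        Real.exp (-(τ ^ 2 * ‖z.1 - z.2‖ ^ 2))).aestronglyMeasurable
  · rw [norm_mul, Real.norm_eq_abs (Real.exp _), Real.abs_exp]
    exact mul_le_of_le_one_right (norm_nonneg _) (exp_le_one' τ _)

/-- the Gaussian form of `|f|` and `1`. -/
theorem integrable_f_gauss {f : P3 → ℝ} (hf : Integrable f) {τ : ℝ} (hτ : 0 < τ) :
    Integrable (fun z : P3 × P3 => f z.1 * Real.exp (-(τ ^ 2 * ‖z.1 - z.2‖ ^ 2))) := by
  have h := (integrable_exp_norm hτ)
  rw [Measure.volume_eq_prod]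
  have hm : AEStronglyMeasurable (fun z : P3 × P3 =>
      f z.1 * Real.exp (-(τ ^ 2 * ‖z.1 - z.2‖ ^ 2))) ((volume : Measure P3).prod volume) := by
    exact hf.aestronglyMeasurable.comp_fst.mul
      (by fun_prop : Continuous fun z : P3 × P3 =>
        Real.exp (-(τ ^ 2 * ‖z.1 - z.2‖ ^ 2))).aestronglyMeasurable
  rw [integrable_prod_iff hm]
  constructor
  · refine Filter.Eventually.of_forall fun x => ?_
    exact ((integrable_exp_norm hτ).comp_sub_left x).const_mul (f x)
  · have e : ∀ x : P3, ∫ y : P3, ‖f x * Real.exp (-(τ ^ 2 * ‖x - y‖ ^ 2))‖ =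
        ‖f x‖ * (√π / τ) ^ 3 := by
      intro x
      simp_rw [norm_mul, Real.norm_eq_abs (Real.exp _), Real.abs_exp]
      rw [integral_const_mul, ← integral_exp_norm hτ]
      congr 1
      exact integral_sub_left_eq_self (fun v : P3 => Real.exp (-(τ ^ 2 * ‖v‖ ^ 2))) volume x
    simp_rw [e]
    exact hf.norm.mul_const _

theorem integral_f_gauss {f : P3 → ℝ} (hf : Integrable f) {τ : ℝ} (hτ : 0 < τ) :
    ∫ z : P3 × P3, f z.1 * Real.exp (-(τ ^ 2 * ‖z.1 - z.2‖ ^ 2)) =
      (∫ x, f x) * (√π / τ) ^ 3 := by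
  have hi := integrable_f_gauss hf hτ
  rw [Measure.volume_eq_prod] at hi ⊢
  rw [integral_prod _ hi]
  have e : ∀ x : P3, ∫ y : P3, f x * Real.exp (-(τ ^ 2 * ‖x - y‖ ^ 2)) =
        f x * (√π / τ) ^ 3 := by
      intro x
      rw [integral_const_mul, ← integral_exp_norm hτ]
      congr 1
      exact integral_sub_left_eq_self (fun v : P3 => Real.exp (-(τ ^ 2 * ‖v‖ ^ 2))) volume x
  simp_rw [e]
  rw [integral_mul_const]

/-- The norm of the integrand, integrated: two bounds. -/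
theorem norm_Q_le_one {f g : P3 → ℝ} (hf : Integrable f) (hg : Integrable g) (τ : ℝ) :
    ∫ z : P3 × P3, ‖f z.1 * g z.2 * Real.exp (-(τ ^ 2 * ‖z.1 - z.2‖ ^ 2))‖ ≤
      (∫ x, |f x|) * ∫ y, |g y| := by
  have : (∫ x, |f x|) * ∫ y, |g y| = ∫ z : P3 × P3, |f z.1| * |g z.2| :=
    (integral_prod_mul (fun x => |f x|) (fun y => |g y|)).symm
  rw [this]
  refine integral_mono (integrable_Q hf hg τ).norm (integrable_fg hf.abs hg.abs) fun z => ?_
  simp only [norm_mul, Real.norm_eq_abs, Real.abs_exp]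
  exact mul_le_of_le_one_right (by positivity) (exp_le_one' τ _)

theorem norm_Q_le_cube {f g : P3 → ℝ} (hf : Integrable f) (hg : Integrable g) {C : ℝ}
    (hC : ∀ x, |g x| ≤ C) {τ : ℝ} (hτ : 0 < τ) :
    ∫ z : P3 × P3, ‖f z.1 * g z.2 * Real.exp (-(τ ^ 2 * ‖z.1 - z.2‖ ^ 2))‖ ≤
      C * (∫ x, |f x|) * (√π / τ) ^ 3 := by
  have h1 := (integrable_f_gauss hf.abs hτ).const_mul C
  have : C * (∫ x, |f x|) * (√π / τ) ^ 3 =
      ∫ z : P3 × P3, C * (|f z.1| * Real.exp (-(τ ^ 2 * ‖z.1 - z.2‖ ^ 2))) := by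
    rw [integral_const_mul, integral_f_gauss hf.abs hτ]; ring
  rw [this]
  refine integral_mono (integrable_Q hf hg τ).norm h1 fun z => ?_
  simp only [norm_mul, Real.norm_eq_abs, Real.abs_exp]
  have : |f z.1| * |g z.2| * Real.exp (-(τ ^ 2 * ‖z.1 - z.2‖ ^ 2)) ≤
      |f z.1| * C * Real.exp (-(τ ^ 2 * ‖z.1 - z.2‖ ^ 2)) := by
    gcongr
    exact hC _
  linarith

/-- the full integrand is integrable over `(P3 × P3) × (0,∞)`. -/
theorem integrable_heat {f g : P3 → ℝ} (hf : Integrable f) (hg : Nice g) :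
    Integrable (fun z : (P3 × P3) × ℝ =>
      f z.1.1 * g z.1.2 * Real.exp (-(z.2 ^ 2 * ‖z.1.1 - z.1.2‖ ^ 2)))
      ((volume : Measure (P3 × P3)).prod (volume.restrict (Ioi (0 : ℝ)))) := by
  obtain ⟨C, hC⟩ := hg.bdd
  have hC0 : 0 ≤ C := (abs_nonneg _).trans (hC 0)
  have hm : AEStronglyMeasurable (fun z : (P3 × P3) × ℝ =>
      f z.1.1 * g z.1.2 * Real.exp (-(z.2 ^ 2 * ‖z.1.1 - z.1.2‖ ^ 2)))
      ((volume : Measure (P3 × P3)).prod (volume.restrict (Ioi (0 : ℝ)))) := by
    exact (integrable_fg hf hg.int).aestronglyMeasurable.comp_fst.mul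
      continuous_gauss_prod.aestronglyMeasurable
  rw [integrable_prod_iff' hm]
  constructor
  · exact Filter.Eventually.of_forall fun τ => integrable_Q hf hg.int τ
  · have hN : AEStronglyMeasurable (fun τ : ℝ =>
        ∫ z : P3 × P3, ‖f z.1 * g z.2 * Real.exp (-(τ ^ 2 * ‖z.1 - z.2‖ ^ 2))‖)
        (volume.restrict (Ioi (0 : ℝ))) := hm.norm.prod_swap.integral_prod_right'
    have hnn : ∀ τ : ℝ, 0 ≤ ∫ z : P3 × P3,
        ‖f z.1 * g z.2 * Real.exp (-(τ ^ 2 * ‖z.1 - z.2‖ ^ 2))‖ :=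
      fun τ => integral_nonneg fun z => norm_nonneg _
    rw [← Ioc_union_Ioi_eq_Ioi (zero_le_one' ℝ)] at hN ⊢
    have hA : IntegrableOn (fun τ : ℝ => ∫ z : P3 × P3,
        ‖f z.1 * g z.2 * Real.exp (-(τ ^ 2 * ‖z.1 - z.2‖ ^ 2))‖) (Ioc 0 1) := by
      refine Integrable.mono' (g := fun _ => (∫ x, |f x|) * ∫ y, |g y|)
        (integrable_const _) (hN.mono_measure (Measure.restrict_mono subset_union_left le_rfl)) ?_
      refine Filter.Eventually.of_forall fun τ => ?_
      rw [Real.norm_eq_abs, abs_of_nonneg (hnn τ)]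
      exact norm_Q_le_one hf hg.int τ
    have hB : IntegrableOn (fun τ : ℝ => ∫ z : P3 × P3,
        ‖f z.1 * g z.2 * Real.exp (-(τ ^ 2 * ‖z.1 - z.2‖ ^ 2))‖) (Ioi 1) := by
      refine Integrable.mono' (g := fun τ : ℝ => C * (∫ x, |f x|) * (√π) ^ 3 * τ ^ (-3 : ℝ))
        ?_ (hN.mono_measure (Measure.restrict_mono subset_union_right le_rfl)) ?_
      · exact ((integrableOn_Ioi_rpow_of_lt (by norm_num) one_pos)).const_mul _
      · refine (ae_restrict_iff' measurableSet_Ioi).2 (Filter.Eventually.of_forall fun τ hτ => ?_)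
        have hτ0 : (0 : ℝ) < τ := lt_trans one_pos hτ
        rw [Real.norm_eq_abs, abs_of_nonneg (hnn τ)]
        refine (norm_Q_le_cube hf hg.int hC hτ0).trans (le_of_eq ?_)
        rw [Real.rpow_neg hτ0.le, div_pow]
        norm_num
        ring
    exact hA.union hB

/-- The Coulomb integrand is integrable. -/
theorem integrable_D {f g : P3 → ℝ} (hf : Integrable f) (hg : Nice g) :
    Integrable (fun z : P3 × P3 => f z.1 * g z.2 / ‖z.1 - z.2‖) := by
  have h := (integrable_heat hf hg).integral_prod_left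
  have e : (fun z : P3 × P3 => ∫ τ in Ioi (0 : ℝ), f z.1 * g z.2 *
      Real.exp (-(τ ^ 2 * ‖z.1 - z.2‖ ^ 2))) =
      fun z : P3 × P3 => (√π / 2) * (f z.1 * g z.2 / ‖z.1 - z.2‖) := by
    funext z
    rw [integral_const_mul, integral_exp_tau _ (norm_nonneg _)]
    ring
  have h' : Integrable (fun z : P3 × P3 => (√π / 2) * (f z.1 * g z.2 / ‖z.1 - z.2‖)) := by
    rw [← e]; exact h
  have hc : (√π / 2) ≠ 0 := by positivity
  have := h'.const_mul (√π / 2)⁻¹
  refine this.congr (Filter.Eventually.of_forall fun z => ?_)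
  field_simp

/-- The heat-kernel representation of the Coulomb form. -/
theorem D_eq_heat {f g : P3 → ℝ} (hf : Integrable f) (hg : Nice g) :
    D f g = 2 / √π * ∫ τ in Ioi (0 : ℝ), Q τ f g := by
  have h := integrable_heat hf hg
  have h2 := integral_integral_swap (f := fun (z : P3 × P3) (τ : ℝ) =>
    f z.1 * g z.2 * Real.exp (-(τ ^ 2 * ‖z.1 - z.2‖ ^ 2))) h
  unfold Q
  rw [← h2]
  have e : (fun z : P3 × P3 => ∫ τ in Ioi (0 : ℝ), f z.1 * g z.2 *
      Real.exp (-(τ ^ 2 * ‖z.1 - z.2‖ ^ 2))) =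
      fun z : P3 × P3 => (√π / 2) * (f z.1 * g z.2 / ‖z.1 - z.2‖) := by
    funext z
    rw [integral_const_mul, integral_exp_tau _ (norm_nonneg _)]
    ring
  rw [e, integral_const_mul]
  unfold D
  have hc : √π ≠ 0 := by positivity
  field_simp

/-- `τ ↦ Q τ f g` is integrable on `(0,∞)`. -/
theorem integrableOn_Q {f g : P3 → ℝ} (hf : Integrable f) (hg : Nice g) :
    IntegrableOn (fun τ => Q τ f g) (Ioi (0 : ℝ)) :=
  (integrable_heat hf hg).integral_prod_right

/-- Iterated form of the Coulomb form. -/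
theorem D_eq_iterated {f g : P3 → ℝ} (hf : Integrable f) (hg : Nice g) :
    D f g = ∫ x, ∫ y, f x * g y / ‖x - y‖ := by
  have h := integrable_D hf hg
  unfold D
  rw [Measure.volume_eq_prod] at h ⊢
  exact integral_prod _ h

theorem Nice.add {f g : P3 → ℝ} (hf : Nice f) (hg : Nice g) : Nice (fun x => f x + g x) := by
  obtain ⟨A, hA⟩ := hf.bdd
  obtain ⟨B, hB⟩ := hg.bdd
  exact ⟨hf.int.add hg.int, A + B, fun x => (abs_add_le _ _).trans (add_le_add (hA x) (hB x))⟩

theorem Nice.const_mul {f : P3 → ℝ} (hf : Nice f) (c : ℝ) : Nice (fun x => c * f x) := by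
  obtain ⟨A, hA⟩ := hf.bdd
  exact ⟨hf.int.const_mul c, |c| * A, fun x => by
    rw [abs_mul]; exact mul_le_mul_of_nonneg_left (hA x) (abs_nonneg c)⟩

theorem Nice.neg {f : P3 → ℝ} (hf : Nice f) : Nice (fun x => -f x) := by
  have := hf.const_mul (-1)
  simpa using this

theorem Nice.sub {f g : P3 → ℝ} (hf : Nice f) (hg : Nice g) : Nice (fun x => f x - g x) := by
  have := hf.add hg.neg
  simpa [sub_eq_add_neg] using this

theorem Nice.abs {f : P3 → ℝ} (hf : Nice f) : Nice (fun x => |f x|) := by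
  obtain ⟨A, hA⟩ := hf.bdd
  exact ⟨hf.int.abs, A, fun x => by rw [abs_abs]; exact hA x⟩

theorem Nice.sum {ι : Type*} (s : Finset ι) {f : ι → P3 → ℝ} (hf : ∀ i ∈ s, Nice (f i)) :
    Nice (fun x => ∑ i ∈ s, f i x) := by
  classical
  induction s using Finset.induction_on with
  | empty => exact ⟨by simp, 0, by simp⟩
  | insert i s hi ih =>
    have h1 := hf i (Finset.mem_insert_self _ _)
    have h2 := ih (fun j hj => hf j (Finset.mem_insert_of_mem hj))
    have := h1.add h2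
    simpa [Finset.sum_insert hi] using this

theorem D_add_left {f f' g : P3 → ℝ} (hf : Integrable f) (hf' : Integrable f') (hg : Nice g) :
    D (fun x => f x + f' x) g = D f g + D f' g := by
  unfold D
  rw [← integral_add (integrable_D hf hg) (integrable_D hf' hg)]
  refine integral_congr_ae (Filter.Eventually.of_forall fun z => ?_)
  simp only
  ring

theorem D_const_mul_left (f g : P3 → ℝ) (c : ℝ) :
    D (fun x => c * f x) g = c * D f g := by
  unfold D
  rw [← integral_const_mul]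
  refine integral_congr_ae (Filter.Eventually.of_forall fun z => ?_)
  simp only
  ring

theorem D_add_right {f g g' : P3 → ℝ} (hf : Integrable f) (hg : Nice g) (hg' : Nice g') :
    D f (fun x => g x + g' x) = D f g + D f g' := by
  unfold D
  rw [← integral_add (integrable_D hf hg) (integrable_D hf hg')]
  refine integral_congr_ae (Filter.Eventually.of_forall fun z => ?_)
  simp only
  ring

theorem D_const_mul_right (f g : P3 → ℝ) (c : ℝ) :
    D f (fun x => c * g x) = c * D f g := by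
  unfold D
  rw [← integral_const_mul]
  refine integral_congr_ae (Filter.Eventually.of_forall fun z => ?_)
  simp only
  ring

theorem Q_add_left {f f' g : P3 → ℝ} (hf : Integrable f) (hf' : Integrable f')
    (hg : Integrable g) (τ : ℝ) :
    Q τ (fun x => f x + f' x) g = Q τ f g + Q τ f' g := by
  unfold Q
  rw [← integral_add (integrable_Q hf hg τ) (integrable_Q hf' hg τ)]
  refine integral_congr_ae (Filter.Eventually.of_forall fun z => ?_)
  simp only
  ring

theorem D_nonneg_of_nonneg {f g : P3 → ℝ} (hf : ∀ x, 0 ≤ f x) (hg : ∀ x, 0 ≤ g x) :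
    0 ≤ D f g := by
  unfold D
  exact integral_nonneg fun z => div_nonneg (mul_nonneg (hf _) (hg _)) (norm_nonneg _)

theorem D_mono {f f' g g' : P3 → ℝ} (hf' : Integrable f') (hg' : Nice g')
    (hf : Integrable f) (hg : Nice g)
    (hf0 : ∀ x, 0 ≤ f x) (hg0 : ∀ x, 0 ≤ g x)
    (h1 : ∀ x, f x ≤ f' x) (h2 : ∀ x, g x ≤ g' x) : D f g ≤ D f' g' := by
  unfold D
  refine integral_mono (integrable_D hf hg) (integrable_D hf' hg') fun z => ?_
  simp only
  have := mul_le_mul (h1 z.1) (h2 z.2) (hg0 z.2) ((hf0 z.1).trans (h1 z.1))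
  exact div_le_div_of_nonneg_right this (norm_nonneg _)

theorem abs_D_le {f g : P3 → ℝ} : |D f g| ≤ D (fun x => |f x|) (fun x => |g x|) := by
  unfold D
  refine (abs_integral_le_integral_abs).trans (le_of_eq ?_)
  refine integral_congr_ae (Filter.Eventually.of_forall fun z => ?_)
  simp only [abs_div, abs_mul, abs_norm]

end Crest.Agent.R338.CE
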