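import Crest.Agent.R338.HO1a
import Crest.Agent.R338.HOGauss
import Crest.Agent.R335.H1Fourier

/-!
# Row 338, module HO1b (helper789): product Hermite functions on `EuclideanSpace ℝ ι`

`Phi α x = ∏ i, hf (α i) (x i)`, `PhiS α` the same as a complex Schwartz function.
-/

set_option autoImplicit false

open MeasureTheory Real SchwartzMap
open scoped Nat ContDiff

noncomputable section

namespace Crest.Agent.R338.HO

open Crest.Agent.R335.HF (E)

variable {ι : Type*} [Fintype ι]

/-- product Hermite functions -/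
def Phi (α : ι → ℕ) (x : E ι) : ℝ := ∏ i, hf (α i) (x i)

theorem Phi_eq (α : ι → ℕ) (x : E ι) :
    Phi α x = (∏ i, (hP (α i)).eval (x i)) * Real.exp (-(‖x‖ ^ 2) / 2) := by
  unfold Phi hf
  rw [Finset.prod_mul_distrib]
  congr 1
  rw [← Real.exp_sum, EuclideanSpace.norm_sq_eq]
  congr 1
  simp only [Real.norm_eq_abs, sq_abs]
  rw [← Finset.sum_neg_distrib, Finset.sum_div]

theorem htg_coord (i : ι) : Function.HasTemperateGrowth (fun x : E ι => x i) := by
  have : (fun x : E ι => x i) = (EuclideanSpace.proj i : E ι →L[ℝ] ℝ) := by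
    ext x; simp
  rw [this]
  exact (EuclideanSpace.proj i : E ι →L[ℝ] ℝ).hasTemperateGrowth

theorem htg_poly (P : Polynomial ℝ) (i : ι) :
    Function.HasTemperateGrowth (fun x : E ι => P.eval (x i)) := by
  induction P using Polynomial.induction_on' with
  | add p q hp hq =>
    simp only [Polynomial.eval_add]
    exact hp.fun_add hq
  | monomial n a =>
    simp only [Polynomial.eval_monomial]
    exact (Function.HasTemperateGrowth.const a).fun_mul ((htg_coord i).fun_pow n)

theorem htg_prod {s : Finset ι} {f : ι → E ι → ℝ}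
    (h : ∀ i ∈ s, Function.HasTemperateGrowth (f i)) :
    Function.HasTemperateGrowth (fun x => ∏ i ∈ s, f i x) := by
  classical
  induction s using Finset.induction_on with
  | empty => simp
  | insert a s ha ih =>
    simp only [Finset.prod_insert ha]
    exact (h a (Finset.mem_insert_self a s)).fun_mul
      (ih fun i hi => h i (Finset.mem_insert_of_mem hi))

/-- the polynomial factor -/
def coef (α : ι → ℕ) (x : E ι) : ℂ := ((∏ i, (hP (α i)).eval (x i) : ℝ) : ℂ)

theorem htg_coef (α : ι → ℕ) : Function.HasTemperateGrowth (coef α) := by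
  unfold coef
  exact Function.Complex.hasTemperateGrowth_ofReal.comp (htg_prod fun i _ => htg_poly _ i)

/-- product Hermite function as a Schwartz function -/
def PhiS (α : ι → ℕ) : 𝓢(E ι, ℂ) := SchwartzMap.smulLeftCLM ℂ (coef α) (gaussS (E ι))

@[simp] theorem PhiS_apply (α : ι → ℕ) (x : E ι) : PhiS α x = (Phi α x : ℂ) := by
  unfold PhiS
  rw [SchwartzMap.smulLeftCLM_apply_apply (htg_coef α), gaussS_apply, Phi_eq]
  simp [coef]

theorem Phi_eq_re (α : ι → ℕ) : Phi α = fun x => (PhiS α x).re := by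
  ext x; simp

theorem contDiff_Phi (α : ι → ℕ) : ContDiff ℝ ∞ (Phi α) := by
  rw [Phi_eq_re]
  exact Complex.reCLM.contDiff.comp (PhiS α).smooth'

theorem continuous_Phi (α : ι → ℕ) : Continuous (Phi α) := (contDiff_Phi α).continuous

theorem memLp_Phi (α : ι → ℕ) (p : ENNReal) : MemLp (fun x => (Phi α x : ℂ)) p volume := by
  have h := (PhiS α).memLp p (volume : Measure (E ι))
  have e : (PhiS α : E ι → ℂ) = fun x => (Phi α x : ℂ) := by ext x; simp
  rwa [e] at h

theorem integrable_Phi (α : ι → ℕ) : Integrable (fun x => (Phi α x : ℂ)) :=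
  memLp_one_iff_integrable.1 (memLp_Phi α 1)

variable [DecidableEq ι]

theorem Phi_update (α : ι → ℕ) (j : ι) (n : ℕ) (x : E ι) :
    Phi (Function.update α j n) x = hf n (x j) * ∏ i ∈ Finset.univ.erase j, hf (α i) (x i) := by
  unfold Phi
  rw [← Finset.mul_prod_erase Finset.univ _ (Finset.mem_univ j), Function.update_self]
  congr 1
  refine Finset.prod_congr rfl fun i hi => ?_
  rw [Function.update_of_ne (Finset.ne_of_mem_erase hi)]

theorem Phi_split (α : ι → ℕ) (j : ι) (x : E ι) :
    Phi α x = hf (α j) (x j) * ∏ i ∈ Finset.univ.erase j, hf (α i) (x i) := by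
  have := Phi_update α j (α j) x
  rwa [Function.update_eq_self] at this

/-- `x_j Φ_α = √((α_j+1)/2) Φ_{α+e_j} + √(α_j/2) Φ_{α-e_j}` -/
theorem x_mul_Phi (α : ι → ℕ) (j : ι) (x : E ι) : x j * Phi α x =
    √(((α j : ℝ) + 1) / 2) * Phi (Function.update α j (α j + 1)) x +
    √((α j : ℝ) / 2) * Phi (Function.update α j (α j - 1)) x := by
  rw [Phi_update, Phi_update, Phi_split α j, ← mul_assoc, x_mul_hf]
  ring

theorem hasDerivAt_Phi_line (α : ι → ℕ) (j : ι) (x : E ι) :
    HasDerivAt (fun t : ℝ => Phi α (x + t • EuclideanSpace.single j (1 : ℝ)))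
      (√((α j : ℝ) / 2) * Phi (Function.update α j (α j - 1)) x -
       √(((α j : ℝ) + 1) / 2) * Phi (Function.update α j (α j + 1)) x) 0 := by
  have e : (fun t : ℝ => Phi α (x + t • EuclideanSpace.single j (1 : ℝ))) =
      fun t : ℝ => hf (α j) (x j + t) * ∏ i ∈ Finset.univ.erase j, hf (α i) (x i) := by
    ext t
    rw [Phi_split α j]
    congr 1
    · simp
    · refine Finset.prod_congr rfl fun i hi => ?_
      have : i ≠ j := Finset.ne_of_mem_erase hi
      simp [this]
  rw [e, Phi_update, Phi_update]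
  have h0 : HasDerivAt (fun t : ℝ => x j + t) 1 0 := (hasDerivAt_id (0 : ℝ)).const_add (x j)
  have h1 := (hasDerivAt_hf (α j) (x j + 0)).comp (0 : ℝ) h0
  have h2 := h1.mul_const (∏ i ∈ Finset.univ.erase j, hf (α i) (x i))
  refine h2.congr_deriv ?_
  rw [add_zero]; ring

theorem fderiv_Phi (α : ι → ℕ) (j : ι) (x : E ι) :
    fderiv ℝ (Phi α) x (EuclideanSpace.single j (1 : ℝ)) =
      √((α j : ℝ) / 2) * Phi (Function.update α j (α j - 1)) x -
      √(((α j : ℝ) + 1) / 2) * Phi (Function.update α j (α j + 1)) x := by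
  have h1 : HasFDerivAt (Phi α) (fderiv ℝ (Phi α) x) x :=
    ((contDiff_Phi α).differentiable (by simp) x).hasFDerivAt
  have h2 := h1.hasLineDerivAt (EuclideanSpace.single j (1 : ℝ))
  exact HasDerivAt.unique h2 (hasDerivAt_Phi_line α j x)

theorem fderiv_PhiS (α : ι → ℕ) (j : ι) (x : E ι) :
    fderiv ℝ (PhiS α) x (EuclideanSpace.single j (1 : ℝ)) =
      ((√((α j : ℝ) / 2) * Phi (Function.update α j (α j - 1)) x -
      √(((α j : ℝ) + 1) / 2) * Phi (Function.update α j (α j + 1)) x : ℝ) : ℂ) := by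
  rw [← fderiv_Phi]
  have e : (PhiS α : E ι → ℂ) = fun x => Complex.ofRealCLM (Phi α x) := by
    ext x; simp
  rw [e]
  have h1 : HasFDerivAt (Phi α) (fderiv ℝ (Phi α) x) x :=
    ((contDiff_Phi α).differentiable (by simp) x).hasFDerivAt
  have h2 := (Complex.ofRealCLM.hasFDerivAt (x := Phi α x)).comp x h1
  have h3 : fderiv ℝ (fun x => Complex.ofRealCLM (Phi α x)) x =
      Complex.ofRealCLM ∘SL fderiv ℝ (Phi α) x := h2.fderiv
  rw [h3]
  simp

omit [DecidableEq ι] in
/-- orthonormality -/
theorem integral_Phi_mul_Phi (α β : ι → ℕ) :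
    ∫ x : E ι, Phi α x * Phi β x = if α = β then 1 else 0 := by
  have e : ∫ x : E ι, Phi α x * Phi β x = ∫ y : ι → ℝ, ∏ i, (hf (α i) (y i) * hf (β i) (y i)) := by
    rw [← (EuclideanSpace.volume_preserving_symm_measurableEquiv_toLp ι).integral_comp'
      (g := fun y : ι → ℝ => ∏ i, (hf (α i) (y i) * hf (β i) (y i)))]
    refine integral_congr_ae (Filter.Eventually.of_forall fun x => ?_)
    simp only [Phi, ← Finset.prod_mul_distrib]
    rfl
  rw [e, integral_fintype_prod_volume_eq_prod (fun i y => hf (α i) y * hf (β i) y)]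
  simp only [integral_hf_mul_hf]
  by_cases h : α = β
  · subst h; simp
  · rw [if_neg h]
    obtain ⟨i, hi⟩ : ∃ i, α i ≠ β i := by
      by_contra hc; push Not at hc; exact h (funext hc)
    exact Finset.prod_eq_zero (Finset.mem_univ i) (if_neg hi)

end Crest.Agent.R338.HO
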