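import Crest.Agent.R338.HO1b
import Crest.Prelude.Def_CoulombProblem

/-!
# Row 338, node TA (helper64): definitions and statement of Theorem A

Scaled problem: protons at `P : Fin K → Pos3` (scaled positions), potential
`lam * unitNucleiPotential P` on `Config N`; `N = 2 * C(n0+2,3) + Nv` electrons.
-/

set_option autoImplicit false

open MeasureTheory
open scoped ENNReal

noncomputable section

namespace Crest.Agent.R338.TA

open Crest.MathPhysics.ElectronicCoulomb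
open Crest.Agent.R338.HO

/-! ### orbitals and tensors -/

/-- total degree of a multi-index -/
def deg3 (m : Fin 3 → ℕ) : ℕ := m 0 + m 1 + m 2

/-- spatial orbitals of the shells `≤ n0` -/
abbrev Sp (n0 : ℕ) := {m : Fin 3 → ℕ // deg3 m ≤ n0}

instance instFintypeSp (n0 : ℕ) : Fintype (Sp n0) :=
  Fintype.ofInjective (fun (m : Sp n0) (c : Fin 3) => (⟨m.1 c, by
    have h := m.2
    unfold deg3 at h
    fin_cases c <;> simp <;> omega⟩ : Fin (n0 + 1))) (by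
    intro a b h
    apply Subtype.ext
    funext c
    have := congrFun h c
    simpa using this)

/-- spin orbitals of the shells `≤ n0` -/
abbrev Orb (n0 : ℕ) := Fin 2 × Sp n0

/-- `N`-electron tensors on these orbitals -/
abbrev Ten (N n0 : ℕ) := (Fin N → Orb n0) → ℂ

variable {N n0 : ℕ}

/-- antisymmetric tensors (same convention as `IsFermionic`) -/
def Anti (C : Ten N n0) : Prop :=
  ∀ (σ : Equiv.Perm (Fin N)) (ω : Fin N → Orb n0),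
    C (fun i => ω (σ i)) = ((Equiv.Perm.sign σ : ℤ) : ℂ) * C ω

/-- the shells `< n0` are completely filled -/
def CoreFull (C : Ten N n0) : Prop :=
  ∀ ω, C ω ≠ 0 → ∀ o : Orb n0, deg3 o.2.1 < n0 → ∃ i, ω i = o

/-- squared norm of a tensor -/
def tsq (C : Ten N n0) : ℝ := ∑ ω, ‖C ω‖ ^ 2

/-- one-body form (spin diagonal) -/
def oneF (h : Sp n0 → Sp n0 → ℝ) (C : Ten N n0) : ℝ :=
  ∑ i : Fin N, ∑ ω : Fin N → Orb n0, ∑ b : Sp n0,
    (starRingEnd ℂ (C ω) * C (Function.update ω i ((ω i).1, b))).re * h (ω i).2 b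

/-- two-body form (spin diagonal), `V a b c d` = the integral `(ab|cd)` -/
def twoF (V : Sp n0 → Sp n0 → Sp n0 → Sp n0 → ℝ) (C : Ten N n0) : ℝ :=
  ∑ i : Fin N, ∑ j : Fin N, if i < j then
    ∑ ω : Fin N → Orb n0, ∑ b : Sp n0, ∑ d : Sp n0,
      (starRingEnd ℂ (C ω) * C (Function.update (Function.update ω i ((ω i).1, b)) j
        ((ω j).1, d))).re * V (ω i).2 b (ω j).2 d
    else 0

/-- the one-body integrals `∫ w φ_a φ_b` -/
def wI (w : Pos3 → ℝ) (a b : Fin 3 → ℕ) : ℝ := ∫ x : Pos3, w x * (Phi a x * Phi b x)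

/-- the Coulomb form `∬ f(x) g(y) / |x - y|` -/
def CD (f g : Pos3 → ℝ) : ℝ := ∫ z : Pos3 × Pos3, f z.1 * g z.2 / ‖z.1 - z.2‖

/-- the Coulomb integrals `(ab|cd)` -/
def W4 (a b c d : Fin 3 → ℕ) : ℝ :=
  CD (fun x => Phi a x * Phi b x) (fun x => Phi c x * Phi d x)

/-- the full form `B(C)` of `∑ w(x_i) + ∑_{i<j} 1/|x_i - x_j|` on tensors -/
def BF (w : Pos3 → ℝ) (C : Ten N n0) : ℝ :=
  oneF (fun a b => wI w a.1 b.1) C + twoF (fun a b c d => W4 a.1 b.1 c.1 d.1) C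

/-- the wave function of a tensor -/
def wav (C : Ten N n0) : Wave N := fun s x =>
  ∑ m : Fin N → Sp n0, C (fun i => (s i, m i)) *
    ((Phi (fun ic : Fin N × Fin 3 => (m ic.1).1 ic.2) x : ℝ) : ℂ)

/-! ### the nuclear potential -/

/-- the scaled one-electron nuclear potential -/
def Vnuc (lam : ℝ) {K : ℕ} (P : Fin K → Pos3) (x : Pos3) : ℝ :=
  ∑ α : Fin K, -(lam / ‖x - P α‖)

/-- Hypotheses (N0)-(N3) on the nuclear potential: `Vnuc = Vs + k` with `k = div F` weakly. -/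
structure NucOK (lam : ℝ) {K : ℕ} (P : Fin K → Pos3) (n0 : ℕ) (Vs w : Pos3 → ℝ)
    (F : Pos3 → Pos3) (C0 R eps1 eps2 kF W : ℝ) : Prop where
  lam_pos : 0 < lam
  lam_le : lam ≤ 1
  one_le_R : 1 ≤ R
  C0_nonneg : 0 ≤ C0
  eps1_nonneg : 0 ≤ eps1
  eps2_nonneg : 0 ≤ eps2
  eps2_le : eps2 ≤ 1
  kF_nonneg : 0 ≤ kF
  W_nonneg : 0 ≤ W
  Vs_cont : Continuous Vs
  Vs_nonpos : ∀ x, Vs x ≤ 0
  Vs_bdd : ∃ B, ∀ x, |Vs x| ≤ B
  w_cont : Continuous w
  w_le : ∀ x, |w x| ≤ W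
  F_meas : Measurable F
  F_le : ∀ x, ‖F x‖ ≤ kF
  N0 : ∀ f : Pos3 → ℝ, ContDiff ℝ 1 f → (∃ B, ∀ x, |f x| ≤ B) → Integrable f →
    Integrable (fun x => fderiv ℝ f x) →
    ∫ x, (Vnuc lam P x - Vs x) * f x = - ∫ x, fderiv ℝ f x (F x)
  N1 : ∀ x : Pos3, (∀ c, |x c| ≤ 2 * R) → |Vs x + C0 - ‖x‖ ^ 2 / 2 - lam * w x| ≤ eps2
  N2 : ∀ x : Pos3, (∃ c, R ≤ |x c|) → R ^ 2 / 4 ≤ Vs x + C0
  N3 : ∀ a b : Fin 3 → ℕ, deg3 a ≤ n0 → deg3 b ≤ n0 →
    |∫ x, (Vnuc lam P x - Vs x) * (Phi a x * Phi b x)| ≤ eps1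

/-- unperturbed energy `E_N` -/
def EN (n0 Nv : ℕ) : ℝ :=
  ∑ n ∈ Finset.range n0, ((n : ℝ) + 3 / 2) * (n + 1) * (n + 2) + Nv * ((n0 : ℝ) + 3 / 2)

/-- the number of electrons -/
def Nel (n0 Nv : ℕ) : ℕ := 2 * Nat.choose (n0 + 2) 3 + Nv

/-- size parameter -/
def sizeP (n0 Nv : ℕ) (W : ℝ) : ℝ := (Nel n0 Nv : ℝ) + n0 + W + 2

/-- THEOREM A, lower half: a lower bound of the tensor form on full-core tensors gives a lower
bound of the ground state energy. -/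
def TheoremALower : Prop :=
  ∃ D : ℕ, ∀ (lam : ℝ) (K : ℕ) (P : Fin K → Pos3) (n0 Nv : ℕ) (Vs w : Pos3 → ℝ)
    (F : Pos3 → Pos3) (C0 R eps1 eps2 kF W beta : ℝ),
    NucOK lam P n0 Vs w F C0 R eps1 eps2 kF W →
    1 ≤ Nv → Nv ≤ (n0 + 1) * (n0 + 2) →
    sizeP n0 Nv W ^ D * (lam + kF) ≤ 1 → sizeP n0 Nv W ^ D ≤ R ^ 2 →
    (∀ C : Ten (Nel n0 Nv) n0, Anti C → CoreFull C → beta * tsq C ≤ BF w C) →
    InfEnergyGE (n := Nel n0 Nv) (fun x => lam * unitNucleiPotential P x)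
      (EN n0 Nv - Nel n0 Nv * C0 + lam * beta -
        sizeP n0 Nv W ^ D * (lam ^ 2 + kF ^ 2 + eps1 + eps2 + 1 / R ^ 2))

/-- THEOREM A, upper half: a full-core tensor of small energy gives a trial state; `k` is any
natural number (the tail is `1 / R ^ (2 * k)`), the exponent `D` depends on `k`. -/
def TheoremAUpper : Prop :=
  ∀ k : ℕ, ∃ D : ℕ, ∀ (lam : ℝ) (K : ℕ) (P : Fin K → Pos3) (n0 Nv : ℕ) (Vs w : Pos3 → ℝ)
    (F : Pos3 → Pos3) (C0 R eps1 eps2 kF W beta : ℝ),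
    NucOK lam P n0 Vs w F C0 R eps1 eps2 kF W →
    1 ≤ Nv → Nv ≤ (n0 + 1) * (n0 + 2) →
    (∃ C : Ten (Nel n0 Nv) n0, Anti C ∧ CoreFull C ∧ tsq C = 1 ∧ BF w C ≤ beta) →
    InfEnergyLE (n := Nel n0 Nv) (fun x => lam * unitNucleiPotential P x)
      (EN n0 Nv - Nel n0 Nv * C0 + lam * beta +
        sizeP n0 Nv W ^ D * (eps1 + eps2 + (C0 + 1) / R ^ (2 * k)))

end Crest.Agent.R338.TA
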