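import Crest.Agent.R338.BH
import Crest.Agent.R338.Br

/-!
Row 338 (S0529): Theorem BH in the form of `Iface.lean`.
-/

set_option autoImplicit false

namespace Crest.Agent.R338.BH

theorem w4Symm : W4Symm := fun a b c d => Br.W4_symm a b c d

/-- `ThmBHStmt` from the Coulomb estimates and the selection theorem. -/
theorem thmBHStmt_of (hC : CoulStmt) (hS : SelStmt) : ThmBHStmt := thmBH_of w4Symm hC hS

end Crest.Agent.R338.BH
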