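import Mathlib
import Crest.Agent.R338.CE1

/-!
Row 338, part 5: Fourier form of the Coulomb form, positivity, Cauchy-Schwarz.
-/

open MeasureTheory Real Set
open scoped FourierTransform ComplexConjugate InnerProductSpace

noncomputable section

namespace Crest.Agent.R338.CE

/-- The Fourier transform of a real function on ℝ³. -/
def fh (f : P3 → ℝ) : P3 → ℂ := 𝓕 (fun x => (f x : ℂ))

theorem fh_apply (f : P3 → ℝ) (w : P3) :
    fh f w = ∫ v : P3, Complex.exp (↑(-2 * π * ⟪v, w⟫_ℝ) * Complex.I) * (f v : ℂ) := by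
  unfold fh
  rw [Real.fourier_eq']
  rfl

theorem conj_fh (f : P3 → ℝ) (w : P3) :
    conj (fh f w) = ∫ v : P3, Complex.exp (↑(2 * π * ⟪v, w⟫_ℝ) * Complex.I) * (f v : ℂ) := by
  rw [fh_apply, ← integral_conj]
  refine integral_congr_ae (Filter.Eventually.of_forall fun v => ?_)
  simp only [map_mul, Complex.conj_ofReal, ← Complex.exp_conj, Complex.conj_I]
  congr 2
  push_cast
  ring

/-- the Gaussian as a Fourier transform. -/
theorem gauss_eq {τ : ℝ} (hτ : 0 < τ) (u : P3) :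
    (Real.exp (-(τ ^ 2 * ‖u‖ ^ 2)) : ℂ) = (((√π / τ) ^ 3 : ℝ) : ℂ) *
      ∫ v : P3, Complex.exp (↑(-2 * π * ⟪v, u⟫_ℝ) * Complex.I) *
        (Real.exp (-((π / τ) ^ 2 * ‖v‖ ^ 2)) : ℂ) := by
  have hb : 0 < (((π / τ) ^ 2 : ℝ) : ℂ).re := by rw [Complex.ofReal_re]; positivity
  have h := fourier_gaussian_innerProductSpace (V := P3) hb u
  rw [Real.fourier_eq'] at h
  have e1 : (fun v : P3 => Complex.exp (↑(-2 * π * ⟪v, u⟫_ℝ) * Complex.I) •
      Complex.exp (-(((π / τ) ^ 2 : ℝ) : ℂ) * (‖v‖ : ℂ) ^ 2)) =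
      fun v : P3 => Complex.exp (↑(-2 * π * ⟪v, u⟫_ℝ) * Complex.I) *
        (Real.exp (-((π / τ) ^ 2 * ‖v‖ ^ 2)) : ℂ) := by
    funext v
    rw [smul_eq_mul]
    congr 1
    push_cast
    congr 1
    ring
  rw [e1] at h
  rw [h]
  have e2 : (π : ℂ) / (((π / τ) ^ 2 : ℝ) : ℂ) = (((τ / √π) ^ 2 : ℝ) : ℂ) := by
    rw [← Complex.ofReal_div]
    congr 1
    have : √π ^ 2 = π := Real.sq_sqrt pi_pos.le
    rw [div_pow, div_pow, this]
    field_simp
  have e3 : ((((τ / √π) ^ 2 : ℝ) : ℂ)) ^ ((Module.finrank ℝ P3 : ℂ) / 2) =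
      (((τ / √π) ^ 3 : ℝ) : ℂ) := by
    rw [finrank_euclideanSpace, Fintype.card_fin]
    have : ((3 : ℕ) : ℂ) / 2 = ((3 / 2 : ℝ) : ℂ) := by push_cast; ring
    rw [this, ← Complex.ofReal_cpow (by positivity)]
    congr 1
    rw [← Real.rpow_natCast, ← Real.rpow_natCast, ← Real.rpow_mul (by positivity)]
    norm_num
  rw [e2, e3]
  have e4 : Complex.exp (-(π : ℂ) ^ 2 * (‖u‖ : ℂ) ^ 2 / (((π / τ) ^ 2 : ℝ) : ℂ)) =
      (Real.exp (-(τ ^ 2 * ‖u‖ ^ 2)) : ℂ) := by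
    rw [Complex.ofReal_exp]
    congr 1
    push_cast
    have h1 : (π : ℂ) ≠ 0 := by exact_mod_cast pi_ne_zero
    have h2 : (τ : ℂ) ≠ 0 := by exact_mod_cast hτ.ne'
    field_simp
  rw [e4, ← mul_assoc, ← Complex.ofReal_mul]
  have h5 : √π ≠ 0 := by positivity
  have : (√π / τ) ^ 3 * (τ / √π) ^ 3 = 1 := by
    rw [← mul_pow]
    have : √π / τ * (τ / √π) = 1 := by field_simp
    rw [this, one_pow]
  rw [this]
  simp

theorem norm_exp_I (t : ℝ) : ‖Complex.exp (↑t * Complex.I)‖ = 1 := Complex.norm_exp_ofReal_mul_I t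

theorem integrable_real_gauss {b : ℝ} (hb : 0 < b) :
    Integrable (fun v : P3 => (Real.exp (-(b ^ 2 * ‖v‖ ^ 2)) : ℂ)) :=
  (integrable_exp_norm hb).ofReal

theorem Q_fourier {f g : P3 → ℝ} (hf : Integrable f) (hg : Integrable g) {τ : ℝ} (hτ : 0 < τ) :
    (Q τ f g : ℂ) = (((√π / τ) ^ 3 : ℝ) : ℂ) *
      ∫ v : P3, (Real.exp (-((π / τ) ^ 2 * ‖v‖ ^ 2)) : ℂ) * (fh f v * conj (fh g v)) := by
  have hpt : 0 < π / τ := by positivity
  -- the triple integrand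
  have hfg : Integrable (fun z : P3 × P3 => (f z.1 : ℂ) * (g z.2 : ℂ)) :=
    hf.ofReal.mul_prod hg.ofReal
  have hK0 : Integrable (fun p : (P3 × P3) × P3 => ((f p.1.1 : ℂ) * (g p.1.2 : ℂ)) *
      (Real.exp (-((π / τ) ^ 2 * ‖p.2‖ ^ 2)) : ℂ))
      ((volume : Measure (P3 × P3)).prod (volume : Measure P3)) :=
    hfg.mul_prod (integrable_real_gauss hpt)
  have hK : Integrable (fun p : (P3 × P3) × P3 =>
      Complex.exp (↑(-2 * π * ⟪p.2, p.1.1 - p.1.2⟫_ℝ) * Complex.I) *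
      (((f p.1.1 : ℂ) * (g p.1.2 : ℂ)) * (Real.exp (-((π / τ) ^ 2 * ‖p.2‖ ^ 2)) : ℂ)))
      ((volume : Measure (P3 × P3)).prod (volume : Measure P3)) := by
    refine hK0.bdd_mul (c := 1) ?_ ?_
    · exact (by fun_prop : Continuous fun p : (P3 × P3) × P3 =>
        Complex.exp (↑(-2 * π * ⟪p.2, p.1.1 - p.1.2⟫_ℝ) * Complex.I)).aestronglyMeasurable
    · exact Filter.Eventually.of_forall fun p => (norm_exp_I _).le
  have hswap := integral_integral_swap (f := fun (z : P3 × P3) (v : P3) =>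
      Complex.exp (↑(-2 * π * ⟪v, z.1 - z.2⟫_ℝ) * Complex.I) *
      (((f z.1 : ℂ) * (g z.2 : ℂ)) * (Real.exp (-((π / τ) ^ 2 * ‖v‖ ^ 2)) : ℂ))) hK
  have hQ : (Q τ f g : ℂ) = ∫ z : P3 × P3, (((√π / τ) ^ 3 : ℝ) : ℂ) * ∫ v : P3,
      Complex.exp (↑(-2 * π * ⟪v, z.1 - z.2⟫_ℝ) * Complex.I) *
      (((f z.1 : ℂ) * (g z.2 : ℂ)) * (Real.exp (-((π / τ) ^ 2 * ‖v‖ ^ 2)) : ℂ)) := by
    unfold Q
    rw [← integral_complex_ofReal]
    refine integral_congr_ae (Filter.Eventually.of_forall fun z => ?_)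
    change ((f z.1 * g z.2 * Real.exp (-(τ ^ 2 * ‖z.1 - z.2‖ ^ 2)) : ℝ) : ℂ) = _
    rw [Complex.ofReal_mul, Complex.ofReal_mul, gauss_eq hτ, mul_left_comm]
    congr 1
    rw [← integral_const_mul]
    refine integral_congr_ae (Filter.Eventually.of_forall fun v => ?_)
    simp only
    ring
  rw [hQ, integral_const_mul, hswap]
  congr 1
  refine integral_congr_ae (Filter.Eventually.of_forall fun v => ?_)
  simp only
  have e : (fun z : P3 × P3 => Complex.exp (↑(-2 * π * ⟪v, z.1 - z.2⟫_ℝ) * Complex.I) *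
      (((f z.1 : ℂ) * (g z.2 : ℂ)) * (Real.exp (-((π / τ) ^ 2 * ‖v‖ ^ 2)) : ℂ))) =
      fun z : P3 × P3 => (Real.exp (-((π / τ) ^ 2 * ‖v‖ ^ 2)) : ℂ) *
        ((Complex.exp (↑(-2 * π * ⟪z.1, v⟫_ℝ) * Complex.I) * (f z.1 : ℂ)) *
        (Complex.exp (↑(2 * π * ⟪z.2, v⟫_ℝ) * Complex.I) * (g z.2 : ℂ))) := by
    funext z
    have : Complex.exp (↑(-2 * π * ⟪v, z.1 - z.2⟫_ℝ) * Complex.I) =
        Complex.exp (↑(-2 * π * ⟪z.1, v⟫_ℝ) * Complex.I) *
        Complex.exp (↑(2 * π * ⟪z.2, v⟫_ℝ) * Complex.I) := by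
      rw [← Complex.exp_add]
      congr 1
      rw [inner_sub_right, real_inner_comm v z.1, real_inner_comm v z.2]
      push_cast
      ring
    rw [this]
    ring
  rw [e, integral_const_mul, Measure.volume_eq_prod,
    integral_prod_mul (fun x : P3 => Complex.exp (↑(-2 * π * ⟪x, v⟫_ℝ) * Complex.I) * (f x : ℂ))
      (fun y : P3 => Complex.exp (↑(2 * π * ⟪y, v⟫_ℝ) * Complex.I) * (g y : ℂ)),
    ← fh_apply, ← conj_fh]

theorem Q_self_fourier {f : P3 → ℝ} (hf : Integrable f) {τ : ℝ} (hτ : 0 < τ) :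
    Q τ f f = (√π / τ) ^ 3 *
      ∫ v : P3, Real.exp (-((π / τ) ^ 2 * ‖v‖ ^ 2)) * ‖fh f v‖ ^ 2 := by
  have h := Q_fourier hf hf hτ
  have e : (fun v : P3 => (Real.exp (-((π / τ) ^ 2 * ‖v‖ ^ 2)) : ℂ) * (fh f v * conj (fh f v))) =
      fun v : P3 => ((Real.exp (-((π / τ) ^ 2 * ‖v‖ ^ 2)) * ‖fh f v‖ ^ 2 : ℝ) : ℂ) := by
    funext v
    rw [Complex.mul_conj, Complex.normSq_eq_norm_sq]
    push_cast
    rfl
  rw [e, integral_complex_ofReal, ← Complex.ofReal_mul] at h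
  exact_mod_cast h

theorem Q_self_nonneg {f : P3 → ℝ} (hf : Integrable f) {τ : ℝ} (hτ : 0 < τ) : 0 ≤ Q τ f f := by
  rw [Q_self_fourier hf hτ]
  have : 0 ≤ ∫ v : P3, Real.exp (-((π / τ) ^ 2 * ‖v‖ ^ 2)) * ‖fh f v‖ ^ 2 :=
    integral_nonneg fun v => by positivity
  positivity

theorem D_self_nonneg {f : P3 → ℝ} (hf : Nice f) : 0 ≤ D f f := by
  rw [D_eq_heat hf.int hf]
  have : 0 ≤ ∫ τ in Ioi (0 : ℝ), Q τ f f :=
    setIntegral_nonneg measurableSet_Ioi fun τ hτ => Q_self_nonneg hf.int hτ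
  positivity

/-- Cauchy-Schwarz for the Coulomb form. -/
theorem D_cauchy_schwarz {f g : P3 → ℝ} (hf : Nice f) (hg : Nice g) :
    (D f g) ^ 2 ≤ D f f * D g g := by
  have h : ∀ t : ℝ, 0 ≤ D g g * (t * t) + 2 * D f g * t + D f f := by
    intro t
    have h1 := D_self_nonneg (hf.add (hg.const_mul t))
    have hgt := hg.const_mul t
    rw [D_add_left hf.int hgt.int (hf.add hgt), D_add_right hf.int hf hgt,
      D_add_right hgt.int hf hgt, D_const_mul_left, D_const_mul_left, D_const_mul_right,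
      D_const_mul_right, D_symm g f] at h1
    linarith
  have := discrim_le_zero h
  unfold discrim at this
  nlinarith

theorem abs_D_le_sqrt {f g : P3 → ℝ} (hf : Nice f) (hg : Nice g) :
    |D f g| ≤ √(D f f) * √(D g g) := by
  rw [← Real.sqrt_mul (D_self_nonneg hf)]
  exact Real.abs_le_sqrt (D_cauchy_schwarz hf hg)

/-- `∫_0^∞ (√π/τ)³ exp(-(π/τ)² r²) dτ · 2/√π = 1/(π r²)`. -/
theorem hasDerivAt_exp_inv (c τ : ℝ) (hτ : τ ≠ 0) :
    HasDerivAt (fun τ : ℝ => Real.exp (-(c / τ ^ 2))) (Real.exp (-(c / τ ^ 2)) * (2 * c / τ ^ 3)) τ := by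
  have h1 : HasDerivAt (fun τ : ℝ => -(c / τ ^ 2)) (2 * c / τ ^ 3) τ := by
    have h := ((hasDerivAt_pow 2 τ).inv (pow_ne_zero 2 hτ)).const_mul (-c)
    refine (h.congr_deriv ?_).congr_of_eventuallyEq ?_
    · field_simp
      norm_num
      ring
    · refine Filter.Eventually.of_forall fun t => ?_
      simp only [Pi.inv_apply]
      ring
  exact h1.exp

end Crest.Agent.R338.CE
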