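import Mathlib
import Crest.Agent.R338.CE2

/-!
Row 338, part 5: `D(f,f) = ∫ |f^|²/(π|w|²)`; the divergence estimate and the duality estimate.
-/

open MeasureTheory Real Set Filter
open scoped FourierTransform ComplexConjugate InnerProductSpace SchwartzMap Topology LineDeriv ContDiff

noncomputable section

namespace Crest.Agent.R338.CE

theorem continuous_fh {f : P3 → ℝ} (hf : Integrable f) : Continuous (fh f) := by
  have := VectorFourier.fourierIntegral_continuous (L := innerₗ P3) (μ := (volume : Measure P3))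
    Real.continuous_fourierChar continuous_inner hf.ofReal (𝕜 := ℝ) (E := ℂ)
  exact this

theorem norm_fh_le (f : P3 → ℝ) (w : P3) : ‖fh f w‖ ≤ ∫ x, |f x| := by
  rw [fh_apply]
  refine (norm_integral_le_integral_norm _).trans (le_of_eq ?_)
  refine integral_congr_ae (Filter.Eventually.of_forall fun v => ?_)
  simp only [norm_mul, norm_exp_I, one_mul, Complex.norm_real, Real.norm_eq_abs]

/-- `∫_0^∞ τ⁻³ exp(-c/τ²) dτ = 1/(2c)`. -/
theorem integral_tau_inv {c : ℝ} (hc : 0 < c) :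
    IntegrableOn (fun τ : ℝ => Real.exp (-(c / τ ^ 2)) * (2 * c / τ ^ 3)) (Ioi 0) ∧
    ∫ τ in Ioi (0 : ℝ), Real.exp (-(c / τ ^ 2)) * (2 * c / τ ^ 3) = 1 := by
  set G : ℝ → ℝ := Function.update (fun τ : ℝ => Real.exp (-(c / τ ^ 2))) 0 0 with hG
  have hG0 : G 0 = 0 := by simp [hG]
  have hGne : ∀ τ : ℝ, τ ≠ 0 → G τ = Real.exp (-(c / τ ^ 2)) := by
    intro τ h
    simp [hG, Function.update_of_ne h]
  have hcont : ContinuousWithinAt G (Ici 0) 0 := by
    have h1 : Tendsto (fun τ : ℝ => -(c / τ ^ 2)) (𝓝[>] 0) atBot := by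
      have h2 : Tendsto (fun τ : ℝ => τ ^ 2) (𝓝[>] 0) (𝓝[>] 0) := by
        rw [tendsto_nhdsWithin_iff]
        constructor
        · have : Tendsto (fun τ : ℝ => τ ^ 2) (𝓝 0) (𝓝 (0 ^ 2)) := (continuous_pow 2).tendsto 0
          rw [zero_pow two_ne_zero] at this
          exact this.mono_left nhdsWithin_le_nhds
        · filter_upwards [self_mem_nhdsWithin] with τ hτ
          exact pow_pos (mem_Ioi.1 hτ) 2
      have h3 : Tendsto (fun τ : ℝ => c * (τ ^ 2)⁻¹) (𝓝[>] 0) atTop :=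
        (tendsto_inv_nhdsGT_zero.comp h2).const_mul_atTop hc
      have h4 := tendsto_neg_atTop_atBot.comp h3
      refine h4.congr fun τ => ?_
      simp [div_eq_mul_inv]
    have h2 : Tendsto G (𝓝[>] 0) (𝓝 0) := by
      refine (Real.tendsto_exp_atBot.comp h1).congr' ?_
      filter_upwards [self_mem_nhdsWithin] with τ hτ
      simp only [Function.comp]
      rw [hGne τ (ne_of_gt hτ)]
    rw [← continuousWithinAt_Ioi_iff_Ici]
    unfold ContinuousWithinAt
    rw [hG0]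
    exact h2
  have hderiv : ∀ τ ∈ Ioi (0 : ℝ), HasDerivAt G
      (Real.exp (-(c / τ ^ 2)) * (2 * c / τ ^ 3)) τ := by
    intro τ hτ
    refine (hasDerivAt_exp_inv c τ (ne_of_gt hτ)).congr_of_eventuallyEq ?_
    filter_upwards [Ioi_mem_nhds hτ] with t ht
    rw [hGne t (ne_of_gt ht)]
  have hpos : ∀ τ ∈ Ioi (0 : ℝ), 0 ≤ Real.exp (-(c / τ ^ 2)) * (2 * c / τ ^ 3) := by
    intro τ hτ
    have : (0 : ℝ) < τ := hτ
    positivity
  have hlim : Tendsto G atTop (𝓝 1) := by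
    have h1 : Tendsto (fun τ : ℝ => -(c / τ ^ 2)) atTop (𝓝 0) := by
      have h2 : Tendsto (fun τ : ℝ => τ ^ 2) atTop atTop := tendsto_pow_atTop two_ne_zero
      have h3 := h2.const_div_atTop c
      simpa using h3.neg
    have h3 : Tendsto (fun τ : ℝ => Real.exp (-(c / τ ^ 2))) atTop (𝓝 1) := by
      have := (Real.continuous_exp.tendsto 0).comp h1
      simpa [Function.comp_def] using this
    refine h3.congr' ?_
    filter_upwards [eventually_gt_atTop 0] with τ hτ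
    rw [hGne τ hτ.ne']
  refine ⟨integrableOn_Ioi_deriv_of_nonneg hcont hderiv hpos hlim, ?_⟩
  rw [integral_Ioi_of_hasDerivAt_of_nonneg hcont hderiv hpos hlim, hG0, sub_zero]

theorem integral_tau_cube {r : ℝ} (hr : 0 < r) :
    ∫ τ in Ioi (0 : ℝ), (√π / τ) ^ 3 * Real.exp (-((π / τ) ^ 2 * r ^ 2)) =
      √π / 2 * (1 / (π * r ^ 2)) := by
  have hc : 0 < π ^ 2 * r ^ 2 := by positivity
  obtain ⟨-, h⟩ := integral_tau_inv hc
  have e : (fun τ : ℝ => (√π / τ) ^ 3 * Real.exp (-((π / τ) ^ 2 * r ^ 2))) =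
      fun τ : ℝ => (√π ^ 3 / (2 * (π ^ 2 * r ^ 2))) *
        (Real.exp (-((π ^ 2 * r ^ 2) / τ ^ 2)) * (2 * (π ^ 2 * r ^ 2) / τ ^ 3)) := by
    funext τ
    have e1 : (π / τ) ^ 2 * r ^ 2 = (π ^ 2 * r ^ 2) / τ ^ 2 := by ring
    rw [e1]
    have : π ^ 2 * r ^ 2 ≠ 0 := hc.ne'
    field_simp
  rw [e, integral_const_mul, h, mul_one]
  have h3 : √π ^ 3 = √π * π := by
    rw [pow_succ, Real.sq_sqrt pi_pos.le, mul_comm]
  rw [h3]
  field_simp

/-- Integrability over `(0,∞) × P3` of the Fourier integrand. -/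
theorem integrable_fourier_heat {f : P3 → ℝ} (hf : Nice f) :
    Integrable (fun p : ℝ × P3 => (√π / p.1) ^ 3 *
      (Real.exp (-((π / p.1) ^ 2 * ‖p.2‖ ^ 2)) * ‖fh f p.2‖ ^ 2))
      ((volume.restrict (Ioi (0 : ℝ))).prod (volume : Measure P3)) := by
  have hc := continuous_fh hf.int
  have hm : Measurable (fun p : ℝ × P3 => (√π / p.1) ^ 3 *
      (Real.exp (-((π / p.1) ^ 2 * ‖p.2‖ ^ 2)) * ‖fh f p.2‖ ^ 2)) := by
    have := hc.measurable
    fun_prop
  rw [integrable_prod_iff hm.aestronglyMeasurable]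
  constructor
  · refine (ae_restrict_iff' measurableSet_Ioi).2 (Eventually.of_forall fun τ hτ => ?_)
    have hτ0 : (0 : ℝ) < τ := hτ
    have hpt : 0 < π / τ := by positivity
    have hcm : AEStronglyMeasurable (fun v : P3 => ‖fh f v‖ ^ 2) volume :=
      (hc.norm.pow 2).aestronglyMeasurable
    change Integrable (fun y : P3 => (√π / τ) ^ 3 *
      (Real.exp (-((π / τ) ^ 2 * ‖y‖ ^ 2)) * ‖fh f y‖ ^ 2))
    exact ((integrable_exp_norm hpt).mul_bdd (c := (∫ x, |f x|) ^ 2) hcm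
      (Eventually.of_forall fun v => by
        rw [Real.norm_eq_abs, abs_of_nonneg (by positivity)]
        exact pow_le_pow_left₀ (norm_nonneg _) (norm_fh_le f v) 2)).const_mul ((√π / τ) ^ 3)
  · have h := integrableOn_Q hf.int hf
    refine (integrable_congr ?_).2 h
    refine (ae_restrict_iff' measurableSet_Ioi).2 (Eventually.of_forall fun τ hτ => ?_)
    have hτ0 : (0 : ℝ) < τ := hτ
    simp only
    rw [Q_self_fourier hf.int hτ0, ← integral_const_mul]
    refine integral_congr_ae (Eventually.of_forall fun v => ?_)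
    simp only
    rw [Real.norm_eq_abs, abs_of_nonneg (by positivity)]

theorem inner_tau_integral (f : P3 → ℝ) {v : P3} (hv : v ≠ 0) :
    ∫ τ in Ioi (0 : ℝ), (√π / τ) ^ 3 *
      (Real.exp (-((π / τ) ^ 2 * ‖v‖ ^ 2)) * ‖fh f v‖ ^ 2) =
      √π / 2 * (‖fh f v‖ ^ 2 / (π * ‖v‖ ^ 2)) := by
  have hv' : 0 < ‖v‖ := norm_pos_iff.2 hv
  have e : (fun τ : ℝ => (√π / τ) ^ 3 *
      (Real.exp (-((π / τ) ^ 2 * ‖v‖ ^ 2)) * ‖fh f v‖ ^ 2)) =
      fun τ : ℝ => ((√π / τ) ^ 3 * Real.exp (-((π / τ) ^ 2 * ‖v‖ ^ 2))) * ‖fh f v‖ ^ 2 := by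
    funext τ; ring
  rw [e, integral_mul_const, integral_tau_cube hv']
  ring

theorem ae_ne_zero : ∀ᵐ v : P3, v ≠ 0 := by
  rw [ae_iff]
  simp

/-- **Fourier form of the Coulomb form.** -/
theorem D_self_fourier {f : P3 → ℝ} (hf : Nice f) :
    Integrable (fun v : P3 => ‖fh f v‖ ^ 2 / (π * ‖v‖ ^ 2)) ∧
    D f f = ∫ v : P3, ‖fh f v‖ ^ 2 / (π * ‖v‖ ^ 2) := by
  have h := integrable_fourier_heat hf
  have hs : (√π / 2) ≠ 0 := by positivity
  have hI : Integrable (fun v : P3 => √π / 2 * (‖fh f v‖ ^ 2 / (π * ‖v‖ ^ 2))) := by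
    refine (integrable_congr ?_).1 h.integral_prod_right
    filter_upwards [ae_ne_zero] with v hv
    exact inner_tau_integral f hv
  constructor
  · have := hI.const_mul (√π / 2)⁻¹
    refine this.congr (Eventually.of_forall fun v => ?_)
    simp only
    rw [← mul_assoc, inv_mul_cancel₀ hs, one_mul]
  · rw [D_eq_heat hf.int hf]
    have h1 : ∫ τ in Ioi (0 : ℝ), Q τ f f = ∫ τ in Ioi (0 : ℝ), ∫ v : P3, (√π / τ) ^ 3 *
        (Real.exp (-((π / τ) ^ 2 * ‖v‖ ^ 2)) * ‖fh f v‖ ^ 2) := by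
      refine setIntegral_congr_fun measurableSet_Ioi fun τ hτ => ?_
      rw [Q_self_fourier hf.int hτ, integral_const_mul]
    have h2 := integral_integral_swap (f := fun (τ : ℝ) (v : P3) => (√π / τ) ^ 3 *
        (Real.exp (-((π / τ) ^ 2 * ‖v‖ ^ 2)) * ‖fh f v‖ ^ 2)) h
    rw [h1, h2]
    have h3 : ∫ v : P3, ∫ τ in Ioi (0 : ℝ), (√π / τ) ^ 3 *
        (Real.exp (-((π / τ) ^ 2 * ‖v‖ ^ 2)) * ‖fh f v‖ ^ 2) =
        ∫ v : P3, √π / 2 * (‖fh f v‖ ^ 2 / (π * ‖v‖ ^ 2)) := by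
      refine integral_congr_ae ?_
      filter_upwards [ae_ne_zero] with v hv
      exact inner_tau_integral f hv
    rw [h3, integral_const_mul, ← mul_assoc]
    have : 2 / √π * (√π / 2) = 1 := by
      have : √π ≠ 0 := by positivity
      field_simp
    rw [this, one_mul]

/-- the `i`-th basis vector. -/
def eb (i : Fin 3) : P3 := EuclideanSpace.single i (1 : ℝ)

theorem inner_eb (w : P3) (i : Fin 3) : ⟪w, eb i⟫_ℝ = w i := by
  simp [eb, EuclideanSpace.inner_single_right]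

theorem norm_fourier_lineDeriv (η : 𝓢(P3, ℂ)) (i : Fin 3) (w : P3) :
    ‖𝓕 (∂_{eb i} η) w‖ = 2 * π * |w i| * ‖𝓕 η w‖ := by
  rw [SchwartzMap.fourier_lineDerivOp_eq]
  have htg : Function.HasTemperateGrowth (fun x : P3 => inner ℝ x (eb i)) := by fun_prop
  rw [smul_apply, SchwartzMap.smulLeftCLM_apply_apply htg]
  rw [norm_smul, norm_smul, inner_eb]
  simp only [norm_mul, Complex.norm_ofNat, Complex.norm_real, Real.norm_eq_abs, Complex.norm_I,
    mul_one, abs_of_pos pi_pos]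
  ring

theorem integral_deriv_sq (η : 𝓢(P3, ℂ)) (i : Fin 3) :
    ∫ w : P3, (2 * π * |w i| * ‖𝓕 η w‖) ^ 2 = ∫ x, ‖fderiv ℝ η x (eb i)‖ ^ 2 := by
  have h := SchwartzMap.integral_norm_sq_fourier (∂_{eb i} η)
  simp_rw [norm_fourier_lineDeriv] at h
  rw [h]
  rfl

theorem integrable_deriv_sq (η : 𝓢(P3, ℂ)) (i : Fin 3) :
    Integrable (fun w : P3 => (2 * π * |w i| * ‖𝓕 η w‖) ^ 2) := by
  have h := (SchwartzMap.memLp (𝓕 (∂_{eb i} η)) 2 (volume : Measure P3)).integrable_norm_pow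
    (by norm_num)
  refine h.congr (Eventually.of_forall fun w => ?_)
  simp only
  rw [← norm_fourier_lineDeriv]

theorem norm_coord_le (w : P3) (i : Fin 3) : |w i| ≤ ‖w‖ := by
  have := PiLp.norm_apply_le w i
  simpa using this

theorem sum_coord_sq (w : P3) : ∑ i, |w i| ^ 2 = ‖w‖ ^ 2 := by
  rw [EuclideanSpace.norm_sq_eq]
  simp

/-- A real function which is the restriction of a complex Schwartz function is nice. -/
theorem nice_of_schwartz (F : 𝓢(P3, ℂ)) (f : P3 → ℝ) (h : ∀ x, (f x : ℂ) = F x) : Nice f := by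
  constructor
  · have h1 := (F.integrable (μ := (volume : Measure P3))).re
    refine h1.congr (Eventually.of_forall fun x => ?_)
    simp only
    rw [← h x]
    simp
  · refine ⟨SchwartzMap.seminorm ℝ 0 0 F, fun x => ?_⟩
    have h1 := SchwartzMap.norm_le_seminorm ℝ F x
    rw [← h x] at h1
    simpa using h1

theorem fh_of_schwartz (F : 𝓢(P3, ℂ)) (f : P3 → ℝ) (h : ∀ x, (f x : ℂ) = F x) (w : P3) :
    fh f w = 𝓕 F w := by
  have : (fun x => (f x : ℂ)) = F := funext h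
  unfold fh
  rw [this, ← SchwartzMap.fourier_coe]

/-- **Divergence estimate**: `D(∂_i G, ∂_i G) ≤ 4π ‖G‖₂²`. -/
theorem D_deriv_le (G : 𝓢(P3, ℂ)) (i : Fin 3) (f : P3 → ℝ)
    (hf : ∀ x, (f x : ℂ) = fderiv ℝ G x (eb i)) :
    D f f ≤ 4 * π * ∫ x, ‖G x‖ ^ 2 := by
  have hf' : ∀ x, (f x : ℂ) = (∂_{eb i} G) x := fun x => hf x
  have hN : Nice f := nice_of_schwartz _ f hf'
  obtain ⟨hI, hD⟩ := D_self_fourier hN
  rw [hD, ← SchwartzMap.integral_norm_sq_fourier, ← integral_const_mul]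
  have hG : Integrable (fun w : P3 => ‖𝓕 G w‖ ^ 2) := by
    exact (SchwartzMap.memLp (𝓕 G) 2 (volume : Measure P3)).integrable_norm_pow (by norm_num)
  refine integral_mono hI (hG.const_mul _) fun w => ?_
  simp only
  rw [fh_of_schwartz _ f hf', norm_fourier_lineDeriv]
  rcases eq_or_ne w 0 with hw | hw
  · rw [hw]; simp; positivity
  · have h0 : 0 < ‖w‖ := norm_pos_iff.2 hw
    rw [div_le_iff₀ (by positivity)]
    have h1 : |w i| ^ 2 ≤ ‖w‖ ^ 2 := pow_le_pow_left₀ (abs_nonneg _) (norm_coord_le w i) 2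
    have h2 : 0 ≤ 4 * π ^ 2 * ‖𝓕 G w‖ ^ 2 := by positivity
    nlinarith [mul_le_mul_of_nonneg_left h1 h2]

theorem cs_integral {a b : P3 → ℝ} (ha : Integrable (fun x => a x ^ 2))
    (hb : Integrable (fun x => b x ^ 2)) (hab : Integrable (fun x => a x * b x)) :
    (∫ x, a x * b x) ^ 2 ≤ (∫ x, a x ^ 2) * ∫ x, b x ^ 2 := by
  have h : ∀ t : ℝ, 0 ≤ (∫ x, b x ^ 2) * (t * t) + 2 * (∫ x, a x * b x) * t + ∫ x, a x ^ 2 := by
    intro t
    have e : (∫ x, b x ^ 2) * (t * t) + 2 * (∫ x, a x * b x) * t + ∫ x, a x ^ 2 =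
        ∫ x, (a x + t * b x) ^ 2 := by
      have e1 : (fun x => (a x + t * b x) ^ 2) =
          fun x => (t * t) * b x ^ 2 + ((2 * t) * (a x * b x) + a x ^ 2) := by
        funext x; ring
      have hA : Integrable (fun x => (2 * t) * (a x * b x)) := hab.const_mul (2 * t)
      have hA2 : Integrable (fun x => (2 * t) * (a x * b x) + a x ^ 2) := hA.add ha
      have hB : Integrable (fun x => (t * t) * b x ^ 2) := hb.const_mul (t * t)
      rw [e1, integral_add hB hA2, integral_add hA ha, integral_const_mul, integral_const_mul]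
      ring
    rw [e]
    exact integral_nonneg fun x => sq_nonneg _
  have := discrim_le_zero h
  unfold discrim at this
  nlinarith

theorem integral_mul_eq_fourier {ρ : P3 → ℝ} (hρ : Integrable ρ) (η : 𝓢(P3, ℂ)) :
    ∫ x, (ρ x : ℂ) * η x = ∫ w, conj (fh ρ w) * (𝓕 η : 𝓢(P3, ℂ)) w := by
  have h := VectorFourier.integral_sesq_fourierIntegral_eq_neg_flip (innerSL ℂ)
    (L := innerₗ P3) (e := 𝐞) (μ := (volume : Measure P3)) (ν := (volume : Measure P3))
    Real.continuous_fourierChar continuous_inner hρ.ofReal (𝓕 η : 𝓢(P3, ℂ)).integrable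
  have h1 : ∀ x, VectorFourier.fourierIntegral 𝐞 (volume : Measure P3) (-(innerₗ P3).flip)
      (𝓕 η : 𝓢(P3, ℂ)) x = η x := by
    intro x
    have e1 : VectorFourier.fourierIntegral 𝐞 (volume : Measure P3) (-(innerₗ P3).flip)
      (𝓕 η : 𝓢(P3, ℂ)) x = (𝓕⁻ (𝓕 η : 𝓢(P3, ℂ)) : 𝓢(P3, ℂ)) x := by
      rw [SchwartzMap.fourierInv_coe, flip_innerₗ]
      rfl
    rw [e1, FourierTransform.fourierInv_fourier_eq]
  have h2 : ∀ w, VectorFourier.fourierIntegral 𝐞 (volume : Measure P3) (innerₗ P3)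
      (fun x => (ρ x : ℂ)) w = fh ρ w := fun w => rfl
  simp only [innerSL_apply_apply, RCLike.inner_apply] at h
  have e3 : ∫ w, conj (fh ρ w) * (𝓕 η : 𝓢(P3, ℂ)) w =
      ∫ w, (𝓕 η : 𝓢(P3, ℂ)) w * conj (fh ρ w) := by
    simp_rw [mul_comm]
  rw [e3]
  refine Eq.trans ?_ h.symm
  refine integral_congr_ae (Eventually.of_forall fun x => ?_)
  simp only
  rw [h1]
  simp [mul_comm]

/-- **Duality**: `4π (∫ ρ η)² ≤ D(ρ,ρ) ∫ |∇η|²`. -/
theorem D_duality {ρ : P3 → ℝ} (hρ : Nice ρ) (η : 𝓢(P3, ℂ)) (e : P3 → ℝ)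
    (he : ∀ x, (e x : ℂ) = η x) :
    4 * π * (∫ x, ρ x * e x) ^ 2 ≤ D ρ ρ * ∑ i, ∫ x, ‖fderiv ℝ η x (eb i)‖ ^ 2 := by
  obtain ⟨hI, hD⟩ := D_self_fourier hρ
  have h1 : |∫ x, ρ x * e x| ≤ ∫ w, ‖fh ρ w‖ * ‖𝓕 η w‖ := by
    have h2 : ((∫ x, ρ x * e x : ℝ) : ℂ) = ∫ w, conj (fh ρ w) * (𝓕 η : 𝓢(P3, ℂ)) w := by
      rw [← integral_mul_eq_fourier hρ.int, ← integral_complex_ofReal]
      refine integral_congr_ae (Eventually.of_forall fun x => ?_)
      simp only
      rw [← he x]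
      push_cast
      rfl
    have h3 : |∫ x, ρ x * e x| = ‖((∫ x, ρ x * e x : ℝ) : ℂ)‖ := by
      rw [Complex.norm_real, Real.norm_eq_abs]
    rw [h3, h2]
    refine (norm_integral_le_integral_norm _).trans (le_of_eq ?_)
    refine integral_congr_ae (Eventually.of_forall fun w => ?_)
    simp only [norm_mul, RCLike.norm_conj]
  set a : P3 → ℝ := fun w => ‖fh ρ w‖ / (√π * ‖w‖) with ha
  set b : P3 → ℝ := fun w => √π * ‖w‖ * ‖𝓕 η w‖ with hb
  have hsq : √π ^ 2 = π := Real.sq_sqrt pi_pos.le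
  have ha2 : (fun w => a w ^ 2) = fun w => ‖fh ρ w‖ ^ 2 / (π * ‖w‖ ^ 2) := by
    funext w
    simp only [ha]
    rw [div_pow, mul_pow, hsq]
  have hb2 : (fun w => b w ^ 2) =
      fun w => (4 * π)⁻¹ * ∑ i, (2 * π * |w i| * ‖𝓕 η w‖) ^ 2 := by
    funext w
    simp only [hb]
    have : ∀ i, (2 * π * |w i| * ‖𝓕 η w‖) ^ 2 = (4 * π ^ 2 * ‖𝓕 η w‖ ^ 2) * |w i| ^ 2 := by
      intro i; ring
    simp_rw [this]
    rw [← Finset.mul_sum, sum_coord_sq, mul_pow, mul_pow, hsq]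
    field_simp
  have hab : (fun w => ‖fh ρ w‖ * ‖𝓕 η w‖) =ᵐ[volume] fun w => a w * b w := by
    filter_upwards [ae_ne_zero] with w hw
    have h0 : ‖w‖ ≠ 0 := norm_ne_zero_iff.2 hw
    have hs : √π ≠ 0 := by positivity
    simp only [ha, hb]
    field_simp
  have hcm : AEStronglyMeasurable (fun v : P3 => ‖fh ρ v‖) volume :=
    (continuous_fh hρ.int).norm.aestronglyMeasurable
  have hint : Integrable (fun w => ‖fh ρ w‖ * ‖𝓕 η w‖) :=
    (𝓕 η).integrable.norm.bdd_mul (c := ∫ x, |ρ x|) hcm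
      (Eventually.of_forall fun w => by
        rw [Real.norm_eq_abs, abs_of_nonneg (norm_nonneg _)]; exact norm_fh_le ρ w)
  have hAI : Integrable (fun w => a w ^ 2) := by rw [ha2]; exact hI
  have hBI : Integrable (fun w => b w ^ 2) := by
    rw [hb2]
    exact (integrable_finsetSum _ fun i _ => integrable_deriv_sq η i).const_mul _
  have hCS := cs_integral hAI hBI (hint.congr hab)
  rw [← integral_congr_ae hab, ha2, ← hD, hb2, integral_const_mul,
    integral_finsetSum _ fun i _ => integrable_deriv_sq η i] at hCS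
  simp_rw [integral_deriv_sq] at hCS
  have h4 : (∫ x, ρ x * e x) ^ 2 ≤ (∫ w, ‖fh ρ w‖ * ‖𝓕 η w‖) ^ 2 := by
    rw [← sq_abs]
    exact pow_le_pow_left₀ (abs_nonneg _) h1 2
  have h5 := h4.trans hCS
  have h6 := mul_le_mul_of_nonneg_left h5 (by positivity : 0 ≤ 4 * π)
  refine h6.trans (le_of_eq ?_)
  field_simp

/-- Duality for compactly supported smooth test functions. -/
theorem D_duality_compact {ρ : P3 → ℝ} (hρ : Nice ρ) {e : P3 → ℝ} (hc : HasCompactSupport e)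
    (hs : ContDiff ℝ ∞ e) :
    4 * π * (∫ x, ρ x * e x) ^ 2 ≤ D ρ ρ * ∑ i, ∫ x, (fderiv ℝ e x (eb i)) ^ 2 := by
  have hc' : HasCompactSupport (fun x => (e x : ℂ)) := hc.comp_left Complex.ofReal_zero
  have hs' : ContDiff ℝ ∞ (fun x => (e x : ℂ)) := Complex.ofRealCLM.contDiff.comp hs
  have h := D_duality hρ (hc'.toSchwartzMap hs') e (fun x => rfl)
  refine h.trans (le_of_eq ?_)
  congr 1
  refine Finset.sum_congr rfl fun i _ => ?_
  refine integral_congr_ae (Eventually.of_forall fun x => ?_)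
  simp only
  have hd : HasFDerivAt e (fderiv ℝ e x) x :=
    ((hs.differentiable (by simp)) x).hasFDerivAt
  have hd2 : HasFDerivAt (fun x => (e x : ℂ)) (Complex.ofRealCLM.comp (fderiv ℝ e x)) x :=
    Complex.ofRealCLM.hasFDerivAt.comp x hd
  have e1 : fderiv ℝ (hc'.toSchwartzMap hs' : 𝓢(P3, ℂ)) x =
      Complex.ofRealCLM.comp (fderiv ℝ e x) := hd2.fderiv
  rw [e1]
  simp

end Crest.Agent.R338.CE
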