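import Mathlib
import Crest.Agent.R338.CE3

/-!
Row 338, part 5: product functions, the bound
`D(ρ,ρ) ≤ 4 (∫ f₀² ∫ f₁²)^{1/2}` for product densities, and the classical site integrals.
-/

open MeasureTheory Real Set Filter
open scoped Topology

noncomputable section

namespace Crest.Agent.R338.CE

/-- Product function on ℝ³. -/
def pf (f : Fin 3 → ℝ → ℝ) (x : P3) : ℝ := ∏ c, f c (x c)

theorem integral_pf (f : Fin 3 → ℝ → ℝ) : ∫ x, pf f x = ∏ c, ∫ t, f c t := by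
  have e : ∫ x : P3, pf f x = ∫ y : Fin 3 → ℝ, ∏ i, f i (y i) := by
    rw [← (EuclideanSpace.volume_preserving_symm_measurableEquiv_toLp (Fin 3)).integral_comp'
      (g := fun y : Fin 3 → ℝ => ∏ i, f i (y i))]
    rfl
  rw [e, integral_fintype_prod_volume_eq_prod]

theorem integrable_pf {f : Fin 3 → ℝ → ℝ} (hf : ∀ c, Integrable (f c)) : Integrable (pf f) := by
  have h : Integrable (fun y : Fin 3 → ℝ => ∏ i, f i (y i)) := Integrable.fintype_prod hf
  exact (EuclideanSpace.volume_preserving_symm_measurableEquiv_toLp (Fin 3)).integrable_comp_emb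
    (MeasurableEquiv.measurableEmbedding _) |>.2 h

theorem nice_pf {f : Fin 3 → ℝ → ℝ} (hf : ∀ c, Integrable (f c))
    (hb : ∀ c, ∃ C, ∀ t, |f c t| ≤ C) : Nice (pf f) := by
  refine ⟨integrable_pf hf, ?_⟩
  choose C hC using hb
  refine ⟨∏ c, C c, fun x => ?_⟩
  unfold pf
  rw [Finset.abs_prod]
  exact Finset.prod_le_prod (fun c _ => abs_nonneg _) fun c _ => hC c _

/-- One-dimensional Gaussian form. -/
def q (τ : ℝ) (f g : ℝ → ℝ) : ℝ := ∫ s, ∫ t, f s * g t * Real.exp (-(τ ^ 2 * (s - t) ^ 2))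

theorem exp_prod (τ : ℝ) (x y : P3) :
    Real.exp (-(τ ^ 2 * ‖x - y‖ ^ 2)) = ∏ c, Real.exp (-(τ ^ 2 * (x c - y c) ^ 2)) := by
  rw [← Real.exp_sum]
  congr 1
  rw [EuclideanSpace.norm_sq_eq, Finset.mul_sum, ← Finset.sum_neg_distrib]
  refine Finset.sum_congr rfl fun c _ => ?_
  simp

/-- The Gaussian form of product functions factorises. -/
theorem Q_prod {f g : Fin 3 → ℝ → ℝ} (hf : ∀ c, Integrable (f c)) (hg : ∀ c, Integrable (g c))
    (τ : ℝ) : Q τ (pf f) (pf g) = ∏ c, q τ (f c) (g c) := by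
  have hQ := integrable_Q (integrable_pf hf) (integrable_pf hg) τ
  unfold Q
  rw [Measure.volume_eq_prod] at hQ ⊢
  rw [integral_prod _ hQ]
  have e : ∀ x : P3, ∫ y : P3, pf f x * pf g y * Real.exp (-(τ ^ 2 * ‖x - y‖ ^ 2)) =
      pf (fun c s => ∫ t, f c s * g c t * Real.exp (-(τ ^ 2 * (s - t) ^ 2))) x := by
    intro x
    have e1 : (fun y : P3 => pf f x * pf g y * Real.exp (-(τ ^ 2 * ‖x - y‖ ^ 2))) =
        pf (fun c t => f c (x c) * g c t * Real.exp (-(τ ^ 2 * (x c - t) ^ 2))) := by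
      funext y
      unfold pf
      rw [exp_prod, ← Finset.prod_mul_distrib, ← Finset.prod_mul_distrib]
    rw [e1, integral_pf]
    rfl
  simp only [e]
  rw [integral_pf]
  rfl

theorem integrable_exp_line {τ : ℝ} (hτ : 0 < τ) :
    Integrable (fun t : ℝ => Real.exp (-(τ ^ 2 * t ^ 2))) := by
  have := integrable_exp_neg_mul_sq (b := τ ^ 2) (by positivity)
  refine this.congr (Eventually.of_forall fun t => ?_)
  simp only
  congr 1
  ring

theorem integral_exp_line {τ : ℝ} (hτ : 0 < τ) :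
    ∫ t : ℝ, Real.exp (-(τ ^ 2 * t ^ 2)) = √π / τ := by
  have := integral_gaussian (τ ^ 2)
  rw [Real.sqrt_div' _ (by positivity), Real.sqrt_sq hτ.le] at this
  rw [← this]
  refine integral_congr_ae (Eventually.of_forall fun t => ?_)
  simp only
  congr 1
  ring

theorem integrable_line_gauss {f : ℝ → ℝ} (hf : Integrable f) {τ : ℝ} (hτ : 0 < τ) :
    Integrable (fun z : ℝ × ℝ => f z.1 * Real.exp (-(τ ^ 2 * (z.1 - z.2) ^ 2))) := by
  rw [Measure.volume_eq_prod]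
  have hm : AEStronglyMeasurable (fun z : ℝ × ℝ =>
      f z.1 * Real.exp (-(τ ^ 2 * (z.1 - z.2) ^ 2))) ((volume : Measure ℝ).prod volume) := by
    exact hf.aestronglyMeasurable.comp_fst.mul
      (by fun_prop : Continuous fun z : ℝ × ℝ =>
        Real.exp (-(τ ^ 2 * (z.1 - z.2) ^ 2))).aestronglyMeasurable
  rw [integrable_prod_iff hm]
  constructor
  · refine Filter.Eventually.of_forall fun x => ?_
    exact ((integrable_exp_line hτ).comp_sub_left x).const_mul (f x)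
  · have e : ∀ x : ℝ, ∫ y : ℝ, ‖f x * Real.exp (-(τ ^ 2 * (x - y) ^ 2))‖ =
        ‖f x‖ * (√π / τ) := by
      intro x
      simp_rw [norm_mul, Real.norm_eq_abs (Real.exp _), Real.abs_exp]
      rw [integral_const_mul, ← integral_exp_line hτ]
      congr 1
      exact integral_sub_left_eq_self (fun v : ℝ => Real.exp (-(τ ^ 2 * v ^ 2))) volume x
    simp_rw [e]
    exact hf.norm.mul_const _

theorem integral_line_gauss {f : ℝ → ℝ} (hf : Integrable f) {τ : ℝ} (hτ : 0 < τ) :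
    ∫ z : ℝ × ℝ, f z.1 * Real.exp (-(τ ^ 2 * (z.1 - z.2) ^ 2)) = (∫ x, f x) * (√π / τ) := by
  have hi := integrable_line_gauss hf hτ
  rw [Measure.volume_eq_prod] at hi ⊢
  rw [integral_prod _ hi]
  have e : ∀ x : ℝ, ∫ y : ℝ, f x * Real.exp (-(τ ^ 2 * (x - y) ^ 2)) =
        f x * (√π / τ) := by
      intro x
      rw [integral_const_mul, ← integral_exp_line hτ]
      congr 1
      exact integral_sub_left_eq_self (fun v : ℝ => Real.exp (-(τ ^ 2 * v ^ 2))) volume x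
  simp_rw [e]
  rw [integral_mul_const]

theorem exp_le_one_line (τ s : ℝ) : Real.exp (-(τ ^ 2 * s ^ 2)) ≤ 1 := by
  rw [Real.exp_le_one_iff]; nlinarith [mul_nonneg (sq_nonneg τ) (sq_nonneg s)]

theorem integrable_q {f g : ℝ → ℝ} (hf : Integrable f) (hg : Integrable g) (τ : ℝ) :
    Integrable (fun z : ℝ × ℝ => f z.1 * g z.2 * Real.exp (-(τ ^ 2 * (z.1 - z.2) ^ 2))) := by
  have h := hf.mul_prod hg
  refine Integrable.mono h ?_ (Filter.Eventually.of_forall fun z => ?_)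
  · exact h.aestronglyMeasurable.mul
      (by fun_prop : Continuous fun z : ℝ × ℝ =>
        Real.exp (-(τ ^ 2 * (z.1 - z.2) ^ 2))).aestronglyMeasurable
  · rw [norm_mul, Real.norm_eq_abs (Real.exp _), Real.abs_exp]
    exact mul_le_of_le_one_right (norm_nonneg _) (exp_le_one_line τ _)

theorem q_eq {f g : ℝ → ℝ} (hf : Integrable f) (hg : Integrable g) (τ : ℝ) :
    q τ f g = ∫ z : ℝ × ℝ, f z.1 * g z.2 * Real.exp (-(τ ^ 2 * (z.1 - z.2) ^ 2)) := by
  have h := integrable_q hf hg τ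
  rw [Measure.volume_eq_prod] at h ⊢
  rw [integral_prod _ h]
  rfl

theorem abs_q_le {f g : ℝ → ℝ} (hf : Integrable f) (hg : Integrable g) (τ : ℝ) :
    |q τ f g| ≤ (∫ s, |f s|) * ∫ t, |g t| := by
  rw [q_eq hf hg]
  have : (∫ x, |f x|) * ∫ y, |g y| = ∫ z : ℝ × ℝ, |f z.1| * |g z.2| :=
    (integral_prod_mul (fun x => |f x|) (fun y => |g y|)).symm
  rw [this]
  refine abs_integral_le_integral_abs.trans ?_
  refine integral_mono (integrable_q hf hg τ).abs (hf.abs.mul_prod hg.abs) fun z => ?_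
  simp only [abs_mul, Real.abs_exp]
  exact mul_le_of_le_one_right (by positivity) (exp_le_one_line τ _)

theorem abs_q_self_le {f : ℝ → ℝ} (hf : Integrable f) (hf2 : Integrable (fun s => f s ^ 2))
    {τ : ℝ} (hτ : 0 < τ) : |q τ f f| ≤ √π / τ * ∫ s, f s ^ 2 := by
  rw [q_eq hf hf]
  have h1 := integrable_line_gauss hf2 hτ
  have h2 : Integrable (fun z : ℝ × ℝ => f z.2 ^ 2 * Real.exp (-(τ ^ 2 * (z.1 - z.2) ^ 2))) := by
    have := h1.swap
    refine this.congr (Eventually.of_forall fun z => ?_)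
    simp only [Function.comp, Prod.fst_swap, Prod.snd_swap]
    congr 2
    ring
  have h3 : ∫ z : ℝ × ℝ, f z.2 ^ 2 * Real.exp (-(τ ^ 2 * (z.1 - z.2) ^ 2)) =
      (∫ x, f x ^ 2) * (√π / τ) := by
    rw [← integral_line_gauss hf2 hτ, Measure.volume_eq_prod, ← integral_prod_swap]
    refine integral_congr_ae (Eventually.of_forall fun z => ?_)
    simp only [Prod.fst_swap, Prod.snd_swap]
    congr 2
    ring
  have h4 : √π / τ * ∫ s, f s ^ 2 = ∫ z : ℝ × ℝ, (1 / 2 : ℝ) *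
      (f z.1 ^ 2 * Real.exp (-(τ ^ 2 * (z.1 - z.2) ^ 2)) +
       f z.2 ^ 2 * Real.exp (-(τ ^ 2 * (z.1 - z.2) ^ 2))) := by
    rw [integral_const_mul, integral_add h1 h2, integral_line_gauss hf2 hτ, h3]
    ring
  rw [h4]
  refine abs_integral_le_integral_abs.trans ?_
  refine integral_mono (integrable_q hf hf τ).abs ((h1.add h2).const_mul _) fun z => ?_
  simp only [abs_mul, Real.abs_exp]
  have h5 : |f z.1| * |f z.2| ≤ (1 / 2 : ℝ) * (f z.1 ^ 2 + f z.2 ^ 2) := by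
    nlinarith [sq_nonneg (|f z.1| - |f z.2|), sq_abs (f z.1), sq_abs (f z.2)]
  have h6 := mul_le_mul_of_nonneg_right h5 (Real.exp_pos (-(τ ^ 2 * (z.1 - z.2) ^ 2))).le
  nlinarith

/-- Real integral bound used for `U`. -/
theorem integral_split_le {F : ℝ → ℝ} (hF : IntegrableOn F (Ioi 0)) {T B : ℝ} (hT : 0 < T)
    (h1 : ∀ τ ∈ Ioi (0 : ℝ), F τ ≤ 1) (h2 : ∀ τ ∈ Ioi (0 : ℝ), F τ ≤ B / τ ^ 2) :
    ∫ τ in Ioi (0 : ℝ), F τ ≤ T + B / T := by
  have hu : Ioi (0 : ℝ) = Ioc 0 T ∪ Ioi T := (Ioc_union_Ioi_eq_Ioi hT.le).symm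
  have hF' := hF
  rw [hu] at hF'
  have hF1 := hF'.mono_set subset_union_left
  have hF2 := hF'.mono_set subset_union_right
  rw [hu, setIntegral_union (Ioc_disjoint_Ioi le_rfl) measurableSet_Ioi hF1 hF2]
  have hA : ∫ τ in Ioc (0 : ℝ) T, F τ ≤ T := by
    have : ∫ τ in Ioc (0 : ℝ) T, F τ ≤ ∫ τ in Ioc (0 : ℝ) T, (1 : ℝ) := by
      refine setIntegral_mono_on hF1 (integrable_const _) measurableSet_Ioc fun τ hτ => ?_
      exact h1 τ hτ.1
    refine this.trans (le_of_eq ?_)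
    simp [hT.le]
  have hB : ∫ τ in Ioi T, F τ ≤ B / T := by
    have hint : IntegrableOn (fun τ : ℝ => B * τ ^ (-2 : ℝ)) (Ioi T) :=
      (integrableOn_Ioi_rpow_of_lt (by norm_num) hT).const_mul _
    have : ∫ τ in Ioi T, F τ ≤ ∫ τ in Ioi T, B * τ ^ (-2 : ℝ) := by
      refine setIntegral_mono_on hF2 hint measurableSet_Ioi fun τ hτ => ?_
      have hτ0 : (0 : ℝ) < τ := lt_trans hT hτ
      refine (h2 τ hτ0).trans (le_of_eq ?_)
      rw [Real.rpow_neg hτ0.le]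
      norm_num
      rfl
    refine this.trans (le_of_eq ?_)
    rw [integral_const_mul, integral_Ioi_rpow_of_lt (by norm_num) hT]
    norm_num
    rw [Real.rpow_neg_one]
    rfl
  linarith

/-- **Self energy of a product density**: if `f₀, f₁, f₂` have `L¹` norm at most one then
`D(f₀⊗f₁⊗f₂, same) ≤ 4 (∫ f₀² · ∫ f₁²)^{1/2}`. -/
theorem D_pf_le {f : Fin 3 → ℝ → ℝ} (hf : ∀ c, Integrable (f c))
    (hb : ∀ c, ∃ C, ∀ t, |f c t| ≤ C) (h2 : ∀ c, Integrable (fun s => f c s ^ 2))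
    (h1 : ∀ c, ∫ s, |f c s| ≤ 1) {A B : ℝ} (hA : 0 < A) (hB : 0 < B)
    (hA' : ∫ s, f 0 s ^ 2 ≤ A ^ 2) (hB' : ∫ s, f 1 s ^ 2 ≤ B ^ 2) :
    D (pf f) (pf f) ≤ 4 * (A * B) := by
  have hN := nice_pf hf hb
  rw [D_eq_heat hN.int hN]
  have hpi : 0 < √π := by positivity
  have hq1 : ∀ c, ∀ τ : ℝ, |q τ (f c) (f c)| ≤ 1 := by
    intro c τ
    refine (abs_q_le (hf c) (hf c) τ).trans ?_
    have h0 : 0 ≤ ∫ s, |f c s| := integral_nonneg fun s => abs_nonneg _
    nlinarith [h1 c]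
  have hF1 : ∀ τ ∈ Ioi (0 : ℝ), Q τ (pf f) (pf f) ≤ 1 := by
    intro τ _
    rw [Q_prod hf hf]
    refine (le_abs_self _).trans ?_
    rw [Finset.abs_prod]
    exact Finset.prod_le_one (fun c _ => abs_nonneg _) fun c _ => hq1 c τ
  have hF2 : ∀ τ ∈ Ioi (0 : ℝ), Q τ (pf f) (pf f) ≤ (π * (A ^ 2 * B ^ 2)) / τ ^ 2 := by
    intro τ hτ
    have hτ0 : (0 : ℝ) < τ := hτ
    rw [Q_prod hf hf, Fin.prod_univ_three]
    have a0 := abs_q_self_le (hf 0) (h2 0) hτ0
    have a1 := abs_q_self_le (hf 1) (h2 1) hτ0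
    have b0 : |q τ (f 0) (f 0)| ≤ √π / τ * A ^ 2 :=
      a0.trans (mul_le_mul_of_nonneg_left hA' (by positivity))
    have b1 : |q τ (f 1) (f 1)| ≤ √π / τ * B ^ 2 :=
      a1.trans (mul_le_mul_of_nonneg_left hB' (by positivity))
    have b2 := hq1 2 τ
    refine (le_abs_self _).trans ?_
    rw [abs_mul, abs_mul]
    calc |q τ (f 0) (f 0)| * |q τ (f 1) (f 1)| * |q τ (f 2) (f 2)|
        ≤ (√π / τ * A ^ 2) * (√π / τ * B ^ 2) * 1 := by gcongr
      _ = (√π ^ 2 * (A ^ 2 * B ^ 2)) / τ ^ 2 := by ring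
      _ = _ := by rw [Real.sq_sqrt pi_pos.le]
  have hT : 0 < √π * (A * B) := by positivity
  have h := integral_split_le (integrableOn_Q hN.int hN) hT hF1 hF2
  have e : √π * (A * B) + π * (A ^ 2 * B ^ 2) / (√π * (A * B)) = 2 * (√π * (A * B)) := by
    have hsq : π = √π * √π := (Real.mul_self_sqrt pi_pos.le).symm
    have : π * (A ^ 2 * B ^ 2) / (√π * (A * B)) = √π * (A * B) := by
      rw [div_eq_iff hT.ne']
      nth_rewrite 1 [hsq]
      ring
    rw [this]; ring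
  rw [e] at h
  calc 2 / √π * ∫ τ in Ioi (0 : ℝ), Q τ (pf f) (pf f) ≤ 2 / √π * (2 * (√π * (A * B))) :=
        mul_le_mul_of_nonneg_left h (by positivity)
    _ = 4 * (A * B) := by field_simp; ring

end Crest.Agent.R338.CE
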