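import Mathlib

/-!
# Row 338, module CF2 (helper608): the `τ`-integral of the Coulomb matrix elements

* `integral_zpow` : `∫_0^∞ (1+2τ²)^{-3/2} (2τ²/(1+2τ²))^k dτ = 1/(√2 (2k+1))`
-/

set_option autoImplicit false

open MeasureTheory Real

noncomputable section

namespace Crest.Agent.R338.CF

/-- the variable `z = 2τ²/(1+2τ²)` -/
def zz (t : ℝ) : ℝ := 2 * t ^ 2 / (1 + 2 * t ^ 2)

theorem zz_nonneg (t : ℝ) : 0 ≤ zz t := by unfold zz; positivity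

theorem hasDerivAt_v (t : ℝ) :
    HasDerivAt (fun t : ℝ => t / √(1 + 2 * t ^ 2)) (1 / √(1 + 2 * t ^ 2) ^ 3) t := by
  have hp : 0 < 1 + 2 * t ^ 2 := by positivity
  have hs : 0 < √(1 + 2 * t ^ 2) := Real.sqrt_pos.2 hp
  have h1 : HasDerivAt (fun t : ℝ => 1 + 2 * t ^ 2) (4 * t) t := by
    have := ((hasDerivAt_pow 2 t).const_mul 2).const_add 1
    refine this.congr_deriv ?_
    norm_num
    ring
  have h2 := h1.sqrt hp.ne'
  have h3 := (hasDerivAt_id t).div h2 hs.ne'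
  refine h3.congr_deriv ?_
  have h4 : √(1 + 2 * t ^ 2) ^ 2 = 1 + 2 * t ^ 2 := Real.sq_sqrt hp.le
  simp only [id]
  field_simp
  rw [h4]
  ring

theorem tendsto_v : Filter.Tendsto (fun t : ℝ => t / √(1 + 2 * t ^ 2)) Filter.atTop
    (nhds (1 / √2)) := by
  have h1 : Filter.Tendsto (fun t : ℝ => 1 / √((t ^ 2)⁻¹ + 2)) Filter.atTop (nhds (1 / √(0 + 2))) := by
    have h2 : Filter.Tendsto (fun t : ℝ => (t ^ 2)⁻¹) Filter.atTop (nhds 0) :=
      tendsto_inv_atTop_zero.comp (Filter.tendsto_pow_atTop (by norm_num))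
    have h3 := (h2.add_const 2).sqrt
    exact tendsto_const_nhds.div h3 (by positivity)
  rw [zero_add] at h1
  refine h1.congr' ?_
  filter_upwards [Filter.eventually_gt_atTop 0] with t ht
  have e : 1 + 2 * t ^ 2 = t ^ 2 * ((t ^ 2)⁻¹ + 2) := by field_simp
  rw [e, Real.sqrt_mul (by positivity), Real.sqrt_sq ht.le]
  field_simp

theorem zz_eq (t : ℝ) : zz t = 2 * (t / √(1 + 2 * t ^ 2)) ^ 2 := by
  have hp : 0 < 1 + 2 * t ^ 2 := by positivity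
  rw [zz, div_pow, Real.sq_sqrt hp.le]
  ring

theorem hasDerivAt_vpow (k : ℕ) (t : ℝ) :
    HasDerivAt (fun t : ℝ => 2 ^ k * (t / √(1 + 2 * t ^ 2)) ^ (2 * k + 1) / (2 * k + 1))
      (zz t ^ k / √(1 + 2 * t ^ 2) ^ 3) t := by
  have h := (((hasDerivAt_v t).pow (2 * k + 1)).const_mul (2 ^ k : ℝ)).div_const (2 * (k : ℝ) + 1)
  refine h.congr_deriv ?_
  have h2 : (2 * (k : ℝ) + 1) ≠ 0 := by positivity
  rw [zz_eq, Nat.add_sub_cancel, pow_mul, mul_pow]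
  push_cast
  field_simp

theorem tendsto_vpow (k : ℕ) :
    Filter.Tendsto (fun t : ℝ => 2 ^ k * (t / √(1 + 2 * t ^ 2)) ^ (2 * k + 1) / (2 * k + 1))
      Filter.atTop (nhds (1 / (√2 * (2 * k + 1)))) := by
  have h := ((tendsto_v.pow (2 * k + 1)).const_mul (2 ^ k : ℝ)).div_const (2 * (k : ℝ) + 1)
  have e : 2 ^ k * (1 / √2) ^ (2 * k + 1) / (2 * (k : ℝ) + 1) = 1 / (√2 * (2 * k + 1)) := by
    rw [pow_succ, pow_mul, div_pow, Real.sq_sqrt (by norm_num : (0 : ℝ) ≤ 2)]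
    simp only [one_pow, one_div, inv_pow]
    field_simp
  rwa [e] at h

theorem integrableOn_zpow (k : ℕ) :
    IntegrableOn (fun t : ℝ => zz t ^ k / √(1 + 2 * t ^ 2) ^ 3) (Set.Ioi 0) := by
  refine integrableOn_Ioi_deriv_of_nonneg' (a := 0) (fun t _ => hasDerivAt_vpow k t) ?_ (tendsto_vpow k)
  intro t _
  have := zz_nonneg t
  positivity

/-- `∫_0^∞ (1+2τ²)^{-3/2} (2τ²/(1+2τ²))^k dτ = 1/(√2 (2k+1))` -/
theorem integral_zpow (k : ℕ) :
    ∫ t in Set.Ioi (0 : ℝ), zz t ^ k / √(1 + 2 * t ^ 2) ^ 3 = 1 / (√2 * (2 * k + 1)) := by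
  rw [integral_Ioi_of_hasDerivAt_of_tendsto' (fun t _ => hasDerivAt_vpow k t) (integrableOn_zpow k)
    (tendsto_vpow k)]
  simp

end Crest.Agent.R338.CF
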