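import Crest.Agent.R338.HL3
import Crest.Agent.R338.CE1
import Crest.Agent.R338.CF2

/-!
# Row 338, module CF3 (helper608): closed formula of the Coulomb integrals

* `nice_phi2` : `phi a * phi b` is integrable and bounded
* `Q_phi` : the Gaussian form is a product of three one-dimensional forms
* `W_formula` : closed formula of `W a b c d`
-/

set_option autoImplicit false

open MeasureTheory Polynomial Real Finset

noncomputable section

namespace Crest.Agent.R338.CF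

open Crest.Agent.R338.HO Crest.Agent.R338.CE

/-- polynomial times Gaussian is bounded -/
theorem bdd_pg (P : ℝ[X]) : ∃ C : ℝ, ∀ x : ℝ, |P.eval x * rexp (-(x ^ 2) / 2)| ≤ C := by
  induction P using Polynomial.induction_on' with
  | add p q hp hq =>
    obtain ⟨A, hA⟩ := hp
    obtain ⟨B, hB⟩ := hq
    refine ⟨A + B, fun x => ?_⟩
    rw [eval_add, add_mul]
    exact (abs_add_le _ _).trans (add_le_add (hA x) (hB x))
  | monomial n a =>
    refine ⟨|a| * (n.factorial * rexp (1 / 2)), fun x => ?_⟩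
    rw [eval_monomial, mul_assoc, abs_mul, abs_mul, abs_pow, Real.abs_exp]
    refine mul_le_mul_of_nonneg_left ?_ (abs_nonneg a)
    have h1 := Real.pow_div_factorial_le_exp |x| (abs_nonneg x) n
    rw [div_le_iff₀ (by positivity)] at h1
    have h2 : rexp |x| * rexp (-(x ^ 2) / 2) ≤ rexp (1 / 2) := by
      rw [← Real.exp_add, Real.exp_le_exp]
      nlinarith [sq_nonneg (|x| - 1), sq_abs x]
    calc |x| ^ n * rexp (-(x ^ 2) / 2) ≤ (rexp |x| * n.factorial) * rexp (-(x ^ 2) / 2) :=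
          mul_le_mul_of_nonneg_right h1 (Real.exp_pos _).le
      _ = n.factorial * (rexp |x| * rexp (-(x ^ 2) / 2)) := by ring
      _ ≤ n.factorial * rexp (1 / 2) := mul_le_mul_of_nonneg_left h2 (by positivity)

theorem bdd_hf (m : ℕ) : ∃ C : ℝ, ∀ x : ℝ, |hf m x| ≤ C := bdd_pg (hP m)

theorem bdd_phi (a : Fin 3 → ℕ) : ∃ C : ℝ, ∀ x : P3, |phi a x| ≤ C := by
  choose C hC using fun c => bdd_hf (a c)
  refine ⟨∏ c, C c, fun x => ?_⟩
  unfold phi
  rw [Finset.abs_prod]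
  exact Finset.prod_le_prod (fun c _ => abs_nonneg _) (fun c _ => hC c (x c))

theorem integral_P3 (f : (Fin 3 → ℝ) → ℝ) :
    ∫ x : P3, f (fun c => x c) = ∫ y : Fin 3 → ℝ, f y := by
  rw [← (EuclideanSpace.volume_preserving_symm_measurableEquiv_toLp (Fin 3)).integral_comp' (g := f)]
  rfl

theorem integrable_P3 {f : (Fin 3 → ℝ) → ℝ} (hf : Integrable f) :
    Integrable (fun x : P3 => f (fun c => x c)) := by
  have h := (EuclideanSpace.volume_preserving_symm_measurableEquiv_toLp (Fin 3)).integrable_comp_emb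
    (MeasurableEquiv.measurableEmbedding _) (g := f)
  exact h.2 hf

theorem nice_phi2 (a b : Fin 3 → ℕ) : Nice (fun x => phi a x * phi b x) := by
  constructor
  · have h : Integrable (fun y : Fin 3 → ℝ => ∏ c, (hf (a c) (y c) * hf (b c) (y c))) :=
      Integrable.fintype_prod_dep (f := fun c y => hf (a c) y * hf (b c) y)
        (fun c => integrable_hf_mul_hf (a c) (b c))
    refine (integrable_P3 h).congr (Filter.Eventually.of_forall fun x => ?_)
    simp only [phi, Finset.prod_mul_distrib]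
  · obtain ⟨A, hA⟩ := bdd_phi a
    obtain ⟨B, hB⟩ := bdd_phi b
    have hA0 : 0 ≤ A := (abs_nonneg _).trans (hA 0)
    refine ⟨A * B, fun x => ?_⟩
    rw [abs_mul]
    exact mul_le_mul (hA x) (hB x) (abs_nonneg _) hA0

/-- one-dimensional form -/
def q1 (t : ℝ) (a b c d : ℕ) : ℝ :=
  ∫ p : ℝ × ℝ, (hf a p.1 * hf b p.1) * (hf c p.2 * hf d p.2) * HL.E (t ^ 2) p.1 p.2

/-- integrals over `P3 × P3` of products -/
theorem integral_P3P3 (f : Fin 3 → ℝ × ℝ → ℝ) :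
    ∫ z : P3 × P3, ∏ c, f c (z.1 c, z.2 c) = ∏ c, ∫ p : ℝ × ℝ, f c p := by
  have h1 : ∏ c, ∫ p : ℝ × ℝ, f c p = ∫ y : Fin 3 → ℝ × ℝ, ∏ c, f c (y c) :=
    (integral_fintype_prod_volume_eq_prod (fun c => f c)).symm
  have mp := volume_measurePreserving_arrowProdEquivProdArrow ℝ ℝ (Fin 3)
  have h2 : ∫ y : Fin 3 → ℝ × ℝ, ∏ c, f c (y c) =
      ∫ w : (Fin 3 → ℝ) × (Fin 3 → ℝ), ∏ c, f c (w.1 c, w.2 c) := by
    rw [← mp.integral_comp' (g := fun w : (Fin 3 → ℝ) × (Fin 3 → ℝ) => ∏ c, f c (w.1 c, w.2 c))]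
    rfl
  have mp3 := (EuclideanSpace.volume_preserving_symm_measurableEquiv_toLp (Fin 3))
  have h3 : ∫ w : (Fin 3 → ℝ) × (Fin 3 → ℝ), ∏ c, f c (w.1 c, w.2 c) =
      ∫ z : P3 × P3, ∏ c, f c (z.1 c, z.2 c) := by
    have mp4 := mp3.prod mp3
    have := mp4.integral_comp ((MeasurableEquiv.measurableEmbedding _).prodMap
      (MeasurableEquiv.measurableEmbedding _))
      (fun w : (Fin 3 → ℝ) × (Fin 3 → ℝ) => ∏ c, f c (w.1 c, w.2 c))
    rw [Measure.volume_eq_prod, Measure.volume_eq_prod, ← this]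
    rfl
  rw [h1, h2, h3]

theorem Q_phi (t : ℝ) (a b c d : Fin 3 → ℕ) :
    Q t (fun x => phi a x * phi b x) (fun x => phi c x * phi d x) =
      ∏ i, q1 t (a i) (b i) (c i) (d i) := by
  unfold q1
  rw [← integral_P3P3 (fun i p => (hf (a i) p.1 * hf (b i) p.1) * (hf (c i) p.2 * hf (d i) p.2) *
    HL.E (t ^ 2) p.1 p.2)]
  unfold Q
  congr 1
  ext z
  simp only [phi, Finset.prod_mul_distrib, HL.E]
  congr 1
  rw [← Real.exp_sum, EuclideanSpace.norm_sq_eq]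
  congr 1
  rw [Finset.mul_sum, ← Finset.sum_neg_distrib]
  refine Finset.sum_congr rfl fun i _ => ?_
  rw [Real.norm_eq_abs, sq_abs, PiLp.sub_apply]
  ring

/-- coefficients of the one-dimensional factor -/
def w4 (a b c d j k : ℕ) : ℤ :=
  if Even (a + b + (c + d)) then
    (HL.kap a b j : ℤ) * (HL.kap c d k : ℤ) * ((-1) ^ (c + d) *
      ((-1) ^ ((a + b - 2 * j + (c + d - 2 * k)) / 2) * (HL.df ((a + b - 2 * j + (c + d - 2 * k)) / 2) : ℤ)))
  else 0

/-- exponents of the one-dimensional factor -/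
def e4 (a b c d j k : ℕ) : ℕ := (a + b - 2 * j + (c + d - 2 * k)) / 2

theorem P4_eq (a b c d : ℕ) (z : ℝ) : HL.P4 a b c d z =
    ∑ j ∈ range (a + 1), ∑ k ∈ range (c + 1), (w4 a b c d j k : ℝ) * z ^ e4 a b c d j k := by
  unfold HL.P4
  refine Finset.sum_congr rfl fun j _ => Finset.sum_congr rfl fun k _ => ?_
  by_cases hj : HL.kap a b j = 0
  · rw [hj]; unfold w4; split_ifs <;> simp [hj]
  by_cases hk : HL.kap c d k = 0
  · rw [hk]; unfold w4; split_ifs <;> simp [hk]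
  have hj1 : j ≤ a := by by_contra hc; exact hj (HL.kap_eq_zero' (by omega))
  have hj2 : j ≤ b := by by_contra hc; exact hj (HL.kap_eq_zero (by omega))
  have hk1 : k ≤ c := by by_contra hc; exact hk (HL.kap_eq_zero' (by omega))
  have hk2 : k ≤ d := by by_contra hc; exact hk (HL.kap_eq_zero (by omega))
  have hiff : Even (a + b - 2 * j + (c + d - 2 * k)) ↔ Even (a + b + (c + d)) := by
    rw [Nat.even_iff, Nat.even_iff]
    omega
  unfold w4 e4 HL.gm
  by_cases h : Even (a + b + (c + d))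
  · rw [if_pos h, if_pos (hiff.2 h)]
    push_cast
    rw [neg_pow z]
    ring
  · rw [if_neg h, if_neg (fun h' => h (hiff.1 h'))]
    simp

/-- normalisation -/
def nr4 (a b c d : ℕ) : ℝ := HL.nr a * HL.nr b * (HL.nr c * HL.nr d)

theorem q1_eq (t : ℝ) (a b c d : ℕ) : q1 t a b c d =
    nr4 a b c d * HL.P4 a b c d (zz t) / √(1 + 2 * t ^ 2) := by
  unfold q1
  rw [HL.integral_hf4 (sq_nonneg t)]
  rfl

/-- index set of the six-fold sum -/
theorem prod_P4 (a b c d : Fin 3 → ℕ) (z : ℝ) : ∏ i, HL.P4 (a i) (b i) (c i) (d i) z =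
    ∑ j0 ∈ range (a 0 + 1), ∑ k0 ∈ range (c 0 + 1), ∑ j1 ∈ range (a 1 + 1), ∑ k1 ∈ range (c 1 + 1),
      ∑ j2 ∈ range (a 2 + 1), ∑ k2 ∈ range (c 2 + 1),
        ((w4 (a 0) (b 0) (c 0) (d 0) j0 k0 : ℝ) * (w4 (a 1) (b 1) (c 1) (d 1) j1 k1 : ℝ) *
          (w4 (a 2) (b 2) (c 2) (d 2) j2 k2 : ℝ)) *
        z ^ (e4 (a 0) (b 0) (c 0) (d 0) j0 k0 + e4 (a 1) (b 1) (c 1) (d 1) j1 k1 +
          e4 (a 2) (b 2) (c 2) (d 2) j2 k2) := by
  rw [Fin.prod_univ_three]
  simp only [P4_eq]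
  rw [Finset.sum_mul, Finset.sum_mul]
  refine Finset.sum_congr rfl fun j0 _ => ?_
  rw [Finset.sum_mul, Finset.sum_mul]
  refine Finset.sum_congr rfl fun k0 _ => ?_
  rw [Finset.mul_sum (range (a 1 + 1)), Finset.sum_mul]
  refine Finset.sum_congr rfl fun j1 _ => ?_
  rw [Finset.mul_sum (range (c 1 + 1)), Finset.sum_mul]
  refine Finset.sum_congr rfl fun k1 _ => ?_
  rw [Finset.mul_sum]
  refine Finset.sum_congr rfl fun j2 _ => ?_
  rw [Finset.mul_sum]
  refine Finset.sum_congr rfl fun k2 _ => ?_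
  rw [pow_add, pow_add]
  ring

/-- **closed formula of the Coulomb integrals** -/
theorem W_formula (a b c d : Fin 3 → ℕ) : CE.W a b c d =
    √(2 / π) * (∏ i, nr4 (a i) (b i) (c i) (d i)) *
    ∑ j0 ∈ range (a 0 + 1), ∑ k0 ∈ range (c 0 + 1), ∑ j1 ∈ range (a 1 + 1), ∑ k1 ∈ range (c 1 + 1),
      ∑ j2 ∈ range (a 2 + 1), ∑ k2 ∈ range (c 2 + 1),
        ((w4 (a 0) (b 0) (c 0) (d 0) j0 k0 : ℝ) * (w4 (a 1) (b 1) (c 1) (d 1) j1 k1 : ℝ) *
          (w4 (a 2) (b 2) (c 2) (d 2) j2 k2 : ℝ)) /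
        (2 * ((e4 (a 0) (b 0) (c 0) (d 0) j0 k0 + e4 (a 1) (b 1) (c 1) (d 1) j1 k1 +
          e4 (a 2) (b 2) (c 2) (d 2) j2 k2 : ℕ) : ℝ) + 1) := by
  unfold CE.W
  rw [D_eq_heat (nice_phi2 a b).int (nice_phi2 c d)]
  have e1 : ∀ t : ℝ, Q t (fun x => phi a x * phi b x) (fun x => phi c x * phi d x) =
      (∏ i, nr4 (a i) (b i) (c i) (d i)) *
      ∑ j0 ∈ range (a 0 + 1), ∑ k0 ∈ range (c 0 + 1), ∑ j1 ∈ range (a 1 + 1),
        ∑ k1 ∈ range (c 1 + 1), ∑ j2 ∈ range (a 2 + 1), ∑ k2 ∈ range (c 2 + 1),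
        ((w4 (a 0) (b 0) (c 0) (d 0) j0 k0 : ℝ) * (w4 (a 1) (b 1) (c 1) (d 1) j1 k1 : ℝ) *
          (w4 (a 2) (b 2) (c 2) (d 2) j2 k2 : ℝ)) *
        (zz t ^ (e4 (a 0) (b 0) (c 0) (d 0) j0 k0 + e4 (a 1) (b 1) (c 1) (d 1) j1 k1 +
          e4 (a 2) (b 2) (c 2) (d 2) j2 k2) / √(1 + 2 * t ^ 2) ^ 3) := by
    intro t
    have hprod := prod_P4 a b c d (zz t)
    rw [Q_phi]
    simp only [q1_eq]
    rw [Finset.prod_div_distrib, Finset.prod_mul_distrib, hprod]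
    simp only [Finset.prod_const, Finset.card_univ, Fintype.card_fin]
    rw [mul_div_assoc]
    congr 1
    simp only [Finset.sum_div, mul_div_assoc]
  simp only [e1]
  rw [integral_const_mul]
  have hI : ∀ (C : ℝ) (r : ℕ), Integrable (fun t : ℝ => C * (zz t ^ r / √(1 + 2 * t ^ 2) ^ 3))
      (volume.restrict (Set.Ioi 0)) := fun C r => (integrableOn_zpow r).const_mul C
  have e2 : ∫ t in Set.Ioi (0 : ℝ), ∑ j0 ∈ range (a 0 + 1), ∑ k0 ∈ range (c 0 + 1),
        ∑ j1 ∈ range (a 1 + 1), ∑ k1 ∈ range (c 1 + 1), ∑ j2 ∈ range (a 2 + 1),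
        ∑ k2 ∈ range (c 2 + 1),
        ((w4 (a 0) (b 0) (c 0) (d 0) j0 k0 : ℝ) * (w4 (a 1) (b 1) (c 1) (d 1) j1 k1 : ℝ) *
          (w4 (a 2) (b 2) (c 2) (d 2) j2 k2 : ℝ)) *
        (zz t ^ (e4 (a 0) (b 0) (c 0) (d 0) j0 k0 + e4 (a 1) (b 1) (c 1) (d 1) j1 k1 +
          e4 (a 2) (b 2) (c 2) (d 2) j2 k2) / √(1 + 2 * t ^ 2) ^ 3) =
      1 / √2 * ∑ j0 ∈ range (a 0 + 1), ∑ k0 ∈ range (c 0 + 1), ∑ j1 ∈ range (a 1 + 1),
        ∑ k1 ∈ range (c 1 + 1), ∑ j2 ∈ range (a 2 + 1), ∑ k2 ∈ range (c 2 + 1),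
        ((w4 (a 0) (b 0) (c 0) (d 0) j0 k0 : ℝ) * (w4 (a 1) (b 1) (c 1) (d 1) j1 k1 : ℝ) *
          (w4 (a 2) (b 2) (c 2) (d 2) j2 k2 : ℝ)) /
        (2 * ((e4 (a 0) (b 0) (c 0) (d 0) j0 k0 + e4 (a 1) (b 1) (c 1) (d 1) j1 k1 +
          e4 (a 2) (b 2) (c 2) (d 2) j2 k2 : ℕ) : ℝ) + 1) := by
    rw [integral_finsetSum _ fun j0 _ => integrable_finsetSum _ fun k0 _ =>
      integrable_finsetSum _ fun j1 _ => integrable_finsetSum _ fun k1 _ =>
      integrable_finsetSum _ fun j2 _ => integrable_finsetSum _ fun k2 _ => hI _ _, Finset.mul_sum]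
    refine Finset.sum_congr rfl fun j0 _ => ?_
    rw [integral_finsetSum _ fun k0 _ =>
      integrable_finsetSum _ fun j1 _ => integrable_finsetSum _ fun k1 _ =>
      integrable_finsetSum _ fun j2 _ => integrable_finsetSum _ fun k2 _ => hI _ _, Finset.mul_sum]
    refine Finset.sum_congr rfl fun k0 _ => ?_
    rw [integral_finsetSum _ fun j1 _ => integrable_finsetSum _ fun k1 _ =>
      integrable_finsetSum _ fun j2 _ => integrable_finsetSum _ fun k2 _ => hI _ _, Finset.mul_sum]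
    refine Finset.sum_congr rfl fun j1 _ => ?_
    rw [integral_finsetSum _ fun k1 _ =>
      integrable_finsetSum _ fun j2 _ => integrable_finsetSum _ fun k2 _ => hI _ _, Finset.mul_sum]
    refine Finset.sum_congr rfl fun k1 _ => ?_
    rw [integral_finsetSum _ fun j2 _ => integrable_finsetSum _ fun k2 _ => hI _ _, Finset.mul_sum]
    refine Finset.sum_congr rfl fun j2 _ => ?_
    rw [integral_finsetSum _ fun k2 _ => hI _ _, Finset.mul_sum]
    refine Finset.sum_congr rfl fun k2 _ => ?_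
    rw [integral_const_mul, integral_zpow]
    field_simp
  rw [e2]
  have e3 : √(2 / π) = 2 / √π * (1 / √2) := by
    rw [Real.sqrt_div (by norm_num)]
    have h2 : (√2 : ℝ) ≠ 0 := by positivity
    have hp : (√π : ℝ) ≠ 0 := by positivity
    have h22 : √2 * √2 = (2 : ℝ) := Real.mul_self_sqrt (by norm_num)
    field_simp
    nlinarith
  rw [e3]
  ring

end Crest.Agent.R338.CF
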