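import Crest.Agent.R338.WKB4

/-!
Row 338, D.9 (one-dimensional part): the kernel `|s-t|^{-1/2}` against squared Hermite functions.
`Jr f g = ∫ g(t) ∫ f(s) |s-t|^{-1/2} ds dt ≤ C κ^{-1/3}`.
-/

set_option autoImplicit false

noncomputable section

open Set MeasureTheory Real Filter Topology
open Crest.Agent.R338.HO

namespace Crest.Agent.R338.WKB

/-- the kernel -/
def ker (u : ℝ) : ℝ := |u| ^ (-(1/2) : ℝ)

lemma ker_nonneg (u : ℝ) : 0 ≤ ker u := Real.rpow_nonneg (abs_nonneg u) _

lemma ker_neg (u : ℝ) : ker (-u) = ker u := by unfold ker; rw [abs_neg]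

lemma measurable_ker : Measurable ker := by unfold ker; fun_prop

lemma ker_le {u r : ℝ} (hr : 0 < r) (hu : r ≤ |u|) : ker u ≤ 1 / √r := by
  unfold ker
  rw [Real.rpow_neg (abs_nonneg u), ← Real.sqrt_eq_rpow, one_div]
  exact inv_anti₀ (Real.sqrt_pos.mpr hr) (Real.sqrt_le_sqrt hu)

lemma integrableOn_ker (r : ℝ) : IntegrableOn ker (Icc (-r) r) := by
  have h : IntervalIntegrable ker volume (-r) r := by
    have h1 : IntervalIntegrable ker volume 0 |r| := by
      have := intervalIntegral.intervalIntegrable_rpow' (a := 0) (b := |r|) (r := -(1/2)) (by norm_num)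
      apply this.congr
      intro x hx
      rw [uIoc_of_le (abs_nonneg r)] at hx
      simp only [ker, abs_of_pos hx.1]
    have h2 : IntervalIntegrable ker volume (-|r|) 0 := by
      have := (IntervalIntegrable.iff_comp_neg (by finiteness)).mp h1
      simp only [ker_neg, neg_zero] at this
      exact this.symm
    have h3 := h2.trans h1
    rcases le_total 0 r with h | h
    · rwa [abs_of_nonneg h] at h3
    · rw [abs_of_nonpos h, neg_neg] at h3; exact h3.symm
  rcases le_total (-r) r with h0 | h0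
  · rw [integrableOn_Icc_iff_integrableOn_Ioc]
    exact (intervalIntegrable_iff_integrableOn_Ioc_of_le h0).mp h
  · rcases eq_or_lt_of_le h0 with h1 | h1
    · rw [← h1]; simp
    · rw [Icc_eq_empty (by linarith)]; exact integrableOn_empty

lemma integral_ker {r : ℝ} (hr : 0 < r) : ∫ u in Icc (-r) r, ker u = 4 * √r := by
  have hpos : ∫ u in (0:ℝ)..r, ker u = 2 * √r := by
    have e : ∫ u in (0:ℝ)..r, ker u = ∫ u in (0:ℝ)..r, u ^ (-(1/2) : ℝ) := by
      apply intervalIntegral.integral_congr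
      intro x hx
      rw [uIcc_of_le hr.le] at hx
      simp only [ker, abs_of_nonneg hx.1]
    rw [e, integral_rpow (Or.inl (by norm_num)), Real.zero_rpow (by norm_num)]
    have : (-(1/2) : ℝ) + 1 = 1 / 2 := by norm_num
    rw [this, ← Real.sqrt_eq_rpow]; ring
  have hneg : ∫ u in (-r)..0, ker u = 2 * √r := by
    have := intervalIntegral.integral_comp_neg (f := ker) (a := 0) (b := r)
    simp only [ker_neg, neg_zero] at this
    rw [← this, hpos]
  have hi := integrableOn_ker r
  have hi1 : IntervalIntegrable ker volume (-r) 0 := by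
    rw [intervalIntegrable_iff_integrableOn_Ioc_of_le (by linarith)]
    exact hi.mono_set (fun x hx => ⟨hx.1.le, by linarith [hx.2]⟩)
  have hi2 : IntervalIntegrable ker volume 0 r := by
    rw [intervalIntegrable_iff_integrableOn_Ioc_of_le hr.le]
    exact hi.mono_set (fun x hx => ⟨by linarith [hx.1], hx.2⟩)
  rw [integral_Icc_eq_integral_Ioc, ← intervalIntegral.integral_of_le (by linarith),
    ← intervalIntegral.integral_add_adjacent_intervals hi1 hi2, hpos, hneg]
  ring

/-- nonnegative bounded integrable densities -/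
structure N1 (f : ℝ → ℝ) (B : ℝ) : Prop where
  meas : Measurable f
  nn : ∀ x, 0 ≤ f x
  le : ∀ x, f x ≤ B
  int : Integrable f

lemma N1.B_nonneg {f : ℝ → ℝ} {B : ℝ} (h : N1 f B) : 0 ≤ B := (h.nn 0).trans (h.le 0)

/-- the potential -/
def KK (f : ℝ → ℝ) (t : ℝ) : ℝ := ∫ s, f s * ker (s - t)

lemma N1.int_ker {f : ℝ → ℝ} {B : ℝ} (h : N1 f B) (t : ℝ) :
    Integrable (fun s => f s * ker (s - t)) := by
  have hdom : Integrable (fun s => B * (Icc (-1) 1).indicator ker (s - t) + f s) := by
    have h1 : Integrable ((Icc (-1:ℝ) 1).indicator ker) :=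
      (integrable_indicator_iff measurableSet_Icc).mpr (integrableOn_ker 1)
    exact ((h1.comp_sub_right t).const_mul B).add h.int
  refine hdom.mono' ((h.meas.mul (measurable_ker.comp (measurable_id.sub_const t))).aestronglyMeasurable) ?_
  refine Eventually.of_forall fun s => ?_
  rw [Real.norm_eq_abs, abs_of_nonneg (mul_nonneg (h.nn s) (ker_nonneg _))]
  by_cases hs : s - t ∈ Icc (-1:ℝ) 1
  · rw [indicator_of_mem hs]
    have := mul_le_mul_of_nonneg_right (h.le s) (ker_nonneg (s - t))
    linarith [h.nn s]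
  · rw [indicator_of_notMem hs]
    have h1 : (1:ℝ) ≤ |s - t| := by
      by_contra hc
      push Not at hc
      exact hs ⟨(abs_lt.mp hc).1.le, (abs_lt.mp hc).2.le⟩
    have h2 := ker_le one_pos h1
    simp only [Real.sqrt_one, div_one] at h2
    have := mul_le_mul_of_nonneg_left h2 (h.nn s)
    linarith

lemma N1.KK_nonneg {f : ℝ → ℝ} {B : ℝ} (h : N1 f B) (t : ℝ) : 0 ≤ KK f t :=
  integral_nonneg fun s => mul_nonneg (h.nn s) (ker_nonneg _)

/-- sup bound of the potential -/
theorem N1.KK_le {f : ℝ → ℝ} {B : ℝ} (h : N1 f B) {r : ℝ} (hr : 0 < r) (t : ℝ) :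
    KK f t ≤ 4 * B * √r + (∫ s, f s) / √r := by
  have hi1 : Integrable ((Icc (-r) r).indicator ker) :=
    (integrable_indicator_iff measurableSet_Icc).mpr (integrableOn_ker r)
  have hi2 : Integrable (fun s => B * (Icc (-r) r).indicator ker (s - t)) :=
    (hi1.comp_sub_right t).const_mul B
  have hi3 : Integrable (fun s => f s / √r) := h.int.div_const _
  have hle : KK f t ≤ ∫ s, (B * (Icc (-r) r).indicator ker (s - t) + f s / √r) := by
    apply integral_mono (h.int_ker t) (hi2.add hi3)
    intro s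
    show f s * ker (s - t) ≤ B * (Icc (-r) r).indicator ker (s - t) + f s / √r
    have hn : 0 ≤ f s / √r := div_nonneg (h.nn s) (Real.sqrt_nonneg _)
    by_cases hs : s - t ∈ Icc (-r) r
    · rw [indicator_of_mem hs]
      have := mul_le_mul_of_nonneg_right (h.le s) (ker_nonneg (s - t))
      linarith
    · rw [indicator_of_notMem hs]
      have h1 : r ≤ |s - t| := by
        by_contra hc
        push Not at hc
        exact hs ⟨(abs_lt.mp hc).1.le, (abs_lt.mp hc).2.le⟩
      have h2 := ker_le hr h1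
      have := mul_le_mul_of_nonneg_left h2 (h.nn s)
      rw [mul_one_div] at this
      linarith
  refine hle.trans (le_of_eq ?_)
  rw [integral_add hi2 hi3, integral_const_mul, integral_div,
    integral_sub_right_eq_self (fun u => (Icc (-r) r).indicator ker u) t,
    integral_indicator measurableSet_Icc, integral_ker hr]
  ring

lemma N1.measurable_KK {f : ℝ → ℝ} {B : ℝ} (h : N1 f B) : StronglyMeasurable (KK f) := by
  have hm : StronglyMeasurable (fun z : ℝ × ℝ => f z.1 * ker (z.1 - z.2)) :=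
    ((h.meas.comp measurable_fst).mul (measurable_ker.comp (measurable_fst.sub measurable_snd))).stronglyMeasurable
  exact hm.integral_prod_left

/-- the double integral -/
def Jr (f g : ℝ → ℝ) : ℝ := ∫ t, g t * KK f t

lemma N1.KK_le_const {f : ℝ → ℝ} {B : ℝ} (h : N1 f B) (t : ℝ) :
    KK f t ≤ 4 * B + ∫ s, f s := by
  have := h.KK_le one_pos t
  simpa using this

lemma N1.int_mul_KK {f g : ℝ → ℝ} {B B' : ℝ} (h : N1 f B) (h' : N1 g B') :
    Integrable (fun t => g t * KK f t) := by
  refine (h'.int.mul_const (4 * B + ∫ s, f s)).mono'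
    ((h'.meas.stronglyMeasurable.mul h.measurable_KK).aestronglyMeasurable) ?_
  refine Eventually.of_forall fun t => ?_
  rw [Real.norm_eq_abs, abs_of_nonneg (mul_nonneg (h'.nn t) (h.KK_nonneg t))]
  exact mul_le_mul_of_nonneg_left (h.KK_le_const t) (h'.nn t)

lemma N1.integrable_prod {f g : ℝ → ℝ} {B B' : ℝ} (h : N1 f B) (h' : N1 g B') :
    Integrable (fun z : ℝ × ℝ => g z.2 * (f z.1 * ker (z.1 - z.2))) (volume.prod volume) := by
  have hm : AEStronglyMeasurable (fun z : ℝ × ℝ => g z.2 * (f z.1 * ker (z.1 - z.2)))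
      (volume.prod volume) :=
    ((h'.meas.comp measurable_snd).mul ((h.meas.comp measurable_fst).mul
      (measurable_ker.comp (measurable_fst.sub measurable_snd)))).aestronglyMeasurable
  rw [integrable_prod_iff' hm]
  refine ⟨Eventually.of_forall fun t => (h.int_ker t).const_mul (g t), ?_⟩
  have e : (fun t => ∫ s, ‖g t * (f s * ker (s - t))‖) = fun t => g t * KK f t := by
    funext t
    unfold KK
    rw [← integral_const_mul]
    congr 1; funext s
    rw [Real.norm_eq_abs, abs_of_nonneg]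
    exact mul_nonneg (h'.nn t) (mul_nonneg (h.nn s) (ker_nonneg _))
  show Integrable (fun t => ∫ s, ‖g t * (f s * ker (s - t))‖)
  rw [e]
  exact h.int_mul_KK h'

theorem N1.Jr_comm {f g : ℝ → ℝ} {B B' : ℝ} (h : N1 f B) (h' : N1 g B') : Jr f g = Jr g f := by
  have h1 := integral_prod_symm _ (h.integrable_prod h')
  have h2 := integral_prod _ (h.integrable_prod h')
  have e1 : Jr f g = ∫ t, ∫ s, g t * (f s * ker (s - t)) := by
    unfold Jr KK
    congr 1; funext t; rw [integral_const_mul]
  have e2 : Jr g f = ∫ s, ∫ t, g t * (f s * ker (s - t)) := by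
    unfold Jr KK
    congr 1; funext s; rw [← integral_const_mul]
    congr 1; funext t
    rw [← ker_neg (t - s), neg_sub]; ring
  rw [e1, e2]
  rw [← h1, ← h2]

lemma N1.Jr_nonneg {f g : ℝ → ℝ} {B B' : ℝ} (h : N1 f B) (h' : N1 g B') : 0 ≤ Jr f g :=
  integral_nonneg fun t => mul_nonneg (h'.nn t) (h.KK_nonneg t)

/-- `J(f,g) ≤ (sup K f) ∫ g`. -/
theorem N1.Jr_le {f g : ℝ → ℝ} {B B' : ℝ} (h : N1 f B) (h' : N1 g B') {r : ℝ} (hr : 0 < r) :
    Jr f g ≤ (4 * B * √r + (∫ s, f s) / √r) * ∫ t, g t := by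
  unfold Jr
  rw [← integral_const_mul]
  apply integral_mono (h.int_mul_KK h') (h'.int.const_mul _)
  intro t
  simp only
  rw [mul_comm (g t)]
  exact mul_le_mul_of_nonneg_right (h.KK_le hr t) (h'.nn t)

lemma Jr_add_left {f f' g : ℝ → ℝ} {B B' B'' : ℝ} (h : N1 f B) (h' : N1 f' B') (hg : N1 g B'') :
    Jr (fun s => f s + f' s) g = Jr f g + Jr f' g := by
  unfold Jr
  rw [← integral_add (h.int_mul_KK hg) (h'.int_mul_KK hg)]
  congr 1; funext t
  rw [← mul_add]
  congr 1
  unfold KK
  rw [← integral_add (h.int_ker t) (h'.int_ker t)]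
  congr 1; funext s; ring

/-- squared Hermite functions are in the class -/
lemma n1_hf_sq (m : ℕ) : N1 (fun s => hf m s ^ 2) (18 * kap m ^ (-(1/3) : ℝ)) where
  meas := ((continuous_hf m).pow 2).measurable
  nn := fun _ => sq_nonneg _
  le := hf_sq_le_kap m
  int := integrable_hf_sq m

lemma kap_rpow_le_one (m : ℕ) : kap m ^ (-(1/3) : ℝ) ≤ 1 :=
  Real.rpow_le_one_of_one_le_of_nonpos (one_le_kap m) (by norm_num)

/-- (D.9, 1D) `∫∫ h_m(s)² h_k(t)² |s-t|^{-1/2} ≤ 11500 κ_m^{-1/3}`. -/
theorem Jr_hf_le (m k : ℕ) :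
    Jr (fun s => hf m s ^ 2) (fun s => hf k s ^ 2) ≤ 11500 * kap m ^ (-(1/3) : ℝ) := by
  have hk := kap_pos m
  have hk1 := one_le_kap m
  set c : ℝ := kap m ^ (-(1/3) : ℝ) with hc
  have hc0 : 0 < c := Real.rpow_pos_of_pos hk _
  set a : ℝ := kap m - kap m ^ ((1:ℝ)/3) with ha
  have hle : kap m ^ ((1:ℝ)/3) ≤ kap m := by
    calc kap m ^ ((1:ℝ)/3) ≤ kap m ^ (1:ℝ) := Real.rpow_le_rpow_of_exponent_le hk1 (by norm_num)
      _ = kap m := Real.rpow_one _
  set S : Set ℝ := {s : ℝ | a ≤ |s|} with hS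
  have hSm : MeasurableSet S := measurableSet_le measurable_const continuous_abs.measurable
  set f : ℝ → ℝ := fun s => hf m s ^ 2 with hf'
  set g : ℝ → ℝ := fun s => hf k s ^ 2 with hg'
  have Nf : N1 f (18 * c) := n1_hf_sq m
  have Ng : N1 g 18 := by
    have := n1_hf_sq k
    exact ⟨this.meas, this.nn, fun x => (this.le x).trans (by
      have := kap_rpow_le_one k; linarith), this.int⟩
  have Nb : N1 (Sᶜ.indicator f) (18 * kap m ^ (-(2/3) : ℝ)) := by
    refine ⟨Nf.meas.indicator hSm.compl, fun x => indicator_nonneg (fun y _ => Nf.nn y) x, fun x => ?_,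
      Nf.int.indicator hSm.compl⟩
    by_cases hx : x ∈ Sᶜ
    · rw [indicator_of_mem hx]
      have hx' : |x| < a := not_le.mp hx
      exact hf_sq_le_bulk_kap m hx'.le
    · rw [indicator_of_notMem hx]; positivity
  have Ne : N1 (S.indicator f) (18 * c) := by
    refine ⟨Nf.meas.indicator hSm, fun x => indicator_nonneg (fun y _ => Nf.nn y) x, fun x => ?_,
      Nf.int.indicator hSm⟩
    by_cases hx : x ∈ S
    · rw [indicator_of_mem hx]; exact Nf.le x
    · rw [indicator_of_notMem hx]; positivity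
  have hsplit : f = fun s => Sᶜ.indicator f s + S.indicator f s := by
    funext s
    by_cases hs : s ∈ S
    · rw [indicator_of_mem hs, indicator_of_notMem (by simpa using hs), zero_add]
    · rw [indicator_of_notMem hs, indicator_of_mem (by simpa using hs), add_zero]
  have hIb : ∫ s, Sᶜ.indicator f s ≤ 1 := by
    rw [integral_indicator hSm.compl]; exact setIntegral_hf_sq_le_one m _
  have hIb0 : 0 ≤ ∫ s, Sᶜ.indicator f s := integral_nonneg Nb.nn
  have hIe : ∫ s, S.indicator f s ≤ 156 * c := by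
    rw [integral_indicator hSm]; exact edge_mass_kap m
  have hIe0 : 0 ≤ ∫ s, S.indicator f s := integral_nonneg Ne.nn
  have hIg : ∫ s, g s = 1 := integral_hf_sq k
  -- bulk
  set r : ℝ := kap m ^ ((2:ℝ)/3) with hr
  have hr0 : 0 < r := Real.rpow_pos_of_pos hk _
  have hsr : √r = kap m ^ ((1:ℝ)/3) := by
    rw [hr, Real.sqrt_eq_rpow, ← Real.rpow_mul hk.le]; norm_num
  have hbulk : Jr (Sᶜ.indicator f) g ≤ 73 * c := by
    have h1 := Nb.Jr_le Ng hr0
    rw [hIg, mul_one, hsr] at h1
    have e1 : 4 * (18 * kap m ^ (-(2/3) : ℝ)) * kap m ^ ((1:ℝ)/3) = 72 * c := by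
      rw [hc]
      have : kap m ^ (-(2/3) : ℝ) * kap m ^ ((1:ℝ)/3) = kap m ^ (-(1/3) : ℝ) := by
        rw [← Real.rpow_add hk]; norm_num
      rw [← this]; ring
    have e2 : (∫ s, Sᶜ.indicator f s) / kap m ^ ((1:ℝ)/3) ≤ c := by
      rw [hc, Real.rpow_neg hk.le, div_eq_mul_inv]
      have : 0 ≤ (kap m ^ ((1:ℝ)/3))⁻¹ := by positivity
      nlinarith
    linarith
  -- edge
  have hedge : Jr (S.indicator f) g ≤ 11388 * c := by
    rw [Ne.Jr_comm Ng]
    have h1 := Ng.Jr_le Ne one_pos
    rw [hIg] at h1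
    simp only [Real.sqrt_one, mul_one, div_one] at h1
    calc Jr g (S.indicator f) ≤ (4 * 18 + 1) * ∫ s, S.indicator f s := h1
      _ ≤ (4 * 18 + 1) * (156 * c) := mul_le_mul_of_nonneg_left hIe (by norm_num)
      _ = 11388 * c := by ring
  have htot : Jr f g = Jr (Sᶜ.indicator f) g + Jr (S.indicator f) g := by
    conv_lhs => rw [hsplit]
    exact Jr_add_left Nb Ne Ng
  rw [htot]
  nlinarith

/-- `∫ h⁴ ≤ 2826 κ^{-2/3}`. -/
theorem integral_hf_four_le (m : ℕ) : ∫ s, hf m s ^ 4 ≤ 2826 * kap m ^ (-(2/3) : ℝ) := by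
  have hk := kap_pos m
  have hk1 := one_le_kap m
  set c : ℝ := kap m ^ (-(1/3) : ℝ) with hc
  have hc0 : 0 < c := Real.rpow_pos_of_pos hk _
  have hcc : c * c = kap m ^ (-(2/3) : ℝ) := by
    rw [hc, ← Real.rpow_add hk]; norm_num
  set a : ℝ := kap m - kap m ^ ((1:ℝ)/3) with ha
  set S : Set ℝ := {s : ℝ | a ≤ |s|} with hS
  have hSm : MeasurableSet S := measurableSet_le measurable_const continuous_abs.measurable
  have hI := integrable_hf_sq m
  have hdom : Integrable (fun s => 18 * (c * c) * hf m s ^ 2 + 18 * c * S.indicator (fun s => hf m s ^ 2) s) :=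
    (hI.const_mul _).add ((hI.indicator hSm).const_mul _)
  have hle : ∀ s, hf m s ^ 4 ≤ 18 * (c * c) * hf m s ^ 2 + 18 * c * S.indicator (fun s => hf m s ^ 2) s := by
    intro s
    have e : hf m s ^ 4 = hf m s ^ 2 * hf m s ^ 2 := by ring
    have hn : 0 ≤ hf m s ^ 2 := sq_nonneg _
    rw [e]
    by_cases hs : s ∈ S
    · rw [indicator_of_mem hs]
      have h1 := mul_le_mul_of_nonneg_right (hf_sq_le_kap m s) hn
      have h2 : 0 ≤ 18 * (c * c) * hf m s ^ 2 := by positivity
      linarith
    · rw [indicator_of_notMem hs]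
      have hs' : |s| < a := not_le.mp hs
      have h1 := mul_le_mul_of_nonneg_right (hf_sq_le_bulk_kap m hs'.le) hn
      rw [hcc]
      linarith
  have hint : Integrable (fun s => hf m s ^ 4) := by
    refine hdom.mono' ((continuous_hf m).pow 4).aestronglyMeasurable (Eventually.of_forall fun s => ?_)
    rw [Real.norm_eq_abs, abs_of_nonneg (by positivity)]
    exact hle s
  have h1 := integral_mono hint hdom hle
  have hedge : ∫ s, S.indicator (fun s => hf m s ^ 2) s ≤ 156 * c := by
    rw [integral_indicator hSm]; exact edge_mass_kap m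
  have e1 : ∫ s, (18 * (c * c) * hf m s ^ 2 + 18 * c * S.indicator (fun s => hf m s ^ 2) s)
      = 18 * (c * c) + 18 * c * ∫ s, S.indicator (fun s => hf m s ^ 2) s := by
    rw [integral_add (hI.const_mul _) ((hI.indicator hSm).const_mul _), integral_const_mul,
      integral_const_mul, integral_hf_sq, mul_one]
  rw [e1] at h1
  rw [← hcc]
  have h2 : 18 * c * ∫ s, S.indicator (fun s => hf m s ^ 2) s ≤ 18 * c * (156 * c) :=
    mul_le_mul_of_nonneg_left hedge (by positivity)
  linarith

lemma integrable_hf_four (m : ℕ) : Integrable (fun s => hf m s ^ 4) := by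
  have := (integrable_hf_sq m).bdd_mul (c := 18) (f := fun s => hf m s ^ 2)
    ((continuous_hf m).pow 2).aestronglyMeasurable (Eventually.of_forall fun s => by
      rw [Real.norm_eq_abs, abs_of_nonneg (sq_nonneg _)]
      exact (hf_sq_le_kap m s).trans (by have := kap_rpow_le_one m; linarith))
  refine this.congr (Eventually.of_forall fun s => ?_)
  simp only; ring

end Crest.Agent.R338.WKB

end
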