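import Mathlib
import Crest.Agent.R338.CE4
import Crest.Agent.R338.CF3
import Crest.Agent.R338.D9a
import Crest.Agent.R338.HO1b

/-!
Row 338, part 5 (D.8, D.9): Coulomb integrals of Hermite product functions: general bounds.
-/

set_option autoImplicit false

open MeasureTheory Real Set Filter
open scoped Topology SchwartzMap LineDeriv

noncomputable section

namespace Crest.Agent.R338.CE

open HO (hf hP Phi PhiS)
open WKB (hfd kap)

theorem phi_eq_Phi (a : Fin 3 → ℕ) (x : P3) : phi a x = Phi a x := rfl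

/-! ### one-dimensional facts -/

theorem integrable_hf_sq (m : ℕ) : Integrable (fun s => hf m s ^ 2) := WKB.integrable_hf_sq m

theorem hfd_sq_expand (m : ℕ) (s : ℝ) : hfd m s ^ 2 =
    ((m : ℝ) / 2) * (hf (m - 1) s * hf (m - 1) s) -
      (2 * (√((m : ℝ) / 2) * √(((m : ℝ) + 1) / 2))) * (hf (m - 1) s * hf (m + 1) s) +
      (((m : ℝ) + 1) / 2) * (hf (m + 1) s * hf (m + 1) s) := by
  unfold hfd
  have h1 : √((m : ℝ) / 2) ^ 2 = (m : ℝ) / 2 := Real.sq_sqrt (by positivity)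
  have h2 : √(((m : ℝ) + 1) / 2) ^ 2 = ((m : ℝ) + 1) / 2 := Real.sq_sqrt (by positivity)
  calc (√((m : ℝ) / 2) * hf (m - 1) s - √(((m : ℝ) + 1) / 2) * hf (m + 1) s) ^ 2 =
      √((m : ℝ) / 2) ^ 2 * (hf (m - 1) s * hf (m - 1) s) -
      (2 * (√((m : ℝ) / 2) * √(((m : ℝ) + 1) / 2))) * (hf (m - 1) s * hf (m + 1) s) +
      √(((m : ℝ) + 1) / 2) ^ 2 * (hf (m + 1) s * hf (m + 1) s) := by ring
    _ = _ := by rw [h1, h2]

theorem integrable_hfd_sq (m : ℕ) : Integrable (fun s => hfd m s ^ 2) := by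
  simp_rw [hfd_sq_expand]
  exact (((HO.integrable_hf_mul_hf _ _).const_mul _).sub
    ((HO.integrable_hf_mul_hf _ _).const_mul _)).add ((HO.integrable_hf_mul_hf _ _).const_mul _)

theorem integral_hfd_sq (m : ℕ) : ∫ s, hfd m s ^ 2 = (2 * (m : ℝ) + 1) / 2 := by
  have i1 := (HO.integrable_hf_mul_hf (m - 1) (m - 1)).const_mul ((m : ℝ) / 2)
  have i2 := (HO.integrable_hf_mul_hf (m - 1) (m + 1)).const_mul
    (2 * (√((m : ℝ) / 2) * √(((m : ℝ) + 1) / 2)))
  have i3 := (HO.integrable_hf_mul_hf (m + 1) (m + 1)).const_mul (((m : ℝ) + 1) / 2)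
  simp_rw [hfd_sq_expand]
  have i12 : Integrable (fun s => ((m : ℝ) / 2) * (hf (m - 1) s * hf (m - 1) s) -
      (2 * (√((m : ℝ) / 2) * √(((m : ℝ) + 1) / 2))) * (hf (m - 1) s * hf (m + 1) s)) := i1.sub i2
  rw [integral_add i12 i3, integral_sub i1 i2, integral_const_mul, integral_const_mul,
    integral_const_mul, HO.integral_hf_mul_hf, HO.integral_hf_mul_hf, HO.integral_hf_mul_hf,
    if_pos rfl, if_pos rfl]
  have : m - 1 ≠ m + 1 := by omega
  rw [if_neg this]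
  ring

/-- Wronskian. -/
def wr (k l : ℕ) (s : ℝ) : ℝ := hf k s * hfd l s - hf l s * hfd k s

theorem hasDerivAt_wr (k l : ℕ) (s : ℝ) :
    HasDerivAt (wr k l) (2 * ((k : ℝ) - l) * (hf k s * hf l s)) s := by
  have h1 := ((WKB.hsol k).d1 s).mul ((WKB.hsol l).d2 s)
  have h2 := ((WKB.hsol l).d1 s).mul ((WKB.hsol k).d2 s)
  refine (h1.sub h2).congr_deriv ?_
  rw [WKB.kap_sq, WKB.kap_sq]
  ring

theorem wr_sq_le (k l : ℕ) {S : ℝ} (hk : ∀ s, hf k s ^ 2 ≤ S) (hl : ∀ s, hf l s ^ 2 ≤ S) (s : ℝ) :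
    wr k l s ^ 2 ≤ 2 * S * (hfd l s ^ 2 + hfd k s ^ 2) := by
  unfold wr
  have h1 : (hf k s * hfd l s) ^ 2 ≤ S * hfd l s ^ 2 := by
    rw [mul_pow]; exact mul_le_mul_of_nonneg_right (hk s) (sq_nonneg _)
  have h2 : (hf l s * hfd k s) ^ 2 ≤ S * hfd k s ^ 2 := by
    rw [mul_pow]; exact mul_le_mul_of_nonneg_right (hl s) (sq_nonneg _)
  nlinarith [sq_nonneg (hf k s * hfd l s + hf l s * hfd k s)]

theorem continuous_wr (k l : ℕ) : Continuous (wr k l) :=
  continuous_iff_continuousAt.2 fun s => (hasDerivAt_wr k l s).continuousAt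

theorem integrable_wr_sq (k l : ℕ) : Integrable (fun s => wr k l s ^ 2) := by
  obtain ⟨A, hA⟩ := CF.bdd_hf k
  obtain ⟨B, hB⟩ := CF.bdd_hf l
  have hk : ∀ s, hf k s ^ 2 ≤ A ^ 2 + B ^ 2 := fun s => by
    have : |hf k s| ^ 2 ≤ A ^ 2 := pow_le_pow_left₀ (abs_nonneg _) (hA s) 2
    rw [sq_abs] at this
    nlinarith [sq_nonneg B]
  have hl : ∀ s, hf l s ^ 2 ≤ A ^ 2 + B ^ 2 := fun s => by
    have : |hf l s| ^ 2 ≤ B ^ 2 := pow_le_pow_left₀ (abs_nonneg _) (hB s) 2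
    rw [sq_abs] at this
    nlinarith [sq_nonneg A]
  refine Integrable.mono' (((integrable_hfd_sq l).add (integrable_hfd_sq k)).const_mul
    (2 * (A ^ 2 + B ^ 2))) ((continuous_wr k l).pow 2).aestronglyMeasurable
    (Eventually.of_forall fun s => ?_)
  rw [Real.norm_eq_abs, abs_of_nonneg (sq_nonneg _)]
  exact wr_sq_le k l hk hl s

theorem integral_wr_sq_le (k l : ℕ) {S : ℝ} (hk : ∀ s, hf k s ^ 2 ≤ S)
    (hl : ∀ s, hf l s ^ 2 ≤ S) : ∫ s, wr k l s ^ 2 ≤ 2 * S * ((k : ℝ) + l + 1) := by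
  have h : ∫ s, wr k l s ^ 2 ≤ ∫ s, 2 * S * (hfd l s ^ 2 + hfd k s ^ 2) :=
    integral_mono (integrable_wr_sq k l)
      (((integrable_hfd_sq l).add (integrable_hfd_sq k)).const_mul _) (wr_sq_le k l hk hl)
  rw [integral_const_mul, integral_add (integrable_hfd_sq l) (integrable_hfd_sq k),
    integral_hfd_sq, integral_hfd_sq] at h
  refine h.trans (le_of_eq ?_)
  ring

theorem integrable_hf2_sq (k l : ℕ) : Integrable (fun s => (hf k s * hf l s) ^ 2) := by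
  obtain ⟨A, hA⟩ := CF.bdd_hf k
  have h := (integrable_hf_sq l).bdd_mul (c := A ^ 2) (f := fun s => hf k s ^ 2)
    ((HO.continuous_hf k).pow 2).aestronglyMeasurable (Eventually.of_forall fun s => by
      rw [Real.norm_eq_abs, abs_of_nonneg (sq_nonneg _), ← sq_abs]
      exact pow_le_pow_left₀ (abs_nonneg _) (hA s) 2)
  refine h.congr (Eventually.of_forall fun s => ?_)
  simp only
  ring

theorem integral_hf2_sq_le (k l : ℕ) {S : ℝ} (hk : ∀ s, hf k s ^ 2 ≤ S) :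
    ∫ s, (hf k s * hf l s) ^ 2 ≤ S := by
  have h : ∫ s, (hf k s * hf l s) ^ 2 ≤ ∫ s, S * hf l s ^ 2 :=
    integral_mono (integrable_hf2_sq k l) ((integrable_hf_sq l).const_mul S) fun s => by
      simp only
      rw [mul_pow]
      exact mul_le_mul_of_nonneg_right (hk s) (sq_nonneg _)
  rw [integral_const_mul, WKB.integral_hf_sq, mul_one] at h
  exact h

/-! ### the Schwartz function `T a b` -/

/-- `T a b = φ_a ∂₀ φ_b - φ_b ∂₀ φ_a`. -/
def T (a b : Fin 3 → ℕ) : 𝓢(P3, ℂ) :=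
  SchwartzMap.smulLeftCLM ℂ (PhiS a) (∂_{eb 0} (PhiS b)) -
    SchwartzMap.smulLeftCLM ℂ (PhiS b) (∂_{eb 0} (PhiS a))

theorem deriv_Phi_form (b : Fin 3 → ℕ) (x : P3) :
    (∂_{eb 0} (PhiS b)) x = ((hfd (b 0) (x 0) * (hf (b 1) (x 1) * hf (b 2) (x 2)) : ℝ) : ℂ) := by
  have h : (∂_{eb 0} (PhiS b)) x = fderiv ℝ (PhiS b) x (EuclideanSpace.single 0 (1 : ℝ)) := rfl
  rw [h, HO.fderiv_PhiS, HO.Phi_update, HO.Phi_update]
  have e : ∀ g : Fin 3 → ℝ, ∏ i ∈ Finset.univ.erase (0 : Fin 3), g i = g 1 * g 2 := by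
    intro g
    have : Finset.univ.erase (0 : Fin 3) = {1, 2} := by decide
    rw [this]
    simp
  rw [e]
  congr 1
  unfold hfd
  ring

theorem phi_three (a : Fin 3 → ℕ) (x : P3) :
    phi a x = hf (a 0) (x 0) * (hf (a 1) (x 1) * hf (a 2) (x 2)) := by
  unfold phi
  rw [Fin.prod_univ_three]
  ring

/-- one-dimensional factors of `T a b`. -/
def tf (a b : Fin 3 → ℕ) : Fin 3 → ℝ → ℝ :=
  ![wr (a 0) (b 0), fun s => hf (a 1) s * hf (b 1) s, fun s => hf (a 2) s * hf (b 2) s]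

theorem T_apply (a b : Fin 3 → ℕ) (x : P3) : T a b x = ((pf (tf a b) x : ℝ) : ℂ) := by
  unfold T
  rw [sub_apply, SchwartzMap.smulLeftCLM_apply_apply (PhiS a).hasTemperateGrowth,
    SchwartzMap.smulLeftCLM_apply_apply (PhiS b).hasTemperateGrowth, deriv_Phi_form,
    deriv_Phi_form, HO.PhiS_apply, HO.PhiS_apply, ← phi_eq_Phi, ← phi_eq_Phi, phi_three, phi_three]
  unfold pf tf wr
  rw [Fin.prod_univ_three]
  simp only [Matrix.cons_val_zero, Matrix.cons_val_one, Matrix.cons_val, smul_eq_mul]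
  push_cast
  ring

theorem T_deriv (a b : Fin 3 → ℕ) (x : P3) :
    fderiv ℝ (T a b) x (eb 0) =
      ((2 * ((a 0 : ℝ) - b 0) * (phi a x * phi b x) : ℝ) : ℂ) := by
  have hd : DifferentiableAt ℝ (T a b) x := (T a b).differentiable x
  have hline : HasDerivAt (fun t : ℝ => x + t • eb 0) (eb 0) 0 := by
    have := ((hasDerivAt_id (0 : ℝ)).smul_const (eb 0)).const_add x
    simpa using this
  have h1 : HasDerivAt (fun t : ℝ => T a b (x + t • eb 0)) (fderiv ℝ (T a b) x (eb 0)) 0 := by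
    have h2 : HasFDerivAt (T a b) (fderiv ℝ (T a b) x) (x + (0 : ℝ) • eb 0) := by
      simpa using hd.hasFDerivAt
    exact h2.comp_hasDerivAt (0 : ℝ) hline
  set P : ℝ := (hf (a 1) (x 1) * hf (b 1) (x 1)) * (hf (a 2) (x 2) * hf (b 2) (x 2)) with hP
  have e : (fun t : ℝ => T a b (x + t • eb 0)) =
      fun t : ℝ => ((wr (a 0) (b 0) (x 0 + t) * P : ℝ) : ℂ) := by
    funext t
    rw [T_apply]
    congr 1
    unfold pf tf
    rw [Fin.prod_univ_three]
    simp only [Matrix.cons_val_zero, Matrix.cons_val_one, Matrix.cons_val]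
    have e0 : (x + t • eb 0) 0 = x 0 + t := by simp [eb]
    have e1 : (x + t • eb 0) 1 = x 1 := by simp [eb]
    have e2 : (x + t • eb 0) 2 = x 2 := by simp [eb]
    rw [e0, e1, e2, hP]
    ring
  rw [e] at h1
  have h3 : HasDerivAt (fun t : ℝ => wr (a 0) (b 0) (x 0 + t) * P)
      (2 * ((a 0 : ℝ) - b 0) * (hf (a 0) (x 0) * hf (b 0) (x 0)) * P) 0 := by
    have h4 : HasDerivAt (wr (a 0) (b 0)) (2 * ((a 0 : ℝ) - b 0) *
        (hf (a 0) (x 0) * hf (b 0) (x 0))) (x 0 + 0) := by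
      simpa using hasDerivAt_wr (a 0) (b 0) (x 0)
    have h5 : HasDerivAt (fun t : ℝ => x 0 + t) 1 0 := by
      simpa using (hasDerivAt_id (0 : ℝ)).const_add (x 0)
    have h6 := (h4.comp (0 : ℝ) h5).mul_const P
    simpa [Function.comp_def] using h6
  have h7 := h3.ofReal_comp
  have h8 := h1.unique h7
  rw [h8]
  congr 1
  rw [phi_three, phi_three, hP]
  ring

theorem norm_T_sq (a b : Fin 3 → ℕ) (x : P3) :
    ‖T a b x‖ ^ 2 = pf (fun c s => tf a b c s ^ 2) x := by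
  rw [T_apply, Complex.norm_real, Real.norm_eq_abs, sq_abs]
  unfold pf
  rw [Finset.prod_pow]

theorem integral_norm_T_sq (a b : Fin 3 → ℕ) :
    ∫ x, ‖T a b x‖ ^ 2 = (∫ s, wr (a 0) (b 0) s ^ 2) * (∫ s, (hf (a 1) s * hf (b 1) s) ^ 2) *
      ∫ s, (hf (a 2) s * hf (b 2) s) ^ 2 := by
  simp_rw [norm_T_sq]
  rw [integral_pf, Fin.prod_univ_three]
  rfl

theorem nice_phi2 (a b : Fin 3 → ℕ) : Nice (fun x => phi a x * phi b x) := CF.nice_phi2 a b

/-- **(D.8)** non-classical self-integral. -/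
theorem W_nonclassical_eq (a b : Fin 3 → ℕ) :
    (2 * ((a 0 : ℝ) - b 0)) ^ 2 * W a b a b ≤ 4 * π *
      ((∫ s, wr (a 0) (b 0) s ^ 2) * (∫ s, (hf (a 1) s * hf (b 1) s) ^ 2) *
      ∫ s, (hf (a 2) s * hf (b 2) s) ^ 2) := by
  have h := D_deriv_le (T a b) 0 (fun x => 2 * ((a 0 : ℝ) - b 0) * (phi a x * phi b x))
    (fun x => (T_deriv a b x).symm)
  rw [integral_norm_T_sq, D_const_mul_left, D_const_mul_right] at h
  refine le_trans (le_of_eq ?_) h
  unfold W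
  ring

/-- **(D.9)** classical self-integral. -/
theorem W_self_le (a : Fin 3 → ℕ) {A B : ℝ} (hA : 0 < A) (hB : 0 < B)
    (hA' : ∫ s, hf (a 0) s ^ 4 ≤ A ^ 2) (hB' : ∫ s, hf (a 1) s ^ 4 ≤ B ^ 2) :
    W a a a a ≤ 4 * (A * B) := by
  have e : (fun x : P3 => phi a x * phi a x) = pf (fun c s => hf (a c) s ^ 2) := by
    funext x
    unfold phi pf
    rw [← Finset.prod_mul_distrib]
    exact Finset.prod_congr rfl fun c _ => by ring
  unfold W
  rw [e]
  refine D_pf_le (fun c => integrable_hf_sq _) (fun c => ?_) (fun c => ?_) (fun c => ?_) hA hB ?_ ?_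
  · obtain ⟨C, hC⟩ := CF.bdd_hf (a c)
    refine ⟨C ^ 2, fun t => ?_⟩
    rw [abs_of_nonneg (sq_nonneg _), ← sq_abs]
    exact pow_le_pow_left₀ (abs_nonneg _) (hC t) 2
  · refine (integrable_hf2_sq (a c) (a c)).congr (Eventually.of_forall fun s => ?_)
    simp only
    ring
  · have : ∫ s, |hf (a c) s ^ 2| = 1 := by
      rw [← WKB.integral_hf_sq (a c)]
      refine integral_congr_ae (Eventually.of_forall fun s => ?_)
      simp only
      rw [abs_of_nonneg (sq_nonneg _)]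
    exact this.le
  · refine le_trans (le_of_eq ?_) hA'
    refine integral_congr_ae (Eventually.of_forall fun s => ?_)
    simp only
    ring
  · refine le_trans (le_of_eq ?_) hB'
    refine integral_congr_ae (Eventually.of_forall fun s => ?_)
    simp only
    ring

theorem W_self_nonneg (a b : Fin 3 → ℕ) : 0 ≤ W a b a b := D_self_nonneg (nice_phi2 a b)

theorem W_classical_nonneg (a b : Fin 3 → ℕ) : 0 ≤ W a a b b :=
  D_nonneg_of_nonneg (fun _ => mul_self_nonneg _) fun _ => mul_self_nonneg _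

theorem W_cauchy_schwarz (a b c d : Fin 3 → ℕ) : W a b c d ^ 2 ≤ W a b a b * W c d c d :=
  D_cauchy_schwarz (nice_phi2 a b) (nice_phi2 c d)

end Crest.Agent.R338.CE
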