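import Mathlib
import Crest.Agent.R338.CE5
import Crest.Agent.R338.Bridge

/-!
Row 338, part 5: parts (a), (b) of `CoulStmt` : the Coulomb integrals of the site orbitals.
-/

set_option autoImplicit false

open MeasureTheory Real Set Filter
open scoped Topology

noncomputable section

namespace Crest.Agent.R338.CE

open WKB (hfd kap LL)

theorem W4_eq_W (a b c d : Idx) : W4 a b c d = W a b c d := by
  unfold W4 coul W
  rw [D_eq_iterated (nice_phi2 a b).int (nice_phi2 c d)]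
  simp only [orb_eq]
  rfl

theorem W4_symm (a b c d : Idx) : W4 a b c d = W4 c d a b := by
  rw [W4_eq_W, W4_eq_W, W_symm]

/-! ### size of the quantum numbers -/

theorem Yn_pos {n : ℕ} (hn : 1 ≤ n) : 1 ≤ Yn n := by
  unfold Yn
  have : 1 ≤ n ^ 3 := Nat.one_le_pow _ _ hn
  omega

theorem Yn_le_nu (n i : ℕ) : Yn n ≤ nu n i := by unfold nu; omega

theorem nu_le {n i : ℕ} (hi : i < n) : 4 * nu n i ≤ 5 * Yn n := by
  unfold nu Yn
  have h1 : n ^ 2 * i ≤ n ^ 3 := by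
    calc n ^ 2 * i ≤ n ^ 2 * n := Nat.mul_le_mul_left _ hi.le
      _ = n ^ 3 := by ring
  have h2 : i ^ 2 ≤ n ^ 2 := Nat.pow_le_pow_left hi.le 2
  nlinarith

theorem nu_diff {n i j : ℕ} (hij : i < j) : nu n i + 4 * n ^ 2 ≤ nu n j := by
  unfold nu
  have h1 : 4 * n ^ 2 * i + 4 * n ^ 2 ≤ 4 * n ^ 2 * j := by
    calc 4 * n ^ 2 * i + 4 * n ^ 2 = 4 * n ^ 2 * (i + 1) := by ring
      _ ≤ 4 * n ^ 2 * j := Nat.mul_le_mul_left _ hij
  have h2 : i ^ 2 ≤ j ^ 2 := Nat.pow_le_pow_left hij.le 2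
  omega

theorem mi_real (n k i : ℕ) : (mi n k i : ℝ) = 2 * ((k : ℝ) ^ 3 * nu n i) ^ 2 := by
  unfold mi; push_cast; ring

theorem n0'_real (n k : ℕ) : (n0' n k : ℝ) = 16 * ((k : ℝ) ^ 3) ^ 2 * (Yn n : ℝ) ^ 2 := by
  unfold n0'; push_cast; ring

theorem nu_le_real {n i : ℕ} (hi : i < n) : 4 * (nu n i : ℝ) ≤ 5 * Yn n := by
  exact_mod_cast nu_le hi

theorem nu_ge_real (n i : ℕ) : (Yn n : ℝ) ≤ nu n i := by exact_mod_cast Yn_le_nu n i

theorem mi_ge (n k i : ℕ) : 2 * ((k : ℝ) ^ 6 * (Yn n : ℝ) ^ 2) ≤ mi n k i := by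
  rw [mi_real]
  have h := nu_ge_real n i
  have h0 : (0 : ℝ) ≤ Yn n := Nat.cast_nonneg _
  have h1 : (Yn n : ℝ) ^ 2 ≤ (nu n i : ℝ) ^ 2 := pow_le_pow_left₀ h0 h 2
  have h2 : (0 : ℝ) ≤ (k : ℝ) ^ 6 := by positivity
  calc 2 * ((k : ℝ) ^ 6 * (Yn n : ℝ) ^ 2) ≤ 2 * ((k : ℝ) ^ 6 * (nu n i : ℝ) ^ 2) := by gcongr
    _ = 2 * ((k : ℝ) ^ 3 * nu n i) ^ 2 := by ring

theorem mi_le {n i : ℕ} (k : ℕ) (hi : i < n) :
    (mi n k i : ℝ) ≤ 25 / 8 * ((k : ℝ) ^ 6 * (Yn n : ℝ) ^ 2) := by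
  rw [mi_real]
  have h := nu_le_real hi
  have h0 : (0 : ℝ) ≤ nu n i := Nat.cast_nonneg _
  have h1 : (4 * (nu n i : ℝ)) ^ 2 ≤ (5 * (Yn n : ℝ)) ^ 2 := pow_le_pow_left₀ (by positivity) h 2
  have h2 : (0 : ℝ) ≤ (k : ℝ) ^ 6 := by positivity
  have h3 : (nu n i : ℝ) ^ 2 ≤ 25 / 16 * (Yn n : ℝ) ^ 2 := by nlinarith
  calc 2 * ((k : ℝ) ^ 3 * nu n i) ^ 2 = 2 * ((k : ℝ) ^ 6 * (nu n i : ℝ) ^ 2) := by ring
    _ ≤ 2 * ((k : ℝ) ^ 6 * (25 / 16 * (Yn n : ℝ) ^ 2)) := by gcongr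
    _ = _ := by ring

theorem mi_le_n0' {n i : ℕ} (k : ℕ) (hi : i < n) : mi n k i ≤ n0' n k := by
  have h1 := mi_le k hi
  have h2 := n0'_real n k
  have h3 : (mi n k i : ℝ) ≤ n0' n k := by
    rw [h2]
    have : (0 : ℝ) ≤ (k : ℝ) ^ 6 * (Yn n : ℝ) ^ 2 := by positivity
    nlinarith
  exact_mod_cast h3

theorem mi'_real {n i : ℕ} (k : ℕ) (hi : i < n) :
    ((n0' n k - mi n k i : ℕ) : ℝ) = n0' n k - mi n k i := by
  rw [Nat.cast_sub (mi_le_n0' k hi)]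

theorem k6_le_mi {n : ℕ} (hn : 1 ≤ n) (k i : ℕ) : (k : ℝ) ^ 6 ≤ mi n k i := by
  have h1 := mi_ge n k i
  have hY : (1 : ℝ) ≤ Yn n := by exact_mod_cast Yn_pos hn
  have h2 : (1 : ℝ) ≤ (Yn n : ℝ) ^ 2 := one_le_pow₀ hY
  have h3 : (0 : ℝ) ≤ (k : ℝ) ^ 6 := by positivity
  nlinarith [mul_le_mul_of_nonneg_left h2 h3]

theorem k6_le_mi' {n i : ℕ} (hn : 1 ≤ n) (k : ℕ) (hi : i < n) :
    (k : ℝ) ^ 6 ≤ ((n0' n k - mi n k i : ℕ) : ℝ) := by
  rw [mi'_real k hi, n0'_real]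
  have h1 := mi_le k hi
  have hY : (1 : ℝ) ≤ Yn n := by exact_mod_cast Yn_pos hn
  have h2 : (1 : ℝ) ≤ (Yn n : ℝ) ^ 2 := one_le_pow₀ hY
  have h3 : (0 : ℝ) ≤ (k : ℝ) ^ 6 := by positivity
  nlinarith [mul_le_mul_of_nonneg_left h2 h3]

/-! ### one-dimensional consequences -/

theorem kap_ge {m k : ℕ} (h : (k : ℝ) ^ 6 ≤ m) : (k : ℝ) ^ 3 ≤ kap m := by
  unfold WKB.kap
  apply Real.le_sqrt_of_sq_le
  have h1 : ((k : ℝ) ^ 3) ^ 2 = (k : ℝ) ^ 6 := by ring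
  have h2 : (0 : ℝ) ≤ m := Nat.cast_nonneg _
  rw [h1]
  linarith

theorem LL_ge {m k : ℕ} (h : (k : ℝ) ^ 6 ≤ m) : (k : ℝ) ≤ LL m := by
  have h1 := kap_ge h
  have h2 := WKB.LL_cube m
  by_contra hc
  push Not at hc
  have h3 : LL m ^ 3 < (k : ℝ) ^ 3 := pow_lt_pow_left₀ hc (WKB.LL_pos m).le (by norm_num)
  have h4 : (0 : ℝ) < kap m := WKB.kap_pos m
  linarith

theorem sup_le {m k : ℕ} (hk : 1 ≤ k) (h : (k : ℝ) ^ 6 ≤ m) (s : ℝ) :
    HO.hf m s ^ 2 ≤ 18 / k := by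
  have hk' : (0 : ℝ) < k := by exact_mod_cast hk
  exact (WKB.hf_sq_le m s).trans (div_le_div_of_nonneg_left (by norm_num) hk' (LL_ge h))

theorem sup_le_zero (m : ℕ) (s : ℝ) : HO.hf m s ^ 2 ≤ 18 := by
  refine (WKB.hf_sq_le m s).trans ?_
  rw [div_le_iff₀ (WKB.LL_pos m)]
  nlinarith [WKB.one_le_LL m]

theorem four_le {m k : ℕ} (hk : 1 ≤ k) (h : (k : ℝ) ^ 6 ≤ m) :
    ∫ s, HO.hf m s ^ 4 ≤ (54 / k) ^ 2 := by
  have hk' : (0 : ℝ) < k := by exact_mod_cast hk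
  refine (WKB.integral_hf_four_le m).trans ?_
  have h1 : kap m ^ (-(2 / 3) : ℝ) ≤ ((k : ℝ) ^ 3) ^ (-(2 / 3) : ℝ) :=
    Real.rpow_le_rpow_of_nonpos (by positivity) (kap_ge h) (by norm_num)
  have h2 : ((k : ℝ) ^ 3) ^ (-(2 / 3) : ℝ) = 1 / (k : ℝ) ^ 2 := by
    rw [← Real.rpow_natCast, ← Real.rpow_mul hk'.le]
    norm_num
  rw [h2] at h1
  have h3 : (54 / (k : ℝ)) ^ 2 = 2916 * (1 / (k : ℝ) ^ 2) := by ring
  rw [h3]
  have h4 : 0 ≤ 1 / (k : ℝ) ^ 2 := by positivity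
  nlinarith

/-! ### sites -/

theorem site_zero (n k i : ℕ) : site n k i 0 = mi n k i := rfl
theorem site_one (n k i : ℕ) : site n k i 1 = n0' n k - mi n k i := rfl
theorem site_two (n k i : ℕ) : site n k i 2 = 0 := rfl

theorem U_le {n i k : ℕ} (hn : 1 ≤ n) (hk : 1 ≤ k) (hi : i < n) :
    W (site n k i) (site n k i) (site n k i) (site n k i) ≤ 11664 / (k : ℝ) ^ 2 := by
  have hk' : (0 : ℝ) < k := by exact_mod_cast hk
  have h := W_self_le (site n k i) (A := 54 / k) (B := 54 / k) (by positivity) (by positivity)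
    (four_le hk (by rw [site_zero]; exact k6_le_mi hn k i))
    (four_le hk (by rw [site_one]; exact k6_le_mi' hn k hi))
  refine h.trans (le_of_eq ?_)
  field_simp
  norm_num

theorem V_le {n i j k : ℕ} (hn : 1 ≤ n) (hk : 1 ≤ k) (hi : i < n) (hj : j < n) :
    W (site n k i) (site n k i) (site n k j) (site n k j) ≤ 11664 / (k : ℝ) ^ 2 := by
  have h1 := U_le hn hk hi
  have h2 := U_le hn hk hj
  have h3 := W_cauchy_schwarz (site n k i) (site n k i) (site n k j) (site n k j)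
  have h4 := W_self_nonneg (site n k j) (site n k j)
  have h5 := W_self_nonneg (site n k i) (site n k i)
  have h6 : 0 ≤ 11664 / (k : ℝ) ^ 2 := by positivity
  have h7 : W (site n k i) (site n k i) (site n k j) (site n k j) ^ 2 ≤
      (11664 / (k : ℝ) ^ 2) ^ 2 := by
    refine h3.trans ?_
    rw [sq (11664 / (k : ℝ) ^ 2)]
    exact mul_le_mul h1 h2 h4 h6
  exact (abs_le_of_sq_le_sq' h7 h6).2

/-- `CoulStmt` (a). -/
theorem coul_a {n k : ℕ} (hn : 1 ≤ n) (hk : 1 ≤ k) {i j : ℕ} (hi : i < n) (hj : j < n) :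
    0 ≤ Vc n k i j ∧ Vc n k i j ≤ 11664 / (k : ℝ) ^ 2 := by
  unfold Vc
  rw [W4_eq_W]
  exact ⟨W_classical_nonneg _ _, V_le hn hk hi hj⟩

theorem mi_diff {n i j : ℕ} (k : ℕ) (hij : i < j) :
    16 * ((k : ℝ) ^ 6 * (n : ℝ) ^ 2 * Yn n) ≤ (mi n k j : ℝ) - mi n k i := by
  rw [mi_real, mi_real]
  have h1 : (nu n i : ℝ) + 4 * (n : ℝ) ^ 2 ≤ nu n j := by exact_mod_cast nu_diff hij
  have h2 := nu_ge_real n i
  have h3 := nu_ge_real n j
  have h0 : (0 : ℝ) ≤ Yn n := Nat.cast_nonneg _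
  have h4 : (4 * (n : ℝ) ^ 2) * (2 * Yn n) ≤ ((nu n j : ℝ) - nu n i) * (nu n j + nu n i) := by
    have hn0 : (0 : ℝ) ≤ 4 * (n : ℝ) ^ 2 := by positivity
    exact mul_le_mul (by linarith) (by linarith) (by positivity) (by linarith)
  have h5 : (0 : ℝ) ≤ 2 * (k : ℝ) ^ 6 := by positivity
  have h6 := mul_le_mul_of_nonneg_left h4 h5
  nlinarith

theorem K_le {n i j k : ℕ} (hn : 1 ≤ n) (hk : 1 ≤ k) (hi : i < n) (hj : j < n) (hij : i ≠ j) :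
    W (site n k i) (site n k j) (site n k i) (site n k j) ≤ 1156 / (k : ℝ) ^ 8 := by
  have hk' : (0 : ℝ) < k := by exact_mod_cast hk
  have hk1 : (1 : ℝ) ≤ k := by exact_mod_cast hk
  have hn' : (1 : ℝ) ≤ n := by exact_mod_cast hn
  have hY : (1 : ℝ) ≤ Yn n := by exact_mod_cast Yn_pos hn
  have h := W_nonclassical_eq (site n k i) (site n k j)
  rw [site_zero, site_zero, site_one, site_one, site_two, site_two] at h
  have hwr := integral_wr_sq_le (mi n k i) (mi n k j) (S := 18 / k)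
    (sup_le hk (k6_le_mi hn k i)) (sup_le hk (k6_le_mi hn k j))
  have h1 := integral_hf2_sq_le (n0' n k - mi n k i) (n0' n k - mi n k j) (S := 18 / k)
    (sup_le hk (k6_le_mi' hn k hi))
  have h2 := integral_hf2_sq_le 0 0 (S := 18) (sup_le_zero 0)
  set I0 := ∫ s, wr (mi n k i) (mi n k j) s ^ 2
  set I1 := ∫ s, (HO.hf (n0' n k - mi n k i) s * HO.hf (n0' n k - mi n k j) s) ^ 2
  set I2 := ∫ s, (HO.hf 0 s * HO.hf 0 s) ^ 2
  have p1 : 0 ≤ I1 := integral_nonneg fun s => sq_nonneg _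
  have p2 : 0 ≤ I2 := integral_nonneg fun s => sq_nonneg _
  have p0 : 0 ≤ I0 := integral_nonneg fun s => sq_nonneg _
  set Z : ℝ := (k : ℝ) ^ 6 * (Yn n : ℝ) ^ 2 with hZ
  have hZ1 : 1 ≤ Z := by
    have a1 : (1 : ℝ) ≤ (k : ℝ) ^ 6 := one_le_pow₀ hk1
    have a2 : (1 : ℝ) ≤ (Yn n : ℝ) ^ 2 := one_le_pow₀ hY
    nlinarith
  have hs : (mi n k i : ℝ) + mi n k j + 1 ≤ 8 * Z := by
    have a1 := mi_le k hi
    have a2 := mi_le k hj
    rw [← hZ] at a1 a2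
    linarith
  have hI0 : I0 ≤ 2 * (18 / k) * (8 * Z) :=
    hwr.trans (mul_le_mul_of_nonneg_left hs (by positivity))
  have hI : I0 * I1 * I2 ≤ (2 * (18 / k) * (8 * Z)) * (18 / k) * 18 := by
    gcongr
  -- the difference of quantum numbers
  have hd : (16 * ((k : ℝ) ^ 6 * (n : ℝ) ^ 2 * Yn n)) ^ 2 ≤ ((mi n k i : ℝ) - mi n k j) ^ 2 := by
    have hpos : 0 ≤ 16 * ((k : ℝ) ^ 6 * (n : ℝ) ^ 2 * Yn n) := by positivity
    rcases lt_or_gt_of_ne hij with h3 | h3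
    · have := mi_diff (n := n) k h3
      have h4 := pow_le_pow_left₀ hpos this 2
      nlinarith
    · have := mi_diff (n := n) k h3
      exact pow_le_pow_left₀ hpos this 2
  have hd2 : 256 * (k : ℝ) ^ 6 * Z ≤ ((mi n k i : ℝ) - mi n k j) ^ 2 := by
    refine le_trans ?_ hd
    have a1 : (1 : ℝ) ≤ (n : ℝ) ^ 4 := one_le_pow₀ hn'
    have e1 : (16 * ((k : ℝ) ^ 6 * (n : ℝ) ^ 2 * Yn n)) ^ 2 =
        (256 * (k : ℝ) ^ 6 * Z) * (n : ℝ) ^ 4 := by rw [hZ]; ring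
    rw [e1]
    have : 0 ≤ 256 * (k : ℝ) ^ 6 * Z := by positivity
    nlinarith
  set X := W (site n k i) (site n k j) (site n k i) (site n k j)
  have hX : 0 ≤ X := W_self_nonneg _ _
  have hmain : (1024 * (k : ℝ) ^ 6 * Z) * X ≤
      4 * π * ((2 * (18 / k) * (8 * Z)) * (18 / k) * 18) := by
    calc (1024 * (k : ℝ) ^ 6 * Z) * X = 4 * (256 * (k : ℝ) ^ 6 * Z) * X := by ring
      _ ≤ 4 * ((mi n k i : ℝ) - mi n k j) ^ 2 * X := by gcongr
      _ = (2 * ((mi n k i : ℝ) - mi n k j)) ^ 2 * X := by ring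
      _ ≤ 4 * π * (I0 * I1 * I2) := h
      _ ≤ _ := mul_le_mul_of_nonneg_left hI (by positivity)
  have hpi : π ≤ 3.15 := by
    have := Real.pi_lt_d2
    linarith
  have hZ0 : 0 < Z := by linarith
  have h9 : (1024 * (k : ℝ) ^ 6 * Z) * X ≤ (1024 * (k : ℝ) ^ 6 * Z) * (1156 / (k : ℝ) ^ 8) := by
    refine hmain.trans ?_
    have e2 : 4 * π * ((2 * (18 / (k : ℝ)) * (8 * Z)) * (18 / k) * 18) =
        (373248 * π) * (Z / (k : ℝ) ^ 2) := by ring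
    have e3 : (1024 * (k : ℝ) ^ 6 * Z) * (1156 / (k : ℝ) ^ 8) = 1183744 * (Z / (k : ℝ) ^ 2) := by
      field_simp
      norm_num
    rw [e2, e3]
    have : 0 ≤ Z / (k : ℝ) ^ 2 := by positivity
    have h10 : 373248 * π ≤ 1183744 := by nlinarith
    exact mul_le_mul_of_nonneg_right h10 this
  exact le_of_mul_le_mul_left h9 (by positivity)

theorem K_le' {n i j k : ℕ} (hn : 1 ≤ n) (hk : 1 ≤ k) (hi : i < n) (hj : j < n) :
    W (site n k i) (site n k j) (site n k i) (site n k j) ≤ 11664 / (k : ℝ) ^ 2 := by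
  have hk1 : (1 : ℝ) ≤ k := by exact_mod_cast hk
  by_cases hij : i = j
  · subst hij
    exact U_le hn hk hi
  · refine (K_le hn hk hi hj hij).trans ?_
    have h1 : (k : ℝ) ^ 2 ≤ (k : ℝ) ^ 8 := pow_le_pow_right₀ hk1 (by norm_num)
    have hk2 : 0 < (k : ℝ) ^ 2 := by positivity
    calc 1156 / (k : ℝ) ^ 8 ≤ 1156 / (k : ℝ) ^ 2 := div_le_div_of_nonneg_left (by norm_num) hk2 h1
      _ ≤ 11664 / (k : ℝ) ^ 2 := div_le_div_of_nonneg_right (by norm_num) hk2.le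

/-- `CoulStmt` (b). -/
theorem coul_b {n k : ℕ} (hn : 1 ≤ n) (hk : 1 ≤ k) {i j i' j' : ℕ} (hi : i < n) (hj : j < n)
    (hi' : i' < n) (hj' : j' < n) (h : i ≠ j ∨ i' ≠ j') :
    |W4 (site n k i) (site n k j) (site n k i') (site n k j')| ≤ 3672 / (k : ℝ) ^ 5 := by
  have hk' : (0 : ℝ) < k := by exact_mod_cast hk
  rw [W4_eq_W]
  have hcs := W_cauchy_schwarz (site n k i) (site n k j) (site n k i') (site n k j')
  have hp1 := W_self_nonneg (site n k i) (site n k j)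
  have hp2 := W_self_nonneg (site n k i') (site n k j')
  have key : W (site n k i) (site n k j) (site n k i) (site n k j) *
      W (site n k i') (site n k j') (site n k i') (site n k j') ≤ (3672 / (k : ℝ) ^ 5) ^ 2 := by
    have e : (3672 / (k : ℝ) ^ 5) ^ 2 = (1156 / (k : ℝ) ^ 8) * (11664 / (k : ℝ) ^ 2) := by
      field_simp
      norm_num
    rw [e]
    rcases h with h | h
    · exact mul_le_mul (K_le hn hk hi hj h) (K_le' hn hk hi' hj') hp2 (by positivity)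
    · rw [mul_comm (1156 / (k : ℝ) ^ 8)]
      exact mul_le_mul (K_le' hn hk hi hj) (K_le hn hk hi' hj' h) hp2 (by positivity)
  exact Real.abs_le_sqrt (hcs.trans key) |>.trans (le_of_eq (Real.sqrt_sq (by positivity)))

end Crest.Agent.R338.CE
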