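import Mathlib
import Crest.Agent.R338.CE6

/-!
Row 338, part 5, D.10: generic part of the charging energy estimate: the density
`ρ_δ = ∑ δ_i φ_i²`, `∑ V_ij δ_i δ_j = D(ρ_δ, ρ_δ)`, product test functions.
-/

set_option autoImplicit false

open MeasureTheory Real Set Filter
open scoped Topology ContDiff

noncomputable section

namespace Crest.Agent.R338.CE

/-! ### bilinearity for finite sums -/

theorem D_sum_left {ι : Type*} (s : Finset ι) (c : ι → ℝ) {f : ι → P3 → ℝ} {g : P3 → ℝ}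
    (hf : ∀ i ∈ s, Nice (f i)) (hg : Nice g) :
    D (fun x => ∑ i ∈ s, c i * f i x) g = ∑ i ∈ s, c i * D (f i) g := by
  classical
  induction s using Finset.induction_on with
  | empty =>
    simp only [Finset.sum_empty]
    have := D_const_mul_left (fun _ => (0 : ℝ)) g 0
    simpa using this
  | insert i s hi ih =>
    have h1 := (hf i (Finset.mem_insert_self _ _)).const_mul (c i)
    have h2 : ∀ j ∈ s, Nice (f j) := fun j hj => hf j (Finset.mem_insert_of_mem hj)
    have h3 : Nice (fun x => ∑ j ∈ s, c j * f j x) :=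
      Nice.sum s fun j hj => (h2 j hj).const_mul (c j)
    simp only [Finset.sum_insert hi]
    rw [D_add_left h1.int h3.int hg, ih h2, D_const_mul_left]

theorem D_sum_right {ι : Type*} (s : Finset ι) (c : ι → ℝ) {f : ι → P3 → ℝ} {g : P3 → ℝ}
    (hf : ∀ i ∈ s, Nice (f i)) (hg : Nice g) :
    D g (fun x => ∑ i ∈ s, c i * f i x) = ∑ i ∈ s, c i * D g (f i) := by
  rw [D_symm, D_sum_left s c hf hg]
  exact Finset.sum_congr rfl fun i _ => by rw [D_symm]

/-- site density -/
def rho (n k : ℕ) (δ : Fin n → ℤ) (x : P3) : ℝ :=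
  ∑ i : Fin n, (δ i : ℝ) * (phi (site n k i) x * phi (site n k i) x)

theorem nice_rho (n k : ℕ) (δ : Fin n → ℤ) : Nice (rho n k δ) :=
  Nice.sum _ fun i _ => (nice_phi2 (site n k i) (site n k i)).const_mul _

/-- `∑ V_ij δ_i δ_j = D(ρ_δ, ρ_δ)`. -/
theorem sum_Vc_eq (n k : ℕ) (δ : Fin n → ℤ) :
    ∑ i : Fin n, ∑ j : Fin n, Vc n k i j * ((δ i : ℝ) * (δ j : ℝ)) =
      D (rho n k δ) (rho n k δ) := by
  have h1 : D (rho n k δ) (rho n k δ) = ∑ i : Fin n, (δ i : ℝ) *
      D (fun x => phi (site n k i) x * phi (site n k i) x) (rho n k δ) :=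
    D_sum_left Finset.univ _ (fun i _ => nice_phi2 _ _) (nice_rho n k δ)
  rw [h1]
  refine Finset.sum_congr rfl fun i _ => ?_
  have h2 : D (fun x => phi (site n k i) x * phi (site n k i) x) (rho n k δ) =
      ∑ j : Fin n, (δ j : ℝ) * D (fun x => phi (site n k i) x * phi (site n k i) x)
        (fun x => phi (site n k j) x * phi (site n k j) x) :=
    D_sum_right Finset.univ _ (fun j _ => nice_phi2 _ _) (nice_phi2 _ _)
  rw [h2, Finset.mul_sum]
  refine Finset.sum_congr rfl fun j _ => ?_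
  unfold Vc
  rw [W4_eq_W]
  unfold W
  ring

/-! ### product test functions -/

theorem contDiff_pf {η : Fin 3 → ℝ → ℝ} (h : ∀ c, ContDiff ℝ ∞ (η c)) : ContDiff ℝ ∞ (pf η) := by
  unfold pf
  refine contDiff_prod fun c _ => (h c).comp ?_
  exact (EuclideanSpace.proj c : P3 →L[ℝ] ℝ).contDiff

theorem hasCompactSupport_pf {η : Fin 3 → ℝ → ℝ} (h : ∀ c, HasCompactSupport (η c)) :
    HasCompactSupport (pf η) := by
  -- the support is contained in a product of compact sets
  have hK : IsCompact {x : P3 | ∀ c, x c ∈ tsupport (η c)} := by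
    have h1 : IsCompact (Set.pi univ fun c : Fin 3 => tsupport (η c)) :=
      isCompact_univ_pi fun c => h c
    have h2 := h1.image (EuclideanSpace.equiv (Fin 3) ℝ).symm.continuous
    have e : {x : P3 | ∀ c, x c ∈ tsupport (η c)} =
        (EuclideanSpace.equiv (Fin 3) ℝ).symm '' (Set.pi univ fun c : Fin 3 => tsupport (η c)) := by
      ext x
      simp only [mem_ofPred_eq, mem_image, Set.mem_pi, mem_univ, forall_true_left]
      constructor
      · intro hx
        exact ⟨fun c => x c, hx, by ext c; rfl⟩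
      · rintro ⟨y, hy, rfl⟩ c
        exact hy c
    rw [e]; exact h2
  refine HasCompactSupport.intro hK fun x hx => ?_
  simp only [mem_ofPred_eq, not_forall] at hx
  obtain ⟨c, hc⟩ := hx
  unfold pf
  exact Finset.prod_eq_zero (Finset.mem_univ c) (image_eq_zero_of_notMem_tsupport hc)

theorem fderiv_pf {η : Fin 3 → ℝ → ℝ} (h : ∀ c, ContDiff ℝ ∞ (η c)) (i : Fin 3) (x : P3) :
    fderiv ℝ (pf η) x (eb i) = pf (Function.update η i (deriv (η i))) x := by
  have hd : DifferentiableAt ℝ (pf η) x := (contDiff_pf h).differentiable (by simp) x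
  have hline : HasDerivAt (fun t : ℝ => x + t • eb i) (eb i) 0 := by
    have := ((hasDerivAt_id (0 : ℝ)).smul_const (eb i)).const_add x
    simpa using this
  have h1 : HasDerivAt (fun t : ℝ => pf η (x + t • eb i)) (fderiv ℝ (pf η) x (eb i)) 0 := by
    have h2 : HasFDerivAt (pf η) (fderiv ℝ (pf η) x) (x + (0 : ℝ) • eb i) := by
      simpa using hd.hasFDerivAt
    exact h2.comp_hasDerivAt (0 : ℝ) hline
  have e : (fun t : ℝ => pf η (x + t • eb i)) =
      fun t : ℝ => η i (x i + t) * ∏ c ∈ Finset.univ.erase i, η c (x c) := by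
    funext t
    unfold pf
    rw [← Finset.mul_prod_erase Finset.univ _ (Finset.mem_univ i)]
    congr 1
    · congr 1; simp [eb]
    · refine Finset.prod_congr rfl fun c hc => ?_
      have : c ≠ i := (Finset.mem_erase.1 hc).1
      congr 1
      simp [eb, this]
  rw [e] at h1
  have h3 : HasDerivAt (fun t : ℝ => η i (x i + t) * ∏ c ∈ Finset.univ.erase i, η c (x c))
      (deriv (η i) (x i) * ∏ c ∈ Finset.univ.erase i, η c (x c)) 0 := by
    have h4 : HasDerivAt (η i) (deriv (η i) (x i)) (x i + 0) := by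
      simpa using ((h i).differentiable (by simp) (x i)).hasDerivAt
    have h5 : HasDerivAt (fun t : ℝ => x i + t) 1 0 := by
      simpa using (hasDerivAt_id (0 : ℝ)).const_add (x i)
    have h6 := (h4.comp (0 : ℝ) h5).mul_const (∏ c ∈ Finset.univ.erase i, η c (x c))
    simpa [Function.comp_def] using h6
  rw [h1.unique h3]
  unfold pf
  rw [← Finset.mul_prod_erase Finset.univ (fun c => Function.update η i (deriv (η i)) c (x c))
    (Finset.mem_univ i), Function.update_self]
  congr 1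
  refine Finset.prod_congr rfl fun c hc => ?_
  rw [Function.update_of_ne (Finset.mem_erase.1 hc).1]

theorem integral_fderiv_sq {η : Fin 3 → ℝ → ℝ} (h : ∀ c, ContDiff ℝ ∞ (η c)) (i : Fin 3) :
    ∫ x, (fderiv ℝ (pf η) x (eb i)) ^ 2 =
      ∏ c, ∫ s, (Function.update η i (deriv (η i)) c s) ^ 2 := by
  simp_rw [fderiv_pf h]
  rw [← integral_pf]
  refine integral_congr_ae (Eventually.of_forall fun x => ?_)
  simp only
  unfold pf
  rw [Finset.prod_pow]

theorem integral_grad_sq {η : Fin 3 → ℝ → ℝ} (h : ∀ c, ContDiff ℝ ∞ (η c)) :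
    ∑ i, ∫ x, (fderiv ℝ (pf η) x (eb i)) ^ 2 =
      (∫ s, deriv (η 0) s ^ 2) * (∫ s, η 1 s ^ 2) * (∫ s, η 2 s ^ 2) +
      (∫ s, η 0 s ^ 2) * (∫ s, deriv (η 1) s ^ 2) * (∫ s, η 2 s ^ 2) +
      (∫ s, η 0 s ^ 2) * (∫ s, η 1 s ^ 2) * (∫ s, deriv (η 2) s ^ 2) := by
  simp_rw [integral_fderiv_sq h]
  rw [Fin.sum_univ_three]
  simp only [Fin.prod_univ_three]
  simp [Function.update_self, Function.update_of_ne]

/-- `∫ ρ η` for a product test function. -/
theorem integral_rho_pf (n k : ℕ) (δ : Fin n → ℤ) {η : Fin 3 → ℝ → ℝ}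
    (hc : ∀ c, Continuous (η c)) (hb : ∀ c, ∃ C, ∀ t, |η c t| ≤ C) :
    ∫ x, rho n k δ x * pf η x = ∑ i : Fin n, (δ i : ℝ) *
      ((∫ s, η 0 s * HO.hf (mi n k i) s ^ 2) * (∫ s, η 1 s * HO.hf (n0' n k - mi n k i) s ^ 2) *
        ∫ s, η 2 s * HO.hf 0 s ^ 2) := by
  have hint : ∀ (c : Fin 3) (m : ℕ), Integrable (fun s => η c s * HO.hf m s ^ 2) := by
    intro c m
    obtain ⟨C, hC⟩ := hb c
    exact (integrable_hf_sq m).bdd_mul (c := C) (hc c).aestronglyMeasurable
      (Eventually.of_forall fun s => by rw [Real.norm_eq_abs]; exact hC s)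
  have e : ∀ x : P3, rho n k δ x * pf η x = ∑ i : Fin n, (δ i : ℝ) *
      pf (fun c s => η c s * HO.hf (site n k i c) s ^ 2) x := by
    intro x
    unfold rho
    rw [Finset.sum_mul]
    refine Finset.sum_congr rfl fun i _ => ?_
    rw [mul_assoc]
    congr 1
    unfold phi pf
    rw [← Finset.prod_mul_distrib, ← Finset.prod_mul_distrib]
    refine Finset.prod_congr rfl fun c _ => ?_
    ring
  simp_rw [e]
  rw [integral_finsetSum _ fun i _ => (integrable_pf fun c => hint c _).const_mul _]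
  refine Finset.sum_congr rfl fun i _ => ?_
  rw [integral_const_mul, integral_pf, Fin.prod_univ_three]
  rfl

/-- The duality bound for the charging energy, product test functions. -/
theorem charging_duality (n k : ℕ) (δ : Fin n → ℤ) {η : Fin 3 → ℝ → ℝ}
    (hs : ∀ c, ContDiff ℝ ∞ (η c)) (hc : ∀ c, HasCompactSupport (η c)) :
    4 * π * (∑ i : Fin n, (δ i : ℝ) *
      ((∫ s, η 0 s * HO.hf (mi n k i) s ^ 2) * (∫ s, η 1 s * HO.hf (n0' n k - mi n k i) s ^ 2) *
        ∫ s, η 2 s * HO.hf 0 s ^ 2)) ^ 2 ≤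
    (∑ i : Fin n, ∑ j : Fin n, Vc n k i j * ((δ i : ℝ) * (δ j : ℝ))) *
      ((∫ s, deriv (η 0) s ^ 2) * (∫ s, η 1 s ^ 2) * (∫ s, η 2 s ^ 2) +
      (∫ s, η 0 s ^ 2) * (∫ s, deriv (η 1) s ^ 2) * (∫ s, η 2 s ^ 2) +
      (∫ s, η 0 s ^ 2) * (∫ s, η 1 s ^ 2) * (∫ s, deriv (η 2) s ^ 2)) := by
  have h := D_duality_compact (nice_rho n k δ) (hasCompactSupport_pf hc) (contDiff_pf hs)
  rw [integral_grad_sq hs, ← sum_Vc_eq, integral_rho_pf n k δ (fun c => (hs c).continuous)
    (fun c => ?_)] at h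
  · exact h
  · obtain ⟨C, hC⟩ := (hc c).exists_bound_of_continuous (hs c).continuous
    exact ⟨C, fun t => by simpa using hC t⟩

end Crest.Agent.R338.CE
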