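import Mathlib
import Crest.Agent.R338.CE7

/-!
Row 338, part 5, D.10: one-dimensional cut-offs and masses.
-/

set_option autoImplicit false

open MeasureTheory Real Set Filter
open scoped Topology ContDiff

noncomputable section

namespace Crest.Agent.R338.CE

open WKB (kap Mt)

/-! ### the smooth step -/

theorem deriv_st_of_neg {x : ℝ} (hx : x < 0) : deriv Real.smoothTransition x = 0 := by
  have : Real.smoothTransition =ᶠ[𝓝 x] fun _ => (0 : ℝ) := by
    filter_upwards [Iio_mem_nhds hx] with y hy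
    exact Real.smoothTransition.zero_of_nonpos (le_of_lt hy)
  rw [this.deriv_eq]
  simp

theorem deriv_st_of_gt {x : ℝ} (hx : 1 < x) : deriv Real.smoothTransition x = 0 := by
  have : Real.smoothTransition =ᶠ[𝓝 x] fun _ => (1 : ℝ) := by
    filter_upwards [Ioi_mem_nhds hx] with y hy
    exact Real.smoothTransition.one_of_one_le (le_of_lt hy)
  rw [this.deriv_eq]
  simp

theorem contDiff_st : ContDiff ℝ ∞ Real.smoothTransition := Real.smoothTransition.contDiff

theorem exists_deriv_bound : ∃ K : ℝ, 1 ≤ K ∧ ∀ x, |deriv Real.smoothTransition x| ≤ K := by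
  have hc : Continuous (deriv Real.smoothTransition) :=
    (contDiff_st.continuous_deriv (by simp))
  have hs : HasCompactSupport (deriv Real.smoothTransition) := by
    refine HasCompactSupport.intro (K := Icc (0 : ℝ) 1) isCompact_Icc fun x hx => ?_
    simp only [mem_Icc, not_and_or, not_le] at hx
    rcases hx with hx | hx
    · exact deriv_st_of_neg hx
    · exact deriv_st_of_gt hx
  obtain ⟨C, hC⟩ := hs.exists_bound_of_continuous hc
  exact ⟨max C 1, le_max_right _ _, fun x => by
    have := hC x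
    rw [Real.norm_eq_abs] at this
    exact this.trans (le_max_left _ _)⟩

/-- the bound of the derivative of the smooth step. -/
def K0 : ℝ := exists_deriv_bound.choose

theorem one_le_K0 : 1 ≤ K0 := exists_deriv_bound.choose_spec.1

theorem deriv_st_le (x : ℝ) : |deriv Real.smoothTransition x| ≤ K0 :=
  exists_deriv_bound.choose_spec.2 x

/-- `up a b` vanishes for `|s| ≤ a`, equals one for `|s| ≥ b`. -/
def up (a b : ℝ) (s : ℝ) : ℝ := Real.smoothTransition ((s ^ 2 - a ^ 2) / (b ^ 2 - a ^ 2))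

/-- `cut B` equals one for `|s| ≤ B`, vanishes for `|s| ≥ 2B`. -/
def cut (B : ℝ) (s : ℝ) : ℝ := 1 - up B (2 * B) s

section

variable {a b B : ℝ}

theorem up_nonneg (s : ℝ) : 0 ≤ up a b s := Real.smoothTransition.nonneg _

theorem up_le_one (s : ℝ) : up a b s ≤ 1 := Real.smoothTransition.le_one _

theorem sq_lt_of (ha : 0 < a) (hab : a < b) : a ^ 2 < b ^ 2 := by nlinarith

theorem up_zero (ha : 0 < a) (hab : a < b) {s : ℝ} (hs : |s| ≤ a) : up a b s = 0 := by
  unfold up
  apply Real.smoothTransition.zero_of_nonpos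
  have h1 : s ^ 2 ≤ a ^ 2 := sq_le_sq' (by linarith [neg_abs_le s]) (by linarith [le_abs_self s])
  have h2 := sq_lt_of ha hab
  exact div_nonpos_of_nonpos_of_nonneg (by linarith) (by linarith)

theorem up_one (ha : 0 < a) (hab : a < b) {s : ℝ} (hs : b ≤ |s|) : up a b s = 1 := by
  unfold up
  apply Real.smoothTransition.one_of_one_le
  have h1 : b ^ 2 ≤ s ^ 2 := by
    rw [← sq_abs s]; exact pow_le_pow_left₀ (by linarith) hs 2
  have h2 := sq_lt_of ha hab
  rw [le_div_iff₀ (by linarith)]
  linarith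

theorem contDiff_up : ContDiff ℝ ∞ (up a b) := by
  unfold up
  exact contDiff_st.comp (by fun_prop)

theorem hasDerivAt_up (s : ℝ) : HasDerivAt (up a b)
    (deriv Real.smoothTransition ((s ^ 2 - a ^ 2) / (b ^ 2 - a ^ 2)) *
      (2 * s / (b ^ 2 - a ^ 2))) s := by
  have h1 : HasDerivAt (fun s : ℝ => (s ^ 2 - a ^ 2) / (b ^ 2 - a ^ 2))
      (2 * s / (b ^ 2 - a ^ 2)) s := by
    have := ((hasDerivAt_pow 2 s).sub_const (a ^ 2)).div_const (b ^ 2 - a ^ 2)
    simpa using this
  have h2 : HasDerivAt Real.smoothTransition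
      (deriv Real.smoothTransition ((s ^ 2 - a ^ 2) / (b ^ 2 - a ^ 2)))
      ((s ^ 2 - a ^ 2) / (b ^ 2 - a ^ 2)) :=
    (contDiff_st.differentiable (by simp) _).hasDerivAt
  exact h2.comp s h1

theorem abs_deriv_up_le (ha : 0 < a) (hab : a < b) (s : ℝ) :
    |deriv (up a b) s| ≤ 2 * K0 / (b - a) := by
  rw [(hasDerivAt_up s).deriv, abs_mul]
  have hK := one_le_K0
  have h2 := sq_lt_of ha hab
  have hba : 0 < b - a := by linarith
  rcases le_or_gt |s| b with hs | hs
  · have h3 : |2 * s / (b ^ 2 - a ^ 2)| ≤ 2 / (b - a) := by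
      rw [abs_div, abs_mul, abs_of_pos (by norm_num : (0 : ℝ) < 2),
        abs_of_pos (by linarith : 0 < b ^ 2 - a ^ 2), div_le_div_iff₀ (by linarith) hba]
      nlinarith [abs_nonneg s]
    calc |deriv Real.smoothTransition ((s ^ 2 - a ^ 2) / (b ^ 2 - a ^ 2))| *
          |2 * s / (b ^ 2 - a ^ 2)| ≤ K0 * (2 / (b - a)) :=
          mul_le_mul (deriv_st_le _) h3 (abs_nonneg _) (by linarith)
      _ = 2 * K0 / (b - a) := by ring
  · have h4 : 1 < (s ^ 2 - a ^ 2) / (b ^ 2 - a ^ 2) := by
      rw [lt_div_iff₀ (by linarith)]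
      have : b ^ 2 < s ^ 2 := by
        rw [← sq_abs s]; exact pow_lt_pow_left₀ hs (by linarith) (by norm_num)
      linarith
    rw [deriv_st_of_gt h4]
    simp
    positivity

theorem cut_nonneg (s : ℝ) : 0 ≤ cut B s := by
  unfold cut; linarith [up_le_one (a := B) (b := 2 * B) s]

theorem cut_le_one (s : ℝ) : cut B s ≤ 1 := by
  unfold cut; linarith [up_nonneg (a := B) (b := 2 * B) s]

theorem cut_one (hB : 0 < B) {s : ℝ} (hs : |s| ≤ B) : cut B s = 1 := by
  unfold cut; rw [up_zero hB (by linarith) hs, sub_zero]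

theorem cut_zero (hB : 0 < B) {s : ℝ} (hs : 2 * B ≤ |s|) : cut B s = 0 := by
  unfold cut; rw [up_one hB (by linarith) hs, sub_self]

theorem contDiff_cut : ContDiff ℝ ∞ (cut B) := contDiff_const.sub contDiff_up

theorem hasCompactSupport_cut (hB : 0 < B) : HasCompactSupport (cut B) := by
  refine HasCompactSupport.intro (K := Icc (-(2 * B)) (2 * B)) isCompact_Icc fun x hx => ?_
  apply cut_zero hB
  by_contra h
  push Not at h
  exact hx ⟨by linarith [neg_abs_le x], by linarith [le_abs_self x]⟩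

theorem deriv_cut (s : ℝ) : deriv (cut B) s = -deriv (up B (2 * B)) s := by
  unfold cut
  rw [deriv_const_sub]

theorem abs_deriv_cut_le (hB : 0 < B) (s : ℝ) : |deriv (cut B) s| ≤ 2 * K0 / B := by
  rw [deriv_cut, abs_neg]
  refine (abs_deriv_up_le hB (by linarith) s).trans (le_of_eq ?_)
  congr 1; ring

theorem deriv_eq_zero_of {f : ℝ → ℝ} (hf : ∀ s, 2 * B ≤ |s| → f s = 0) {s : ℝ}
    (hs : 2 * B < |s|) : deriv f s = 0 := by
  have : f =ᶠ[𝓝 s] fun _ => (0 : ℝ) := by
    have : ∀ᶠ y in 𝓝 s, 2 * B < |y| := (continuous_abs.tendsto s).eventually (lt_mem_nhds hs)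
    filter_upwards [this] with y hy
    exact hf y hy.le
  rw [this.deriv_eq]
  simp

theorem integral_sq_le (hB : 0 < B) {f : ℝ → ℝ} {M : ℝ}
    (h0 : ∀ s, 2 * B < |s| → f s = 0) (hM : ∀ s, |f s| ≤ M) :
    ∫ s, f s ^ 2 ≤ 4 * B * M ^ 2 := by
  have h1 : ∫ s in Icc (-(2 * B)) (2 * B), f s ^ 2 = ∫ s, f s ^ 2 := by
    apply setIntegral_eq_integral_of_forall_compl_eq_zero
    intro s hs
    have : 2 * B < |s| := by
      by_contra h
      push Not at h
      exact hs ⟨by linarith [neg_abs_le s], by linarith [le_abs_self s]⟩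
    rw [h0 s this]
    norm_num
  rw [← h1]
  have hv : volume (Icc (-(2 * B)) (2 * B)) < ⊤ := by
    rw [Real.volume_Icc]; exact ENNReal.ofReal_lt_top
  have h2 := norm_setIntegral_le_of_norm_le_const (f := fun s => f s ^ 2) (C := M ^ 2) hv
    (fun s _ => by
      rw [Real.norm_eq_abs, abs_of_nonneg (sq_nonneg _), ← sq_abs]
      exact pow_le_pow_left₀ (abs_nonneg _) (hM s) 2)
  have h3 : volume.real (Icc (-(2 * B)) (2 * B)) = 4 * B := by
    rw [Measure.real, Real.volume_Icc, ENNReal.toReal_ofReal (by linarith)]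
    ring
  rw [h3] at h2
  refine (le_abs_self _).trans ?_
  rw [← Real.norm_eq_abs]
  linarith

/-! ### the test function in the first variable -/

/-- `bump a b B = up a b * cut B`. -/
def bump (a b B : ℝ) (s : ℝ) : ℝ := up a b s * cut B s

theorem bump_nonneg (s : ℝ) : 0 ≤ bump a b B s := mul_nonneg (up_nonneg s) (cut_nonneg s)

theorem bump_le_one (s : ℝ) : bump a b B s ≤ 1 := by
  unfold bump
  nlinarith [up_nonneg (a := a) (b := b) s, up_le_one (a := a) (b := b) s, cut_nonneg (B := B) s,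
    cut_le_one (B := B) s]

theorem contDiff_bump : ContDiff ℝ ∞ (bump a b B) := contDiff_up.mul contDiff_cut

theorem hasCompactSupport_bump (hB : 0 < B) : HasCompactSupport (bump a b B) :=
  (hasCompactSupport_cut hB).mul_left

theorem bump_far (hB : 0 < B) {s : ℝ} (hs : 2 * B ≤ |s|) : bump a b B s = 0 := by
  unfold bump; rw [cut_zero hB hs, mul_zero]

theorem abs_deriv_bump_le (ha : 0 < a) (hab : a < b) (hB : 0 < B) (s : ℝ) :
    |deriv (bump a b B) s| ≤ 2 * K0 / (b - a) + 2 * K0 / B := by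
  have h1 : HasDerivAt (up a b) (deriv (up a b) s) s :=
    (contDiff_up.differentiable (by simp) s).hasDerivAt
  have h2 : HasDerivAt (cut B) (deriv (cut B) s) s :=
    (contDiff_cut.differentiable (by simp) s).hasDerivAt
  have h3 : deriv (bump a b B) s = deriv (up a b) s * cut B s + up a b s * deriv (cut B) s :=
    (h1.mul h2).deriv
  rw [h3]
  refine (abs_add_le _ _).trans (add_le_add ?_ ?_)
  · rw [abs_mul, abs_of_nonneg (cut_nonneg s)]
    refine (mul_le_of_le_one_right (abs_nonneg _) (cut_le_one s)).trans ?_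
    exact abs_deriv_up_le ha hab s
  · rw [abs_mul, abs_of_nonneg (up_nonneg s)]
    refine (mul_le_of_le_one_left (abs_nonneg _) (up_le_one s)).trans ?_
    exact abs_deriv_cut_le hB s

theorem integral_bump_sq_le (hB : 0 < B) : ∫ s, bump a b B s ^ 2 ≤ 4 * B := by
  have := integral_sq_le (f := bump a b B) (M := 1) hB (fun s hs => bump_far hB hs.le)
    (fun s => by rw [abs_of_nonneg (bump_nonneg s)]; exact bump_le_one s)
  simpa using this

theorem integral_cut_sq_le (hB : 0 < B) : ∫ s, cut B s ^ 2 ≤ 4 * B := by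
  have := integral_sq_le (f := cut B) (M := 1) hB (fun s hs => cut_zero hB hs.le)
    (fun s => by rw [abs_of_nonneg (cut_nonneg s)]; exact cut_le_one s)
  simpa using this

theorem integral_deriv_cut_sq_le (hB : 0 < B) :
    ∫ s, deriv (cut B) s ^ 2 ≤ 4 * B * (2 * K0 / B) ^ 2 :=
  integral_sq_le hB (fun _ hs => deriv_eq_zero_of (fun _ h => cut_zero hB h) hs)
    (abs_deriv_cut_le hB)

theorem integral_deriv_bump_sq_le (ha : 0 < a) (hab : a < b) (hB : 0 < B) :
    ∫ s, deriv (bump a b B) s ^ 2 ≤ 4 * B * (2 * K0 / (b - a) + 2 * K0 / B) ^ 2 :=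
  integral_sq_le hB (fun _ hs => deriv_eq_zero_of (fun _ h => bump_far hB h) hs)
    (abs_deriv_bump_le ha hab hB)

/-! ### masses -/

theorem integrable_mul_hf_sq {f : ℝ → ℝ} (hf : Continuous f) {C : ℝ} (hC : ∀ s, |f s| ≤ C)
    (m : ℕ) : Integrable (fun s => f s * HO.hf m s ^ 2) :=
  (integrable_hf_sq m).bdd_mul (c := C) hf.aestronglyMeasurable
    (Eventually.of_forall fun s => by rw [Real.norm_eq_abs]; exact hC s)

theorem two_sided_tail (m : ℕ) {r : ℝ} (hr : 0 < r) :
    ∫ s in {s : ℝ | kap m + r < |s|}, HO.hf m s ^ 2 ≤ 1 / (kap m * r ^ 3) := by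
  have hk := WKB.kap_pos m
  rw [WKB.integral_abs_gt (by linarith) (fun s => HO.hf m s ^ 2) (WKB.hf_abs_sq m)]
  have h := WKB.tail_mass m hr
  have h1 := WKB.Mt_le_one m
  have h2 : 0 ≤ 1 / (2 * kap m * r ^ 3) := by positivity
  calc 2 * ∫ x in Ioi (kap m + r), HO.hf m x ^ 2 ≤ 2 * (1 / (2 * kap m * r ^ 3) * 1) := by
        have := h.trans (mul_le_mul_of_nonneg_left h1 h2)
        linarith
    _ = 1 / (kap m * r ^ 3) := by field_simp

/-- (M2) small mass of the inner sites. -/
theorem mass_inner (ha : 0 < a) (hab : a < b) (m : ℕ) {r : ℝ} (hr : 0 < r) (hka : kap m + r ≤ a) :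
    ∫ s, bump a b B s * HO.hf m s ^ 2 ≤ 1 / (kap m * r ^ 3) := by
  refine le_trans ?_ (two_sided_tail m hr)
  have hmeas : MeasurableSet {s : ℝ | kap m + r < |s|} :=
    measurableSet_lt measurable_const continuous_abs.measurable
  rw [← integral_indicator hmeas]
  refine integral_mono (integrable_mul_hf_sq contDiff_bump.continuous (C := 1)
    (fun s => by rw [abs_of_nonneg (bump_nonneg s)]; exact bump_le_one s) m)
    ((integrable_hf_sq m).indicator hmeas) fun s => ?_
  simp only
  by_cases hs : kap m + r < |s|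
  · rw [indicator_of_mem (by exact hs)]
    exact mul_le_of_le_one_left (sq_nonneg _) (bump_le_one s)
  · rw [indicator_of_notMem (by exact hs)]
    push Not at hs
    unfold bump
    rw [up_zero ha hab (hs.trans hka), zero_mul, zero_mul]

/-- (M3) almost all mass is in the flat region. -/
theorem mass_cut (hB : 0 < B) (m : ℕ) (hk : 4 * kap m ≤ B) :
    1 / 2 ≤ ∫ s, cut B s * HO.hf m s ^ 2 := by
  have hk0 := WKB.kap_pos m
  have hk1 := WKB.one_le_kap m
  have h1 := two_sided_tail m (r := 3 * kap m) (by linarith)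
  have hmeas : MeasurableSet {s : ℝ | kap m + 3 * kap m < |s|} :=
    measurableSet_lt measurable_const continuous_abs.measurable
  have hi1 := integrable_mul_hf_sq (contDiff_cut (B := B)).continuous (C := 1)
    (fun s => by rw [abs_of_nonneg (cut_nonneg s)]; exact cut_le_one s) m
  have h2 : (∫ s, HO.hf m s ^ 2) ≤ (∫ s, cut B s * HO.hf m s ^ 2) +
      ∫ s in {s : ℝ | kap m + 3 * kap m < |s|}, HO.hf m s ^ 2 := by
    rw [← integral_indicator hmeas, ← integral_add hi1 ((integrable_hf_sq m).indicator hmeas)]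
    refine integral_mono (integrable_hf_sq m) (hi1.add ((integrable_hf_sq m).indicator hmeas))
      fun s => ?_
    simp only
    by_cases hs : kap m + 3 * kap m < |s|
    · rw [indicator_of_mem (by exact hs)]
      have := mul_nonneg (cut_nonneg (B := B) s) (sq_nonneg (HO.hf m s))
      linarith
    · rw [indicator_of_notMem (by exact hs)]
      push Not at hs
      rw [cut_one hB (by linarith)]
      linarith
  rw [WKB.integral_hf_sq] at h2
  have h3 : 1 / (kap m * (3 * kap m) ^ 3) ≤ 1 / 2 := by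
    apply one_div_le_one_div_of_le (by norm_num)
    have h4 : 1 ≤ kap m ^ 4 := one_le_pow₀ hk1
    nlinarith
  linarith

theorem mass_cut_le (m : ℕ) : ∫ s, cut B s * HO.hf m s ^ 2 ≤ 1 := by
  rw [← WKB.integral_hf_sq m]
  refine integral_mono (integrable_mul_hf_sq (contDiff_cut (B := B)).continuous (C := 1)
    (fun s => by rw [abs_of_nonneg (cut_nonneg s)]; exact cut_le_one s) m)
    (integrable_hf_sq m) fun s => ?_
  exact mul_le_of_le_one_left (sq_nonneg _) (cut_le_one s)

/-- (M1) mass of the outermost site in the bump. -/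
theorem mass_outer (ha : 0 < a) (hab : a < b) (hB : 0 < B) (m : ℕ) {ε : ℝ} (hε : 0 < ε)
    (hε1 : ε ≤ 1) (hb : b = (1 - ε) * kap m) (hk : 2 * kap m ≤ B)
    (hbig : 8 ≤ ε * kap m ^ 4) :
    ε / 16 ≤ ∫ s, bump a b B s * HO.hf m s ^ 2 := by
  have hk0 := WKB.kap_pos m
  have h1 := WKB.interior_mass m (a := 1 - ε) (ε := 1) (by linarith) (by linarith) one_pos
  have h2 : ε / 16 ≤ (kap m / 2 * (1 - (1 - ε) ^ 2) - 2 / (1 * kap m) ^ 3 * Mt m) /
      (2 * (1 + 1) * kap m) := by
    rw [le_div_iff₀ (by positivity)]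
    have h3 := WKB.Mt_le_one m
    have h3' := WKB.Mt_nonneg m
    have h4 : 2 / (1 * kap m) ^ 3 * Mt m ≤ 2 / kap m ^ 3 := by
      rw [one_mul]
      exact mul_le_of_le_one_right (by positivity) h3
    have h5 : 2 / kap m ^ 3 ≤ ε * kap m / 4 := by
      rw [div_le_iff₀ (by positivity)]
      nlinarith
    nlinarith
  refine (h2.trans h1).trans ?_
  rw [← integral_indicator measurableSet_Ioc]
  refine integral_mono ((integrable_hf_sq m).indicator measurableSet_Ioc)
    (integrable_mul_hf_sq contDiff_bump.continuous (C := 1)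
    (fun s => by rw [abs_of_nonneg (bump_nonneg s)]; exact bump_le_one s) m) fun s => ?_
  simp only
  by_cases hs : s ∈ Ioc ((1 - ε) * kap m) ((1 + 1) * kap m)
  · rw [indicator_of_mem hs]
    rw [← hb] at hs
    have hs0 : 0 < s := lt_trans (by linarith) hs.1
    have habs : |s| = s := abs_of_pos hs0
    unfold bump
    rw [up_one ha hab (by rw [habs]; exact hs.1.le), cut_one hB (by rw [habs]; linarith [hs.2])]
    simp
  · rw [indicator_of_notMem hs]
    exact mul_nonneg (bump_nonneg s) (sq_nonneg _)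

theorem mass_bump_nonneg (m : ℕ) : 0 ≤ ∫ s, bump a b B s * HO.hf m s ^ 2 :=
  integral_nonneg fun s => mul_nonneg (bump_nonneg s) (sq_nonneg _)

theorem mass_cut_nonneg (m : ℕ) : 0 ≤ ∫ s, cut B s * HO.hf m s ^ 2 :=
  integral_nonneg fun s => mul_nonneg (cut_nonneg s) (sq_nonneg _)

end

end Crest.Agent.R338.CE
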