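import Mathlib
import Crest.Agent.R338.CE8
import Crest.Agent.R338.BHDefs

/-!
Row 338, part 5, D.10: the charging energy; `CoulStmt` and `W4Symm`.
-/

set_option autoImplicit false

open MeasureTheory Real Set Filter
open scoped Topology ContDiff

noncomputable section

namespace Crest.Agent.R338.CE

open WKB (kap)

section

variable {n k : ℕ}

theorem kap_mono {m m' : ℕ} (h : m ≤ m') : kap m ≤ kap m' := by
  unfold WKB.kap
  apply Real.sqrt_le_sqrt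
  have : (m : ℝ) ≤ m' := by exact_mod_cast h
  linarith

theorem Yn_le_real (hn : 2 ≤ n) : (Yn n : ℝ) ≤ 24 * (n : ℝ) ^ 3 := by
  unfold Yn
  push_cast
  have h : (2 : ℝ) ≤ n := by exact_mod_cast hn
  have : (n : ℝ) ^ 2 * 2 ≤ (n : ℝ) ^ 2 * n := mul_le_mul_of_nonneg_left h (by positivity)
  nlinarith

theorem nu_le_cube (hn : 2 ≤ n) {i : ℕ} (hi : i < n) : (nu n i : ℝ) ≤ 30 * (n : ℝ) ^ 3 := by
  have h1 := nu_le_real hi
  have h2 := Yn_le_real hn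
  linarith

theorem kap_mi_sq (n k i : ℕ) : kap (mi n k i) ^ 2 = 4 * (k : ℝ) ^ 6 * (nu n i : ℝ) ^ 2 + 1 := by
  rw [WKB.kap_sq, mi_real]; ring

/-- separation of the turning points -/
theorem kap_sep (hn : 2 ≤ n) (hk : 1 ≤ k) {i j : ℕ} (hi : i < n) (hji : j < i) :
    kap (mi n k j) ≤ (1 - 4 * (1 / (100 * (n : ℝ)))) * kap (mi n k i) := by
  have hn' : (2 : ℝ) ≤ n := by exact_mod_cast hn
  have hk' : (1 : ℝ) ≤ k := by exact_mod_cast hk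
  have hn0 : (0 : ℝ) < n := by linarith
  set e : ℝ := 1 / (100 * (n : ℝ)) with he
  have he0 : 0 < e := by positivity
  have he1 : e * n = 1 / 100 := by rw [he]; field_simp
  have he2 : e ≤ 1 / 200 := by
    rw [he]; apply one_div_le_one_div_of_le (by norm_num); linarith
  have hk0 := WKB.kap_pos (mi n k i)
  have hk1 := WKB.kap_pos (mi n k j)
  have h1 : (nu n j : ℝ) + 4 * (n : ℝ) ^ 2 ≤ nu n i := by exact_mod_cast nu_diff hji
  have h2 := nu_le_cube hn hi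
  have h3 : (1 : ℝ) ≤ Yn n := by exact_mod_cast Yn_pos (by omega)
  have h4 := nu_ge_real n i
  have h5 : (0 : ℝ) ≤ nu n j := Nat.cast_nonneg _
  have k6 : (1 : ℝ) ≤ (k : ℝ) ^ 6 := one_le_pow₀ hk'
  set N : ℝ := (nu n i : ℝ) with hN
  set M : ℝ := (nu n j : ℝ) with hM
  set P : ℝ := (k : ℝ) ^ 6 with hP
  have hN1 : 1 ≤ N := by linarith
  -- it suffices to compare squares
  apply le_of_sq_le_sq _ (by
    have : 0 ≤ 1 - 4 * e := by linarith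
    positivity)
  rw [mul_pow, kap_mi_sq, kap_mi_sq, ← hN, ← hM, ← hP]
  have h6 : (1 - 4 * e) ^ 2 ≥ 1 - 8 * e := by nlinarith [sq_nonneg e]
  have h7 : 8 * e * (4 * P * N ^ 2 + 1) ≤ 4 * P * N ^ 2 - 4 * P * M ^ 2 := by
    -- left: ≤ 8 e · 5 P N² ≤ 40 e P N · 30 n³ = 1200 e n³ P N = 12 n² P N
    have a1 : 4 * P * N ^ 2 + 1 ≤ 5 * P * N ^ 2 := by nlinarith [mul_le_mul k6 hN1 (by norm_num) (by linarith : (0:ℝ) ≤ P), sq_nonneg (N - 1)]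
    have a2 : 8 * e * (4 * P * N ^ 2 + 1) ≤ 8 * e * (5 * P * N ^ 2) :=
      mul_le_mul_of_nonneg_left a1 (by positivity)
    have a3 : 8 * e * (5 * P * N ^ 2) ≤ 8 * e * (5 * P * (N * (30 * (n : ℝ) ^ 3))) := by
      have : N ^ 2 ≤ N * (30 * (n : ℝ) ^ 3) := by rw [sq]; exact mul_le_mul_of_nonneg_left h2 (by linarith)
      gcongr
    have a4 : 8 * e * (5 * P * (N * (30 * (n : ℝ) ^ 3))) = 12 * (P * N * (n : ℝ) ^ 2) := by
      calc 8 * e * (5 * P * (N * (30 * (n : ℝ) ^ 3))) =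
          1200 * (e * n) * (P * N * (n : ℝ) ^ 2) := by ring
        _ = _ := by rw [he1]; ring
    have a5 : 4 * (n : ℝ) ^ 2 * N ≤ (N - M) * (N + M) := by
      apply mul_le_mul <;> nlinarith [sq_nonneg (n : ℝ)]
    have a6 : 0 ≤ P := by linarith
    have a7 : 4 * P * (4 * (n : ℝ) ^ 2 * N) ≤ 4 * P * ((N - M) * (N + M)) :=
      mul_le_mul_of_nonneg_left a5 (by positivity)
    have a8 : 0 ≤ P * N * (n : ℝ) ^ 2 := by positivity
    nlinarith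
  have h8 : 0 ≤ 4 * P * N ^ 2 + 1 := by
    have : 0 ≤ P := by linarith
    positivity
  nlinarith [mul_le_mul_of_nonneg_right h6 h8]

theorem Bn_sq (n k : ℕ) : (4 * kap (n0' n k)) ^ 2 = 16 * (32 * (k : ℝ) ^ 6 * (Yn n : ℝ) ^ 2 + 1) := by
  rw [mul_pow, WKB.kap_sq, n0'_real]; ring

theorem Bn_le_kap (hn : 1 ≤ n) (hk : 1 ≤ k) (i : ℕ) :
    4 * kap (n0' n k) ≤ 12 * kap (mi n k i) := by
  have hk' : (1 : ℝ) ≤ k := by exact_mod_cast hk
  have k6 : (1 : ℝ) ≤ (k : ℝ) ^ 6 := one_le_pow₀ hk'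
  have hY : (1 : ℝ) ≤ Yn n := by exact_mod_cast Yn_pos hn
  have h2 := nu_ge_real n i
  have hk0 := WKB.kap_pos (mi n k i)
  apply le_of_sq_le_sq _ (by positivity)
  rw [Bn_sq, mul_pow, kap_mi_sq]
  have a1 : (1 : ℝ) ≤ (Yn n : ℝ) ^ 2 := one_le_pow₀ hY
  have a2 : (Yn n : ℝ) ^ 2 ≤ (nu n i : ℝ) ^ 2 := pow_le_pow_left₀ (by linarith) h2 2
  have a3 : (k : ℝ) ^ 6 * (Yn n : ℝ) ^ 2 ≤ (k : ℝ) ^ 6 * (nu n i : ℝ) ^ 2 :=
    mul_le_mul_of_nonneg_left a2 (by positivity)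
  nlinarith

theorem Bn_le (hn : 2 ≤ n) (hk : 1 ≤ k) :
    4 * kap (n0' n k) ≤ 600 * ((k : ℝ) ^ 3 * (n : ℝ) ^ 3) := by
  have hk' : (1 : ℝ) ≤ k := by exact_mod_cast hk
  have hn' : (1 : ℝ) ≤ n := by exact_mod_cast (by omega : 1 ≤ n)
  have k6 : (1 : ℝ) ≤ (k : ℝ) ^ 6 := one_le_pow₀ hk'
  have n6 : (1 : ℝ) ≤ (n : ℝ) ^ 6 := one_le_pow₀ hn'
  have hY := Yn_le_real hn
  have hY0 : (0 : ℝ) ≤ Yn n := Nat.cast_nonneg _
  apply le_of_sq_le_sq _ (by positivity)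
  rw [Bn_sq]
  have a2 : (Yn n : ℝ) ^ 2 ≤ (24 * (n : ℝ) ^ 3) ^ 2 := pow_le_pow_left₀ hY0 hY 2
  have a3 : (k : ℝ) ^ 6 * (Yn n : ℝ) ^ 2 ≤ (k : ℝ) ^ 6 * (24 * (n : ℝ) ^ 3) ^ 2 :=
    mul_le_mul_of_nonneg_left a2 (by positivity)
  have a4 : (k : ℝ) ^ 6 * (24 * (n : ℝ) ^ 3) ^ 2 = 576 * ((k : ℝ) ^ 6 * (n : ℝ) ^ 6) := by ring
  have a5 : (600 * ((k : ℝ) ^ 3 * (n : ℝ) ^ 3)) ^ 2 = 360000 * ((k : ℝ) ^ 6 * (n : ℝ) ^ 6) := by ring
  have a6 : 1 ≤ (k : ℝ) ^ 6 * (n : ℝ) ^ 6 := by nlinarith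
  rw [a5]
  nlinarith

/-- the gradient factor -/
theorem grad_le (hn : 2 ≤ n) (hk : 1 ≤ k) (i : ℕ) {a b B : ℝ} (ha : 0 < a) (hab : a < b)
    (hba : b - a = 2 * (1 / (100 * (n : ℝ))) * kap (mi n k i)) (hB : B = 4 * kap (n0' n k)) :
    (∫ s, deriv (bump a b B) s ^ 2) * (∫ s, cut B s ^ 2) * (∫ s, cut B s ^ 2) +
      (∫ s, bump a b B s ^ 2) * (∫ s, deriv (cut B) s ^ 2) * (∫ s, cut B s ^ 2) +
      (∫ s, bump a b B s ^ 2) * (∫ s, cut B s ^ 2) * (∫ s, deriv (cut B) s ^ 2) ≤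
    10 ^ 8 * (K0 ^ 2 * (n : ℝ) ^ 2 * B) := by
  have hn' : (2 : ℝ) ≤ n := by exact_mod_cast hn
  have hn0 : (0 : ℝ) < n := by linarith
  have hkap := WKB.kap_pos (n0' n k)
  have hB0 : 0 < B := by rw [hB]; positivity
  have hks := WKB.kap_pos (mi n k i)
  have hBk : B ≤ 12 * kap (mi n k i) := by rw [hB]; exact Bn_le_kap (by omega) hk i
  have hK := one_le_K0
  have i1 := integral_deriv_bump_sq_le (a := a) (b := b) ha hab hB0
  have i2 := integral_cut_sq_le hB0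
  have i3 := integral_bump_sq_le (a := a) (b := b) hB0
  have i4 := integral_deriv_cut_sq_le hB0
  have p1 : 0 ≤ ∫ s, deriv (bump a b B) s ^ 2 := integral_nonneg fun s => sq_nonneg _
  have p2 : 0 ≤ ∫ s, cut B s ^ 2 := integral_nonneg fun s => sq_nonneg _
  have p3 : 0 ≤ ∫ s, bump a b B s ^ 2 := integral_nonneg fun s => sq_nonneg _
  have p4 : 0 ≤ ∫ s, deriv (cut B) s ^ 2 := integral_nonneg fun s => sq_nonneg _
  -- the slope of the bump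
  have h1 : 2 * K0 / (b - a) ≤ 1200 * n * K0 / B := by
    rw [hba, div_le_div_iff₀ (by positivity) hB0]
    have e : 1200 * (n : ℝ) * K0 * (2 * (1 / (100 * (n : ℝ))) * kap (mi n k i)) =
        2 * K0 * (12 * kap (mi n k i)) := by field_simp; ring
    rw [e]
    exact mul_le_mul_of_nonneg_left hBk (by positivity)
  have h2 : 2 * K0 / (b - a) + 2 * K0 / B ≤ 1201 * n * K0 / B := by
    have : 2 * K0 / B ≤ 1 * n * K0 / B := by
      apply div_le_div_of_nonneg_right _ hB0.le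
      nlinarith
    calc 2 * K0 / (b - a) + 2 * K0 / B ≤ 1200 * n * K0 / B + 1 * n * K0 / B := add_le_add h1 this
      _ = 1201 * n * K0 / B := by ring
  have h0 : 0 ≤ 2 * K0 / (b - a) + 2 * K0 / B := by
    have : 0 < b - a := by linarith
    positivity
  have h3 : 4 * B * (2 * K0 / (b - a) + 2 * K0 / B) ^ 2 ≤ 4 * B * (1201 * n * K0 / B) ^ 2 :=
    mul_le_mul_of_nonneg_left (pow_le_pow_left₀ h0 h2 2) (by positivity)
  have i1' := i1.trans h3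
  have t1 : (∫ s, deriv (bump a b B) s ^ 2) * (∫ s, cut B s ^ 2) * (∫ s, cut B s ^ 2) ≤
      (4 * B * (1201 * n * K0 / B) ^ 2) * (4 * B) * (4 * B) := by gcongr
  have t2 : (∫ s, bump a b B s ^ 2) * (∫ s, deriv (cut B) s ^ 2) * (∫ s, cut B s ^ 2) ≤
      (4 * B) * (4 * B * (2 * K0 / B) ^ 2) * (4 * B) := by gcongr
  have t3 : (∫ s, bump a b B s ^ 2) * (∫ s, cut B s ^ 2) * (∫ s, deriv (cut B) s ^ 2) ≤
      (4 * B) * (4 * B) * (4 * B * (2 * K0 / B) ^ 2) := by gcongr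
  have e1 : (4 * B * (1201 * n * K0 / B) ^ 2) * (4 * B) * (4 * B) =
      64 * 1201 ^ 2 * (K0 ^ 2 * (n : ℝ) ^ 2 * B) := by field_simp; norm_num
  have e2 : (4 * B) * (4 * B * (2 * K0 / B) ^ 2) * (4 * B) = 256 * (K0 ^ 2 * B) := by
    field_simp; norm_num
  have e3 : (4 * B) * (4 * B) * (4 * B * (2 * K0 / B) ^ 2) = 256 * (K0 ^ 2 * B) := by
    field_simp; norm_num
  rw [e1] at t1
  rw [e2] at t2
  rw [e3] at t3
  have n2 : (1 : ℝ) ≤ (n : ℝ) ^ 2 := one_le_pow₀ (by linarith)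
  have e4 : K0 ^ 2 * B ≤ K0 ^ 2 * (n : ℝ) ^ 2 * B := by
    have : 0 ≤ K0 ^ 2 * B := by positivity
    nlinarith
  have e5 : 0 ≤ K0 ^ 2 * (n : ℝ) ^ 2 * B := by positivity
  nlinarith

end

end Crest.Agent.R338.CE
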