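import Mathlib
import Crest.Agent.R338.CE9

/-!
Row 338, part 5, D.10: the charging energy; `CoulStmt` and `W4Symm`.
-/

set_option autoImplicit false

open MeasureTheory Real Set Filter
open scoped Topology ContDiff

noncomputable section

namespace Crest.Agent.R338.CE

open WKB (kap)

section

variable {n k : ℕ}

theorem int_sq_one {z : ℤ} (h0 : z ≠ 0) (h1 : |z| ≤ 1) : (z : ℝ) * z = 1 := by
  have h2 := abs_le.1 h1
  have : z = 1 ∨ z = -1 := by omega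
  rcases this with h | h <;> simp [h]

theorem exists_outermost {δ : Fin n → ℤ} (hδ : δ ≠ 0) :
    ∃ i : Fin n, δ i ≠ 0 ∧ ∀ j, δ j ≠ 0 → j ≤ i := by
  classical
  have hne : (Finset.univ.filter fun i => δ i ≠ 0).Nonempty := by
    by_contra h
    rw [Finset.not_nonempty_iff_eq_empty, Finset.filter_eq_empty_iff] at h
    apply hδ
    funext i
    have := h (Finset.mem_univ i)
    simpa using this
  refine ⟨(Finset.univ.filter fun i => δ i ≠ 0).max' hne, ?_, fun j hj => ?_⟩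
  · have := Finset.max'_mem _ hne
    exact (Finset.mem_filter.1 this).2
  · have hj' : j ∈ Finset.univ.filter fun i => δ i ≠ 0 :=
      Finset.mem_filter.2 ⟨Finset.mem_univ j, hj⟩
    exact Finset.le_max' _ _ hj'

set_option maxHeartbeats 2000000 in
/-- The charging energy. -/
theorem coul_c (hn : 2 ≤ n) (hk : (10 * n) ^ 10 ≤ k) (δ : Fin n → ℤ) (hδ1 : ∀ i, |δ i| ≤ 1)
    (hδ : δ ≠ 0) :
    1 / (10 ^ 18 * K0 ^ 2 * ((n : ℝ) ^ 7 * (k : ℝ) ^ 3)) ≤
      ∑ i : Fin n, ∑ j : Fin n, Vc n k i j * ((δ i : ℝ) * (δ j : ℝ)) := by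
  obtain ⟨s, hs0, hsmax⟩ := exists_outermost hδ
  have hn1 : 1 ≤ n := by omega
  have hn' : (2 : ℝ) ≤ n := by exact_mod_cast hn
  have hn0 : (0 : ℝ) < n := by linarith
  have hkR : (10 * (n : ℝ)) ^ 10 ≤ k := by exact_mod_cast hk
  have hk10 : (n : ℝ) ^ 10 * 10 ^ 10 ≤ (k : ℝ) := by
    have e1 : (n : ℝ) ^ 10 * (10 : ℝ) ^ 10 = (10 * (n : ℝ)) ^ 10 := by ring
    rw [e1]; exact hkR
  have hk1R : (10 : ℝ) ^ 10 ≤ k := by
    have : (1 : ℝ) ≤ (n : ℝ) ^ 10 := one_le_pow₀ (by linarith)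
    nlinarith
  have hk1' : (1 : ℝ) ≤ k := by linarith [show (1 : ℝ) ≤ 10 ^ 10 by norm_num]
  have hk1 : 1 ≤ k := by exact_mod_cast hk1'
  have hk0 : (0 : ℝ) < k := by linarith
  have hK := one_le_K0
  -- parameters
  set e : ℝ := 1 / (100 * (n : ℝ)) with he
  have he0 : 0 < e := by positivity
  have he2 : e ≤ 1 / 200 := by
    rw [he]; apply one_div_le_one_div_of_le (by norm_num); linarith
  set κ : ℝ := kap (mi n k s) with hκ
  have hκ0 : 0 < κ := WKB.kap_pos _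
  have hκ3 : (k : ℝ) ^ 3 ≤ κ := kap_ge (k6_le_mi hn1 k s)
  set a : ℝ := (1 - 3 * e) * κ with ha
  set b : ℝ := (1 - e) * κ with hb
  set B : ℝ := 4 * kap (n0' n k) with hB
  have ha0 : 0 < a := by rw [ha]; apply mul_pos _ hκ0; linarith
  have hba : b - a = 2 * e * κ := by rw [ha, hb]; ring
  have hab : a < b := by
    have : 0 < 2 * e * κ := by positivity
    linarith
  have hB0 : 0 < B := by rw [hB]; have := WKB.kap_pos (n0' n k); positivity
  -- masses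
  set Am : Fin n → ℝ := fun i => ∫ t, bump a b B t * HO.hf (mi n k i) t ^ 2 with hAm
  set Bm : Fin n → ℝ := fun i => ∫ t, cut B t * HO.hf (n0' n k - mi n k i) t ^ 2 with hBm
  set Cm : ℝ := ∫ t, cut B t * HO.hf 0 t ^ 2 with hCm
  have hAs : e / 16 ≤ Am s := by
    refine mass_outer ha0 hab hB0 (mi n k s) he0 (by linarith) hb ?_ ?_
    · have h1 := kap_mono (mi_le_n0' (n := n) k s.2)
      have h2 := WKB.kap_pos (n0' n k)
      rw [hB]; linarith
    · have h1 : ((k : ℝ) ^ 3) ^ 4 ≤ κ ^ 4 := pow_le_pow_left₀ (by positivity) hκ3 4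
      have h2 : (k : ℝ) ≤ ((k : ℝ) ^ 3) ^ 4 := by
        rw [← pow_mul]
        exact le_self_pow₀ hk1' (by norm_num)
      have h3 : 8 * (100 * (n : ℝ)) ≤ k := by
        refine le_trans ?_ hk10
        have h4 : (n : ℝ) ≤ (n : ℝ) ^ 10 := le_self_pow₀ (by linarith) (by norm_num)
        nlinarith
      have h5 : 8 * (100 * (n : ℝ)) ≤ κ ^ 4 := by linarith
      rw [he, one_div, inv_mul_eq_div, le_div_iff₀ (by positivity)]
      exact h5
  have hBcap : ∀ i : Fin n, 1 / 2 ≤ Bm i := by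
    intro i
    refine mass_cut hB0 _ ?_
    have h1 := kap_mono (Nat.sub_le (n0' n k) (mi n k i))
    rw [hB]; linarith
  have hB1 : ∀ i : Fin n, Bm i ≤ 1 := fun i => mass_cut_le _
  have hBn : ∀ i : Fin n, 0 ≤ Bm i := fun i => mass_cut_nonneg _
  have hC : 1 / 2 ≤ Cm := by
    refine mass_cut hB0 0 ?_
    have h1 := kap_mono (Nat.zero_le (n0' n k))
    rw [hB]; linarith
  have hC1 : Cm ≤ 1 := mass_cut_le _
  have hAn : ∀ i : Fin n, 0 ≤ Am i := fun i => mass_bump_nonneg _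
  have hAi : ∀ i : Fin n, i < s → Am i ≤ 10 ^ 6 * (n : ℝ) ^ 3 / (k : ℝ) ^ 12 := by
    intro i hi
    have hsep := kap_sep hn hk1 s.2 (by exact hi)
    rw [← he, ← hκ] at hsep
    have h1 := mass_inner (a := a) (b := b) (B := B) ha0 hab (mi n k i) (r := e * κ) (by positivity)
      (by rw [ha]; linarith)
    refine h1.trans ?_
    have hκi : (k : ℝ) ^ 3 ≤ kap (mi n k i) := kap_ge (k6_le_mi hn1 k i)
    have h2 : (k : ℝ) ^ 3 * (e * (k : ℝ) ^ 3) ^ 3 ≤ kap (mi n k i) * (e * κ) ^ 3 := by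
      have hki := WKB.kap_pos (mi n k i)
      gcongr
    calc 1 / (kap (mi n k i) * (e * κ) ^ 3) ≤ 1 / ((k : ℝ) ^ 3 * (e * (k : ℝ) ^ 3) ^ 3) :=
          one_div_le_one_div_of_le (by positivity) h2
      _ = 10 ^ 6 * (n : ℝ) ^ 3 / (k : ℝ) ^ 12 := by
          rw [he]; field_simp; norm_num
  -- the pairing
  set S : ℝ := ∑ i : Fin n, (δ i : ℝ) * (Am i * Bm i * Cm) with hS
  have hSs : e / 128 ≤ (δ s : ℝ) * S := by
    have h1 : (δ s : ℝ) * S = Am s * Bm s * Cm +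
        ∑ i ∈ Finset.univ.erase s, (δ s : ℝ) * ((δ i : ℝ) * (Am i * Bm i * Cm)) := by
      rw [hS, ← Finset.add_sum_erase Finset.univ _ (Finset.mem_univ s), mul_add, Finset.mul_sum,
        ← mul_assoc, int_sq_one hs0 (hδ1 s), one_mul]
    have h2 : ∀ i ∈ Finset.univ.erase s, -(10 ^ 6 * (n : ℝ) ^ 3 / (k : ℝ) ^ 12) ≤
        (δ s : ℝ) * ((δ i : ℝ) * (Am i * Bm i * Cm)) := by
      intro i hi
      have hne := (Finset.mem_erase.1 hi).1
      have hpos : (0 : ℝ) ≤ 10 ^ 6 * (n : ℝ) ^ 3 / (k : ℝ) ^ 12 := by positivity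
      by_cases hi0 : δ i = 0
      · rw [hi0]; simp only [Int.cast_zero, zero_mul, mul_zero]; linarith
      · have hlt : i < s := lt_of_le_of_ne (hsmax i hi0) hne
        have h3 := hAi i hlt
        have h4 : |(δ s : ℝ) * ((δ i : ℝ) * (Am i * Bm i * Cm))| ≤ Am i := by
          rw [abs_mul, abs_mul]
          have a1 : |(δ s : ℝ)| ≤ 1 := by exact_mod_cast hδ1 s
          have a2 : |(δ i : ℝ)| ≤ 1 := by exact_mod_cast hδ1 i
          have hC0 : 0 ≤ Cm := by linarith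
          have a3 : |Am i * Bm i * Cm| ≤ Am i := by
            rw [abs_of_nonneg (mul_nonneg (mul_nonneg (hAn i) (hBn i)) hC0)]
            have : Am i * Bm i ≤ Am i := mul_le_of_le_one_right (hAn i) (hB1 i)
            calc Am i * Bm i * Cm ≤ Am i * Bm i :=
                  mul_le_of_le_one_right (mul_nonneg (hAn i) (hBn i)) hC1
              _ ≤ Am i := this
          calc |(δ s : ℝ)| * (|(δ i : ℝ)| * |Am i * Bm i * Cm|) ≤ 1 * (1 * Am i) := by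
                have := hAn i
                gcongr
            _ = Am i := by ring
        have h5 := (abs_le.1 h4).1
        linarith
    have h3 := Finset.sum_le_sum h2
    rw [Finset.sum_const, Finset.card_erase_of_mem (Finset.mem_univ s), Finset.card_univ,
      Fintype.card_fin, nsmul_eq_mul] at h3
    have h4 : (e / 16) * (1 / 2) * (1 / 2) ≤ Am s * Bm s * Cm := by
      have := hAn s
      have := hBcap s
      gcongr
    have h5 : ((n - 1 : ℕ) : ℝ) * (10 ^ 6 * (n : ℝ) ^ 3 / (k : ℝ) ^ 12) ≤ e / 128 := by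
      have h6 : ((n - 1 : ℕ) : ℝ) ≤ n := by exact_mod_cast Nat.sub_le n 1
      have h7 : (0 : ℝ) ≤ 10 ^ 6 * (n : ℝ) ^ 3 / (k : ℝ) ^ 12 := by positivity
      refine (mul_le_mul_of_nonneg_right h6 h7).trans ?_
      rw [he]
      have h8 : (n : ℝ) * (10 ^ 6 * (n : ℝ) ^ 3 / (k : ℝ) ^ 12) = 10 ^ 6 * (n : ℝ) ^ 4 / (k : ℝ) ^ 12 := by
        ring
      have h9 : 1 / (100 * (n : ℝ)) / 128 = 1 / (12800 * n) := by field_simp; norm_num
      rw [h8, h9, div_le_div_iff₀ (by positivity) (by positivity)]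
      have h10 : (n : ℝ) ^ 5 ≤ (n : ℝ) ^ 10 := pow_le_pow_right₀ (by linarith) (by norm_num)
      have h11 : (k : ℝ) ^ 2 ≤ (k : ℝ) ^ 12 := pow_le_pow_right₀ hk1' (by norm_num)
      have h12 : (n : ℝ) ^ 10 * 10 ^ 20 ≤ (k : ℝ) ^ 2 := by
        rw [sq]
        have e1 : (n : ℝ) ^ 10 * (10 : ℝ) ^ 20 = ((n : ℝ) ^ 10 * 10 ^ 10) * 10 ^ 10 := by ring
        rw [e1]
        exact mul_le_mul hk10 hk1R (by positivity) hk0.le
      calc 10 ^ 6 * (n : ℝ) ^ 4 * (12800 * n) = 12800 * 10 ^ 6 * (n : ℝ) ^ 5 := by ring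
        _ ≤ 10 ^ 20 * (n : ℝ) ^ 5 := by
            apply mul_le_mul_of_nonneg_right (by norm_num) (by positivity)
        _ ≤ 10 ^ 20 * (n : ℝ) ^ 10 := mul_le_mul_of_nonneg_left h10 (by positivity)
        _ = (n : ℝ) ^ 10 * 10 ^ 20 := by ring
        _ ≤ (k : ℝ) ^ 2 := h12
        _ ≤ 1 * (k : ℝ) ^ 12 := by linarith
    rw [h1]
    have h6 : -(((n - 1 : ℕ) : ℝ) * (10 ^ 6 * (n : ℝ) ^ 3 / (k : ℝ) ^ 12)) =
        ((n - 1 : ℕ) : ℝ) * -(10 ^ 6 * (n : ℝ) ^ 3 / (k : ℝ) ^ 12) := by ring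
    linarith
  have hS2 : (e / 128) ^ 2 ≤ S ^ 2 := by
    have h1 : ((δ s : ℝ) * S) ^ 2 = S ^ 2 := by
      rw [mul_pow, sq (δ s : ℝ), int_sq_one hs0 (hδ1 s), one_mul]
    rw [← h1]
    exact pow_le_pow_left₀ (by positivity) hSs 2
  -- duality
  have hdual := charging_duality n k δ (η := ![bump a b B, cut B, cut B])
    (by intro c; fin_cases c; exacts [contDiff_bump, contDiff_cut, contDiff_cut])
    (by intro c; fin_cases c; exacts [hasCompactSupport_bump hB0, hasCompactSupport_cut hB0,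
      hasCompactSupport_cut hB0])
  simp only [Matrix.cons_val_zero, Matrix.cons_val_one, Matrix.cons_val] at hdual
  have hgrad := grad_le hn hk1 (s : ℕ) ha0 hab (by rw [hba]) hB
  set V := ∑ i : Fin n, ∑ j : Fin n, Vc n k i j * ((δ i : ℝ) * (δ j : ℝ)) with hV
  have hV0 : 0 ≤ V := by
    rw [hV, sum_Vc_eq]; exact D_self_nonneg (nice_rho n k δ)
  set G : ℝ := 10 ^ 8 * (K0 ^ 2 * (n : ℝ) ^ 2 * B) with hG
  have hmain : 4 * π * S ^ 2 ≤ V * G := by
    refine hdual.trans ?_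
    exact mul_le_mul_of_nonneg_left hgrad hV0
  have hG0 : 0 < G := by rw [hG]; positivity
  have hGle : G ≤ 6 * 10 ^ 10 * (K0 ^ 2 * ((n : ℝ) ^ 5 * (k : ℝ) ^ 3)) := by
    have hBle := Bn_le hn hk1
    rw [← hB] at hBle
    rw [hG]
    calc 10 ^ 8 * (K0 ^ 2 * (n : ℝ) ^ 2 * B) ≤
        10 ^ 8 * (K0 ^ 2 * (n : ℝ) ^ 2 * (600 * ((k : ℝ) ^ 3 * (n : ℝ) ^ 3))) := by gcongr
      _ = _ := by ring
  have hpi : 3 ≤ π := by linarith [Real.pi_gt_three]
  have h1 : 12 * (e / 128) ^ 2 ≤ V * G := by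
    refine le_trans ?_ hmain
    nlinarith [sq_nonneg S, sq_nonneg (e / 128)]
  have h2 : 12 * (e / 128) ^ 2 ≤ V * (6 * 10 ^ 10 * (K0 ^ 2 * ((n : ℝ) ^ 5 * (k : ℝ) ^ 3))) :=
    h1.trans (mul_le_mul_of_nonneg_left hGle hV0)
  rw [div_le_iff₀ (by positivity)]
  have h3 : 12 * (e / 128) ^ 2 = 12 / (163840000 * (n : ℝ) ^ 2) := by
    rw [he]; field_simp; norm_num
  rw [h3, div_le_iff₀ (by positivity)] at h2
  have h4 : V * (6 * 10 ^ 10 * (K0 ^ 2 * ((n : ℝ) ^ 5 * (k : ℝ) ^ 3))) * (163840000 * (n : ℝ) ^ 2) =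
      9830400000000000000 * (V * (K0 ^ 2 * ((n : ℝ) ^ 7 * (k : ℝ) ^ 3))) := by ring
  rw [h4] at h2
  have h5 : V * (10 ^ 18 * K0 ^ 2 * ((n : ℝ) ^ 7 * (k : ℝ) ^ 3)) =
      10 ^ 18 * (V * (K0 ^ 2 * ((n : ℝ) ^ 7 * (k : ℝ) ^ 3))) := by ring
  rw [h5]
  nlinarith

end

theorem w4Symm : BH.W4Symm := fun a b c d => W4_symm a b c d

/-- The constant of `CoulStmt`. -/
def Cc : ℕ := ⌈10 ^ 18 * K0 ^ 2⌉₊

theorem le_Cc : 10 ^ 18 * K0 ^ 2 ≤ (Cc : ℝ) := Nat.le_ceil _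

theorem big_Cc : 10 ^ 18 ≤ Cc := by
  have h1 := le_Cc
  have h2 := one_le_K0
  have h3 : (10 : ℝ) ^ 18 ≤ Cc := by nlinarith
  exact_mod_cast h3

/-- **The Coulomb estimates for the sites.** -/
theorem coulStmt : BH.CoulStmt := by
  have hC := big_Cc
  have hCR : (10 : ℝ) ^ 18 ≤ Cc := by exact_mod_cast hC
  refine ⟨Cc, le_trans (by norm_num) hC, fun n k hn hk => ?_⟩
  have hn1 : 1 ≤ n := by omega
  have hnR : (1 : ℝ) ≤ n := by exact_mod_cast hn1
  have hk10 : (10 * n) ^ 10 ≤ k := by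
    refine le_trans ?_ hk
    have h1 : 10 * n ≤ Cc * n := Nat.mul_le_mul_right _ (le_trans (by norm_num) hC)
    calc (10 * n) ^ 10 ≤ (Cc * n) ^ 10 := Nat.pow_le_pow_left h1 10
      _ ≤ (Cc * n) ^ Cc := Nat.pow_le_pow_right (by nlinarith [le_trans (by norm_num : 1 ≤ 10 ^ 18) hC])
          (le_trans (by norm_num) hC)
  have hk1 : 1 ≤ k := le_trans (Nat.one_le_pow _ _ (by omega)) hk10
  have hkR : (1 : ℝ) ≤ k := by exact_mod_cast hk1
  have hpow : (1 : ℝ) ≤ (n : ℝ) ^ Cc := one_le_pow₀ hnR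
  have hCn : (11664 : ℝ) ≤ (Cc : ℝ) * (n : ℝ) ^ Cc := by nlinarith
  refine ⟨fun i hi j hj => ?_, fun i hi j hj i' hi' j' hj' h => ?_, fun δ hδ1 _ hδ => ?_⟩
  · obtain ⟨h1, h2⟩ := coul_a (n := n) (k := k) hn1 hk1 hi hj
    exact ⟨h1, h2.trans (div_le_div_of_nonneg_right hCn (by positivity))⟩
  · refine (coul_b hn1 hk1 hi hj hi' hj' h).trans ?_
    exact div_le_div_of_nonneg_right (by linarith) (by positivity)
  · refine le_trans ?_ (coul_c hn hk10 δ hδ1 hδ)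
    have hK := one_le_K0
    apply one_div_le_one_div_of_le (by positivity)
    have h7 : (n : ℝ) ^ 7 ≤ (n : ℝ) ^ Cc := pow_le_pow_right₀ hnR (le_trans (by norm_num) hC)
    have h8 := le_Cc
    calc 10 ^ 18 * K0 ^ 2 * ((n : ℝ) ^ 7 * (k : ℝ) ^ 3) ≤
        (Cc : ℝ) * ((n : ℝ) ^ Cc * (k : ℝ) ^ 3) := by gcongr
      _ = (Cc : ℝ) * (n : ℝ) ^ Cc * (k : ℝ) ^ 3 := by ring

end Crest.Agent.R338.CE
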