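import Crest.Agent.R338.Sel3

/-!
# Row 338, node BH2 (helper695), file 4: `SelStmt`
-/

set_option autoImplicit false
set_option linter.unusedSectionVars false

noncomputable section

open Function
open scoped ComplexConjugate BigOperators

namespace Crest.Agent.R338.Sel

/-! ### forms on the sites -/

variable {n : ℕ}

/-- coefficient function of a site tensor -/
def cf (c : SX.X n) : (Fin n → Fin n × Bool) → ℂ := fun f => c f

theorem cf_anti {c : SX.X n} (hc : c ∈ SX.antiS n) : AntiSym (cf c) := fun σ f => hc σ f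

theorem tnSq_cf (c : SX.X n) : tnSq (cf c) = ‖c‖ ^ 2 := (SX.norm_sq_def c).symm

theorem b1_site (h : Fin n → Fin n → ℝ) (c : SX.X n) :
    b1 (fun a b : Fin n × Bool => if a.2 = b.2 then h a.1 b.1 else 0) (cf c) (cf c) =
      SX.site1 h c := by
  unfold b1 SX.site1
  rw [Finset.sum_comm]
  refine Finset.sum_congr rfl fun f _ => Finset.sum_congr rfl fun i _ => ?_
  rw [Fintype.sum_prod_type]
  refine Finset.sum_congr rfl fun j _ => ?_
  rw [Finset.sum_eq_single (f i).2]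
  · beta_reduce
    rw [if_pos rfl]; rfl
  · intro s _ hs
    beta_reduce
    rw [if_neg (Ne.symm hs), zero_mul]
  · intro h; exact absurd (Finset.mem_univ _) h

theorem b2_site (W : Fin n → Fin n → Fin n → Fin n → ℝ) (c : SX.X n) :
    b2 (fun a b a' b' : Fin n × Bool => if a.2 = b.2 ∧ a'.2 = b'.2 then W a.1 b.1 a'.1 b'.1 else 0)
      (cf c) (cf c) = SX.site2 W c := by
  unfold b2 SX.site2
  have h1 : ∀ i j : Fin n, (if i < j then ∑ v : Fin n → Fin n × Bool, ∑ b, ∑ d,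
      (if (v i).2 = b.2 ∧ (v j).2 = d.2 then W (v i).1 b.1 (v j).1 d.1 else 0) *
        (conj (cf c v) * cf c (update (update v i b) j d)).re else 0) =
      ∑ f : SX.Cfg n, if i < j then ∑ a, ∑ b, W (f i).1 a (f j).1 b *
        (conj (c f) * c (SX.mv (SX.mv f i a) j b)).re else 0 := by
    intro i j
    by_cases hij : i < j
    · simp only [if_pos hij]
      refine Finset.sum_congr rfl fun f _ => ?_
      rw [Fintype.sum_prod_type]
      refine Finset.sum_congr rfl fun a _ => ?_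
      rw [Finset.sum_eq_single (f i).2]
      · rw [Fintype.sum_prod_type]
        refine Finset.sum_congr rfl fun b _ => ?_
        rw [Finset.sum_eq_single (f j).2]
        · beta_reduce
          rw [if_pos ⟨rfl, rfl⟩]
          have e : update (update f i (a, (f i).2)) j (b, (f j).2) =
              SX.mv (SX.mv f i a) j b := by
            unfold SX.mv
            rw [update_of_ne hij.ne']
          rw [e]; rfl
        · intro s _ hs
          rw [if_neg (fun h => hs h.2.symm), zero_mul]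
        · intro h; exact absurd (Finset.mem_univ _) h
      · intro s _ hs
        refine Finset.sum_eq_zero fun b _ => ?_
        rw [if_neg (fun h => hs h.1.symm), zero_mul]
      · intro h; exact absurd (Finset.mem_univ _) h
    · simp [if_neg hij]
  rw [Finset.sum_congr rfl fun i _ => Finset.sum_congr rfl fun j _ => h1 i j]
  rw [Finset.sum_congr rfl fun i _ => Finset.sum_comm]
  rw [Finset.sum_comm]

/-- the shell form of an embedded site tensor -/
theorem shellForm_ext {k : ℕ} (hk : 1 ≤ k) (Lam : ℝ) (A : ℕ → ℕ → ℝ) (a : ℕ → ℝ) (c : SX.X n) :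
    shellForm (n0' n k) (wpot n k Lam A a) (ext (gS n k) (cf c)) =
      SX.siteForm (BH.hSite n k Lam A a) (BH.WSite n k) c := by
  rw [shellForm_eq, b1_ext (gS_inj hk), b2_ext (gS_inj hk), SX.siteForm, ← b1_site, ← b2_site]
  congr 1
  · congr 1
    funext p q
    exact hV_site hk Lam A a p q
  · congr 1
    funext p q r s
    exact WV_site p q r s

/-! ### the split -/

/-- the site part of a tensor -/
def pr {k : ℕ} (D : (Fin n → Val (n0' n k)) → ℂ) : SX.X n :=
  WithLp.toLp 2 fun f => D (gS n k ∘ f)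

theorem pr_anti {k : ℕ} {D : (Fin n → Val (n0' n k)) → ℂ} (hD : AntiSym D) :
    pr D ∈ SX.antiS n := by
  intro σ f
  exact hD σ (gS n k ∘ f)

/-- the non-site part -/
def qt {k : ℕ} (D : (Fin n → Val (n0' n k)) → ℂ) : (Fin n → Val (n0' n k)) → ℂ :=
  D - ext (gS n k) (cf (pr D))

theorem split_eq {k : ℕ} (D : (Fin n → Val (n0' n k)) → ℂ) :
    D = ext (gS n k) (cf (pr D)) + qt D := by unfold qt; abel

theorem qt_site {k : ℕ} (hk : 1 ≤ k) (D : (Fin n → Val (n0' n k)) → ℂ) {v : Fin n → Val (n0' n k)}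
    (hv : ∃ f : Fin n → Fin n × Bool, gS n k ∘ f = v) : qt D v = 0 := by
  obtain ⟨f, rfl⟩ := hv
  unfold qt
  rw [Pi.sub_apply, ext_comp (gS_inj hk)]
  show D (gS n k ∘ f) - D (gS n k ∘ f) = 0
  ring

theorem orth {k : ℕ} (hk : 1 ≤ k) (D : (Fin n → Val (n0' n k)) → ℂ) (v : Fin n → Val (n0' n k)) :
    ‖D v‖ ^ 2 = ‖ext (gS n k) (cf (pr D)) v‖ ^ 2 + ‖qt D v‖ ^ 2 := by
  have h := congrFun (split_eq D) v
  rw [Pi.add_apply] at h
  by_cases hv : ∃ f : Fin n → Fin n × Bool, gS n k ∘ f = v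
  · rw [qt_site hk D hv] at h ⊢
    rw [← add_zero (ext (gS n k) (cf (pr D)) v), ← h]; simp
  · rw [ext_not _ hv] at h ⊢
    rw [zero_add] at h
    rw [← h]; simp

theorem tnSq_split {k : ℕ} (hk : 1 ≤ k) (D : (Fin n → Val (n0' n k)) → ℂ) :
    tnSq D = tnSq (ext (gS n k) (cf (pr D))) + tnSq (qt D) := by
  unfold tnSq
  rw [← Finset.sum_add_distrib]
  exact Finset.sum_congr rfl fun v _ => orth hk D v

theorem diag_split {k : ℕ} (hk : 1 ≤ k) {Lam : ℝ} (hL : 0 ≤ Lam)
    (D : (Fin n → Val (n0' n k)) → ℂ) :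
    b1 (fun p q => if p = q then eps n k Lam p else 0) (ext (gS n k) (cf (pr D)))
        (ext (gS n k) (cf (pr D))) + (-2 * Lam * n + Lam) * tnSq (qt D) ≤
      b1 (fun p q => if p = q then eps n k Lam p else 0) D D := by
  rw [b1_diag, b1_diag, tnSq, Finset.mul_sum, ← Finset.sum_add_distrib]
  refine Finset.sum_le_sum fun v _ => ?_
  rw [orth hk D v, mul_add]
  refine add_le_add le_rfl ?_
  by_cases hv : ∃ f : Fin n → Fin n × Bool, gS n k ∘ f = v
  · rw [qt_site hk D hv]; simp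
  · refine mul_le_mul_of_nonneg_right ?_ (sq_nonneg _)
    have hv' : ∃ i, ¬ ∃ u, gS n k u = v i := by
      rw [range_iff] at hv
      push Not at hv
      obtain ⟨i, hi⟩ := hv
      exact ⟨i, fun ⟨u, hu⟩ => hi u hu⟩
    obtain ⟨i, hi⟩ := hv'
    have h1 := eps_ge hk hL hi
    have h2 : ∑ j ∈ Finset.univ.erase i, (-2 * Lam) ≤ ∑ j ∈ Finset.univ.erase i, eps n k Lam (v j) :=
      Finset.sum_le_sum fun j _ => eps_ge2 hk hL (v j)
    rw [← Finset.add_sum_erase _ _ (Finset.mem_univ i)]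
    have h3 : ∑ j ∈ (Finset.univ : Finset (Fin n)).erase i, (-2 * Lam) = -2 * Lam * n + 2 * Lam := by
      rw [Finset.sum_const, Finset.card_erase_of_mem (Finset.mem_univ i), Finset.card_univ,
        Fintype.card_fin, nsmul_eq_mul]
      have : 1 ≤ n := by have := i.isLt; omega
      rw [Nat.cast_sub this]
      push_cast; ring
    rw [h3] at h2
    linarith

/-! ### the lower bound -/

/-- crude bound of the rest -/
theorem rest_bound {k : ℕ} {A : ℕ → ℕ → ℝ} {a : ℕ → ℝ} {H r t : ℝ} (hH : 0 ≤ H)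
    (hh : ∀ p q, |hR n k A a p q| ≤ H)
    (hr : n * (Fintype.card (Val (n0' n k)) * H) +
      n ^ 2 * ((Fintype.card (Val (n0' n k)) : ℝ) ^ 2 * 50000) ≤ r) (ht : 0 < t)
    (D E : (Fin n → Val (n0' n k)) → ℂ) :
    |b1 (hR n k A a) D E + b2 (WV n k) D E| ≤ r * ((t * tnSq D + t⁻¹ * tnSq E) / 2) := by
  have hnn : 0 ≤ (t * tnSq D + t⁻¹ * tnSq E) / 2 := by
    have := tnSq_nonneg D; have := tnSq_nonneg E; positivity
  have h1 := abs_b1_le hH hh ht D E
  have h2 := abs_b2_le (by norm_num : (0:ℝ) ≤ 50000) (fun p q r s => abs_WV_le (n := n) (k := k) p q r s)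
    ht D E
  refine (abs_add_le _ _).trans ((add_le_add h1 h2).trans ?_)
  rw [← add_mul]
  exact mul_le_mul_of_nonneg_right hr hnn

theorem lower {k : ℕ} (hk : 1 ≤ k) {Lam H r : ℝ} {A : ℕ → ℕ → ℝ} {a : ℕ → ℝ} (hH : 0 ≤ H)
    (hh : ∀ p q, |hR n k A a p q| ≤ H)
    (hr : n * (Fintype.card (Val (n0' n k)) * H) +
      n ^ 2 * ((Fintype.card (Val (n0' n k)) : ℝ) ^ 2 * 50000) ≤ r) (hr0 : 0 < r)
    (hLam : 2 * r + 4 ≤ Lam) {β : ℝ} (hβ : |β + 2 * Lam * n| ≤ 2)
    (hc : ∀ c ∈ SX.antiS n, β * ‖c‖ ^ 2 ≤ SX.siteForm (BH.hSite n k Lam A a) (BH.WSite n k) c)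
    {D : (Fin n → Val (n0' n k)) → ℂ} (hD : AntiSym D) :
    (β - 2 * r ^ 2 / Lam) * tnSq D ≤ shellForm (n0' n k) (wpot n k Lam A a) D := by
  have hL0 : 0 < Lam := by linarith
  set p := ext (gS n k) (cf (pr D)) with hp
  set q := qt D with hq
  have hDpq : D = p + q := split_eq D
  -- split of the form
  have hmat : ∀ E F : (Fin n → Val (n0' n k)) → ℂ, b1 (hV n k Lam A a) E F =
      b1 (fun x y => if x = y then eps n k Lam x else 0) E F + b1 (hR n k A a) E F := by
    intro E F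
    rw [← b1_add_mat]
    congr 1
    funext x y
    exact hV_eq n k Lam A a x y
  have e1 : shellForm (n0' n k) (wpot n k Lam A a) D =
      b1 (fun x y => if x = y then eps n k Lam x else 0) D D +
      ((b1 (hR n k A a) p p + b2 (WV n k) p p) + (b1 (hR n k A a) p q + b2 (WV n k) p q) +
        (b1 (hR n k A a) q p + b2 (WV n k) q p) + (b1 (hR n k A a) q q + b2 (WV n k) q q)) := by
    rw [shellForm_eq, hmat]
    have f1 : b1 (hR n k A a) D D = b1 (hR n k A a) p p + b1 (hR n k A a) p q +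
        b1 (hR n k A a) q p + b1 (hR n k A a) q q := by
      rw [hDpq, b1_add_left, b1_add_right, b1_add_right]; ring
    have f2 : b2 (WV n k) D D = b2 (WV n k) p p + b2 (WV n k) p q +
        b2 (WV n k) q p + b2 (WV n k) q q := by
      rw [hDpq, b2_add_left, b2_add_right, b2_add_right]; ring
    rw [f1, f2]; ring
  have e2 : SX.siteForm (BH.hSite n k Lam A a) (BH.WSite n k) (pr D) =
      b1 (fun x y => if x = y then eps n k Lam x else 0) p p +
        (b1 (hR n k A a) p p + b2 (WV n k) p p) := by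
    rw [← shellForm_ext hk, shellForm_eq, hmat]; ring
  have h1 := hc (pr D) (pr_anti hD)
  rw [← tnSq_cf, ← tnSq_ext (gS_inj hk), ← hp, e2] at h1
  have h2 := diag_split hk hL0.le D
  rw [← hp, ← hq] at h2
  have hN := tnSq_split hk D
  rw [← hp, ← hq] at hN
  have hP0 := tnSq_nonneg p
  have hQ0 := tnSq_nonneg q
  -- the bounds
  set t := 2 * r / Lam with ht
  have ht0 : 0 < t := by rw [ht]; positivity
  have k1 := (abs_le.1 (rest_bound hH hh hr ht0 p q)).1
  have k2 := (abs_le.1 (rest_bound hH hh hr (inv_pos.2 ht0) q p)).1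
  have k3 := (abs_le.1 (rest_bound hH hh hr one_pos q q)).1
  rw [inv_inv] at k2
  rw [inv_one] at k3
  have ert : r * t = 2 * r ^ 2 / Lam := by rw [ht]; ring
  have ert' : r * t⁻¹ = Lam / 2 := by
    rw [ht]; field_simp
  have hβ1 := (abs_le.1 hβ).2
  rw [e1, hN]
  have m1 : r * ((t * tnSq p + t⁻¹ * tnSq q) / 2) = (r * t) * tnSq p / 2 + (r * t⁻¹) * tnSq q / 2 := by
    ring
  have m2 : r * ((t⁻¹ * tnSq q + t * tnSq p) / 2) = (r * t) * tnSq p / 2 + (r * t⁻¹) * tnSq q / 2 := by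
    ring
  have m3 : r * ((1 * tnSq q + 1 * tnSq q) / 2) = r * tnSq q := by ring
  rw [m1, ert, ert'] at k1
  rw [m2, ert, ert'] at k2
  rw [m3] at k3
  have hpos : 0 ≤ 2 * r ^ 2 / Lam := by positivity
  have m4 : (β - 2 * r ^ 2 / Lam) * (tnSq p + tnSq q) ≤
      β * tnSq p - 2 * r ^ 2 / Lam * tnSq p + (-2 * Lam * n + Lam - r - Lam / 2) * tnSq q := by
    have : (β - 2 * r ^ 2 / Lam) * tnSq q ≤ (-2 * Lam * n + Lam - r - Lam / 2) * tnSq q := by
      refine mul_le_mul_of_nonneg_right ?_ hQ0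
      linarith
    linarith
  refine m4.trans ?_
  linarith

/-! ### size of the constants -/

theorem n0'_ge {n k : ℕ} (hn : 2 ≤ n) (hk : 1 ≤ k) : 589824 ≤ n0' n k ∧ n ≤ n0' n k := by
  have hY : 192 ≤ Yn n := by
    unfold Yn
    have h3 : 2 ^ 3 ≤ n ^ 3 := Nat.pow_le_pow_left hn 3
    have h2 : 2 ^ 2 ≤ n ^ 2 := Nat.pow_le_pow_left hn 2
    omega
  have hYn : n ≤ Yn n := by
    unfold Yn
    nlinarith [Nat.pow_le_pow_left hn 2, Nat.zero_le (n ^ 3)]
  have hk3 : 1 ≤ (k ^ 3) ^ 2 := Nat.one_le_pow _ _ (Nat.pos_of_ne_zero (by positivity))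
  have h1 : Yn n ^ 2 * 16 ≤ n0' n k := by
    unfold n0'
    calc Yn n ^ 2 * 16 = 16 * 1 * Yn n ^ 2 := by ring
      _ ≤ 16 * (k ^ 3) ^ 2 * Yn n ^ 2 := by gcongr
  constructor
  · have : 192 ^ 2 ≤ Yn n ^ 2 := Nat.pow_le_pow_left hY 2
    omega
  · nlinarith

theorem r_bound {n k : ℕ} (hn : 2 ≤ n) (hk : 1 ≤ k) {Amax : ℝ} (hA : 1 ≤ Amax) :
    n * (Fintype.card (Val (n0' n k)) * (150000 * ((n0' n k : ℝ) + 2) ^ 3 + n ^ 2 * (Amax * 625) +
        n * Amax)) + n ^ 2 * ((Fintype.card (Val (n0' n k)) : ℝ) ^ 2 * 50000) ≤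
      ((n0' n k : ℝ) + Amax) ^ 10 := by
  obtain ⟨h1, h2⟩ := n0'_ge hn hk
  have h1' : (589824 : ℝ) ≤ n0' n k := by exact_mod_cast h1
  have h2' : (n : ℝ) ≤ n0' n k := by exact_mod_cast h2
  rw [card_Val]
  set N : ℝ := (n0' n k : ℝ) with hN
  set M : ℝ := N + Amax with hM
  have hM1 : (589824 : ℝ) ≤ M := by rw [hM]; linarith
  have hNM : N ≤ M := by rw [hM]; linarith
  have hAM : Amax ≤ M := by rw [hM]; linarith
  have hnM : (n : ℝ) ≤ M := h2'.trans hNM
  have hn0 : (0 : ℝ) ≤ n := Nat.cast_nonneg _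
  have hN0 : 0 ≤ N := by linarith
  have hM0 : 0 ≤ M := by linarith
  have hA0 : 0 ≤ Amax := by linarith
  have a1 : (N + 1) * (N + 2) ≤ 2 * M ^ 2 := by
    have : (N + 1) * (N + 2) ≤ (M + 1) * (M + 2) := by gcongr
    nlinarith
  have a1' : 0 ≤ (N + 1) * (N + 2) := by positivity
  have a2 : (N + 2) ^ 3 ≤ 2 * M ^ 3 := by
    have e : N + 2 ≤ (5 / 4) * M := by linarith
    calc (N + 2) ^ 3 ≤ ((5 / 4) * M) ^ 3 := by gcongr
      _ = (125 / 64) * M ^ 3 := by ring
      _ ≤ _ := by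
        have : 0 ≤ M ^ 3 := by positivity
        linarith
  have a3 : 150000 * (N + 2) ^ 3 + n ^ 2 * (Amax * 625) + n * Amax ≤ 301000 * M ^ 3 := by
    have e1 : (n : ℝ) ^ 2 * (Amax * 625) ≤ M ^ 2 * (M * 625) := by gcongr
    have e2 : (n : ℝ) * Amax ≤ M * M := by gcongr
    have e3 : M * M ≤ M ^ 3 := by nlinarith
    nlinarith
  have a3' : 0 ≤ 150000 * (N + 2) ^ 3 + n ^ 2 * (Amax * 625) + n * Amax := by positivity
  calc n * ((N + 1) * (N + 2) * (150000 * (N + 2) ^ 3 + n ^ 2 * (Amax * 625) + n * Amax)) +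
        n ^ 2 * (((N + 1) * (N + 2)) ^ 2 * 50000)
      ≤ M * ((2 * M ^ 2) * (301000 * M ^ 3)) + M ^ 2 * ((2 * M ^ 2) ^ 2 * 50000) := by
        gcongr
    _ = 802000 * M ^ 6 := by ring
    _ ≤ (M * M) * M ^ 6 := by
        have : 802000 ≤ M * M := by nlinarith
        have h6 : 0 ≤ M ^ 6 := by positivity
        exact mul_le_mul_of_nonneg_right this h6
    _ = M ^ 8 := by ring
    _ ≤ M ^ 10 := pow_le_pow_right₀ (by linarith) (by norm_num)

/-- **`SelStmt`** -/
theorem selStmt : BH.SelStmt := by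
  refine ⟨21, by norm_num, ?_⟩
  intro n k hn hk Lam Amax A a hA ha hAm hLam
  have hk1 : 1 ≤ k := by
    refine le_trans ?_ hk
    exact Nat.one_le_pow _ _ (by omega)
  obtain ⟨h1, h2⟩ := n0'_ge hn hk1
  have h1' : (589824 : ℝ) ≤ n0' n k := by exact_mod_cast h1
  set M : ℝ := (n0' n k : ℝ) + Amax with hM
  have hM1 : (589824 : ℝ) ≤ M := by rw [hM]; linarith
  have hM0 : 0 < M := by linarith
  have hr := r_bound hn hk1 hAm
  rw [← hM] at hr
  have hr0 : 0 < M ^ 10 := by positivity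
  have hone : 1 ≤ M ^ 20 := one_le_pow₀ (by linarith)
  have h20 : M ^ 10 ≤ M ^ 20 := pow_le_pow_right₀ (by linarith) (by norm_num)
  have hbig : 8 * M ^ 20 ≤ M ^ 21 := by
    rw [pow_succ M 20, mul_comm 8]
    gcongr
    linarith
  refine ⟨?_, ?_⟩
  · intro c hc
    exact ⟨ext (gS n k) (cf c), anti_ext (gS_inj hk1) (cf_anti hc),
      by rw [tnSq_ext (gS_inj hk1), tnSq_cf], shellForm_ext hk1 Lam A a c⟩
  · intro β hβ hc D hD
    have hLam0 : 0 < Lam := lt_of_lt_of_le (by positivity) hLam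
    have key := lower hk1 (Lam := Lam) (A := A) (a := a)
      (H := 150000 * ((n0' n k : ℝ) + 2) ^ 3 + n ^ 2 * (Amax * 625) + n * Amax)
      (r := M ^ 10) (by positivity) (fun p q => abs_hR_le hA ha p q) hr hr0 (by linarith) hβ hc hD
    refine le_trans ?_ key
    refine mul_le_mul_of_nonneg_right ?_ (tnSq_nonneg D)
    have : 2 * (M ^ 10) ^ 2 / Lam ≤ M ^ 21 / Lam := by
      refine div_le_div_of_nonneg_right ?_ hLam0.le
      rw [← pow_mul]
      norm_num
      linarith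
    linarith

end Crest.Agent.R338.Sel

end
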