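import Crest.Agent.R338.BHF
import Crest.Agent.R338.CE10
import Crest.Agent.R338.Sel4

/-!
Row 338 (S0529): Theorem BH, unconditional.
-/

set_option autoImplicit false

namespace Crest.Agent.R338.BH

/-- **Theorem BH** (`ThmBHStmt` of `Iface.lean`). -/
theorem thmBHStmt : ThmBHStmt := thmBHStmt_of CE.coulStmt Sel.selStmt

end Crest.Agent.R338.BH
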