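import Crest.Agent.R338.H2Def

/-!
# Row 338: bridges of the common definition: algebra homomorphisms, `Med`, `Clock` (helper896)
-/

set_option autoImplicit false
set_option linter.unusedSectionVars false
set_option linter.unusedSimpArgs false

namespace Crest.Agent.R338.PTab

open Crest.Agent.R338 RC

section hom

variable {ι κ : Type} [DecidableEq ι] [DecidableEq κ]

/-- compatible algebra homomorphisms -/
structure IsEmb (Φ : Op ι →ₐ[ℝ] Op κ) (f : ι → κ) : Prop where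
  hX : ∀ i, Φ (X i) = X (f i)
  hZ : ∀ i, Φ (Z i) = Z (f i)

theorem IsEmb.hN {Φ : Op ι →ₐ[ℝ] Op κ} {f : ι → κ} (h : IsEmb Φ f) (i : ι) :
    Φ (Nb i) = Nb (f i) := by
  rw [Nb_eq, Nb_eq, map_smul, map_sub, map_one, h.hZ]

variable {Φ : Op ι →ₐ[ℝ] Op κ} {f : ι → κ} (h : IsEmb Φ f)
include h

theorem gop_emb {W : Type} (w : W → ι) (g : EG W) : Φ (gop w g) = gop (f ∘ w) g := by
  cases g <;> simp [gop, h.hX, h.hZ]

theorem zzop_emb {W : Type} (w : W → ι) (g : EG W) : Φ (zzop w g) = zzop (f ∘ w) g := by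
  cases g <;> simp [zzop, h.hX, h.hZ]

theorem dop_emb {W : Type} (w : W → ι) (g : EG W) : Φ (dop w g) = dop (f ∘ w) g := by
  cases g <;> simp [dop, h.hX, h.hZ]

theorem Hdiag_emb (d : CD) (w : Fin d.M → ι) (c : Fin d.T → ι) (Jin Jp Jk : ℝ) :
    Φ (d.Hdiag w c Jin Jp Jk) = d.Hdiag (f ∘ w) (f ∘ c) Jin Jp Jk := by
  unfold CD.Hdiag
  simp only [map_add, map_sub, map_smul, map_sum, apply_ite Φ, map_zero, map_mul, map_one, h.hN,
    Function.comp_apply]

theorem HK_emb (d : CD) (w : Fin d.M → ι) (c : Fin d.T → ι) (Jin Jp Jk : ℝ) :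
    Φ (d.HK w c Jin Jp Jk) = d.HK (f ∘ w) (f ∘ c) Jin Jp Jk := by
  unfold CD.HK
  simp only [map_sub, map_smul, map_sum, map_mul, Hdiag_emb h, gop_emb h, h.hX,
    Function.comp_apply]

theorem HL_emb (d : CD) (w : Fin d.M → ι) (c : Fin d.T → ι) (Jin Jp Jk : ℝ) :
    Φ (d.HL w c Jin Jp Jk) = d.HL (f ∘ w) (f ∘ c) Jin Jp Jk := by
  unfold CD.HL
  simp only [map_sub, map_smul, map_sum, map_mul, HK_emb h, zzop_emb h, h.hX,
    Function.comp_apply]

theorem gadg_emb (d : CD) (w : Fin d.M → ι) (c m : Fin d.T → ι) (Jp δ : ℝ) (t : Fin d.T) :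
    Φ (d.gadg w c m Jp δ t) = d.gadg (f ∘ w) (f ∘ c) (f ∘ m) Jp δ t := by
  unfold CD.gadg
  simp only [map_add, map_sub, map_smul, apply_ite Φ, map_zero, map_mul, map_one, h.hN, h.hX,
    dop_emb h, zzop_emb h, Function.comp_apply]

theorem H2_emb (d : CD) (w : Fin d.M → ι) (c m : Fin d.T → ι) (Jin Jp Jk δ : ℝ) :
    Φ (d.H2 w c m Jin Jp Jk δ) = d.H2 (f ∘ w) (f ∘ c) (f ∘ m) Jin Jp Jk δ := by
  unfold CD.H2
  simp only [map_add, map_sum, HL_emb h, gadg_emb h]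

end hom

section inst

variable {ι κ : Type} [DecidableEq ι] [DecidableEq κ]

/-- `lift` as an algebra homomorphism -/
noncomputable def liftA (ι τ : Type) : Op ι →ₐ[ℝ] Op (ι ⊕ τ) where
  toFun := Med.lift
  map_one' := Med.lift_one
  map_mul' := Med.lift_mul
  map_zero' := Med.lift_zero
  map_add' := Med.lift_add
  commutes' r := by
    rw [Algebra.algebraMap_eq_smul_one, Algebra.algebraMap_eq_smul_one, Med.lift_smul,
      Med.lift_one]

theorem liftA_emb (ι τ : Type) [DecidableEq ι] [DecidableEq τ] :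
    IsEmb (liftA ι τ) (Sum.inl : ι → ι ⊕ τ) :=
  ⟨fun i => Med.lift_X i, fun i => Med.lift_Z i⟩

/-- transport of states -/
def reQ (e : ι ≃ κ) : Q ι ≃ₗ[ℝ] Q κ where
  toFun ψ := fun σ => ψ (σ ∘ e)
  invFun ψ := fun σ => ψ (σ ∘ e.symm)
  left_inv ψ := by funext σ; simp [Function.comp_assoc]
  right_inv ψ := by funext σ; simp [Function.comp_assoc]
  map_add' _ _ := rfl
  map_smul' _ _ := rfl

/-- transport of operators -/
noncomputable def reA (e : ι ≃ κ) : Op ι →ₐ[ℝ] Op κ := (reQ e).conjAlgEquiv ℝ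

theorem reA_apply (e : ι ≃ κ) (A : Op ι) (ψ : Q κ) : reA e A ψ = reQ e (A ((reQ e).symm ψ)) := rfl

theorem reA_emb (e : ι ≃ κ) : IsEmb (reA e) e := by
  constructor
  · intro i
    refine LinearMap.ext fun ψ => funext fun σ => ?_
    rw [reA_apply]
    change ψ ((flip i (σ ∘ e)) ∘ e.symm) = ψ (flip (e i) σ)
    congr 1
    funext j
    simp only [Function.comp_apply, flip_apply, Equiv.apply_symm_apply]
    by_cases hj : e.symm j = i
    · rw [if_pos hj, if_pos (by rw [← hj]; simp)]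
    · rw [if_neg hj, if_neg (fun h => hj (by rw [h]; simp))]
  · intro i
    refine LinearMap.ext fun ψ => funext fun σ => ?_
    rw [reA_apply]
    change sg ((σ ∘ e) i) * ψ ((σ ∘ e) ∘ e.symm) = sg (σ (e i)) * ψ σ
    simp [Function.comp_assoc]

variable [Fintype ι] [Fintype κ]

theorem dot_reQ (e : ι ≃ κ) (φ ψ : Q ι) : reQ e φ ⬝ᵥ reQ e ψ = φ ⬝ᵥ ψ := by
  simp only [dotProduct]
  exact Equiv.sum_comp (e.arrowCongr (Equiv.refl Bool)).symm (fun σ => φ σ * ψ σ)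

theorem nsq_reQ (e : ι ≃ κ) (ψ : Q ι) : R338.nsq (reQ e ψ) = R338.nsq ψ := dot_reQ e ψ ψ

theorem E_reA (e : ι ≃ κ) (A : Op ι) (ψ : Q ι) : E (reA e A) (reQ e ψ) = E A ψ := by
  unfold E
  rw [reA_apply, LinearEquiv.symm_apply_apply, dot_reQ]

end inst

/-! ### relation with `Med` -/

theorem CD.HK_eq_H3 (d : CD) (Jin Jp Jk : ℝ) :
    d.HK Sum.inl Sum.inr Jin Jp Jk =
      Med.H3 (d.HL Sum.inl Sum.inr Jin Jp Jk) d.term (d.cc Jp) := by
  unfold Med.H3 CD.HL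
  rw [eq_comm, sub_add_eq_add_sub, add_sub_assoc, Finset.smul_sum, ← Finset.sum_sub_distrib]
  rw [Finset.sum_eq_zero, add_zero]
  intro t _
  unfold CD.cc CD.term Med.Term.W
  cases hg : d.g t <;> simp [isCZ, zzop]

theorem CD.med_eq (d : CD) (Jp δ : ℝ) (t : Fin d.T) :
    Med.med d.term (d.cc Jp) δ t =
      d.gadg (Sum.inl ∘ Sum.inl) (Sum.inl ∘ Sum.inr) Sum.inr Jp δ t := by
  unfold Med.med CD.gadg CD.cc CD.term
  cases hg : d.g t
  · simp [isCZ, dop, zzop]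
  · simp only [isCZ, dop, zzop, if_true, Function.comp_apply]
    module

theorem CD.H2_eq (d : CD) (Jin Jp Jk δ : ℝ) :
    Med.H2 (d.HL Sum.inl Sum.inr Jin Jp Jk) d.term (d.cc Jp) δ =
      d.H2 (Sum.inl ∘ Sum.inl) (Sum.inl ∘ Sum.inr) Sum.inr Jin Jp Jk δ := by
  unfold Med.H2 CD.H2
  congr 1
  · exact HL_emb (liftA_emb _ _) d Sum.inl Sum.inr Jin Jp Jk
  · exact Finset.sum_congr rfl fun t _ => d.med_eq Jp δ t

end Crest.Agent.R338.PTab
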