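import Crest.Agent.R338.Br1

/-!
# Row 338: bridge between the operator form of `H_K` and `Clock.HK` (helper896)
-/

set_option autoImplicit false
set_option linter.unusedSectionVars false
set_option linter.unusedSimpArgs false

namespace Crest.Agent.R338.PTab

open Crest.Agent.R338 RC

/-- indicator of a bit -/
def bi (b : Bool) : ℝ := if b then 1 else 0

@[simp] theorem bi_true : bi true = 1 := rfl
@[simp] theorem bi_false : bi false = 0 := rfl

theorem Nb_apply' {ι : Type} (i : ι) (ψ : Q ι) (σ : ι → Bool) : Nb i ψ σ = bi (σ i) * ψ σ := by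
  rw [Nb_apply]; cases σ i <;> simp

/-- `gop id g` is the action of the gate -/
theorem gop_act {W : Type} [DecidableEq W] (g : EG W) (Ψ : Q W) : gop id g Ψ = g.act Ψ := by
  funext σ
  cases g with
  | rot k a =>
    have hf : ∀ b : Bool, σ a = b → Function.update σ a b = σ := by
      intro b hb; rw [← hb]; exact Function.update_eq_self a σ
    cases ha : σ a
    · have h1 := hf false ha
      simp only [gop, LinearMap.add_apply, LinearMap.smul_apply, Pi.add_apply, Pi.smul_apply,
        Z_apply, X_apply, smul_eq_mul, EG.act, id, ha, rmat, sg_false, R338.flip, h1, Bool.not_false]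
      ring
    · have h1 := hf true ha
      simp only [gop, LinearMap.add_apply, LinearMap.smul_apply, Pi.add_apply, Pi.smul_apply,
        Z_apply, X_apply, smul_eq_mul, EG.act, id, ha, rmat, sg_true, R338.flip, h1, Bool.not_true]
      ring
  | cz a b =>
    simp only [gop, EG.act, LinearMap.smul_apply, LinearMap.sub_apply, LinearMap.add_apply,
      Module.End.one_apply, Module.End.mul_apply, Pi.smul_apply, Pi.sub_apply, Pi.add_apply,
      Z_apply, smul_eq_mul, id]
    cases σ a <;> cases σ b <;> simp <;> ring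

theorem gop_sym {W ι : Type} [DecidableEq ι] [Fintype ι] (f : W → ι) (g : EG W) :
    Sym (gop f g) := by
  cases g with
  | rot k a => exact ((sym_Z _).smul _).add ((sym_X _).smul _)
  | cz a b =>
    exact (((Sym.one.add (sym_Z _)).add (sym_Z _)).sub
      ((sym_Z _).mul (sym_Z _) (Z_comm _ _))).smul _

theorem gop_mul_self {W ι : Type} [DecidableEq ι] (f : W → ι) (g : EG W) :
    gop f g * gop f g = 1 := by
  cases g with
  | rot k a =>
    have h := X_mul_Z (f a)
    have e : gop f (EG.rot k a) * gop f (EG.rot k a)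
        = (Real.cos (ang k) ^ 2) • (Z (f a) * Z (f a)) + (Real.sin (ang k) ^ 2) • (X (f a) * X (f a))
          + (Real.cos (ang k) * Real.sin (ang k)) • (Z (f a) * X (f a) + X (f a) * Z (f a)) := by
      simp only [gop, mul_add, add_mul, smul_mul_smul_comm, smul_add]
      rw [mul_comm (Real.sin (ang k)) (Real.cos (ang k)), sq, sq]
      abel
    rw [e, h, Z_mul_self, X_mul_self, add_neg_cancel, smul_zero, add_zero, ← add_smul,
      Real.cos_sq_add_sin_sq, one_smul]
  | cz a b =>
    have hc := (Z_comm (f a) (f b)).eq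
    have h1 : Z (f a) * Z (f b) * Z (f a) = Z (f b) := by
      rw [hc, mul_assoc, Z_mul_self, mul_one]
    have h2 : Z (f a) * Z (f b) * Z (f b) = Z (f a) := by
      rw [mul_assoc, Z_mul_self, mul_one]
    have h3 : Z (f a) * (Z (f a) * Z (f b)) = Z (f b) := by
      rw [← mul_assoc, Z_mul_self, one_mul]
    have h4 : Z (f b) * (Z (f a) * Z (f b)) = Z (f a) := by
      rw [hc, ← mul_assoc, Z_mul_self, one_mul]
    have h5 : Z (f a) * Z (f b) * (Z (f a) * Z (f b)) = 1 := by
      rw [← mul_assoc, h1, Z_mul_self]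
    have e : (1 + Z (f a) + Z (f b) - Z (f a) * Z (f b)) *
        (1 + Z (f a) + Z (f b) - Z (f a) * Z (f b)) = (4 : ℝ) • (1 : Op ι) := by
      simp only [mul_add, add_mul, mul_sub, sub_mul, mul_one, one_mul, h1, h2, h3, h4, h5,
        Z_mul_self]
      rw [← hc]
      module
    rw [gop, smul_mul_smul_comm, e, smul_smul]
    norm_num

theorem isGate_U (d : CD) (t : Fin d.T) : Clock.IsGate (d.U t) := by
  constructor
  · intro f g
    exact (gop_sym id (d.g t) f g).symm
  · intro f
    change (gop id (d.g t)) ((gop id (d.g t)) f) = f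
    rw [← Module.End.mul_apply, gop_mul_self]; rfl

section diag

variable (d : CD) {ι : Type} [DecidableEq ι] (w : Fin d.M → ι) (c : Fin d.T → ι)

/-- diagonal values of `Hdiag` -/
noncomputable def hd (Jin Jp Jk : ℝ) (first last : Fin d.T) (x : Fin d.M → Bool)
    (y : Fin d.T → Bool) : ℝ :=
  (if y last then d.rej x else 0) + Jin * (if y first then 0 else d.cnt x)
    + Jp * Clock.wt first last y + Jk * Clock.viol y

theorem Hdiag_apply (Jin Jp Jk : ℝ) (first last : Fin d.T) (hf : (first : ℕ) = 0)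
    (hl : (last : ℕ) + 1 = d.T) (ψ : Q ι) (σ : ι → Bool) :
    d.Hdiag w c Jin Jp Jk ψ σ = hd d Jin Jp Jk first last (σ ∘ w) (σ ∘ c) * ψ σ := by
  have e1 : ∀ t : Fin d.T, ((t : ℕ) + 1 = d.T ↔ t = last) := fun t =>
    ⟨fun h => Fin.ext (by omega), fun h => by rw [h]; exact hl⟩
  have e2 : ∀ t : Fin d.T, ((t : ℕ) = 0 ↔ t = first) := fun t =>
    ⟨fun h => Fin.ext (by omega), fun h => by rw [h]; exact hf⟩
  unfold CD.Hdiag
  simp only [e1, e2, Finset.sum_ite_eq', Finset.mem_univ, if_true]
  have h1 : ((1 - Nb (w d.out)) * Nb (c last) : Op ι) ψ σ =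
      (if (σ ∘ c) last then d.rej (σ ∘ w) else 0) * ψ σ := by
    simp only [Module.End.mul_apply, LinearMap.sub_apply, Module.End.one_apply, Pi.sub_apply,
      Nb_apply', CD.rej, Function.comp_apply]
    rcases Bool.eq_false_or_eq_true (σ (c last)) with h | h <;>
      rcases Bool.eq_false_or_eq_true (σ (w d.out)) with h' | h' <;> simp [h, h']
  have h2 : (∑ a : Fin d.M, (if d.con a then Nb (w a) * (1 - Nb (c first)) else 0 : Op ι)) ψ σ =
      (if (σ ∘ c) first then 0 else d.cnt (σ ∘ w)) * ψ σ := by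
    rw [LinearMap.sum_apply, Finset.sum_apply]
    have : ∀ a : Fin d.M, ((if d.con a then Nb (w a) * (1 - Nb (c first)) else 0 : Op ι)) ψ σ =
        (if σ (c first) then 0 else (if d.con a then (if σ (w a) then 1 else 0) else 0)) * ψ σ := by
      intro a
      cases d.con a
      · simp
      · simp only [if_true, Module.End.mul_apply, LinearMap.sub_apply, Module.End.one_apply,
          Pi.sub_apply, Nb_apply']
        cases σ (c first) <;> cases σ (w a) <;> simp
    rw [Finset.sum_congr rfl fun a _ => this a, ← Finset.sum_mul]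
    congr 1
    simp only [Function.comp_apply, CD.cnt]
    cases σ (c first) <;> simp
  have h3 : ((1 : Op ι) + Nb (c first) - Nb (c last)) ψ σ =
      (2 * Clock.wt first last (σ ∘ c)) * ψ σ := by
    simp only [LinearMap.sub_apply, LinearMap.add_apply, Module.End.one_apply, Pi.sub_apply,
      Pi.add_apply, Nb_apply', Clock.wt, Function.comp_apply, bi]
    ring
  have h4 : (∑ t : Fin d.T, ∑ t' : Fin d.T,
        (if (t' : ℕ) = (t : ℕ) + 1 then (1 - Nb (c t)) * Nb (c t') else 0 : Op ι)) ψ σ =
      Clock.viol (σ ∘ c) * ψ σ := by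
    rw [LinearMap.sum_apply, Finset.sum_apply, Clock.viol, Finset.sum_mul]
    refine Finset.sum_congr rfl fun t _ => ?_
    rw [LinearMap.sum_apply, Finset.sum_apply, Finset.sum_mul]
    refine Finset.sum_congr rfl fun t' _ => ?_
    by_cases h : (t' : ℕ) = (t : ℕ) + 1
    · simp only [h, if_true, Module.End.mul_apply, LinearMap.sub_apply, Module.End.one_apply,
        Pi.sub_apply, Nb_apply', Function.comp_apply, true_and]
      cases σ (c t) <;> cases σ (c t') <;> simp
    · simp [h]
  simp only [LinearMap.add_apply, LinearMap.smul_apply, Pi.add_apply, Pi.smul_apply, smul_eq_mul,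
    h1, h2, h3, h4, hd]
  ring

end diag

/-- **bridge with `Clock.HK`** -/
theorem E_HK_eq (d : CD) (Jin Jp Jk : ℝ) (first last : Fin d.T) (hf : (first : ℕ) = 0)
    (hl : (last : ℕ) + 1 = d.T) (ψ : Q (Fin d.M ⊕ Fin d.T)) :
    E (d.HK Sum.inl Sum.inr Jin Jp Jk) ψ =
      Clock.HK first last d.rej d.cnt d.U Jin Jp Jk (fun c => Med.cmp c ψ) := by
  unfold CD.HK
  rw [E_sub, E_smul, E_sum]
  have h1 : E (d.Hdiag Sum.inl Sum.inr Jin Jp Jk) ψ =
      ∑ c : Fin d.T → Bool, ∑ x : Fin d.M → Bool,
        hd d Jin Jp Jk first last x c * (Med.cmp c ψ x) ^ 2 := by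
    unfold E
    rw [Med.dot_cmp]
    refine Finset.sum_congr rfl fun c _ => ?_
    simp only [dotProduct]
    refine Finset.sum_congr rfl fun x _ => ?_
    have : Med.cmp c (d.Hdiag Sum.inl Sum.inr Jin Jp Jk ψ) x =
        hd d Jin Jp Jk first last x c * Med.cmp c ψ x := by
      unfold Med.cmp
      rw [Hdiag_apply d Sum.inl Sum.inr Jin Jp Jk first last hf hl]
      rfl
    rw [this]; ring
  have h2 : ∀ t : Fin d.T, E (gop Sum.inl (d.g t) * X (Sum.inr t)) ψ =
      ∑ c, Clock.ip (Med.cmp c ψ) (d.U t (Med.cmp (Clock.flip t c) ψ)) := by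
    intro t
    unfold E
    rw [Med.dot_cmp]
    refine Finset.sum_congr rfl fun c _ => ?_
    have e : gop Sum.inl (d.g t) = Med.lift (gop id (d.g t)) :=
      (gop_emb (liftA_emb (Fin d.M) (Fin d.T)) id (d.g t)).symm
    rw [Module.End.mul_apply, e, Med.cmp_lift, Med.cmp_X_inr]
    rfl
  rw [h1, Finset.sum_congr rfl fun t _ => h2 t]
  unfold Clock.HK Clock.hProp
  have h3 : ∀ c : Fin d.T → Bool, ∑ x : Fin d.M → Bool,
        hd d Jin Jp Jk first last x c * (Med.cmp c ψ x) ^ 2 =
      (if c last = true then Clock.wsq d.rej (Med.cmp c ψ) else 0)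
      + Jin * (if c first = true then 0 else Clock.wsq d.cnt (Med.cmp c ψ))
      + Jp * (Clock.wt first last c * Clock.nsq (Med.cmp c ψ))
      + Jk * (Clock.viol c * Clock.nsq (Med.cmp c ψ)) := by
    intro c
    have e1 : (if c last = true then Clock.wsq d.rej (Med.cmp c ψ) else 0) =
        ∑ x, (if c last = true then d.rej x else 0) * (Med.cmp c ψ x) ^ 2 := by
      unfold Clock.wsq; split_ifs <;> simp
    have e2 : (if c first = true then 0 else Clock.wsq d.cnt (Med.cmp c ψ)) =
        ∑ x, (if c first = true then 0 else d.cnt x) * (Med.cmp c ψ x) ^ 2 := by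
      unfold Clock.wsq; split_ifs <;> simp
    rw [e1, e2, Clock.nsq, Finset.mul_sum, Finset.mul_sum, Finset.mul_sum, Finset.mul_sum,
      Finset.mul_sum, ← Finset.sum_add_distrib, ← Finset.sum_add_distrib,
      ← Finset.sum_add_distrib]
    refine Finset.sum_congr rfl fun x _ => ?_
    unfold hd
    ring
  rw [Finset.sum_congr rfl fun c _ => h3 c, Finset.sum_add_distrib, Finset.sum_add_distrib,
    Finset.sum_add_distrib, ← Finset.mul_sum, ← Finset.mul_sum, ← Finset.mul_sum]
  ring

theorem tsq_eq (d : CD) (ψ : Q (Fin d.M ⊕ Fin d.T)) :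
    Clock.tsq (fun c => Med.cmp c ψ) = R338.nsq ψ := by
  rw [Med.nsq_cmp]
  unfold Clock.tsq
  refine Finset.sum_congr rfl fun c _ => ?_
  rw [nsq_eq_sum]; rfl

end Crest.Agent.R338.PTab
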