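import Crest.Agent.R338.BHF
import Crest.Agent.R338.CE6

/-!
Row 338 (S0529): `CoulStmt` from its third part (charging energy); parts (a), (b) are `CE.coul_a`,
`CE.coul_b`.
-/

set_option autoImplicit false

noncomputable section

open Crest.MathPhysics.ElectronicCoulomb

namespace Crest.Agent.R338.BH

/-- charging energy (part (c) of `CoulStmt`) -/
def CoulC : Prop := ∃ C : ℕ, 1 ≤ C ∧ ∀ n k : ℕ, 2 ≤ n → (C * n) ^ C ≤ k →
  ∀ δ : Fin n → ℤ, (∀ i, |δ i| ≤ 1) → ∑ i, δ i = 0 → δ ≠ 0 →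
    1 / ((C : ℝ) * (n : ℝ) ^ C * (k : ℝ) ^ 3) ≤
      ∑ i : Fin n, ∑ j : Fin n, Vc n k i j * ((δ i : ℝ) * (δ j : ℝ))

theorem coulStmt_of (hc : CoulC) : CoulStmt := by
  obtain ⟨C, hC, h⟩ := hc
  refine ⟨C + 11664, by omega, fun n k hn hk => ?_⟩
  have hC1 : 1 ≤ C * n := Nat.mul_pos (by omega) (by omega)
  have hk0 : (C * n) ^ C ≤ k := by
    refine le_trans ?_ hk
    calc (C * n) ^ C ≤ ((C + 11664) * n) ^ C := Nat.pow_le_pow_left
            (Nat.mul_le_mul_right _ (by omega)) _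
      _ ≤ ((C + 11664) * n) ^ (C + 11664) := Nat.pow_le_pow_right
            (Nat.mul_pos (by omega) (by omega)) (by omega)
  have hk1 : 1 ≤ k := le_trans (Nat.one_le_pow _ _ hC1) hk0
  have hkr : (0 : ℝ) < k := by exact_mod_cast hk1
  have hn1 : (1 : ℝ) ≤ n := by exact_mod_cast (by omega : 1 ≤ n)
  have hCr : (1 : ℝ) ≤ C := by exact_mod_cast hC
  have hpow : (1 : ℝ) ≤ (n : ℝ) ^ (C + 11664) := one_le_pow₀ hn1
  have hbig : (11664 : ℝ) ≤ ((C + 11664 : ℕ) : ℝ) * (n : ℝ) ^ (C + 11664) := by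
    push_cast
    nlinarith [hpow, hCr]
  refine ⟨fun i hi j hj => ?_, fun i hi j hj i' hi' j' hj' hne => ?_, fun δ h1 h2 h3 => ?_⟩
  · obtain ⟨ha, hb⟩ := CE.coul_a (n := n) (k := k) (by omega) hk1 hi hj
    exact ⟨ha, hb.trans (div_le_div_of_nonneg_right hbig (by positivity))⟩
  · refine (CE.coul_b (n := n) (k := k) (by omega) hk1 hi hj hi' hj' hne).trans ?_
    exact div_le_div_of_nonneg_right (by linarith) (by positivity)
  · refine le_trans ?_ (h n k hn hk0 δ h1 h2 h3)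
    have hmono : (C : ℝ) * (n : ℝ) ^ C * (k : ℝ) ^ 3 ≤
        ((C + 11664 : ℕ) : ℝ) * (n : ℝ) ^ (C + 11664) * (k : ℝ) ^ 3 := by
      refine mul_le_mul_of_nonneg_right ?_ (by positivity)
      refine mul_le_mul ?_ (pow_le_pow_right₀ hn1 (by omega)) (by positivity) (by positivity)
      push_cast
      linarith
    exact one_div_le_one_div_of_le (by positivity) hmono

/-- `ThmBHStmt` from the charging energy and the selection theorem. -/
theorem thmBHStmt_of' (hC : CoulC) (hS : SelStmt) : ThmBHStmt := thmBHStmt_of (coulStmt_of hC) hS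

end Crest.Agent.R338.BH

end
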