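import Crest.Agent.R338.CE10
import Crest.Agent.R338.CSAsm

/-! Row 338: `CoulC`, the charging estimate in the shape of `CSAsm`. -/

set_option autoImplicit false

namespace Crest.Agent.R338.CE

theorem coulC : BH.CoulC := by
  obtain ⟨C, hC, h⟩ := coulStmt
  exact ⟨C, hC, fun n k hn hk => (h n k hn hk).2.2⟩

end Crest.Agent.R338.CE
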