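import Mathlib

/-!
# Row 338, module CF1 (helper608): bivariate Gaussian moments

* `stein` : `∫ x P(x) e^{-c x²} = (1/(2c)) ∫ P'(x) e^{-c x²}`
* `mom p q : ℚ[X]` : the polynomial in `u` with `E X^p Y^q = (mom p q)(u)` for the centred Gaussian pair with
  variances `(1-u)/2` and covariance `u/2`
* `integral_mono` : `∫∫ x^p y^q exp (-x²-y²-t²(x-y)²) dy dx = π/√(1+2t²) · (mom p q)(t²/(1+2t²))`
-/

set_option autoImplicit false

open MeasureTheory Polynomial Real

noncomputable section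

namespace Crest.Agent.R338.CF

/-- polynomial times Gaussian is integrable -/
theorem integrable_pg (P : Polynomial ℝ) {b : ℝ} (hb : 0 < b) :
    Integrable (fun x : ℝ => P.eval x * Real.exp (-b * x ^ 2)) := by
  induction P using Polynomial.induction_on' with
  | add p q hp hq =>
    simp only [eval_add, add_mul]
    exact hp.add hq
  | monomial n a =>
    simp only [eval_monomial]
    have h := integrable_rpow_mul_exp_neg_mul_sq hb (s := (n : ℝ)) (by
      have := n.cast_nonneg (α := ℝ); linarith)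
    have h2 := h.const_mul a
    refine h2.congr (Filter.Eventually.of_forall fun x => ?_)
    simp only [Real.rpow_natCast]
    ring

/-- the Gaussian functional -/
def gI (c : ℝ) (P : Polynomial ℝ) : ℝ := ∫ x, P.eval x * Real.exp (-c * x ^ 2)

theorem gI_add {c : ℝ} (hc : 0 < c) (P Q : Polynomial ℝ) : gI c (P + Q) = gI c P + gI c Q := by
  unfold gI
  rw [← integral_add (integrable_pg P hc) (integrable_pg Q hc)]
  congr 1
  ext x
  rw [eval_add]
  ring

theorem gI_C_mul (c a : ℝ) (P : Polynomial ℝ) : gI c (C a * P) = a * gI c P := by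
  unfold gI
  rw [← integral_const_mul]
  congr 1
  ext x
  rw [eval_mul, eval_C]
  ring

theorem gI_one {c : ℝ} : gI c 1 = √(π / c) := by
  unfold gI
  simp only [eval_one, one_mul]
  exact integral_gaussian c

theorem hasDerivAt_gauss (c x : ℝ) :
    HasDerivAt (fun x : ℝ => Real.exp (-c * x ^ 2)) (-(2 * c * x) * Real.exp (-c * x ^ 2)) x := by
  have h1 : HasDerivAt (fun x : ℝ => -c * x ^ 2) (-(2 * c * x)) x := by
    have := (hasDerivAt_pow 2 x).const_mul (-c)
    refine this.congr_deriv ?_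
    norm_num
    ring
  refine h1.exp.congr_deriv ?_
  ring

/-- Stein's identity -/
theorem stein {c : ℝ} (hc : 0 < c) (P : Polynomial ℝ) :
    gI c (X * P) = 1 / (2 * c) * gI c (derivative P) := by
  have ibp := integral_mul_deriv_eq_deriv_mul_of_integrable
    (u := fun x => P.eval x) (v := fun x => Real.exp (-c * x ^ 2))
    (u' := fun x => (derivative P).eval x)
    (v' := fun x => -(2 * c * x) * Real.exp (-c * x ^ 2))
    (fun x _ => P.hasDerivAt x) (fun x _ => hasDerivAt_gauss c x) ?_ (integrable_pg _ hc)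
    (integrable_pg P hc)
  · have e1 : ∫ x, (fun x => P.eval x) x * (fun x => -(2 * c * x) * Real.exp (-c * x ^ 2)) x =
        -(2 * c) * gI c (X * P) := by
      unfold gI
      rw [← integral_const_mul]
      congr 1
      ext x
      rw [eval_mul, eval_X]
      ring
    have e2 : ∫ x, (fun x => (derivative P).eval x) x * (fun x => Real.exp (-c * x ^ 2)) x =
        gI c (derivative P) := rfl
    rw [e1, e2] at ibp
    field_simp
    linarith
  · have h := (integrable_pg (X * P) hc).const_mul (-(2 * c))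
    refine h.congr (Filter.Eventually.of_forall fun x => ?_)
    simp only [Pi.mul_apply, eval_mul, eval_X]
    ring

/-- the inner polynomials: `∫ (y + (b/a) x)^q e^{-a y²} dy = √(π/a) κ_q(x)` -/
def kap (a b : ℝ) : ℕ → Polynomial ℝ
  | 0 => 1
  | 1 => C (b / a) * X
  | (q + 2) => C (b / a) * X * kap a b (q + 1) + C (((q : ℝ) + 1) / (2 * a)) * kap a b q

theorem derivative_kap (a b : ℝ) (q : ℕ) :
    derivative (kap a b (q + 1)) = C (((q : ℝ) + 1) * (b / a)) * kap a b q := by
  induction q using Nat.strong_induction_on with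
  | _ q ih =>
    rcases q with _ | _ | q
    · simp [kap]
    · rw [show kap a b (0 + 1 + 1) = C (b / a) * X * kap a b 1 + C ((((0 : ℕ) : ℝ) + 1) / (2 * a)) *
        kap a b 0 from rfl, show kap a b 1 = C (b / a) * X from rfl, show kap a b 0 = 1 from rfl]
      simp only [derivative_add, derivative_mul, derivative_C, derivative_X, mul_one,
        zero_mul, zero_add, add_zero]
      push_cast
      simp only [C_mul, C_add, C_1]
      ring
    · have h1 := ih (q + 1) (by omega)
      have h0 := ih q (by omega)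
      rw [show kap a b (q + 1 + 1 + 1) = C (b / a) * X * kap a b (q + 2) +
        C ((((q + 1 : ℕ) : ℝ) + 1) / (2 * a)) * kap a b (q + 1) from rfl]
      rw [derivative_add, derivative_mul, derivative_mul, derivative_mul, derivative_C, derivative_C,
        derivative_X, h1, h0]
      rw [show kap a b (q + 1 + 1) = C (b / a) * X * kap a b (q + 1) +
        C (((q : ℝ) + 1) / (2 * a)) * kap a b q from rfl]
      push_cast
      have e1 : C (((q : ℝ) + 1 + 1 + 1) * (b / a)) = C (b / a) + C (((q : ℝ) + 1 + 1) * (b / a)) := by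
        rw [← C_add]; congr 1; ring
      have e2 : C (((q : ℝ) + 1 + 1) / (2 * a)) * C (((q : ℝ) + 1) * (b / a)) =
          C (((q : ℝ) + 1 + 1) * (b / a)) * C (((q : ℝ) + 1) / (2 * a)) := by
        rw [← C_mul, ← C_mul]; congr 1; ring
      rw [e1]
      linear_combination (kap a b q) * e2

theorem integral_shift {a : ℝ} (ha : 0 < a) (b x : ℝ) (q : ℕ) :
    ∫ y, (y + b / a * x) ^ q * Real.exp (-a * y ^ 2) = √(π / a) * (kap a b q).eval x := by
  have key : ∀ q : ℕ, gI a ((X + C (b / a * x)) ^ q) = √(π / a) * (kap a b q).eval x := by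
    intro q
    induction q using Nat.strong_induction_on with
    | _ q ih =>
      rcases q with _ | _ | q
      · simp [kap, gI_one]
      · rw [zero_add, pow_one, gI_add ha]
        have h1 := stein ha 1
        rw [mul_one, derivative_one] at h1
        have h2 : gI a (0 : ℝ[X]) = 0 := by simp [gI]
        rw [h1, h2, mul_zero, zero_add]
        have h3 := gI_C_mul a (b / a * x) 1
        rw [mul_one, gI_one] at h3
        rw [h3]
        simp [kap]
        ring
      · have h1 := ih (q + 1) (by omega)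
        have h0 := ih q (by omega)
        have e : (X + C (b / a * x)) ^ (q + 1 + 1) = X * (X + C (b / a * x)) ^ (q + 1) +
            C (b / a * x) * (X + C (b / a * x)) ^ (q + 1) := by ring
        rw [e, gI_add ha, stein ha, gI_C_mul, h1]
        have e2 : derivative ((X + C (b / a * x)) ^ (q + 1)) =
            C ((q : ℝ) + 1) * (X + C (b / a * x)) ^ q := by
          rw [derivative_pow]
          simp
        rw [e2, gI_C_mul, h0]
        rw [show kap a b (q + 1 + 1) = C (b / a) * X * kap a b (q + 1) +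
          C (((q : ℝ) + 1) / (2 * a)) * kap a b q from rfl]
        simp only [eval_add, eval_mul, eval_C, eval_X]
        field_simp
        ring
  rw [← key q]
  unfold gI
  congr 1
  ext y
  simp

/-- inner integral -/
theorem integral_inner {a : ℝ} (ha : 0 < a) (b x : ℝ) (q : ℕ) :
    ∫ y, y ^ q * Real.exp (-a * y ^ 2 + 2 * b * x * y) =
      √(π / a) * (kap a b q).eval x * Real.exp (b ^ 2 / a * x ^ 2) := by
  have h := integral_shift ha b x q
  have h1 := integral_add_right_eq_self (μ := volume)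
    (fun y : ℝ => y ^ q * Real.exp (-a * y ^ 2 + 2 * b * x * y)) (b / a * x)
  rw [← h1, ← h, ← integral_mul_const]
  congr 1
  ext y
  have e : Real.exp (-a * (y + b / a * x) ^ 2 + 2 * b * x * (y + b / a * x)) =
      Real.exp (-a * y ^ 2) * Real.exp (b ^ 2 / a * x ^ 2) := by
    rw [← Real.exp_add]
    congr 1
    field_simp
    ring
  rw [e]
  ring

/-- moments `E X^p Y^q` as polynomials in `u` -/
def mom0 : ℕ → Polynomial ℚ
  | 0 => 1
  | 1 => 0
  | (q + 2) => C ((q : ℚ) + 1) * (C (1 / 2) * (1 - X)) * mom0 q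

/-- moments `E X^p Y^q` as polynomials in `u` -/
def mom : ℕ → ℕ → Polynomial ℚ
  | 0 => mom0
  | 1 => fun q => C (q : ℚ) * (C (1 / 2) * X) * mom0 (q - 1)
  | (p + 2) => fun q => C ((p : ℚ) + 1) * (C (1 / 2) * (1 - X)) * mom p q +
      C (q : ℚ) * (C (1 / 2) * X) * mom (p + 1) (q - 1)

/-- the double integral -/
def JJ (t : ℝ) (p q : ℕ) : ℝ :=
  ∫ x, ∫ y, x ^ p * y ^ q * Real.exp (-x ^ 2 - y ^ 2 - t ^ 2 * (x - y) ^ 2)

theorem JJ_eq (t : ℝ) (p q : ℕ) : JJ t p q =
    √(π / (1 + t ^ 2)) * gI ((1 + 2 * t ^ 2) / (1 + t ^ 2)) (X ^ p * kap (1 + t ^ 2) (t ^ 2) q) := by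
  have ha : 0 < 1 + t ^ 2 := by positivity
  unfold JJ gI
  rw [← integral_const_mul]
  congr 1
  ext x
  have h := integral_inner ha (t ^ 2) x q
  have e : ∀ y : ℝ, x ^ p * y ^ q * Real.exp (-x ^ 2 - y ^ 2 - t ^ 2 * (x - y) ^ 2) =
      x ^ p * Real.exp (-(1 + t ^ 2) * x ^ 2) *
        (y ^ q * Real.exp (-(1 + t ^ 2) * y ^ 2 + 2 * t ^ 2 * x * y)) := by
    intro y
    have : Real.exp (-x ^ 2 - y ^ 2 - t ^ 2 * (x - y) ^ 2) = Real.exp (-(1 + t ^ 2) * x ^ 2) *
        Real.exp (-(1 + t ^ 2) * y ^ 2 + 2 * t ^ 2 * x * y) := by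
      rw [← Real.exp_add]; congr 1; ring
    rw [this]; ring
  simp only [e]
  rw [integral_const_mul, h, eval_mul, eval_pow, eval_X]
  have e2 : Real.exp (-(1 + t ^ 2) * x ^ 2) * Real.exp ((t ^ 2) ^ 2 / (1 + t ^ 2) * x ^ 2) =
      Real.exp (-((1 + 2 * t ^ 2) / (1 + t ^ 2)) * x ^ 2) := by
    rw [← Real.exp_add]; congr 1; field_simp; ring
  rw [← e2]
  ring

theorem JJ_succ_right (t : ℝ) (q : ℕ) : JJ t 0 (q + 2) =
    ((q : ℝ) + 1) * ((1 - t ^ 2 / (1 + 2 * t ^ 2)) / 2) * JJ t 0 q := by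
  have ha : 0 < 1 + t ^ 2 := by positivity
  have hc : 0 < (1 + 2 * t ^ 2) / (1 + t ^ 2) := by positivity
  rw [JJ_eq, JJ_eq]
  simp only [pow_zero, one_mul]
  rw [show kap (1 + t ^ 2) (t ^ 2) (q + 2) = C (t ^ 2 / (1 + t ^ 2)) * X * kap (1 + t ^ 2) (t ^ 2) (q + 1) +
    C (((q : ℝ) + 1) / (2 * (1 + t ^ 2))) * kap (1 + t ^ 2) (t ^ 2) q from rfl]
  rw [gI_add hc, mul_assoc (C _), gI_C_mul, gI_C_mul, stein hc, derivative_kap, gI_C_mul]
  have h2 : (1 + 2 * t ^ 2) ≠ 0 := by positivity
  field_simp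
  ring

theorem JJ_succ_left (t : ℝ) (p q : ℕ) : JJ t (p + 1) q =
    (p : ℝ) * ((1 - t ^ 2 / (1 + 2 * t ^ 2)) / 2) * JJ t (p - 1) q +
    (q : ℝ) * (t ^ 2 / (1 + 2 * t ^ 2) / 2) * JJ t p (q - 1) := by
  have ha : 0 < 1 + t ^ 2 := by positivity
  have hc : 0 < (1 + 2 * t ^ 2) / (1 + t ^ 2) := by positivity
  have e0 : (X : ℝ[X]) ^ (p + 1) * kap (1 + t ^ 2) (t ^ 2) q =
      X * (X ^ p * kap (1 + t ^ 2) (t ^ 2) q) := by ring
  rw [JJ_eq, JJ_eq, JJ_eq, e0, stein hc, derivative_mul, gI_add hc]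
  have h1 : gI ((1 + 2 * t ^ 2) / (1 + t ^ 2)) (derivative (X ^ p) * kap (1 + t ^ 2) (t ^ 2) q) =
      (p : ℝ) * gI ((1 + 2 * t ^ 2) / (1 + t ^ 2)) (X ^ (p - 1) * kap (1 + t ^ 2) (t ^ 2) q) := by
    rw [← gI_C_mul, derivative_X_pow]
    congr 1
    simp only [map_natCast]
    ring
  have h2 : gI ((1 + 2 * t ^ 2) / (1 + t ^ 2)) (X ^ p * derivative (kap (1 + t ^ 2) (t ^ 2) q)) =
      (q : ℝ) * (t ^ 2 / (1 + t ^ 2)) *
        gI ((1 + 2 * t ^ 2) / (1 + t ^ 2)) (X ^ p * kap (1 + t ^ 2) (t ^ 2) (q - 1)) := by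
    rcases q with _ | q
    · simp [kap, gI]
    · rw [derivative_kap, ← gI_C_mul]
      congr 1
      simp only [Nat.add_sub_cancel]
      push_cast
      ring
  rw [h1, h2]
  have h3 : (1 + 2 * t ^ 2) ≠ 0 := by positivity
  field_simp
  ring

theorem JJ_zero (t : ℝ) : JJ t 0 0 = π / √(1 + 2 * t ^ 2) := by
  have ha : 0 < 1 + t ^ 2 := by positivity
  rw [JJ_eq]
  simp only [pow_zero, one_mul, kap, gI_one]
  rw [← Real.sqrt_mul (by positivity)]
  have h2 : (0 : ℝ) < 1 + 2 * t ^ 2 := by positivity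
  have e : π / (1 + t ^ 2) * (π / ((1 + 2 * t ^ 2) / (1 + t ^ 2))) = π ^ 2 / (1 + 2 * t ^ 2) := by
    field_simp
  rw [e, Real.sqrt_div (by positivity), Real.sqrt_sq Real.pi_pos.le]

theorem JJ_zero_one (t : ℝ) : JJ t 0 1 = 0 := by
  have hc : 0 < (1 + 2 * t ^ 2) / (1 + t ^ 2) := by positivity
  rw [JJ_eq]
  simp only [pow_zero, one_mul, kap]
  rw [gI_C_mul]
  have h1 := stein hc 1
  rw [mul_one, derivative_one] at h1
  have h2 : gI ((1 + 2 * t ^ 2) / (1 + t ^ 2)) (0 : ℝ[X]) = 0 := by simp [gI]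
  rw [h1, h2]
  ring

/-- evaluation of a rational polynomial at a real point -/
def ev (P : Polynomial ℚ) (x : ℝ) : ℝ := (P.map (algebraMap ℚ ℝ)).eval x

theorem ev_add (P Q : Polynomial ℚ) (x : ℝ) : ev (P + Q) x = ev P x + ev Q x := by
  simp [ev]

theorem ev_mul (P Q : Polynomial ℚ) (x : ℝ) : ev (P * Q) x = ev P x * ev Q x := by
  simp [ev]

theorem ev_sub (P Q : Polynomial ℚ) (x : ℝ) : ev (P - Q) x = ev P x - ev Q x := by
  simp [ev]

theorem ev_C (a : ℚ) (x : ℝ) : ev (C a) x = (a : ℝ) := by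
  simp [ev]

theorem ev_X (x : ℝ) : ev X x = x := by
  simp [ev]

theorem ev_one (x : ℝ) : ev 1 x = 1 := by
  simp [ev]

theorem ev_zero (x : ℝ) : ev 0 x = 0 := by
  simp [ev]

theorem JJ_mom (t : ℝ) (p q : ℕ) :
    JJ t p q = π / √(1 + 2 * t ^ 2) * ev (mom p q) (t ^ 2 / (1 + 2 * t ^ 2)) := by
  have h0 : ∀ q, JJ t 0 q = π / √(1 + 2 * t ^ 2) * ev (mom0 q) (t ^ 2 / (1 + 2 * t ^ 2)) := by
    intro q
    induction q using Nat.strong_induction_on with
    | _ q ih =>
      rcases q with _ | _ | q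
      · rw [JJ_zero, mom0, ev_one, mul_one]
      · rw [zero_add, JJ_zero_one, mom0, ev_zero, mul_zero]
      · rw [show q + 1 + 1 = q + 2 from rfl, JJ_succ_right, ih q (by omega), mom0, ev_mul, ev_mul, ev_mul,
          ev_sub, ev_C, ev_C, ev_one, ev_X]
        push_cast
        ring
  have h : ∀ p q, JJ t p q = π / √(1 + 2 * t ^ 2) * ev (mom p q) (t ^ 2 / (1 + 2 * t ^ 2)) := by
    intro p
    induction p using Nat.strong_induction_on with
    | _ p ih =>
      intro q
      rcases p with _ | _ | p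
      · exact h0 q
      · have h1 := JJ_succ_left t 0 q
        simp only [zero_add, Nat.cast_zero, zero_mul] at h1
        rw [zero_add, h1, h0 (q - 1), mom, ev_mul, ev_mul, ev_mul, ev_C, ev_C, ev_X]
        push_cast
        ring
      · rw [JJ_succ_left, Nat.add_sub_cancel, ih p (by omega) q, ih (p + 1) (by omega) (q - 1), mom,
          ev_add, ev_mul, ev_mul, ev_mul, ev_sub, ev_mul, ev_mul, ev_mul, ev_C, ev_C, ev_C, ev_one, ev_X]
        push_cast
        ring
  exact h p q

end Crest.Agent.R338.CF
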