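import Mathlib.Analysis.SpecialFunctions.Exp
import Mathlib.Analysis.SpecialFunctions.Sqrt
import Mathlib.Analysis.SpecialFunctions.Pow.Real
import Crest.Agent.Lib.PT.ArithRat
import Crest.Agent.Lib.PT.ArithMore
import Crest.Agent.Lib.PT.ListFns2

/-!
# Row 338, numerics (helper860): real numbers computable in polynomial time

`PTR r` for `r : α → ℝ` says that `r a` can be approximated by a rational to accuracy `2^-k`
in time polynomial in `sz a + k`.  The class is closed under `+ - * / sqrt`, finite sums and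
products of polynomial length, max, min, abs.
-/

set_option autoImplicit false

namespace Crest.Agent.R338.Nu

open Crest.Agent.Lib.PT

variable {α β γ : Type} [PTCode α] [PTCode β] [PTCode γ]

/-- `r a` is computable to accuracy `2^-k` in time polynomial in `sz a + k` (`k` unary). -/
@[fun_prop]
def PTR (r : α → ℝ) : Prop :=
  ∃ q : α × Un → ℚ, PTF q ∧ ∀ p, |((q p : ℚ) : ℝ) - r p.1| ≤ (1 / 2 : ℝ) ^ p.2.val

theorem PTR.of_eq {r r' : α → ℝ} (h : PTR r) (e : ∀ a, r a = r' a) : PTR r' := by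
  have : r = r' := funext e
  exact this ▸ h

/-- approximate at a given unary precision after substitution -/
theorem PTR.get {r : α → ℝ} (h : PTR r) {f : γ → α} {k : γ → ℕ} (hf : PTF f) (hk : PTU k) :
    ∃ q : γ → ℚ, PTF q ∧ ∀ c, |((q c : ℚ) : ℝ) - r (f c)| ≤ (1 / 2 : ℝ) ^ k c := by
  obtain ⟨q, hq, hq'⟩ := h
  exact ⟨fun c => q (f c, Un.mk (k c)), PTF.comp hq (PTF.prodMk hf hk), fun c => hq' (f c, Un.mk (k c))⟩

theorem PTR.comp {r : α → ℝ} (h : PTR r) {f : γ → α} (hf : PTF f) : PTR (fun c => r (f c)) := by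
  obtain ⟨q, hq, hq'⟩ := h.get (γ := γ × Un) (f := fun c => f c.1) (k := fun c => c.2.val)
    (PTF.comp hf PTF.fst) (PTU.val PTF.snd)
  exact ⟨q, hq, hq'⟩

/-- rational approximation with error `2^-k a` -/
theorem PTR.approx {r : α → ℝ} (h : PTR r) {k : α → ℕ} (hk : PTU k) :
    ∃ q : α → ℚ, PTF q ∧ ∀ a, |((q a : ℚ) : ℝ) - r a| ≤ (1 / 2 : ℝ) ^ k a :=
  h.get PTF.id hk

/-! ### PTU fun_prop helper -/

theorem ptu_snd : PTU (fun p : α × Un => p.2.val) := PTU.val PTF.snd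

/-! ### bounds -/

theorem abs_rat_le (q : ℚ) : |(q : ℝ)| ≤ 2 ^ q.num.natAbs.size := by
  have h1 : |(q : ℝ)| ≤ (q.num.natAbs : ℝ) := by
    have h2 : |q| ≤ (q.num.natAbs : ℚ) := by
      have h3 : |q| = (q.num.natAbs : ℚ) / (q.den : ℚ) := by
        conv_lhs => rw [← Rat.num_div_den q]
        rw [abs_div]
        congr 1
        · rw [Nat.cast_natAbs]; push_cast; rfl
        · simp
      rw [h3]
      exact div_le_self (by positivity) (by exact_mod_cast q.den_pos)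
    calc |(q : ℝ)| = ((|q| : ℚ) : ℝ) := by push_cast; rfl
      _ ≤ (((q.num.natAbs : ℚ)) : ℝ) := by exact_mod_cast h2
      _ = _ := by push_cast; rfl
  refine h1.trans ?_
  exact_mod_cast (Nat.lt_size_self _).le

theorem PTR.bound {r : α → ℝ} (h : PTR r) : ∃ B : α → ℕ, PTU B ∧ ∀ a, |r a| ≤ 2 ^ B a := by
  obtain ⟨q, hq, hq'⟩ := h.approx (PTU.const 0)
  refine ⟨fun a => (q a).num.natAbs.size + 1, PTU.succ (PTF.natSizeUn (PTF.intNatAbs hq.ratNum)),
    fun a => ?_⟩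
  have h1 := hq' a
  have h2 := abs_rat_le (q a)
  have h3 : |r a| ≤ |((q a : ℚ) : ℝ)| + 1 := by
    have := abs_sub_abs_le_abs_sub (r a) ((q a : ℚ) : ℝ)
    rw [abs_sub_comm] at this
    simp only [pow_zero] at h1
    linarith
  have h4 : (1 : ℝ) ≤ 2 ^ (q a).num.natAbs.size := one_le_pow₀ (by norm_num)
  rw [pow_succ]
  linarith

/-! ### casts -/

@[fun_prop]
theorem PTR.ratCast {f : α → ℚ} (hf : PTF f) : PTR (fun a => ((f a : ℚ) : ℝ)) :=
  ⟨fun p => f p.1, PTF.comp hf PTF.fst, fun p => by simp⟩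

@[fun_prop]
theorem PTR.natCast {f : α → ℕ} (hf : PTF f) : PTR (fun a => ((f a : ℕ) : ℝ)) :=
  (PTR.ratCast hf.ratNatCast).of_eq (fun a => by push_cast; rfl)

@[fun_prop]
theorem PTR.intCast {f : α → ℤ} (hf : PTF f) : PTR (fun a => ((f a : ℤ) : ℝ)) :=
  (PTR.ratCast hf.ratIntCast).of_eq (fun a => by push_cast; rfl)

/-- unary version of `natCast` -/
theorem PTR.natCastU {f : α → ℕ} (hf : PTU f) : PTR (fun a => ((f a : ℕ) : ℝ)) :=
  PTR.natCast hf.toPTF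

theorem PTR.constRat (c : ℚ) : PTR (fun _ : α => (c : ℝ)) := PTR.ratCast (PTF.const c)

@[fun_prop]
theorem PTR.ofNat (n : ℕ) [n.AtLeastTwo] : PTR (fun _ : α => (OfNat.ofNat n : ℝ)) :=
  (PTR.constRat (OfNat.ofNat n : ℚ)).of_eq (fun _ => by norm_cast)

@[fun_prop]
theorem PTR.zero : PTR (fun _ : α => (0 : ℝ)) := (PTR.constRat 0).of_eq (fun _ => by norm_cast)

@[fun_prop]
theorem PTR.one : PTR (fun _ : α => (1 : ℝ)) := (PTR.constRat 1).of_eq (fun _ => by norm_cast)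

/-! ### field operations -/

section ops
variable {r s : α → ℝ}

@[fun_prop]
theorem PTR.neg (hr : PTR r) : PTR (fun a => - r a) := by
  obtain ⟨q, hq, hq'⟩ := hr
  refine ⟨fun p => - q p, hq.ratNeg, fun p => ?_⟩
  have := hq' p
  push_cast
  rw [← abs_neg]
  convert this using 2
  ring

@[fun_prop]
theorem PTR.add (hr : PTR r) (hs : PTR s) : PTR (fun a => r a + s a) := by
  obtain ⟨q, hq, hq'⟩ := hr.get (γ := α × Un) (k := fun p => p.2.val + 1) PTF.fst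
    (PTU.succ ptu_snd)
  obtain ⟨q₂, hq₂, hq₂'⟩ := hs.get (γ := α × Un) (k := fun p => p.2.val + 1) PTF.fst
    (PTU.succ ptu_snd)
  refine ⟨fun p => q p + q₂ p, hq.ratAdd hq₂, fun p => ?_⟩
  have h1 := hq' p
  have h2 := hq₂' p
  push_cast
  calc |(q p : ℝ) + (q₂ p : ℝ) - (r p.1 + s p.1)|
      = |((q p : ℝ) - r p.1) + ((q₂ p : ℝ) - s p.1)| := by ring_nf
    _ ≤ |(q p : ℝ) - r p.1| + |(q₂ p : ℝ) - s p.1| := abs_add_le _ _
    _ ≤ (1 / 2) ^ (p.2.val + 1) + (1 / 2) ^ (p.2.val + 1) := add_le_add h1 h2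
    _ = (1 / 2) ^ p.2.val := by rw [pow_succ]; ring

@[fun_prop]
theorem PTR.sub (hr : PTR r) (hs : PTR s) : PTR (fun a => r a - s a) :=
  (hr.add hs.neg).of_eq (fun a => by ring)

@[fun_prop]
theorem PTR.mul (hr : PTR r) (hs : PTR s) : PTR (fun a => r a * s a) := by
  obtain ⟨B, hB, hBb⟩ := hr.bound
  obtain ⟨C, hC, hCb⟩ := hs.bound
  have hB1 : PTU (fun p : α × Un => B p.1) := PTU.comp hB PTF.fst
  have hC1 : PTU (fun p : α × Un => C p.1) := PTU.comp hC PTF.fst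
  have hk : PTU (fun p : α × Un => p.2.val + B p.1 + C p.1 + 2) :=
    PTU.add (PTU.add (PTU.add ptu_snd hB1) hC1) (PTU.const 2)
  obtain ⟨q, hq, hq'⟩ := hr.get (γ := α × Un) PTF.fst hk
  obtain ⟨q₂, hq₂, hq₂'⟩ := hs.get (γ := α × Un) PTF.fst hk
  refine ⟨fun p => q p * q₂ p, hq.ratMul hq₂, fun p => ?_⟩
  have h1 := hq' p
  have h2 := hq₂' p
  set k := p.2.val
  set b := B p.1
  set c := C p.1
  set ε : ℝ := (1 / 2) ^ (k + b + c + 2) with hε
  have hε0 : 0 < ε := by positivity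
  have h3 := hBb p.1
  have h4 := hCb p.1
  have hpb : (1 : ℝ) ≤ 2 ^ b := one_le_pow₀ (by norm_num)
  have hpc : (1 : ℝ) ≤ 2 ^ c := one_le_pow₀ (by norm_num)
  have e1 : ε * 2 ^ b * 2 ^ c * 4 = (1 / 2) ^ k := by
    rw [hε]
    rw [pow_add, pow_add, pow_add]
    have h5 : (1 / 2 : ℝ) ^ b * 2 ^ b = 1 := by rw [← mul_pow]; norm_num
    have h6 : (1 / 2 : ℝ) ^ c * 2 ^ c = 1 := by rw [← mul_pow]; norm_num
    calc (1 / 2 : ℝ) ^ k * (1 / 2) ^ b * (1 / 2) ^ c * (1 / 2) ^ 2 * 2 ^ b * 2 ^ c * 4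
        = (1 / 2) ^ k * ((1 / 2) ^ b * 2 ^ b) * ((1 / 2) ^ c * 2 ^ c) * ((1 / 2) ^ 2 * 4) := by ring
      _ = _ := by rw [h5, h6]; norm_num
  have hε1 : ε ≤ 1 := pow_le_one₀ (by norm_num) (by norm_num)
  push_cast
  have e2 : (q p : ℝ) * (q₂ p : ℝ) - r p.1 * s p.1
      = ((q p : ℝ) - r p.1) * ((q₂ p : ℝ) - s p.1) + ((q p : ℝ) - r p.1) * s p.1
        + r p.1 * ((q₂ p : ℝ) - s p.1) := by ring
  rw [e2]
  refine (abs_add_le _ _).trans ?_
  refine (add_le_add_left (abs_add_le _ _) _).trans ?_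
  rw [abs_mul, abs_mul, abs_mul, ← e1]
  have g1 : |(q p : ℝ) - r p.1| * |(q₂ p : ℝ) - s p.1| ≤ ε * 1 :=
    mul_le_mul h1 (h2.trans hε1) (abs_nonneg _) hε0.le
  have g2 : |(q p : ℝ) - r p.1| * |s p.1| ≤ ε * 2 ^ c := mul_le_mul h1 h4 (abs_nonneg _) hε0.le
  have g3 : |r p.1| * |(q₂ p : ℝ) - s p.1| ≤ 2 ^ b * ε := mul_le_mul h3 h2 (abs_nonneg _) (by positivity)
  have g4 : ε * 2 ^ c ≤ ε * 2 ^ b * 2 ^ c := by nlinarith [mul_pos hε0 (lt_of_lt_of_le one_pos hpc)]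
  have g5 : 2 ^ b * ε ≤ ε * 2 ^ b * 2 ^ c := by nlinarith [mul_pos hε0 (lt_of_lt_of_le one_pos hpb)]
  have g6 : ε * 1 ≤ ε * 2 ^ b * 2 ^ c := by nlinarith
  nlinarith

@[fun_prop]
theorem PTR.powConst (hr : PTR r) (n : ℕ) : PTR (fun a => r a ^ n) := by
  induction n with
  | zero => simpa using PTR.one
  | succ n ih => simpa [pow_succ] using ih.mul hr

@[fun_prop]
theorem PTR.abs (hr : PTR r) : PTR (fun a => |r a|) := by
  obtain ⟨q, hq, hq'⟩ := hr
  refine ⟨fun p => |q p|, hq.ratAbs, fun p => ?_⟩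
  push_cast
  exact (abs_abs_sub_abs_le _ _).trans (hq' p)

@[fun_prop]
theorem PTR.max (hr : PTR r) (hs : PTR s) : PTR (fun a => Max.max (r a) (s a)) := by
  have h : PTR (fun a => (1 / 2 : ℚ) * (r a + s a + |r a - s a|)) :=
    (PTR.constRat (1 / 2)).mul ((hr.add hs).add (hr.sub hs).abs)
  refine h.of_eq (fun a => ?_)
  push_cast
  rcases le_total (r a) (s a) with h1 | h1
  · rw [max_eq_right h1, abs_of_nonpos (by linarith)]; ring
  · rw [max_eq_left h1, abs_of_nonneg (by linarith)]; ring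

@[fun_prop]
theorem PTR.min (hr : PTR r) (hs : PTR s) : PTR (fun a => Min.min (r a) (s a)) := by
  have h : PTR (fun a => (1 / 2 : ℚ) * (r a + s a - |r a - s a|)) :=
    (PTR.constRat (1 / 2)).mul ((hr.add hs).sub (hr.sub hs).abs)
  refine h.of_eq (fun a => ?_)
  push_cast
  rcases le_total (r a) (s a) with h1 | h1
  · rw [min_eq_left h1, abs_of_nonpos (by linarith)]; ring
  · rw [min_eq_right h1, abs_of_nonneg (by linarith)]; ring

theorem PTR.ite {p : α → Prop} [DecidablePred p] (hp : PTPred p) (hr : PTR r) (hs : PTR s) :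
    PTR (fun a => if p a then r a else s a) := by
  obtain ⟨q, hq, hq'⟩ := hr
  obtain ⟨q₂, hq₂, hq₂'⟩ := hs
  refine ⟨fun x => if p x.1 then q x else q₂ x,
    PTF.ite (p := fun x : α × Un => p x.1) (PTPred.comp hp PTF.fst) hq hq₂, fun x => ?_⟩
  by_cases h : p x.1
  · simpa [h] using hq' x
  · simpa [h] using hq₂' x

end ops

end Crest.Agent.R338.Nu
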