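import Mathlib.Analysis.SpecialFunctions.Complex.Arctan
import Mathlib.Analysis.SpecialFunctions.Trigonometric.Arctan
import Mathlib.Analysis.SpecialFunctions.Exponential
import Mathlib.Analysis.SpecificLimits.Basic
import Crest.Agent.R338.Nu0

/-!
# Row 338, numerics (helper860), part 2: sums, products, powers, inverse, sqrt, series, exp, pi
-/

set_option autoImplicit false

namespace Crest.Agent.R338.Nu

open Crest.Agent.Lib.PT

variable {α β γ : Type} [PTCode α] [PTCode β] [PTCode γ]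

theorem half_pow_add_le (k n : ℕ) : (n : ℝ) * (1 / 2) ^ (k + n) ≤ (1 / 2) ^ k := by
  have h1 : (n : ℝ) ≤ 2 ^ n := by exact_mod_cast Nat.lt_two_pow_self.le
  have h2 : (1 / 2 : ℝ) ^ n * 2 ^ n = 1 := by rw [← mul_pow]; norm_num
  calc (n : ℝ) * (1 / 2) ^ (k + n) ≤ 2 ^ n * (1 / 2) ^ (k + n) := by gcongr
    _ = (1 / 2) ^ k * ((1 / 2 : ℝ) ^ n * 2 ^ n) := by rw [pow_add]; ring
    _ = (1 / 2) ^ k := by rw [h2, mul_one]

/-- uniform PTU bound for an index below a unary bound -/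
theorem ptu_index_bound {n : α → ℕ} {B : α × Un → ℕ} (hn : PTU n) (hB : PTU B) :
    ∃ C : α → ℕ, PTU C ∧ ∀ a, ∀ i ≤ n a, B (a, Un.mk i) ≤ C a := by
  obtain ⟨p, hp⟩ := hB.pb
  refine ⟨fun a => p.eval (2 * sz a + 1 + n a), ?_, fun a i hi => (hp _).trans (eval_mono p ?_)⟩
  · exact PTU.eval p (PTU.add (PTU.add (PTU.mul (PTU.const 2) PTU.sz) (PTU.const 1)) hn)
  · simp only [sz_prod, sz_un]
    omega

/-- evaluate a unary-indexed PTF family at a truncated binary index -/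
theorem ptf_trunc {δ : Type} [PTCode δ] {q : α × Un → δ} {n : α → ℕ} (hq : PTF q) (hn : PTU n) :
    PTF (fun x : α × ℕ => q (x.1, Un.mk (Min.min x.2 (n x.1)))) :=
  PTF.comp hq (PTF.prodMk PTF.fst (PTF.natMinUn PTF.snd (PTU.comp hn PTF.fst)))

theorem ptf_sumRangeU {q : α × Un → ℚ} {n : α → ℕ} (hq : PTF q) (hn : PTU n) :
    PTF (fun a => ∑ i ∈ Finset.range (n a), q (a, Un.mk i)) :=
  (PTF.ratSumRange hn (f := fun a i => q (a, Un.mk (Min.min i (n a)))) (ptf_trunc hq hn)).of_eq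
    (fun a => Finset.sum_congr rfl (fun i hi => by
      rw [Nat.min_eq_left (Finset.mem_range.1 hi).le]))

theorem ptf_prodRangeU {q : α × Un → ℚ} {n : α → ℕ} (hq : PTF q) (hn : PTU n) :
    PTF (fun a => ∏ i ∈ Finset.range (n a), q (a, Un.mk i)) :=
  (PTF.ratProdRange hn (f := fun a i => q (a, Un.mk (Min.min i (n a)))) (ptf_trunc hq hn)).of_eq
    (fun a => Finset.prod_congr rfl (fun i hi => by
      rw [Nat.min_eq_left (Finset.mem_range.1 hi).le]))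

/-- natural number sums with unary index -/
theorem ptf_natSumRangeU {q : α → ℕ → ℕ} {n : α → ℕ} (hq : PTF (fun p : α × Un => q p.1 p.2.val))
    (hn : PTU n) : PTF (fun a => ∑ i ∈ Finset.range (n a), q a i) :=
  (PTF.natSumRange hn (f := fun a i => q a (Min.min i (n a)))
    (PTF.comp (g := fun p : α × Un => q p.1 p.2.val)
      (f := fun x : α × ℕ => (x.1, Un.mk (Min.min x.2 (n x.1)))) hq
      (PTF.prodMk PTF.fst (PTF.natMinUn PTF.snd (PTU.comp hn PTF.fst))))).of_eq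
    (fun a => Finset.sum_congr rfl (fun i hi => by
      rw [Nat.min_eq_left (Finset.mem_range.1 hi).le]))

/-- **finite sums** of unary length; the summand sees a unary index -/
theorem PTR.sumRange {n : α → ℕ} {r : α → ℕ → ℝ} (hn : PTU n)
    (hr : PTR (fun p : α × Un => r p.1 p.2.val)) :
    PTR (fun a => ∑ i ∈ Finset.range (n a), r a i) := by
  have hn1 : PTU (fun p : α × Un => n p.1) := PTU.comp hn PTF.fst
  obtain ⟨q, hq, hq'⟩ := hr.get (γ := (α × Un) × Un) (f := fun c => (c.1.1, c.2))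
    (k := fun c => c.1.2.val + n c.1.1) (by fun_prop)
    (PTU.add (PTU.val (PTF.comp PTF.snd PTF.fst)) (PTU.comp hn (PTF.comp PTF.fst PTF.fst)))
  refine ⟨fun p => ∑ i ∈ Finset.range (n p.1), q (p, Un.mk i), ptf_sumRangeU hq hn1, fun p => ?_⟩
  push_cast
  rw [← Finset.sum_sub_distrib]
  refine (Finset.abs_sum_le_sum_abs _ _).trans ?_
  calc ∑ i ∈ Finset.range (n p.1), |(q (p, Un.mk i) : ℝ) - r p.1 i|
      ≤ ∑ _i ∈ Finset.range (n p.1), (1 / 2 : ℝ) ^ (p.2.val + n p.1) :=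
        Finset.sum_le_sum (fun i _ => hq' (p, Un.mk i))
    _ = (n p.1 : ℝ) * (1 / 2) ^ (p.2.val + n p.1) := by
        rw [Finset.sum_const, Finset.card_range, nsmul_eq_mul]
    _ ≤ _ := half_pow_add_le _ _

theorem abs_prod_sub_prod_le {n : ℕ} {x y : ℕ → ℝ} {ε R : ℝ} (hε : 0 ≤ ε) (hε1 : ε ≤ 1) (hR : 0 ≤ R)
    (hxy : ∀ i < n, |x i - y i| ≤ ε) (hy : ∀ i < n, |y i| ≤ R) :
    |∏ i ∈ Finset.range n, x i - ∏ i ∈ Finset.range n, y i| ≤ n * ε * (R + 1) ^ n := by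
  induction n with
  | zero => simp
  | succ n ih =>
    have ih' := ih (fun i hi => hxy i (by omega)) (fun i hi => hy i (by omega))
    rw [Finset.prod_range_succ, Finset.prod_range_succ]
    set P := ∏ i ∈ Finset.range n, x i
    set Q := ∏ i ∈ Finset.range n, y i with hQ
    have hQb : |Q| ≤ (R + 1) ^ n := by
      rw [hQ, Finset.abs_prod]
      calc ∏ i ∈ Finset.range n, |y i| ≤ ∏ _i ∈ Finset.range n, (R + 1) :=
            Finset.prod_le_prod (fun _ _ => abs_nonneg _) (fun i hi =>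
              (hy i (by have := Finset.mem_range.1 hi; omega)).trans (by linarith))
        _ = (R + 1) ^ n := by rw [Finset.prod_const, Finset.card_range]
    have h1 := hxy n (by omega)
    have h2 := hy n (by omega)
    have h3 : |x n| ≤ R + 1 := by
      have := abs_sub_abs_le_abs_sub (x n) (y n)
      linarith
    have e : P * x n - Q * y n = (P - Q) * x n + Q * (x n - y n) := by ring
    rw [e]
    refine (abs_add_le _ _).trans ?_
    rw [abs_mul, abs_mul]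
    have g1 : |P - Q| * |x n| ≤ (n * ε * (R + 1) ^ n) * (R + 1) :=
      mul_le_mul ih' h3 (abs_nonneg _) (by positivity)
    have g2 : |Q| * |x n - y n| ≤ (R + 1) ^ n * ε := mul_le_mul hQb h1 (abs_nonneg _) (by positivity)
    have g3 : (R + 1) ^ n * ε ≤ (R + 1) ^ (n + 1) * ε := by
      gcongr
      · linarith
      · omega
    push_cast
    calc _ ≤ (n * ε * (R + 1) ^ n) * (R + 1) + (R + 1) ^ (n + 1) * ε := by linarith
      _ = _ := by rw [pow_succ]; ring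

/-- **finite products** of unary length -/
theorem PTR.prodRange {n : α → ℕ} {r : α → ℕ → ℝ} (hn : PTU n)
    (hr : PTR (fun p : α × Un => r p.1 p.2.val)) :
    PTR (fun a => ∏ i ∈ Finset.range (n a), r a i) := by
  have hn1 : PTU (fun p : α × Un => n p.1) := PTU.comp hn PTF.fst
  obtain ⟨B, hB, hBb⟩ := hr.bound
  obtain ⟨C, hC, hCb⟩ := ptu_index_bound hn hB
  have hC1 : PTU (fun p : α × Un => C p.1) := PTU.comp hC PTF.fst
  have hk : PTU (fun c : α × Un => c.2.val + n c.1 + n c.1 * (C c.1 + 1)) :=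
    PTU.add (PTU.add ptu_snd hn1) (PTU.mul hn1 (PTU.succ hC1))
  obtain ⟨q, hq, hq'⟩ := hr.get (γ := (α × Un) × Un) (f := fun c => (c.1.1, c.2))
    (k := fun c => c.1.2.val + n c.1.1 + n c.1.1 * (C c.1.1 + 1)) (by fun_prop)
    (PTU.comp hk PTF.fst)
  refine ⟨fun p => ∏ i ∈ Finset.range (n p.1), q (p, Un.mk i), ptf_prodRangeU hq hn1, fun p => ?_⟩
  push_cast
  set ε : ℝ := (1 / 2 : ℝ) ^ (p.2.val + n p.1 + n p.1 * (C p.1 + 1)) with hε
  have hε0 : 0 < ε := by positivity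
  have hε1 : ε ≤ 1 := pow_le_one₀ (by norm_num) (by norm_num)
  refine (abs_prod_sub_prod_le (R := 2 ^ C p.1) hε0.le hε1 (by positivity)
    (fun i _ => hq' (p, Un.mk i)) (fun i hi => ?_)).trans ?_
  · exact (hBb (p.1, Un.mk i)).trans
      (pow_le_pow_right₀ (by norm_num) (hCb p.1 i hi.le))
  · have h1 : (2 : ℝ) ^ C p.1 + 1 ≤ 2 ^ (C p.1 + 1) := by
      have : (1 : ℝ) ≤ 2 ^ C p.1 := one_le_pow₀ (by norm_num)
      rw [pow_succ]; linarith
    have h2 : ((2 : ℝ) ^ C p.1 + 1) ^ n p.1 ≤ 2 ^ (n p.1 * (C p.1 + 1)) := by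
      calc ((2 : ℝ) ^ C p.1 + 1) ^ n p.1 ≤ (2 ^ (C p.1 + 1)) ^ n p.1 :=
            pow_le_pow_left₀ (by positivity) h1 _
        _ = _ := by rw [← pow_mul, mul_comm]
    calc (n p.1 : ℝ) * ε * ((2 : ℝ) ^ C p.1 + 1) ^ n p.1
        ≤ (n p.1 : ℝ) * ε * 2 ^ (n p.1 * (C p.1 + 1)) := by gcongr
      _ = (n p.1 : ℝ) * (1 / 2) ^ (p.2.val + n p.1) *
            ((1 / 2 : ℝ) ^ (n p.1 * (C p.1 + 1)) * 2 ^ (n p.1 * (C p.1 + 1))) := by
          rw [hε, pow_add]; ring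
      _ = (n p.1 : ℝ) * (1 / 2) ^ (p.2.val + n p.1) := by
          rw [← mul_pow]; norm_num
      _ ≤ _ := half_pow_add_le _ _

/-- powers with unary exponent -/
theorem PTR.pow {r : α → ℝ} {k : α → ℕ} (hr : PTR r) (hk : PTU k) : PTR (fun a => r a ^ k a) :=
  (PTR.prodRange hk (r := fun a _ => r a) (hr.comp PTF.fst)).of_eq
    (fun a => by rw [Finset.prod_const, Finset.card_range])

/-- inverse, with a unary-exponent lower bound `2^-B ≤ |r|` -/
theorem PTR.inv {r : α → ℝ} (hr : PTR r) {B : α → ℕ} (hB : PTU B)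
    (h : ∀ a, (1 / 2 : ℝ) ^ B a ≤ |r a|) : PTR (fun a => (r a)⁻¹) := by
  have hB1 : PTU (fun p : α × Un => B p.1) := PTU.comp hB PTF.fst
  obtain ⟨q, hq, hq'⟩ := hr.get (γ := α × Un) (k := fun p => p.2.val + B p.1 + B p.1 + 1) PTF.fst
    (PTU.succ (PTU.add (PTU.add ptu_snd hB1) hB1))
  refine ⟨fun p => (q p)⁻¹, hq.ratInv, fun p => ?_⟩
  have h1 := hq' p
  have h2 := h p.1
  set b : ℝ := (1 / 2 : ℝ) ^ B p.1 with hb
  have hb0 : 0 < b := by positivity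
  have hb1 : b ≤ 1 := pow_le_one₀ (by norm_num) (by norm_num)
  have hk0 : (0 : ℝ) < (1 / 2) ^ p.2.val := by positivity
  have hk1 : (1 / 2 : ℝ) ^ p.2.val ≤ 1 := pow_le_one₀ (by norm_num) (by norm_num)
  have e : (1 / 2 : ℝ) ^ (p.2.val + B p.1 + B p.1 + 1) = (1 / 2) ^ p.2.val * b * b / 2 := by
    rw [hb, pow_succ, pow_add, pow_add]; ring
  rw [e] at h1
  have hr0 : r p.1 ≠ 0 := by
    intro h0; rw [h0, abs_zero] at h2; linarith
  have hqb : b / 2 ≤ |(q p : ℝ)| := by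
    have h3 := abs_sub_abs_le_abs_sub (r p.1) (q p : ℝ)
    rw [abs_sub_comm] at h3
    have h4 : (1 / 2 : ℝ) ^ p.2.val * b * b / 2 ≤ b / 2 := by
      have : (1 / 2 : ℝ) ^ p.2.val * b * b ≤ 1 * b := by
        have h5 : (1 / 2 : ℝ) ^ p.2.val * b ≤ 1 := mul_le_one₀ hk1 hb0.le hb1
        exact mul_le_mul_of_nonneg_right h5 hb0.le
      linarith
    linarith
  have hq0 : (q p : ℝ) ≠ 0 := by
    intro h0; rw [h0, abs_zero] at hqb; linarith
  push_cast
  have e2 : ((q p : ℝ))⁻¹ - (r p.1)⁻¹ = (r p.1 - q p) / (q p * r p.1) := by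
    field_simp
  rw [e2, abs_div, abs_mul, div_le_iff₀ (by positivity), abs_sub_comm]
  refine h1.trans ?_
  calc (1 / 2 : ℝ) ^ p.2.val * b * b / 2 = (1 / 2) ^ p.2.val * ((b / 2) * b) := by ring
    _ ≤ (1 / 2) ^ p.2.val * (|(q p : ℝ)| * |r p.1|) := by
        gcongr

/-- inverse with a lower bound `1 ≤ c |r|`, `c` unary -/
theorem PTR.inv' {r : α → ℝ} (hr : PTR r) {c : α → ℕ} (hc : PTU c)
    (h : ∀ a, 1 ≤ (c a : ℝ) * |r a|) : PTR (fun a => (r a)⁻¹) := by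
  refine hr.inv hc (fun a => ?_)
  have h1 := h a
  have h2 : (c a : ℝ) ≤ 2 ^ c a := by exact_mod_cast Nat.lt_two_pow_self.le
  have h3 : 1 ≤ (2 : ℝ) ^ c a * |r a| := h1.trans (mul_le_mul_of_nonneg_right h2 (abs_nonneg _))
  have h4 : (1 / 2 : ℝ) ^ c a * 2 ^ c a = 1 := by rw [← mul_pow]; norm_num
  have h5 : (0 : ℝ) < (1 / 2) ^ c a := by positivity
  calc (1 / 2 : ℝ) ^ c a = (1 / 2) ^ c a * 1 := by ring
    _ ≤ (1 / 2) ^ c a * (2 ^ c a * |r a|) := mul_le_mul_of_nonneg_left h3 h5.le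
    _ = ((1 / 2) ^ c a * 2 ^ c a) * |r a| := by ring
    _ = |r a| := by rw [h4, one_mul]

/-- exact rational inverse -/
@[fun_prop]
theorem PTR.natInv {f : α → ℕ} (hf : PTF f) : PTR (fun a => ((f a : ℕ) : ℝ)⁻¹) :=
  (PTR.ratCast hf.ratNatCast.ratInv).of_eq (fun a => by push_cast; rfl)

@[fun_prop]
theorem PTR.intInv {f : α → ℤ} (hf : PTF f) : PTR (fun a => ((f a : ℤ) : ℝ)⁻¹) :=
  (PTR.ratCast hf.ratIntCast.ratInv).of_eq (fun a => by push_cast; rfl)

@[fun_prop]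
theorem PTR.ratInv {f : α → ℚ} (hf : PTF f) : PTR (fun a => ((f a : ℚ) : ℝ)⁻¹) :=
  (PTR.ratCast hf.ratInv).of_eq (fun a => by push_cast; rfl)

theorem PTR.div_of_inv {r s : α → ℝ} (hr : PTR r) (hs : PTR (fun a => (s a)⁻¹)) :
    PTR (fun a => r a / s a) := (hr.mul hs).of_eq (fun _ => (div_eq_mul_inv _ _).symm)

@[fun_prop]
theorem PTR.divNat {r : α → ℝ} {f : α → ℕ} (hr : PTR r) (hf : PTF f) :
    PTR (fun a => r a / ((f a : ℕ) : ℝ)) := hr.div_of_inv (PTR.natInv hf)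

@[fun_prop]
theorem PTR.divOfNat {r : α → ℝ} (hr : PTR r) (n : ℕ) [n.AtLeastTwo] :
    PTR (fun a => r a / (OfNat.ofNat n : ℝ)) :=
  (hr.divNat (PTF.const (OfNat.ofNat n : ℕ))).of_eq (fun a => by norm_cast)

theorem PTR.div {r s : α → ℝ} (hr : PTR r) (hs : PTR s) {c : α → ℕ} (hc : PTU c)
    (h : ∀ a, 1 ≤ (c a : ℝ) * |s a|) : PTR (fun a => r a / s a) := hr.div_of_inv (hs.inv' hc h)

/-! ### square root -/

theorem abs_sqrt_sub_sqrt_le (x y : ℝ) : |√x - √y| ≤ √|x - y| := by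
  wlog h : y ≤ x generalizing x y with H
  · rw [abs_sub_comm, abs_sub_comm x y]
    exact H y x (le_of_not_ge h)
  have h1 : √y ≤ √x := Real.sqrt_le_sqrt h
  rw [abs_of_nonneg (by linarith), abs_of_nonneg (by linarith)]
  rcases le_or_gt 0 y with hy | hy
  · have h2 : √x ≤ √y + √(x - y) := by
      rw [Real.sqrt_le_left (by positivity)]
      have e1 := Real.sq_sqrt hy
      have e2 := Real.sq_sqrt (sub_nonneg.2 h)
      nlinarith [Real.sqrt_nonneg y, Real.sqrt_nonneg (x - y)]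
    linarith
  · rw [Real.sqrt_eq_zero_of_nonpos hy.le, sub_zero]
    exact Real.sqrt_le_sqrt (by linarith)

/-- rational square root to `K` binary digits -/
def ratSqrt (q : ℚ) (K : ℕ) : ℚ := (Nat.sqrt (⌊q * (4 : ℚ) ^ K⌋.toNat) : ℚ) / (2 : ℚ) ^ K

theorem ratSqrt_spec (q : ℚ) (K : ℕ) : |((ratSqrt q K : ℚ) : ℝ) - √(q : ℝ)| ≤ (1 / 2) ^ K := by
  set m := ⌊q * (4 : ℚ) ^ K⌋.toNat with hm
  have hK : (0 : ℝ) < 2 ^ K := by positivity
  have key : |(Nat.sqrt m : ℝ) - √(q : ℝ) * 2 ^ K| ≤ 1 := by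
    rcases le_or_gt 0 q with hq | hq
    · have hm0 : (0 : ℤ) ≤ ⌊q * (4 : ℚ) ^ K⌋ := Int.floor_nonneg.2 (by positivity)
      have hmz : ((m : ℤ) : ℚ) = (⌊q * (4 : ℚ) ^ K⌋ : ℚ) := by
        rw [hm, Int.toNat_of_nonneg hm0]
      have h1 : (m : ℚ) ≤ q * 4 ^ K := by
        have := Int.floor_le (q * (4 : ℚ) ^ K)
        rw [← hmz] at this
        exact_mod_cast this
      have h2 : q * 4 ^ K < (m : ℚ) + 1 := by
        have := Int.lt_floor_add_one (q * (4 : ℚ) ^ K)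
        rw [← hmz] at this
        exact_mod_cast this
      have h1' : (m : ℝ) ≤ (q : ℝ) * 4 ^ K := by exact_mod_cast h1
      have h2' : (q : ℝ) * 4 ^ K < (m : ℝ) + 1 := by exact_mod_cast h2
      have e4 : √(q : ℝ) * 2 ^ K = √((q : ℝ) * 4 ^ K) := by
        have hq' : (0 : ℝ) ≤ q := by exact_mod_cast hq
        rw [Real.sqrt_mul hq', show (4 : ℝ) ^ K = (2 ^ K) ^ 2 by rw [← pow_mul, mul_comm, pow_mul]; norm_num,
          Real.sqrt_sq hK.le]
      rw [e4]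
      have s1 : (Nat.sqrt m : ℝ) ≤ √((q : ℝ) * 4 ^ K) := by
        apply Real.le_sqrt_of_sq_le
        have : (Nat.sqrt m) * (Nat.sqrt m) ≤ m := Nat.sqrt_le m
        have h5 : ((Nat.sqrt m : ℝ)) ^ 2 ≤ m := by rw [sq]; exact_mod_cast this
        linarith
      have s2 : √((q : ℝ) * 4 ^ K) ≤ (Nat.sqrt m : ℝ) + 1 := by
        rw [Real.sqrt_le_left (by positivity)]
        have : m < (Nat.sqrt m + 1) * (Nat.sqrt m + 1) := Nat.lt_succ_sqrt m
        have h5 : (m : ℝ) + 1 ≤ ((Nat.sqrt m : ℝ) + 1) ^ 2 := by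
          rw [sq]; exact_mod_cast this
        linarith
      rw [abs_le]
      constructor <;> linarith
    · have hm0 : m = 0 := by
        rw [hm, Int.toNat_eq_zero]
        have h3 : q * (4 : ℚ) ^ K < 0 := mul_neg_of_neg_of_pos hq (by positivity)
        exact (Int.floor_lt.2 (by exact_mod_cast h3)).le
      have hq' : (q : ℝ) ≤ 0 := by exact_mod_cast hq.le
      rw [hm0, Real.sqrt_eq_zero_of_nonpos hq']
      simp
  have e : ((ratSqrt q K : ℚ) : ℝ) - √(q : ℝ) = ((Nat.sqrt m : ℝ) - √(q : ℝ) * 2 ^ K) * (1 / 2) ^ K := by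
    have h6 : (1 / 2 : ℝ) ^ K = (2 ^ K)⁻¹ := by rw [one_div, inv_pow]
    rw [h6]
    unfold ratSqrt
    push_cast
    rw [← hm]
    field_simp
  rw [e, abs_mul, abs_of_nonneg (by positivity : (0 : ℝ) ≤ (1 / 2) ^ K)]
  calc _ ≤ 1 * (1 / 2 : ℝ) ^ K := mul_le_mul_of_nonneg_right key (by positivity)
    _ = _ := one_mul _

theorem ptf_ratSqrt {q : α → ℚ} {K : α → ℕ} (hq : PTF q) (hK : PTU K) :
    PTF (fun a => ratSqrt (q a) (K a)) := by
  unfold ratSqrt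
  have h4 : PTF (fun a => (4 : ℚ) ^ K a) := PTF.ratPow (PTF.const 4) hK
  have h2 : PTF (fun a => (2 : ℚ) ^ K a) := PTF.ratPow (PTF.const 2) hK
  fun_prop

@[fun_prop]
theorem PTR.sqrt {r : α → ℝ} (hr : PTR r) : PTR (fun a => √(r a)) := by
  obtain ⟨q, hq, hq'⟩ := hr.get (γ := α × Un) (k := fun p => 2 * (p.2.val + 1)) PTF.fst
    (PTU.mul (PTU.const 2) (PTU.succ ptu_snd))
  refine ⟨fun p => ratSqrt (q p) (p.2.val + 1), ptf_ratSqrt hq (PTU.succ ptu_snd), fun p => ?_⟩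
  have h1 := ratSqrt_spec (q p) (p.2.val + 1)
  have h2 := abs_sqrt_sub_sqrt_le (q p : ℝ) (r p.1)
  have h3 : √|(q p : ℝ) - r p.1| ≤ (1 / 2) ^ (p.2.val + 1) := by
    rw [Real.sqrt_le_left (by positivity), ← pow_mul, mul_comm (p.2.val + 1) 2]
    exact hq' p
  calc |((ratSqrt (q p) (p.2.val + 1) : ℚ) : ℝ) - √(r p.1)|
      = |(((ratSqrt (q p) (p.2.val + 1) : ℚ) : ℝ) - √(q p : ℝ)) + (√(q p : ℝ) - √(r p.1))| := by ring_nf
    _ ≤ _ + _ := abs_add_le _ _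
    _ ≤ (1 / 2) ^ (p.2.val + 1) + (1 / 2) ^ (p.2.val + 1) := add_le_add h1 (h2.trans h3)
    _ = (1 / 2) ^ p.2.val := by rw [pow_succ]; ring

/-! ### limits and series -/

/-- a real quantity which is a `2^-k`-limit of computable ones is computable -/
theorem PTR.limit {S : α → ℝ} {R : α × Un → ℝ} (hR : PTR R)
    (h : ∀ p : α × Un, |R p - S p.1| ≤ (1 / 2) ^ p.2.val) : PTR S := by
  obtain ⟨q, hq, hq'⟩ := hR.get (γ := α × Un) (f := fun p => (p.1, Un.mk (p.2.val + 1)))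
    (k := fun p => p.2.val + 1)
    (PTF.prodMk PTF.fst (PTF.unMk (PTU.succ ptu_snd))) (PTU.succ ptu_snd)
  refine ⟨q, hq, fun p => ?_⟩
  have h1 := hq' p
  have h2 := h (p.1, Un.mk (p.2.val + 1))
  simp only at h2
  calc |(q p : ℝ) - S p.1| = |((q p : ℝ) - R (p.1, Un.mk (p.2.val + 1)))
        + (R (p.1, Un.mk (p.2.val + 1)) - S p.1)| := by ring_nf
    _ ≤ _ + _ := abs_add_le _ _
    _ ≤ (1 / 2) ^ (p.2.val + 1) + (1 / 2) ^ (p.2.val + 1) := add_le_add h1 h2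
    _ = (1 / 2) ^ p.2.val := by rw [pow_succ]; ring

/-- **convergent series** with geometric domination `|c a j| ≤ 2^(B a) 2^-j`, `B` unary -/
theorem PTR.hasSum {c : α → ℕ → ℝ} {S : α → ℝ} (hc : PTR (fun p : α × Un => c p.1 p.2.val))
    {B : α → ℕ} (hB : PTU B) (hbd : ∀ a j, |c a j| ≤ 2 ^ B a * (1 / 2) ^ j)
    (hS : ∀ a, HasSum (c a) (S a)) : PTR S := by
  have hJ : PTU (fun p : α × Un => B p.1 + 1 + p.2.val) :=
    PTU.add (PTU.succ (PTU.comp hB PTF.fst)) ptu_snd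
  have h1 : PTR (fun p : α × Un => ∑ j ∈ Finset.range (B p.1 + 1 + p.2.val), c p.1 j) :=
    PTR.sumRange (r := fun p j => c p.1 j) hJ
      (hc.comp (γ := (α × Un) × Un) (f := fun x => (x.1.1, x.2)) (by fun_prop))
  refine PTR.limit h1 (fun p => ?_)
  set J := B p.1 + 1 + p.2.val with hJd
  have hgeo : HasSum (fun j : ℕ => (2 : ℝ) ^ B p.1 * (1 / 2) ^ (j + J)) (2 ^ B p.1 * (1 / 2) ^ J * 2) := by
    have h2 := (hasSum_geometric_two).mul_left ((2 : ℝ) ^ B p.1 * (1 / 2) ^ J)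
    refine h2.congr_fun ?_ |> fun h => h
    intro j
    rw [pow_add]; ring
  have htail : HasSum (fun j => c p.1 (j + J)) (S p.1 - ∑ j ∈ Finset.range J, c p.1 j) :=
    (hasSum_nat_add_iff' J).2 (hS p.1)
  have h3 : |S p.1 - ∑ j ∈ Finset.range J, c p.1 j| ≤ 2 ^ B p.1 * (1 / 2) ^ J * 2 := by
    have h4 : ‖S p.1 - ∑ j ∈ Finset.range J, c p.1 j‖ ≤ 2 ^ B p.1 * (1 / 2) ^ J * 2 := by
      rw [← htail.tsum_eq]
      exact tsum_of_norm_bounded hgeo (fun j => hbd p.1 (j + J))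
    simpa using h4
  rw [abs_sub_comm]
  refine h3.trans (le_of_eq ?_)
  have e1 : (2 : ℝ) ^ B p.1 * (1 / 2) ^ B p.1 = 1 := by rw [← mul_pow]; norm_num
  rw [hJd, pow_add, pow_add, pow_one]
  calc (2 : ℝ) ^ B p.1 * ((1 / 2) ^ B p.1 * (1 / 2) * (1 / 2) ^ p.2.val) * 2
      = (2 ^ B p.1 * (1 / 2) ^ B p.1) * (1 / 2) ^ p.2.val := by ring
    _ = _ := by rw [e1, one_mul]

theorem PTR.factorial {n : α → ℕ} (hn : PTU n) : PTR (fun a => ((n a).factorial : ℝ)) :=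
  PTR.natCast (PTF.natFactorial hn)

theorem PTR.factorialInv {n : α → ℕ} (hn : PTU n) : PTR (fun a => ((n a).factorial : ℝ)⁻¹) :=
  PTR.natInv (PTF.natFactorial hn)

theorem exp_term_bound {x : ℝ} {B : ℕ} (hx : |x| ≤ B) (j : ℕ) :
    |x| ^ j / (j.factorial : ℝ) ≤ 2 ^ (3 * B) * (1 / 2) ^ j := by
  have h1 : (2 * |x|) ^ j / (j.factorial : ℝ) ≤ Real.exp (2 * |x|) :=
    Real.pow_div_factorial_le_exp _ (by positivity) j
  have h2 : Real.exp (2 * |x|) ≤ 2 ^ (3 * B) := by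
    have h3 : Real.exp 1 ≤ 2.7182818286 := Real.exp_one_lt_d9.le
    calc Real.exp (2 * |x|) ≤ Real.exp (2 * B) := Real.exp_le_exp.2 (by linarith)
      _ = (Real.exp 1 ^ 2) ^ B := by
          rw [← Real.exp_nat_mul, ← Real.exp_nat_mul]; congr 1; push_cast; ring
      _ ≤ (2 ^ 3) ^ B := by
          refine pow_le_pow_left₀ (by positivity) ?_ _
          have := Real.exp_pos 1
          nlinarith
      _ = _ := by rw [← pow_mul]
  have e : |x| ^ j / (j.factorial : ℝ) = (2 * |x|) ^ j / (j.factorial : ℝ) * (1 / 2) ^ j := by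
    rw [mul_pow]
    have : (2 : ℝ) ^ j * (1 / 2) ^ j = 1 := by rw [← mul_pow]; norm_num
    calc |x| ^ j / (j.factorial : ℝ) = |x| ^ j / (j.factorial : ℝ) * (2 ^ j * (1 / 2) ^ j) := by
          rw [this, mul_one]
      _ = _ := by ring
  rw [e]
  exact mul_le_mul_of_nonneg_right (h1.trans h2) (by positivity)

/-- exponential of unary-bounded arguments -/
theorem PTR.exp {r : α → ℝ} (hr : PTR r) {B : α → ℕ} (hB : PTU B) (h : ∀ a, |r a| ≤ B a) :
    PTR (fun a => Real.exp (r a)) := by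
  refine PTR.hasSum (c := fun a j => r a ^ j / (j.factorial : ℝ)) (B := fun a => 3 * B a) ?_
    (PTU.mul (PTU.const 3) hB) (fun a j => ?_) (fun a => ?_)
  · have h1 : PTR (fun p : α × Un => r p.1 ^ p.2.val) := PTR.pow (hr.comp PTF.fst) ptu_snd
    exact h1.div_of_inv (PTR.factorialInv ptu_snd)
  · rw [abs_div, abs_pow, abs_of_nonneg (by positivity : (0 : ℝ) ≤ (j.factorial : ℝ))]
    exact exp_term_bound (h a) j
  · have := NormedSpace.expSeries_div_hasSum_exp (𝔸 := ℝ) (r a)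
    rwa [← Real.exp_eq_exp_ℝ] at this

theorem ptr_arctan_inv (n : ℕ) (hn : 2 ≤ n) : PTR (fun _ : α => Real.arctan ((n : ℝ)⁻¹)) := by
  have hn' : (2 : ℝ) ≤ n := by exact_mod_cast hn
  have hx0 : (0 : ℝ) < (n : ℝ)⁻¹ := by positivity
  have hx : (n : ℝ)⁻¹ ≤ 1 / 2 := by
    rw [one_div]; exact inv_anti₀ (by norm_num) hn'
  refine PTR.hasSum (c := fun _ j => (-1) ^ j * ((n : ℝ)⁻¹) ^ (2 * j + 1) / ((2 * j + 1 : ℕ) : ℝ))
    (B := fun _ => 0) ?_ (PTU.const 0) (fun a j => ?_) (fun a => ?_)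
  · have h1 : PTR (fun p : α × Un => (-1 : ℝ) ^ p.2.val) := PTR.pow (PTR.one.neg) ptu_snd
    have hu : PTU (fun p : α × Un => 2 * p.2.val + 1) := PTU.succ (PTU.mul (PTU.const 2) ptu_snd)
    have h2 : PTR (fun p : α × Un => ((n : ℝ)⁻¹) ^ (2 * p.2.val + 1)) :=
      PTR.pow (PTR.natInv (PTF.const n)) hu
    exact (h1.mul h2).divNat hu.toPTF
  · have h1 : |(-1 : ℝ) ^ j * ((n : ℝ)⁻¹) ^ (2 * j + 1) / ((2 * j + 1 : ℕ) : ℝ)|
        = ((n : ℝ)⁻¹) ^ (2 * j + 1) / ((2 * j + 1 : ℕ) : ℝ) := by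
      rw [abs_div, abs_mul, abs_pow, abs_neg, abs_one, one_pow, one_mul,
        abs_of_nonneg (by positivity : (0 : ℝ) ≤ ((n : ℝ)⁻¹) ^ (2 * j + 1)),
        abs_of_nonneg (by positivity : (0 : ℝ) ≤ ((2 * j + 1 : ℕ) : ℝ))]
    rw [h1, pow_zero, one_mul]
    have h2 : ((n : ℝ)⁻¹) ^ (2 * j + 1) ≤ (1 / 2) ^ j := by
      calc ((n : ℝ)⁻¹) ^ (2 * j + 1) ≤ (1 / 2) ^ (2 * j + 1) := pow_le_pow_left₀ hx0.le hx _
        _ ≤ (1 / 2) ^ j := pow_le_pow_of_le_one (by norm_num) (by norm_num) (by omega)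
    refine (div_le_self (by positivity) ?_).trans h2
    push_cast
    have : (0 : ℝ) ≤ j := by positivity
    linarith
  · exact Real.hasSum_arctan (by
      rw [Real.norm_eq_abs, abs_of_pos hx0]; linarith)

@[fun_prop]
theorem PTR.pi : PTR (fun _ : α => Real.pi) := by
  have h1 : PTR (fun _ : α => Real.arctan ((5 : ℕ) : ℝ)⁻¹) := ptr_arctan_inv 5 (by norm_num)
  have h2 : PTR (fun _ : α => Real.arctan ((239 : ℕ) : ℝ)⁻¹) := ptr_arctan_inv 239 (by norm_num)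
  refine (((PTR.ofNat 4).mul (((PTR.ofNat 4).mul h1).sub h2))).of_eq (fun _ => ?_)
  have := Real.four_mul_arctan_inv_5_sub_arctan_inv_239
  push_cast
  rw [this]
  ring

theorem PTR.piInv : PTR (fun _ : α => (Real.pi)⁻¹) :=
  PTR.pi.inv' (PTU.const 1) (fun _ => by
    rw [abs_of_pos Real.pi_pos]
    have := Real.pi_gt_three
    push_cast
    linarith)

end Crest.Agent.R338.Nu
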