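import Crest.Agent.R338.CF3
import Crest.Agent.R338.Nu1

/-!
# Row 338, module CFnu (helper608): the Coulomb integrals are computable in polynomial time

`ptr_W`: `PTR (fun x => CE.W (a x) (b x) (c x) (d x))` when all components of the multi-indices are unary.
-/

set_option autoImplicit false

open Real Finset

namespace Crest.Agent.R338.CF

open Crest.Agent.Lib.PT Crest.Agent.R338.Nu

variable {α : Type} [PTCode α]

theorem ptu_half {n : α → ℕ} (hn : PTU n) : PTU (fun x => n x / 2) :=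
  (PTF.natMinUn (PTF.natDiv hn.toPTF (PTF.const 2)) hn).of_eq
    (fun x => min_eq_left (Nat.div_le_self _ _))

theorem pt_even {n : α → ℕ} (hn : PTF n) : PTPred (fun x => Even (n x)) :=
  (PTPred.natEq (PTF.natMod hn (PTF.const 2)) (PTF.const 0)).of_iff
    (fun x => by rw [Nat.even_iff])

theorem ptf_choose {n k : α → ℕ} (hn : PTU n) (hk : PTU k) : PTF (fun x => (n x).choose (k x)) := by
  have h1 : PTF (fun x => if k x ≤ n x then
      (n x).factorial / ((k x).factorial * (n x - k x).factorial) else 0) :=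
    PTF.ite (PTU.le hk hn)
      (PTF.natDiv (PTF.natFactorial hn) (PTF.natMul (PTF.natFactorial hk)
        (PTF.natFactorial (PTU.sub hn hk)))) (PTF.const 0)
  refine h1.of_eq (fun x => ?_)
  split_ifs with h
  · exact (Nat.choose_eq_factorial_div_factorial h).symm
  · exact (Nat.choose_eq_zero_of_lt (by omega)).symm

theorem ptf_kap {a b j : α → ℕ} (ha : PTU a) (hb : PTU b) (hj : PTU j) :
    PTF (fun x => HL.kap (a x) (b x) (j x)) := by
  unfold HL.kap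
  exact PTF.natMul (PTF.natMul (PTF.natMul (ptf_choose ha hj) (ptf_choose hb hj))
    (PTF.natFactorial hj)) (PTF.natPow (PTF.const 2) hj)

theorem ptf_df {r : α → ℕ} (hr : PTU r) : PTF (fun x => HL.df (r x)) := by
  unfold HL.df
  exact PTF.natProdRange hr (f := fun _ i => 2 * i + 1)
    (PTF.natAdd (PTF.natMul (PTF.const 2) PTF.snd) (PTF.const 1))

theorem ptu_e4 {a b c d j k : α → ℕ} (ha : PTU a) (hb : PTU b) (hc : PTU c) (hd : PTU d)
    (hj : PTU j) (hk : PTU k) : PTU (fun x => e4 (a x) (b x) (c x) (d x) (j x) (k x)) := by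
  unfold e4
  exact ptu_half (PTU.add (PTU.sub (PTU.add ha hb) (PTU.mul (PTU.const 2) hj))
    (PTU.sub (PTU.add hc hd) (PTU.mul (PTU.const 2) hk)))

theorem ptr_w4 {a b c d j k : α → ℕ} (ha : PTU a) (hb : PTU b) (hc : PTU c) (hd : PTU d)
    (hj : PTU j) (hk : PTU k) :
    PTR (fun x => (w4 (a x) (b x) (c x) (d x) (j x) (k x) : ℝ)) := by
  have he := ptu_e4 ha hb hc hd hj hk
  have h1 : PTR (fun x => if Even (a x + b x + (c x + d x)) then
      (HL.kap (a x) (b x) (j x) : ℝ) * (HL.kap (c x) (d x) (k x) : ℝ) * ((-1) ^ (c x + d x) *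
      ((-1) ^ (e4 (a x) (b x) (c x) (d x) (j x) (k x)) *
        (HL.df (e4 (a x) (b x) (c x) (d x) (j x) (k x)) : ℝ))) else 0) := by
    refine PTR.ite (pt_even (PTF.natAdd (PTF.natAdd ha.toPTF hb.toPTF)
      (PTF.natAdd hc.toPTF hd.toPTF))) ?_ PTR.zero
    refine PTR.mul (PTR.mul (PTR.natCast (ptf_kap ha hb hj)) (PTR.natCast (ptf_kap hc hd hk))) ?_
    exact PTR.mul (PTR.pow (PTR.neg PTR.one) (PTU.add hc hd))
      (PTR.mul (PTR.pow (PTR.neg PTR.one) he) (PTR.natCast (ptf_df he)))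
  refine h1.of_eq (fun x => ?_)
  unfold w4 e4
  split_ifs with h
  · push_cast; ring
  · simp

theorem ptr_nr {m : α → ℕ} (hm : PTU m) : PTR (fun x => HL.nr (m x)) := by
  have h1 : PTR (fun x => √(((2 ^ m x * (m x).factorial : ℕ) : ℝ)⁻¹)) :=
    PTR.sqrt (PTR.natInv (PTF.natMul (PTF.natPow (PTF.const 2) hm) (PTF.natFactorial hm)))
  refine h1.of_eq (fun x => ?_)
  unfold HL.nr
  rw [Real.sqrt_inv, one_div]
  push_cast
  rfl

theorem ptr_nr4 {a b c d : α → ℕ} (ha : PTU a) (hb : PTU b) (hc : PTU c) (hd : PTU d) :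
    PTR (fun x => nr4 (a x) (b x) (c x) (d x)) := by
  unfold nr4
  exact PTR.mul (PTR.mul (ptr_nr ha) (ptr_nr hb)) (PTR.mul (ptr_nr hc) (ptr_nr hd))

/-- sixfold sums -/
theorem ptr_sum6 {n0 n1 n2 n3 n4 n5 : α → ℕ} (h0 : PTU n0) (h1 : PTU n1) (h2 : PTU n2)
    (h3 : PTU n3) (h4 : PTU n4) (h5 : PTU n5) {F : α → ℕ → ℕ → ℕ → ℕ → ℕ → ℕ → ℝ}
    (hF : PTR (fun p : (((((α × Un) × Un) × Un) × Un) × Un) × Un =>
      F p.1.1.1.1.1.1 p.1.1.1.1.1.2.val p.1.1.1.1.2.val p.1.1.1.2.val p.1.1.2.val p.1.2.val p.2.val)) :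
    PTR (fun x => ∑ i0 ∈ range (n0 x), ∑ i1 ∈ range (n1 x), ∑ i2 ∈ range (n2 x),
      ∑ i3 ∈ range (n3 x), ∑ i4 ∈ range (n4 x), ∑ i5 ∈ range (n5 x), F x i0 i1 i2 i3 i4 i5) := by
  refine PTR.sumRange h0 (r := fun x i0 => ∑ i1 ∈ range (n1 x), ∑ i2 ∈ range (n2 x),
      ∑ i3 ∈ range (n3 x), ∑ i4 ∈ range (n4 x), ∑ i5 ∈ range (n5 x), F x i0 i1 i2 i3 i4 i5) ?_
  refine PTR.sumRange (α := α × Un) (n := fun p => n1 p.1) (PTU.comp h1 PTF.fst)
    (r := fun p i1 => ∑ i2 ∈ range (n2 p.1), ∑ i3 ∈ range (n3 p.1), ∑ i4 ∈ range (n4 p.1),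
      ∑ i5 ∈ range (n5 p.1), F p.1 p.2.val i1 i2 i3 i4 i5) ?_
  refine PTR.sumRange (α := (α × Un) × Un) (n := fun p => n2 p.1.1) (PTU.comp h2 (by fun_prop))
    (r := fun p i2 => ∑ i3 ∈ range (n3 p.1.1), ∑ i4 ∈ range (n4 p.1.1),
      ∑ i5 ∈ range (n5 p.1.1), F p.1.1 p.1.2.val p.2.val i2 i3 i4 i5) ?_
  refine PTR.sumRange (α := ((α × Un) × Un) × Un) (n := fun p => n3 p.1.1.1)
    (PTU.comp h3 (by fun_prop))
    (r := fun p i3 => ∑ i4 ∈ range (n4 p.1.1.1), ∑ i5 ∈ range (n5 p.1.1.1),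
      F p.1.1.1 p.1.1.2.val p.1.2.val p.2.val i3 i4 i5) ?_
  refine PTR.sumRange (α := (((α × Un) × Un) × Un) × Un) (n := fun p => n4 p.1.1.1.1)
    (PTU.comp h4 (by fun_prop))
    (r := fun p i4 => ∑ i5 ∈ range (n5 p.1.1.1.1),
      F p.1.1.1.1 p.1.1.1.2.val p.1.1.2.val p.1.2.val p.2.val i4 i5) ?_
  exact PTR.sumRange (α := ((((α × Un) × Un) × Un) × Un) × Un) (n := fun p => n5 p.1.1.1.1.1)
    (PTU.comp h5 (by fun_prop))
    (r := fun p i5 => F p.1.1.1.1.1 p.1.1.1.1.2.val p.1.1.1.2.val p.1.1.2.val p.1.2.val p.2.val i5) hF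

theorem ptr_W {a b c d : α → Fin 3 → ℕ} (ha : ∀ i, PTU (fun x => a x i))
    (hb : ∀ i, PTU (fun x => b x i)) (hc : ∀ i, PTU (fun x => c x i))
    (hd : ∀ i, PTU (fun x => d x i)) : PTR (fun x => CE.W (a x) (b x) (c x) (d x)) := by
  simp only [W_formula]
  have hpre : PTR (fun _ : α => √(2 / π)) := PTR.sqrt (by
    refine (PTR.mul (PTR.ofNat 2) PTR.piInv).of_eq (fun x => ?_)
    rw [div_eq_mul_inv])
  have hn : PTR (fun x => ∏ i, nr4 (a x i) (b x i) (c x i) (d x i)) := by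
    simp only [Fin.prod_univ_three]
    exact PTR.mul (PTR.mul (ptr_nr4 (ha 0) (hb 0) (hc 0) (hd 0)) (ptr_nr4 (ha 1) (hb 1) (hc 1) (hd 1)))
      (ptr_nr4 (ha 2) (hb 2) (hc 2) (hd 2))
  refine PTR.mul (PTR.mul hpre hn) ?_
  refine ptr_sum6 (F := fun x j0 k0 j1 k1 j2 k2 =>
    ((w4 (a x 0) (b x 0) (c x 0) (d x 0) j0 k0 : ℝ) * (w4 (a x 1) (b x 1) (c x 1) (d x 1) j1 k1 : ℝ) *
          (w4 (a x 2) (b x 2) (c x 2) (d x 2) j2 k2 : ℝ)) /
        (2 * ((e4 (a x 0) (b x 0) (c x 0) (d x 0) j0 k0 + e4 (a x 1) (b x 1) (c x 1) (d x 1) j1 k1 +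
          e4 (a x 2) (b x 2) (c x 2) (d x 2) j2 k2 : ℕ) : ℝ) + 1))
    (PTU.succ (ha 0)) (PTU.succ (hc 0)) (PTU.succ (ha 1)) (PTU.succ (hc 1)) (PTU.succ (ha 2))
    (PTU.succ (hc 2)) ?_
  have f6 : PTF (fun p : (((((α × Un) × Un) × Un) × Un) × Un) × Un => p.1.1.1.1.1.1) := by fun_prop
  have A : ∀ i, PTU (fun p : (((((α × Un) × Un) × Un) × Un) × Un) × Un => a p.1.1.1.1.1.1 i) :=
    fun i => PTU.comp (ha i) f6
  have B : ∀ i, PTU (fun p : (((((α × Un) × Un) × Un) × Un) × Un) × Un => b p.1.1.1.1.1.1 i) :=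
    fun i => PTU.comp (hb i) f6
  have C : ∀ i, PTU (fun p : (((((α × Un) × Un) × Un) × Un) × Un) × Un => c p.1.1.1.1.1.1 i) :=
    fun i => PTU.comp (hc i) f6
  have D : ∀ i, PTU (fun p : (((((α × Un) × Un) × Un) × Un) × Un) × Un => d p.1.1.1.1.1.1 i) :=
    fun i => PTU.comp (hd i) f6
  have i0 : PTU (fun p : (((((α × Un) × Un) × Un) × Un) × Un) × Un => p.1.1.1.1.1.2.val) :=
    PTU.val (by fun_prop)
  have i1 : PTU (fun p : (((((α × Un) × Un) × Un) × Un) × Un) × Un => p.1.1.1.1.2.val) :=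
    PTU.val (by fun_prop)
  have i2 : PTU (fun p : (((((α × Un) × Un) × Un) × Un) × Un) × Un => p.1.1.1.2.val) :=
    PTU.val (by fun_prop)
  have i3 : PTU (fun p : (((((α × Un) × Un) × Un) × Un) × Un) × Un => p.1.1.2.val) :=
    PTU.val (by fun_prop)
  have i4 : PTU (fun p : (((((α × Un) × Un) × Un) × Un) × Un) × Un => p.1.2.val) :=
    PTU.val (by fun_prop)
  have i5 : PTU (fun p : (((((α × Un) × Un) × Un) × Un) × Un) × Un => p.2.val) :=
    PTU.val (by fun_prop)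
  have w0 := ptr_w4 (A 0) (B 0) (C 0) (D 0) i0 i1
  have w1 := ptr_w4 (A 1) (B 1) (C 1) (D 1) i2 i3
  have w2 := ptr_w4 (A 2) (B 2) (C 2) (D 2) i4 i5
  have e0 := ptu_e4 (A 0) (B 0) (C 0) (D 0) i0 i1
  have e1 := ptu_e4 (A 1) (B 1) (C 1) (D 1) i2 i3
  have e2 := ptu_e4 (A 2) (B 2) (C 2) (D 2) i4 i5
  have hinv := PTR.natInv (PTF.natAdd (PTF.natMul (PTF.const 2)
    (PTU.toPTF (PTU.add (PTU.add e0 e1) e2))) (PTF.const 1))
  refine (PTR.mul (PTR.mul (PTR.mul w0 w1) w2) hinv).of_eq (fun p => ?_)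
  rw [div_eq_mul_inv]
  push_cast
  rfl

end Crest.Agent.R338.CF
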