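import Crest.Agent.R338.WKB4

/-!
Row 338 (S0529), D.10: one dimensional facts for the charging energy: smooth bumps and masses of
the squares of the Hermite functions.
-/

set_option autoImplicit false

noncomputable section

open Real MeasureTheory Set Filter
open scoped ContDiff

namespace Crest.Agent.R338.CM

open Crest.Agent.R338 Crest.Agent.R338.HO Crest.Agent.R338.WKB

/-! ### smooth bumps -/

/-- a bound of the derivative of the smooth transition -/
theorem exists_deriv_bound : ∃ B : ℕ, 1 ≤ B ∧ ∀ x : ℝ, |deriv Real.smoothTransition x| ≤ B := by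
  have hcont : Continuous (deriv Real.smoothTransition) :=
    (Real.smoothTransition.contDiff (n := 1)).continuous_deriv le_rfl
  obtain ⟨C, hC⟩ := (isCompact_Icc (a := (0:ℝ)) (b := 1)).exists_bound_of_continuousOn
    hcont.continuousOn
  obtain ⟨N, hN⟩ := exists_nat_ge (max C 1)
  refine ⟨N, by exact_mod_cast (le_max_right C 1).trans hN, fun x => ?_⟩
  by_cases hx : x ∈ Icc (0:ℝ) 1
  · exact (hC x hx).trans ((le_max_left C 1).trans hN)
  · have hz : deriv Real.smoothTransition x = 0 := by
      rw [mem_Icc, not_and_or, not_le, not_le] at hx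
      rcases hx with hx | hx
      · have : Real.smoothTransition =ᶠ[nhds x] fun _ => 0 := by
          filter_upwards [eventually_lt_nhds hx] with y hy
          exact Real.smoothTransition.zero_of_nonpos hy.le
        rw [this.deriv_eq, deriv_const]
      · have : Real.smoothTransition =ᶠ[nhds x] fun _ => 1 := by
          filter_upwards [eventually_gt_nhds hx] with y hy
          exact Real.smoothTransition.one_of_one_le hy.le
        rw [this.deriv_eq, deriv_const]
    rw [hz, abs_zero]; positivity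

/-- the bump: `1` on `[q, r]`, `0` off `[p, t]` -/
def bump (p q r t : ℝ) (s : ℝ) : ℝ :=
  Real.smoothTransition ((s - p) / (q - p)) * Real.smoothTransition ((t - s) / (t - r))

variable {p q r t : ℝ}

theorem bump_nonneg (s : ℝ) : 0 ≤ bump p q r t s :=
  mul_nonneg (Real.smoothTransition.nonneg _) (Real.smoothTransition.nonneg _)

theorem bump_le_one (s : ℝ) : bump p q r t s ≤ 1 :=
  mul_le_one₀ (Real.smoothTransition.le_one _) (Real.smoothTransition.nonneg _)
    (Real.smoothTransition.le_one _)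

theorem bump_eq_one (hpq : p < q) (hrt : r < t) {s : ℝ} (h1 : q ≤ s) (h2 : s ≤ r) :
    bump p q r t s = 1 := by
  unfold bump
  rw [Real.smoothTransition.one_of_one_le, Real.smoothTransition.one_of_one_le, one_mul]
  · rw [le_div_iff₀ (by linarith)]; linarith
  · rw [le_div_iff₀ (by linarith)]; linarith

theorem bump_eq_zero_left (hpq : p < q) {s : ℝ} (h : s ≤ p) : bump p q r t s = 0 := by
  unfold bump
  rw [Real.smoothTransition.zero_of_nonpos (div_nonpos_of_nonpos_of_nonneg (by linarith)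
    (by linarith)), zero_mul]

theorem bump_eq_zero_right (hrt : r < t) {s : ℝ} (h : t ≤ s) : bump p q r t s = 0 := by
  unfold bump
  rw [Real.smoothTransition.zero_of_nonpos (x := (t - s) / (t - r))
    (div_nonpos_of_nonpos_of_nonneg (by linarith) (by linarith)), mul_zero]

theorem contDiff_bump : ContDiff ℝ ∞ (bump p q r t) := by
  unfold bump
  exact (Real.smoothTransition.contDiff.comp ((contDiff_id.sub contDiff_const).div_const _)).mul
    (Real.smoothTransition.contDiff.comp ((contDiff_const.sub contDiff_id).div_const _))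

theorem hasCompactSupport_bump (hpq : p < q) (hrt : r < t) :
    HasCompactSupport (bump p q r t) := by
  apply HasCompactSupport.intro (isCompact_Icc (a := p) (b := t))
  intro s hs
  rw [mem_Icc, not_and_or, not_le, not_le] at hs
  rcases hs with hs | hs
  · exact bump_eq_zero_left hpq hs.le
  · exact bump_eq_zero_right hrt hs.le

theorem abs_deriv_bump_le {B : ℕ} (hB : ∀ x : ℝ, |deriv Real.smoothTransition x| ≤ B)
    (hpq : p < q) (hrt : r < t) (s : ℝ) :
    |deriv (bump p q r t) s| ≤ B * (1 / (q - p) + 1 / (t - r)) := by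
  have hd : Differentiable ℝ Real.smoothTransition :=
    (Real.smoothTransition.contDiff (n := 1)).differentiable one_ne_zero
  have h1 : HasDerivAt (fun s : ℝ => Real.smoothTransition ((s - p) / (q - p)))
      (deriv Real.smoothTransition ((s - p) / (q - p)) * (1 / (q - p))) s :=
    (hd _).hasDerivAt.comp s (((hasDerivAt_id s).sub_const p).div_const (q - p))
  have h2 : HasDerivAt (fun s : ℝ => Real.smoothTransition ((t - s) / (t - r)))
      (deriv Real.smoothTransition ((t - s) / (t - r)) * (-1 / (t - r))) s := by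
    exact (hd _).hasDerivAt.comp s (((hasDerivAt_id s).const_sub t).div_const (t - r))
  have h3 := (h1.mul h2).deriv
  have e : deriv (bump p q r t) s = _ := h3
  rw [e]
  have a1 : 0 < q - p := by linarith
  have a2 : 0 < t - r := by linarith
  have b1 := hB ((s - p) / (q - p))
  have b2 := hB ((t - s) / (t - r))
  have c1 : |Real.smoothTransition ((s - p) / (q - p))| ≤ 1 := by
    rw [abs_of_nonneg (Real.smoothTransition.nonneg _)]; exact Real.smoothTransition.le_one _
  have c2 : |Real.smoothTransition ((t - s) / (t - r))| ≤ 1 := by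
    rw [abs_of_nonneg (Real.smoothTransition.nonneg _)]; exact Real.smoothTransition.le_one _
  refine (abs_add_le _ _).trans ?_
  rw [mul_add]
  refine add_le_add ?_ ?_
  · rw [abs_mul, abs_mul, abs_of_pos (show (0:ℝ) < 1 / (q - p) by positivity)]
    calc |deriv Real.smoothTransition ((s - p) / (q - p))| * (1 / (q - p)) *
          |Real.smoothTransition ((t - s) / (t - r))| ≤ B * (1 / (q - p)) * 1 := by gcongr
      _ = _ := by ring
  · rw [abs_mul, abs_mul]
    have e2 : |(-1 : ℝ) / (t - r)| = 1 / (t - r) := by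
      rw [abs_div, abs_neg, abs_one, abs_of_pos a2]
    rw [e2]
    calc |Real.smoothTransition ((s - p) / (q - p))| *
          (|deriv Real.smoothTransition ((t - s) / (t - r))| * (1 / (t - r)))
          ≤ 1 * (B * (1 / (t - r))) := by gcongr
      _ = _ := by ring

theorem deriv_bump_eq_zero (hpq : p < q) (hrt : r < t) {s : ℝ} (hs : s ∉ Icc p t) :
    deriv (bump p q r t) s = 0 := by
  rw [mem_Icc, not_and_or, not_le, not_le] at hs
  rcases hs with hs | hs
  · have : bump p q r t =ᶠ[nhds s] fun _ => 0 := by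
      filter_upwards [eventually_lt_nhds hs] with y hy
      exact bump_eq_zero_left hpq hy.le
    rw [this.deriv_eq, deriv_const]
  · have : bump p q r t =ᶠ[nhds s] fun _ => 0 := by
      filter_upwards [eventually_gt_nhds hs] with y hy
      exact bump_eq_zero_right hrt hy.le
    rw [this.deriv_eq, deriv_const]

/-- generic: a function bounded by `M`, zero off `[p, t]` -/
theorem integral_sq_le {f : ℝ → ℝ} {M : ℝ} (hpt : p ≤ t) (hM : ∀ s, |f s| ≤ M)
    (hz : ∀ s, s ∉ Icc p t → f s = 0) : ∫ s, f s ^ 2 ≤ (t - p) * M ^ 2 := by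
  have e : ∫ s, f s ^ 2 = ∫ s in Icc p t, f s ^ 2 := by
    rw [setIntegral_eq_integral_of_forall_compl_eq_zero]
    intro s hs
    rw [hz s hs]; ring
  rw [e]
  have h := norm_setIntegral_le_of_norm_le_const (μ := volume) (s := Icc p t)
    (f := fun s => f s ^ 2) (C := M ^ 2) (by rw [Real.volume_Icc]; exact ENNReal.ofReal_lt_top)
    (fun s _ => by
      rw [Real.norm_eq_abs, abs_pow]
      exact pow_le_pow_left₀ (abs_nonneg _) (hM s) 2)
  have h2 := (le_abs_self _).trans h
  rw [Measure.real, Real.volume_Icc, ENNReal.toReal_ofReal (by linarith)] at h2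
  linarith

theorem integral_bump_sq_le (hpq : p < q) (hrt : r < t) (hpt : p ≤ t) :
    ∫ s, bump p q r t s ^ 2 ≤ t - p := by
  have h := integral_sq_le (f := bump p q r t) (M := 1) hpt
    (fun s => by rw [abs_of_nonneg (bump_nonneg s)]; exact bump_le_one s) (fun s hs => by
      rw [mem_Icc, not_and_or, not_le, not_le] at hs
      rcases hs with hs | hs
      · exact bump_eq_zero_left hpq hs.le
      · exact bump_eq_zero_right hrt hs.le)
  simpa using h

theorem integral_deriv_bump_sq_le {B : ℕ} (hB : ∀ x : ℝ, |deriv Real.smoothTransition x| ≤ B)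
    (hpq : p < q) (hrt : r < t) (hpt : p ≤ t) :
    ∫ s, deriv (bump p q r t) s ^ 2 ≤ (t - p) * (B * (1 / (q - p) + 1 / (t - r))) ^ 2 :=
  integral_sq_le hpt (abs_deriv_bump_le hB hpq hrt) (fun _ hs => deriv_bump_eq_zero hpq hrt hs)

/-! ### masses -/

section mass

variable {η : ℝ → ℝ}

theorem integrable_eta (hc : Continuous η) (h0 : ∀ s, 0 ≤ η s) (h1 : ∀ s, η s ≤ 1) (m : ℕ) :
    Integrable (fun s => η s * hf m s ^ 2) :=
  (integrable_hf_sq m).bdd_mul (c := 1) hc.aestronglyMeasurable
    (Eventually.of_forall fun s => by rw [Real.norm_eq_abs, abs_of_nonneg (h0 s)]; exact h1 s)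

theorem mass_nonneg (h0 : ∀ s, 0 ≤ η s) (m : ℕ) : 0 ≤ ∫ s, η s * hf m s ^ 2 :=
  integral_nonneg fun s => mul_nonneg (h0 s) (sq_nonneg _)

theorem mass_le_one (hc : Continuous η) (h0 : ∀ s, 0 ≤ η s) (h1 : ∀ s, η s ≤ 1) (m : ℕ) :
    ∫ s, η s * hf m s ^ 2 ≤ 1 := by
  rw [← integral_hf_sq m]
  refine integral_mono (integrable_eta hc h0 h1 m) (integrable_hf_sq m) fun s => ?_
  exact mul_le_of_le_one_left (sq_nonneg _) (h1 s)

/-- (M1) the mass between `a κ` and `2 κ` -/
theorem mass_up (hc : Continuous η) (h0 : ∀ s, 0 ≤ η s) (h1 : ∀ s, η s ≤ 1) (m : ℕ) {a : ℝ}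
    (ha0 : 0 ≤ a) (ha1 : a < 1) (hη : ∀ s, a * kap m ≤ s → s ≤ 2 * kap m → η s = 1) :
    (1 - a ^ 2) / 8 - 1 / (2 * kap m ^ 4) ≤ ∫ s, η s * hf m s ^ 2 := by
  have hk := kap_pos m
  have hI := interior_mass m ha0 ha1 (ε := 1) one_pos
  have hle : ∫ s in Ioc (a * kap m) ((1 + 1) * kap m), hf m s ^ 2 ≤ ∫ s, η s * hf m s ^ 2 := by
    have e : ∫ s in Ioc (a * kap m) ((1 + 1) * kap m), hf m s ^ 2
        = ∫ s in Ioc (a * kap m) ((1 + 1) * kap m), η s * hf m s ^ 2 := by
      refine setIntegral_congr_fun measurableSet_Ioc fun s hs => ?_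
      rw [hη s hs.1.le (by linarith [hs.2]), one_mul]
    rw [e]
    exact setIntegral_le_integral (integrable_eta hc h0 h1 m)
      (Eventually.of_forall fun s => mul_nonneg (h0 s) (sq_nonneg _))
  refine le_trans ?_ (hI.trans hle)
  rw [le_div_iff₀ (by positivity)]
  have hM := Mt_le_one m
  have hk3 : 0 < kap m ^ 3 := by positivity
  have e1 : 2 / (1 * kap m) ^ 3 * Mt m ≤ 2 / kap m ^ 3 := by
    rw [one_mul]
    exact mul_le_of_le_one_right (by positivity) hM
  have e2 : ((1 - a ^ 2) / 8 - 1 / (2 * kap m ^ 4)) * (2 * (1 + 1) * kap m)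
      = kap m / 2 * (1 - a ^ 2) - 2 / kap m ^ 3 := by
    field_simp
    ring
  rw [e2]
  linarith

/-- (M1), general form: the mass between `a κ` and `(1+ε) κ` -/
theorem mass_up_gen (hc : Continuous η) (h0 : ∀ s, 0 ≤ η s) (h1 : ∀ s, η s ≤ 1) (m : ℕ)
    {a ε : ℝ} (ha0 : 0 ≤ a) (ha1 : a < 1) (hε : 0 < ε) (hε1 : ε ≤ 1)
    (hη : ∀ s, a * kap m ≤ s → s ≤ (1 + ε) * kap m → η s = 1) :
    (1 - a ^ 2) / 8 - 1 / (ε ^ 3 * kap m ^ 4) ≤ ∫ s, η s * hf m s ^ 2 := by
  have hk := kap_pos m
  have hI := interior_mass m ha0 ha1 hε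
  have hle : ∫ s in Ioc (a * kap m) ((1 + ε) * kap m), hf m s ^ 2 ≤ ∫ s, η s * hf m s ^ 2 := by
    have e : ∫ s in Ioc (a * kap m) ((1 + ε) * kap m), hf m s ^ 2
        = ∫ s in Ioc (a * kap m) ((1 + ε) * kap m), η s * hf m s ^ 2 := by
      refine setIntegral_congr_fun measurableSet_Ioc fun s hs => ?_
      rw [hη s hs.1.le hs.2, one_mul]
    rw [e]
    exact setIntegral_le_integral (integrable_eta hc h0 h1 m)
      (Eventually.of_forall fun s => mul_nonneg (h0 s) (sq_nonneg _))
  refine le_trans ?_ (hI.trans hle)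
  rw [le_div_iff₀ (by positivity)]
  have hM := Mt_le_one m
  have e1 : 2 / (ε * kap m) ^ 3 * Mt m ≤ 2 / (ε * kap m) ^ 3 :=
    mul_le_of_le_one_right (by positivity) hM
  have e2 : 1 / (ε ^ 3 * kap m ^ 4) * (2 * kap m) = 2 / (ε * kap m) ^ 3 := by
    field_simp
  have h3 : 0 ≤ 1 - a ^ 2 := by nlinarith
  have e3 : (1 - a ^ 2) / 8 * (2 * (1 + ε) * kap m) ≤ kap m / 2 * (1 - a ^ 2) := by
    have : (1 - a ^ 2) / 8 * (2 * (1 + ε) * kap m) ≤ (1 - a ^ 2) / 8 * (2 * (1 + 1) * kap m) := by
      gcongr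
    linarith
  have e4 : 1 / (ε ^ 3 * kap m ^ 4) * (2 * kap m) ≤
      1 / (ε ^ 3 * kap m ^ 4) * (2 * (1 + ε) * kap m) := by
    gcongr
    nlinarith
  have e5 : ((1 - a ^ 2) / 8 - 1 / (ε ^ 3 * kap m ^ 4)) * (2 * (1 + ε) * kap m)
      = (1 - a ^ 2) / 8 * (2 * (1 + ε) * kap m)
        - 1 / (ε ^ 3 * kap m ^ 4) * (2 * (1 + ε) * kap m) := by ring
  rw [e5]
  linarith

/-- (M2) the mass beyond `κ + b` -/
theorem mass_far (hc : Continuous η) (h0 : ∀ s, 0 ≤ η s) (h1 : ∀ s, η s ≤ 1) (m : ℕ) {b : ℝ}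
    (hb : 0 < b) (hη : ∀ s, s ≤ kap m + b → η s = 0) :
    ∫ s, η s * hf m s ^ 2 ≤ 1 / (2 * kap m * b ^ 3) := by
  have hk := kap_pos m
  have e : ∫ s, η s * hf m s ^ 2 = ∫ s in Ioi (kap m + b), η s * hf m s ^ 2 := by
    rw [setIntegral_eq_integral_of_forall_compl_eq_zero]
    intro s hs
    rw [mem_Ioi, not_lt] at hs
    rw [hη s hs, zero_mul]
  rw [e]
  calc ∫ s in Ioi (kap m + b), η s * hf m s ^ 2 ≤ ∫ s in Ioi (kap m + b), hf m s ^ 2 := by
        refine setIntegral_mono_on (integrable_eta hc h0 h1 m).integrableOn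
          (integrable_hf_sq m).integrableOn measurableSet_Ioi fun s _ => ?_
        exact mul_le_of_le_one_left (sq_nonneg _) (h1 s)
    _ ≤ _ := (tail_mass m hb).trans (mul_le_of_le_one_right (by positivity) (Mt_le_one m))

/-- (M3) most of the mass is in `[-2κ, 2κ]` -/
theorem mass_half (hc : Continuous η) (h0 : ∀ s, 0 ≤ η s) (h1 : ∀ s, η s ≤ 1) (m : ℕ) {R : ℝ}
    (hR : kap m + 1 ≤ R) (hη : ∀ s, |s| ≤ R → η s = 1) :
    1 - 1 / (kap m * (R - kap m) ^ 3) ≤ ∫ s, η s * hf m s ^ 2 := by
  have hk := kap_pos m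
  have hb : 0 < R - kap m := by linarith
  have hint := integrable_eta hc h0 h1 m
  have h2 : (∫ s, hf m s ^ 2) - (∫ s, η s * hf m s ^ 2) = ∫ s, (1 - η s) * hf m s ^ 2 := by
    rw [← integral_sub (integrable_hf_sq m) hint]
    congr 1; ext s; ring
  have h3 : ∫ s, (1 - η s) * hf m s ^ 2 ≤ 1 / (kap m * (R - kap m) ^ 3) := by
    have hint2 : Integrable (fun s => (1 - η s) * hf m s ^ 2) := by
      have := (integrable_hf_sq m).sub hint
      refine this.congr (Eventually.of_forall fun s => ?_)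
      simp only [Pi.sub_apply]; ring
    have e : ∫ s, (1 - η s) * hf m s ^ 2 = ∫ s in {s : ℝ | R < |s|}, (1 - η s) * hf m s ^ 2 := by
      rw [setIntegral_eq_integral_of_forall_compl_eq_zero]
      intro s hs
      rw [Set.mem_ofPred_eq, not_lt] at hs
      rw [hη s hs, sub_self, zero_mul]
    rw [e]
    have hms : MeasurableSet {s : ℝ | R < |s|} := measurableSet_lt measurable_const (by fun_prop)
    calc ∫ s in {s : ℝ | R < |s|}, (1 - η s) * hf m s ^ 2
        ≤ ∫ s in {s : ℝ | R < |s|}, hf m s ^ 2 := by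
          refine setIntegral_mono_on hint2.integrableOn (integrable_hf_sq m).integrableOn hms
            fun s _ => ?_
          exact mul_le_of_le_one_left (sq_nonneg _) (by linarith [h0 s])
      _ = 2 * ∫ s in Ioi R, hf m s ^ 2 := by
          exact integral_abs_gt (by linarith) (fun s => hf m s ^ 2) (hf_abs_sq m)
      _ ≤ 2 * (1 / (2 * kap m * (R - kap m) ^ 3)) := by
          have := tail_mass m hb
          have e3 : kap m + (R - kap m) = R := by ring
          rw [e3] at this
          have h4 := this.trans (mul_le_of_le_one_right (by positivity) (Mt_le_one m))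
          linarith
      _ = _ := by field_simp
  rw [integral_hf_sq] at h2
  linarith

end mass

end Crest.Agent.R338.CM

end
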