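import Mathlib

/-!
Row 338 (S0529), part D.10: smooth bumps with explicit `L²` bounds.
-/

set_option autoImplicit false

open MeasureTheory Real Set Filter
open scoped Topology ContDiff

noncomputable section

namespace Crest.Agent.R338.CS

theorem exists_deriv_bound : ∃ M : ℝ, 0 < M ∧ ∀ x, |deriv smoothTransition x| ≤ M := by
  have hc : Continuous (deriv smoothTransition) :=
    (smoothTransition.contDiff (n := 1)).continuous_deriv (by norm_num)
  obtain ⟨M, hM⟩ := (isCompact_Icc (a := (0 : ℝ)) (b := 1)).exists_bound_of_continuousOn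
    hc.continuousOn
  refine ⟨max M 1, lt_of_lt_of_le one_pos (le_max_right _ _), fun x => ?_⟩
  by_cases hx : x ∈ Icc (0 : ℝ) 1
  · exact (hM x hx).trans (le_max_left _ _)
  · have : deriv smoothTransition x = 0 := by
      simp only [mem_Icc, not_and_or, not_le] at hx
      rcases hx with h | h
      · have e : smoothTransition =ᶠ[𝓝 x] fun _ => (0 : ℝ) := by
          filter_upwards [Iio_mem_nhds h] with y hy
          exact smoothTransition.zero_of_nonpos (le_of_lt hy)
        rw [e.deriv_eq]; simp
      · have e : smoothTransition =ᶠ[𝓝 x] fun _ => (1 : ℝ) := by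
          filter_upwards [Ioi_mem_nhds h] with y hy
          exact smoothTransition.one_of_one_le (le_of_lt hy)
        rw [e.deriv_eq]; simp
    rw [this, abs_zero]
    exact le_trans zero_le_one (le_max_right _ _)

/-- smooth bump: `1` on `[a, b]`, `0` off `[a - w, b + w]`. -/
def bump (a b w s : ℝ) : ℝ :=
  smoothTransition ((s - a) / w + 1) * smoothTransition ((b - s) / w + 1)

theorem bump_contDiff (a b w : ℝ) : ContDiff ℝ ∞ (bump a b w) := by
  unfold bump
  refine ContDiff.mul ?_ ?_
  · exact smoothTransition.contDiff.comp (((contDiff_id.sub contDiff_const).div_const _).add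
      contDiff_const)
  · exact smoothTransition.contDiff.comp (((contDiff_const.sub contDiff_id).div_const _).add
      contDiff_const)

theorem bump_nonneg (a b w s : ℝ) : 0 ≤ bump a b w s :=
  mul_nonneg (smoothTransition.nonneg _) (smoothTransition.nonneg _)

theorem bump_le_one (a b w s : ℝ) : bump a b w s ≤ 1 :=
  mul_le_one₀ (smoothTransition.le_one _) (smoothTransition.nonneg _) (smoothTransition.le_one _)

theorem bump_one {a b w s : ℝ} (hw : 0 < w) (h1 : a ≤ s) (h2 : s ≤ b) : bump a b w s = 1 := by
  unfold bump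
  rw [smoothTransition.one_of_one_le, smoothTransition.one_of_one_le, one_mul]
  · have : 0 ≤ (b - s) / w := div_nonneg (by linarith) hw.le
    linarith
  · have : 0 ≤ (s - a) / w := div_nonneg (by linarith) hw.le
    linarith

theorem bump_zero_left {a b w s : ℝ} (hw : 0 < w) (h1 : s ≤ a - w) : bump a b w s = 0 := by
  unfold bump
  rw [smoothTransition.zero_of_nonpos, zero_mul]
  have : (s - a) / w ≤ -1 := by rw [div_le_iff₀ hw]; linarith
  linarith

theorem bump_zero_right {a b w s : ℝ} (hw : 0 < w) (h1 : b + w ≤ s) : bump a b w s = 0 := by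
  unfold bump
  rw [smoothTransition.zero_of_nonpos (x := (b - s) / w + 1), mul_zero]
  have : (b - s) / w ≤ -1 := by rw [div_le_iff₀ hw]; linarith
  linarith

theorem bump_hasCompactSupport {a b w : ℝ} (hw : 0 < w) : HasCompactSupport (bump a b w) := by
  refine HasCompactSupport.intro (isCompact_Icc (a := a - w) (b := b + w)) fun s hs => ?_
  simp only [mem_Icc, not_and_or, not_le] at hs
  rcases hs with h | h
  · exact bump_zero_left hw h.le
  · exact bump_zero_right hw h.le

theorem bump_sq_integral {a b w : ℝ} (hw : 0 < w) (hab : a ≤ b) :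
    ∫ s, bump a b w s ^ 2 ≤ b - a + 2 * w := by
  have h1 : ∀ s, bump a b w s ^ 2 ≤ (Icc (a - w) (b + w)).indicator (fun _ => (1 : ℝ)) s := by
    intro s
    by_cases hs : s ∈ Icc (a - w) (b + w)
    · rw [indicator_of_mem hs]
      exact pow_le_one₀ (bump_nonneg _ _ _ _) (bump_le_one _ _ _ _)
    · rw [indicator_of_notMem hs]
      simp only [mem_Icc, not_and_or, not_le] at hs
      rcases hs with h | h
      · rw [bump_zero_left hw h.le]; simp
      · rw [bump_zero_right hw h.le]; simp
  have h2 : Integrable ((Icc (a - w) (b + w)).indicator (fun _ => (1 : ℝ))) :=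
    (integrable_indicator_iff measurableSet_Icc).2
      (integrableOn_const (by simp [Real.volume_Icc]))
  have h3 : ∫ s, (Icc (a - w) (b + w)).indicator (fun _ => (1 : ℝ)) s = b - a + 2 * w := by
    rw [integral_indicator measurableSet_Icc]
    simp only [integral_const, MeasurableSet.univ, measureReal_restrict_apply, univ_inter,
      smul_eq_mul, mul_one]
    rw [Real.volume_real_Icc_of_le (by linarith)]
    ring
  rw [← h3]
  exact integral_mono_of_nonneg (Eventually.of_forall fun s => by positivity) h2
    (Eventually.of_forall h1)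

theorem bump_deriv_sq_integral {M : ℝ} (hM : ∀ x, |deriv smoothTransition x| ≤ M) {a b w : ℝ}
    (hw : 0 < w) (hab : a ≤ b) :
    ∫ s, deriv (bump a b w) s ^ 2 ≤ 8 * M ^ 2 / w := by
  have hM0 : 0 ≤ M := le_trans (abs_nonneg _) (hM 0)
  have hd : ∀ s, HasDerivAt (bump a b w)
      (deriv smoothTransition ((s - a) / w + 1) * (1 / w) * smoothTransition ((b - s) / w + 1) +
        smoothTransition ((s - a) / w + 1) *
          (deriv smoothTransition ((b - s) / w + 1) * (-1 / w))) s := by
    intro s
    have e1 : HasDerivAt (fun s => (s - a) / w + 1) (1 / w) s := by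
      simpa using (((hasDerivAt_id s).sub_const a).div_const w).add_const 1
    have e2 : HasDerivAt (fun s => (b - s) / w + 1) (-1 / w) s := by
      simpa using (((hasDerivAt_id s).const_sub b).div_const w).add_const 1
    have d : ∀ x, HasDerivAt smoothTransition (deriv smoothTransition x) x := fun x =>
      ((smoothTransition.contDiff (n := 1)).differentiable (by norm_num) x).hasDerivAt
    exact ((d _).comp s e1).mul ((d _).comp s e2)
  have hb : ∀ s, |deriv (bump a b w) s| ≤ 2 * M / w := by
    intro s
    rw [(hd s).deriv]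
    refine (abs_add_le _ _).trans ?_
    rw [abs_mul, abs_mul, abs_mul, abs_mul, abs_of_nonneg (smoothTransition.nonneg _),
      abs_of_nonneg (smoothTransition.nonneg _)]
    have h1 : |1 / w| = 1 / w := abs_of_pos (by positivity)
    have h2 : |-1 / w| = 1 / w := by rw [neg_div, abs_neg, h1]
    rw [h1, h2]
    have i1 := hM ((s - a) / w + 1)
    have i2 := hM ((b - s) / w + 1)
    have j1 := smoothTransition.le_one ((s - a) / w + 1)
    have j2 := smoothTransition.le_one ((b - s) / w + 1)
    have k1 := smoothTransition.nonneg ((s - a) / w + 1)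
    have k2 := smoothTransition.nonneg ((b - s) / w + 1)
    have hw1 : (0 : ℝ) < 1 / w := by positivity
    have p1 : |deriv smoothTransition ((s - a) / w + 1)| * (1 / w) *
        smoothTransition ((b - s) / w + 1) ≤ M * (1 / w) * 1 :=
      mul_le_mul (mul_le_mul_of_nonneg_right i1 hw1.le) j2 k2 (by positivity)
    have p2 : smoothTransition ((s - a) / w + 1) *
        (|deriv smoothTransition ((b - s) / w + 1)| * (1 / w)) ≤ 1 * (M * (1 / w)) :=
      mul_le_mul j1 (mul_le_mul_of_nonneg_right i2 hw1.le) (by positivity) (by norm_num)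
    calc _ ≤ M * (1 / w) * 1 + 1 * (M * (1 / w)) := add_le_add p1 p2
      _ = 2 * M / w := by ring
  -- the derivative vanishes off the two transition intervals
  have hz : ∀ s, s ∉ Icc (a - w) a ∪ Icc b (b + w) → deriv (bump a b w) s = 0 := by
    intro s hs
    simp only [mem_union, mem_Icc, not_or, not_and_or, not_le] at hs
    obtain ⟨h1, h2⟩ := hs
    by_cases hA : s < a - w
    · have e : bump a b w =ᶠ[𝓝 s] fun _ => (0 : ℝ) := by
        filter_upwards [Iio_mem_nhds hA] with y hy
        exact bump_zero_left hw (le_of_lt hy)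
      rw [e.deriv_eq]; simp
    · have h1' : a < s := by
        rcases h1 with h | h
        · exact absurd h hA
        · exact h
      by_cases hB : b + w < s
      · have e : bump a b w =ᶠ[𝓝 s] fun _ => (0 : ℝ) := by
          filter_upwards [Ioi_mem_nhds hB] with y hy
          exact bump_zero_right hw (le_of_lt hy)
        rw [e.deriv_eq]; simp
      · have h2' : s < b := by
          rcases h2 with h | h
          · exact h
          · exact absurd h hB
        have e : bump a b w =ᶠ[𝓝 s] fun _ => (1 : ℝ) := by
          filter_upwards [Ioi_mem_nhds h1', Iio_mem_nhds h2'] with y hy1 hy2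
          exact bump_one hw (le_of_lt hy1) (le_of_lt hy2)
        rw [e.deriv_eq]; simp
  set c : ℝ := (2 * M / w) ^ 2 with hc
  have hc0 : 0 ≤ c := by positivity
  have h1 : ∀ s, deriv (bump a b w) s ^ 2 ≤
      (Icc (a - w) a).indicator (fun _ => c) s + (Icc b (b + w)).indicator (fun _ => c) s := by
    intro s
    by_cases hs : s ∈ Icc (a - w) a ∪ Icc b (b + w)
    · have h3 : deriv (bump a b w) s ^ 2 ≤ c := by
        rw [hc, ← sq_abs]
        exact pow_le_pow_left₀ (abs_nonneg _) (hb s) 2
      rcases hs with h | h
      · rw [indicator_of_mem h]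
        have : 0 ≤ (Icc b (b + w)).indicator (fun _ => c) s := indicator_nonneg (fun _ _ => hc0) _
        linarith
      · rw [indicator_of_mem (s := Icc b (b + w)) h]
        have : 0 ≤ (Icc (a - w) a).indicator (fun _ => c) s := indicator_nonneg (fun _ _ => hc0) _
        linarith
    · rw [hz s hs]
      have e1 : 0 ≤ (Icc b (b + w)).indicator (fun _ => c) s := indicator_nonneg (fun _ _ => hc0) _
      have e2 : 0 ≤ (Icc (a - w) a).indicator (fun _ => c) s := indicator_nonneg (fun _ _ => hc0) _
      simp only [ne_eq, OfNat.ofNat_ne_zero, not_false_eq_true, zero_pow]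
      linarith
  have hi : ∀ u v : ℝ, Integrable ((Icc u v).indicator (fun _ => c)) := fun u v =>
    (integrable_indicator_iff measurableSet_Icc).2 (integrableOn_const (by simp [Real.volume_Icc]))
  have hv : ∀ u : ℝ, ∫ s, (Icc u (u + w)).indicator (fun _ => c) s = w * c := by
    intro u
    rw [integral_indicator measurableSet_Icc]
    simp only [integral_const, MeasurableSet.univ, measureReal_restrict_apply, univ_inter,
      smul_eq_mul]
    rw [Real.volume_real_Icc_of_le (by linarith)]
    ring
  have h4 : ∫ s, deriv (bump a b w) s ^ 2 ≤ ∫ s, ((Icc (a - w) a).indicator (fun _ => c) s +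
      (Icc b (b + w)).indicator (fun _ => c) s) :=
    integral_mono_of_nonneg (Eventually.of_forall fun s => by positivity)
      ((hi _ _).add (hi _ _)) (Eventually.of_forall h1)
  have h5 := hv (a - w)
  rw [sub_add_cancel] at h5
  rw [integral_add (hi _ _) (hi _ _), h5, hv b] at h4
  refine h4.trans (le_of_eq ?_)
  rw [hc]
  field_simp
  ring

/-- Smooth bumps with `L²` bounds. -/
theorem exists_bump : ∃ M0 : ℝ, 0 < M0 ∧ ∀ a b w : ℝ, 0 < w → a ≤ b → ∃ η : ℝ → ℝ,
    ContDiff ℝ ∞ η ∧ HasCompactSupport η ∧ (∀ s, 0 ≤ η s ∧ η s ≤ 1) ∧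
    (∀ s, a ≤ s → s ≤ b → η s = 1) ∧ (∀ s, s ≤ a - w → η s = 0) ∧ (∀ s, b + w ≤ s → η s = 0) ∧
    ∫ s, η s ^ 2 ≤ b - a + 2 * w ∧ ∫ s, deriv η s ^ 2 ≤ M0 / w := by
  obtain ⟨M, hM0, hM⟩ := exists_deriv_bound
  refine ⟨8 * M ^ 2, by positivity, fun a b w hw hab => ⟨bump a b w, bump_contDiff a b w,
    bump_hasCompactSupport hw, fun s => ⟨bump_nonneg _ _ _ _, bump_le_one _ _ _ _⟩,
    fun s => bump_one hw, fun s => bump_zero_left hw, fun s => bump_zero_right hw,
    bump_sq_integral hw hab, bump_deriv_sq_integral hM hw hab⟩⟩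

end Crest.Agent.R338.CS

end
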