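import Crest.Agent.R338.CE7

/-!
Row 338 (S0529), part D.10: sizes of the turning points of the site functions.
-/

set_option autoImplicit false

open MeasureTheory Real Set Filter
open scoped Topology ContDiff

noncomputable section

namespace Crest.Agent.R338.CS

open WKB (kap)

theorem kap_sq' (m : ℕ) : kap m ^ 2 = 2 * (m : ℝ) + 1 := by
  unfold WKB.kap
  exact Real.sq_sqrt (by positivity)

theorem kap_mi_sq (n k i : ℕ) : kap (mi n k i) ^ 2 = (2 * (k : ℝ) ^ 3 * nu n i) ^ 2 + 1 := by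
  rw [kap_sq', CE.mi_real]; ring

theorem le_kap_mi (n k i : ℕ) : 2 * (k : ℝ) ^ 3 * nu n i ≤ kap (mi n k i) := by
  have h := kap_mi_sq n k i
  have h0 := WKB.kap_pos (mi n k i)
  have h1 : (0 : ℝ) ≤ 2 * (k : ℝ) ^ 3 * nu n i := by positivity
  nlinarith

theorem kap_mi_le (n k i : ℕ) : kap (mi n k i) ≤ 2 * (k : ℝ) ^ 3 * nu n i + 1 := by
  have h := kap_mi_sq n k i
  have h0 := WKB.kap_pos (mi n k i)
  have h1 : (0 : ℝ) ≤ 2 * (k : ℝ) ^ 3 * nu n i := by positivity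
  nlinarith

theorem Yn_le {n : ℕ} (hn : 1 ≤ n) : Yn n ≤ 32 * n ^ 3 := by
  unfold Yn
  have : n ^ 2 ≤ n ^ 3 := Nat.pow_le_pow_right hn (by norm_num)
  omega

theorem kap_mi_le_poly {n k i : ℕ} (hn : 1 ≤ n) (hk : 1 ≤ k) (hi : i < n) :
    kap (mi n k i) ≤ 81 * (k : ℝ) ^ 3 * (n : ℝ) ^ 3 := by
  have h1 := kap_mi_le n k i
  have h2 : 4 * (nu n i : ℝ) ≤ 5 * Yn n := CE.nu_le_real hi
  have h3 : (Yn n : ℝ) ≤ 32 * (n : ℝ) ^ 3 := by exact_mod_cast Yn_le hn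
  have hK : (1 : ℝ) ≤ (k : ℝ) ^ 3 := one_le_pow₀ (by exact_mod_cast hk)
  have hN : (1 : ℝ) ≤ (n : ℝ) ^ 3 := one_le_pow₀ (by exact_mod_cast hn)
  have h4 : (nu n i : ℝ) ≤ 40 * (n : ℝ) ^ 3 := by linarith
  have h5 : (k : ℝ) ^ 3 * nu n i ≤ (k : ℝ) ^ 3 * (40 * (n : ℝ) ^ 3) :=
    mul_le_mul_of_nonneg_left h4 (by positivity)
  nlinarith [mul_le_mul hK hN (by norm_num) (by positivity)]

theorem kap_gap {n k i j : ℕ} (hn : 1 ≤ n) (hk : 1 ≤ k) (hij : j < i) :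
    kap (mi n k j) + 7 * (k : ℝ) ^ 3 * (n : ℝ) ^ 2 ≤ kap (mi n k i) := by
  have h1 := kap_mi_le n k j
  have h2 := le_kap_mi n k i
  have h3 : (nu n j : ℝ) + 4 * (n : ℝ) ^ 2 ≤ nu n i := by exact_mod_cast CE.nu_diff hij
  have hK : (1 : ℝ) ≤ (k : ℝ) ^ 3 := one_le_pow₀ (by exact_mod_cast hk)
  have hN : (1 : ℝ) ≤ (n : ℝ) ^ 2 := one_le_pow₀ (by exact_mod_cast hn)
  have h5 : (k : ℝ) ^ 3 * ((nu n j : ℝ) + 4 * (n : ℝ) ^ 2) ≤ (k : ℝ) ^ 3 * nu n i :=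
    mul_le_mul_of_nonneg_left h3 (by positivity)
  nlinarith [mul_le_mul hK hN (by norm_num) (by positivity)]

theorem kap_mi_ge {n : ℕ} (hn : 1 ≤ n) (k i : ℕ) : (k : ℝ) ^ 3 ≤ kap (mi n k i) :=
  CE.kap_ge (CE.k6_le_mi hn k i)

theorem kap_mi'_ge {n i : ℕ} (hn : 1 ≤ n) (k : ℕ) (hi : i < n) :
    (k : ℝ) ^ 3 ≤ kap (n0' n k - mi n k i) :=
  CE.kap_ge (CE.k6_le_mi' hn k hi)

theorem kap_mi'_le {n k i : ℕ} (hn : 1 ≤ n) (hk : 1 ≤ k) :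
    kap (n0' n k - mi n k i) ≤ 192 * (k : ℝ) ^ 3 * (n : ℝ) ^ 3 := by
  have h1 := kap_sq' (n0' n k - mi n k i)
  have h0 := WKB.kap_pos (n0' n k - mi n k i)
  have h2 : ((n0' n k - mi n k i : ℕ) : ℝ) ≤ n0' n k := by exact_mod_cast Nat.sub_le _ _
  rw [CE.n0'_real] at h2
  have h3 : (Yn n : ℝ) ≤ 32 * (n : ℝ) ^ 3 := by exact_mod_cast Yn_le hn
  have hY0 : (0 : ℝ) ≤ Yn n := Nat.cast_nonneg _
  have hK : (1 : ℝ) ≤ (k : ℝ) ^ 3 := one_le_pow₀ (by exact_mod_cast hk)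
  have hN : (1 : ℝ) ≤ (n : ℝ) ^ 3 := one_le_pow₀ (by exact_mod_cast hn)
  have h4 : (Yn n : ℝ) ^ 2 ≤ (32 * (n : ℝ) ^ 3) ^ 2 := pow_le_pow_left₀ hY0 h3 2
  have h5 : ((k : ℝ) ^ 3) ^ 2 * (Yn n : ℝ) ^ 2 ≤ ((k : ℝ) ^ 3) ^ 2 * (32 * (n : ℝ) ^ 3) ^ 2 :=
    mul_le_mul_of_nonneg_left h4 (by positivity)
  have h6 : (1 : ℝ) ≤ ((k : ℝ) ^ 3 * (n : ℝ) ^ 3) ^ 2 :=
    one_le_pow₀ (by nlinarith)
  have h7 : kap (n0' n k - mi n k i) ^ 2 ≤ (192 * (k : ℝ) ^ 3 * (n : ℝ) ^ 3) ^ 2 := by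
    rw [h1]
    nlinarith
  exact le_of_sq_le_sq h7 (by positivity)

end Crest.Agent.R338.CS

end
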