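import Mathlib

/-!
# Row 338, node CAL (G.4): rounded Jacobi iteration for a diagonally dominant system

`rnd P x` rounds down to the grid `2^{-P} ℤ`, `clampQ B x` truncates to `[-B, B]`.
`IsJac N M b P B x` says that `x 0 = 0` and `x (k+1)` is the rounded Jacobi step of `x k`
(indices `< N`).  `IsJac.spec`: if the rational data `M, b` are `η`-close to real data `M', b'` with
`M'` row diagonally dominant with ratio `1/4`, then `x K` is bounded and nearly solves `M' x = b'`.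
-/

namespace Crest.Agent.R338.Cal

open Finset

/-- rounding down to the grid `2^{-P} ℤ` -/
def rnd (P : ℕ) (x : ℚ) : ℚ := (⌊x * 2 ^ P⌋ : ℚ) / 2 ^ P

theorem rnd_le (P : ℕ) (x : ℚ) : rnd P x ≤ x := by
  unfold rnd
  rw [div_le_iff₀ (by positivity)]
  exact Int.floor_le _

theorem lt_rnd_add (P : ℕ) (x : ℚ) : x < rnd P x + 1 / 2 ^ P := by
  unfold rnd
  rw [← add_div, lt_div_iff₀ (by positivity)]
  exact Int.lt_floor_add_one _

theorem abs_rnd_sub (P : ℕ) (x : ℚ) : |rnd P x - x| ≤ 1 / 2 ^ P := by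
  have h1 := rnd_le P x
  have h2 := lt_rnd_add P x
  rw [abs_le]
  constructor <;> linarith

/-- truncation to `[-B, B]` -/
def clampQ (B x : ℚ) : ℚ := max (-B) (min B x)

theorem clampQ_eq {B x : ℚ} (h : |x| ≤ B) : clampQ B x = x := by
  obtain ⟨h1, h2⟩ := abs_le.1 h
  unfold clampQ
  rw [min_eq_right h2, max_eq_right h1]

theorem abs_clampQ_le {B x : ℚ} (h : 0 ≤ B) : |clampQ B x| ≤ B := by
  unfold clampQ
  rw [abs_le]
  refine ⟨le_max_left _ _, max_le (by linarith) (min_le_left _ _)⟩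

theorem abs_clampQ_sub_le {B x y : ℚ} : |clampQ B x - clampQ B y| ≤ |x - y| := by
  unfold clampQ
  refine (abs_max_sub_max_le_max _ _ _ _).trans ?_
  rw [sub_self, abs_zero]
  refine max_le (abs_nonneg _) ?_
  refine (abs_min_sub_min_le_max _ _ _ _).trans ?_
  rw [sub_self, abs_zero]
  exact max_le (abs_nonneg _) le_rfl

/-- the off-diagonal part of row `p` applied to `x` -/
def offd (N : ℕ) (M : ℕ → ℕ → ℚ) (x : ℕ → ℚ) (p : ℕ) : ℚ :=
  ∑ q ∈ range N, if q = p then 0 else M p q * x q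

/-- the unrounded Jacobi value -/
def jval (N : ℕ) (M : ℕ → ℕ → ℚ) (b : ℕ → ℚ) (x : ℕ → ℚ) (p : ℕ) : ℚ :=
  (b p - offd N M x p) / M p p

/-- the rounded and truncated Jacobi step -/
def jstep (N : ℕ) (M : ℕ → ℕ → ℚ) (b : ℕ → ℚ) (P : ℕ) (B : ℚ) (x : ℕ → ℚ) (p : ℕ) : ℚ :=
  clampQ B (rnd P (jval N M b x p))

/-- `x` is the sequence of rounded Jacobi iterates starting at `0`, at the indices `< N` -/
structure IsJac (N : ℕ) (M : ℕ → ℕ → ℚ) (b : ℕ → ℚ) (P : ℕ) (B : ℚ) (x : ℕ → ℕ → ℚ) : Prop where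
  zero : ∀ p < N, x 0 p = 0
  succ : ∀ k, ∀ p < N, x (k + 1) p = jstep N M b P B (x k) p

theorem offd_cast (N : ℕ) (M : ℕ → ℕ → ℚ) (x : ℕ → ℚ) (p : ℕ) :
    ((offd N M x p : ℚ) : ℝ) = ∑ q ∈ range N, if q = p then 0 else (M p q : ℝ) * x q := by
  unfold offd
  push_cast
  refine sum_congr rfl fun q _ => ?_
  split_ifs <;> simp

theorem abs_offd_le {N : ℕ} {M : ℕ → ℕ → ℚ} {x : ℕ → ℚ} {p : ℕ} {S D : ℝ} (hD : 0 ≤ D)
    (hS : (∑ q ∈ range N, if q = p then 0 else |(M p q : ℝ)|) ≤ S)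
    (hx : ∀ q < N, |(x q : ℝ)| ≤ D) : |((offd N M x p : ℚ) : ℝ)| ≤ S * D := by
  rw [offd_cast]
  refine (abs_sum_le_sum_abs _ _).trans ?_
  have h1 : ∀ q ∈ range N, |(if q = p then 0 else (M p q : ℝ) * x q)| ≤
      (if q = p then 0 else |(M p q : ℝ)|) * D := by
    intro q hq
    split_ifs with h
    · simp
    · rw [abs_mul]
      exact mul_le_mul_of_nonneg_left (hx q (mem_range.1 hq)) (abs_nonneg _)
  refine (sum_le_sum h1).trans ?_
  rw [← sum_mul]
  exact mul_le_mul_of_nonneg_right hS hD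

theorem offd_sub (N : ℕ) (M : ℕ → ℕ → ℚ) (x y : ℕ → ℚ) (p : ℕ) :
    offd N M x p - offd N M y p = offd N M (fun q => x q - y q) p := by
  unfold offd
  rw [← sum_sub_distrib]
  refine sum_congr rfl fun q _ => ?_
  split_ifs
  · simp
  · ring

theorem sum_split {N p : ℕ} (hp : p < N) (f : ℕ → ℝ) :
    ∑ q ∈ range N, f q = f p + ∑ q ∈ range N, if q = p then 0 else f q := by
  have h1 : ∀ q ∈ range N, f q = (if q = p then f q else 0) + (if q = p then 0 else f q) := by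
    intro q _
    split_ifs <;> simp
  rw [sum_congr rfl h1, sum_add_distrib, sum_ite_eq' (range N) p f, if_pos (mem_range.2 hp)]

/-- hypotheses of the solver: real data `M', b'`, rational approximations `M, b`. -/
structure Data (N : ℕ) (M' : ℕ → ℕ → ℝ) (b' : ℕ → ℝ) (M : ℕ → ℕ → ℚ) (b : ℕ → ℚ)
    (m₀ Mx β η : ℝ) : Prop where
  m₀_pos : 0 < m₀
  η_nonneg : 0 ≤ η
  β_nonneg : 0 ≤ β
  diag_ge : ∀ p < N, m₀ ≤ M' p p
  diag_le : ∀ p < N, M' p p ≤ Mx
  off_le : ∀ p < N, (∑ q ∈ range N, if q = p then 0 else |M' p q|) ≤ M' p p / 4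
  b_le : ∀ p < N, |b' p| ≤ β
  M_close : ∀ p < N, ∀ q < N, |(M p q : ℝ) - M' p q| ≤ η
  b_close : ∀ p < N, |(b p : ℝ) - b' p| ≤ η
  small : N * η ≤ m₀ / 16

namespace Data

variable {N : ℕ} {M' : ℕ → ℕ → ℝ} {b' : ℕ → ℝ} {M : ℕ → ℕ → ℚ} {b : ℕ → ℚ} {m₀ Mx β η : ℝ}

theorem η_le (d : Data N M' b' M b m₀ Mx β η) {p : ℕ} (hp : p < N) : η ≤ m₀ / 16 := by
  have h1 : (1 : ℝ) ≤ N := by exact_mod_cast (by omega : 1 ≤ N)
  have := d.small
  nlinarith [d.η_nonneg]

theorem diag_ge' (d : Data N M' b' M b m₀ Mx β η) {p : ℕ} (hp : p < N) :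
    15 / 16 * M' p p ≤ (M p p : ℝ) := by
  have h1 := (abs_le.1 (d.M_close p hp p hp)).1
  have h2 := d.η_le hp
  have h3 := d.diag_ge p hp
  linarith

theorem diag_le' (d : Data N M' b' M b m₀ Mx β η) {p : ℕ} (hp : p < N) :
    (M p p : ℝ) ≤ 2 * Mx := by
  have h1 := (abs_le.1 (d.M_close p hp p hp)).2
  have h2 := d.η_le hp
  have h3 := d.diag_ge p hp
  have h4 := d.diag_le p hp
  have := d.m₀_pos
  linarith

theorem off_le' (d : Data N M' b' M b m₀ Mx β η) {p : ℕ} (hp : p < N) :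
    (∑ q ∈ range N, if q = p then 0 else |(M p q : ℝ)|) ≤ M p p / 3 := by
  have h1 : (∑ q ∈ range N, if q = p then 0 else |(M p q : ℝ)|) ≤
      ∑ q ∈ range N, ((if q = p then 0 else |M' p q|) + η) := by
    refine sum_le_sum fun q hq => ?_
    have hc := d.M_close p hp q (mem_range.1 hq)
    have hη := d.η_nonneg
    split_ifs
    · linarith
    · have := abs_sub_abs_le_abs_sub (M p q : ℝ) (M' p q)
      linarith
  rw [sum_add_distrib, sum_const, card_range, nsmul_eq_mul] at h1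
  have h2 := d.off_le p hp
  have h3 := d.small
  have h4 := d.diag_ge' hp
  have h5 := d.diag_ge p hp
  linarith

end Data

variable {N : ℕ} {M' : ℕ → ℕ → ℝ} {b' : ℕ → ℝ} {M : ℕ → ℕ → ℚ} {b : ℕ → ℚ} {m₀ Mx β η : ℝ}

theorem jval_bound (d : Data N M' b' M b m₀ Mx β η) {x : ℕ → ℚ} {X : ℝ} (hX0 : 0 ≤ X)
    (hx : ∀ q < N, |(x q : ℝ)| ≤ X) {p : ℕ} (hp : p < N) :
    |((jval N M b x p : ℚ) : ℝ)| ≤ 16 / 15 * ((β + η) / m₀) + X / 3 := by
  have hm := d.m₀_pos
  have h1 := d.diag_ge' hp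
  have h2 := d.diag_ge p hp
  have hMp : 0 < (M p p : ℝ) := by linarith
  have h3 := abs_offd_le hX0 (d.off_le' hp) hx
  have h4 : |(b p : ℝ)| ≤ β + η := by
    have := abs_sub_abs_le_abs_sub (b p : ℝ) (b' p)
    linarith [d.b_le p hp, d.b_close p hp]
  unfold jval
  push_cast
  rw [abs_div, abs_of_pos hMp, div_le_iff₀ hMp]
  refine (abs_sub _ _).trans ?_
  have h5 : β + η ≤ 16 / 15 * ((β + η) / m₀) * (M p p : ℝ) := by
    have h6 : 0 ≤ β + η := add_nonneg d.β_nonneg d.η_nonneg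
    have h7 : 15 / 16 * m₀ ≤ (M p p : ℝ) := by linarith
    have h8 : 16 / 15 * ((β + η) / m₀) * (15 / 16 * m₀) = β + η := by field_simp
    calc β + η = 16 / 15 * ((β + η) / m₀) * (15 / 16 * m₀) := h8.symm
      _ ≤ _ := by
        apply mul_le_mul_of_nonneg_left h7
        positivity
  nlinarith

theorem jval_sub (N : ℕ) (M : ℕ → ℕ → ℚ) (b x y : ℕ → ℚ) (p : ℕ) :
    jval N M b x p - jval N M b y p = - offd N M (fun q => x q - y q) p / M p p := by
  unfold jval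
  rw [← sub_div, ← offd_sub]
  ring

theorem jval_lip (d : Data N M' b' M b m₀ Mx β η) {x y : ℕ → ℚ} {D : ℝ} (hD : 0 ≤ D)
    (hx : ∀ q < N, |((x q - y q : ℚ) : ℝ)| ≤ D) {p : ℕ} (hp : p < N) :
    |((jval N M b x p - jval N M b y p : ℚ) : ℝ)| ≤ D / 3 := by
  have hm := d.m₀_pos
  have h1 := d.diag_ge' hp
  have h2 := d.diag_ge p hp
  have hMp : 0 < (M p p : ℝ) := by linarith
  rw [jval_sub]
  have h3 := abs_offd_le (M := M) (p := p) (x := fun q => x q - y q) hD (d.off_le' hp) hx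
  push_cast
  rw [abs_div, abs_neg, abs_of_pos hMp, div_le_iff₀ hMp]
  linarith

theorem cast_abs_rnd_sub (P : ℕ) (x : ℚ) : |((rnd P x : ℚ) : ℝ) - (x : ℝ)| ≤ 1 / 2 ^ P := by
  have h := abs_rnd_sub P x
  have h2 : ((|rnd P x - x| : ℚ) : ℝ) ≤ ((1 / 2 ^ P : ℚ) : ℝ) := by exact_mod_cast h
  push_cast at h2
  exact h2

/-- **the rounded Jacobi iteration**: the iterates stay bounded by `X` and the last one nearly
solves the TRUE system `M' x = b'`. -/
theorem IsJac.spec {P : ℕ} {B : ℚ} {x : ℕ → ℕ → ℚ} (hj : IsJac N M b P B x)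
    (d : Data N M' b' M b m₀ Mx β η) {X : ℝ} (hX : 2 * ((β + η) / m₀) + 2 / 2 ^ P ≤ X)
    (hB : X ≤ (B : ℝ)) (K : ℕ) :
    (∀ p < N, |(x K p : ℝ)| ≤ X) ∧
    (∀ p < N, |(∑ q ∈ range N, M' p q * (x K q : ℝ)) - b' p| ≤
      η + N * η * X + 2 * Mx * (X / 3 ^ K + 4 / 2 ^ P)) := by
  have hP : (0 : ℝ) < 1 / 2 ^ P := by positivity
  have hβη : 0 ≤ (β + η) / m₀ :=
    div_nonneg (add_nonneg d.β_nonneg d.η_nonneg) d.m₀_pos.le
  have h2P : (2 : ℝ) / 2 ^ P = 2 * (1 / 2 ^ P) := by ring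
  have hX0 : 0 ≤ X := by
    rw [h2P] at hX
    linarith
  -- no truncation happens
  have key : ∀ k, (∀ p < N, |(x k p : ℝ)| ≤ X) ∧
      (∀ p < N, x (k + 1) p = rnd P (jval N M b (x k) p)) := by
    intro k
    induction k with
    | zero =>
      have h0 : ∀ p < N, |(x 0 p : ℝ)| ≤ X := by
        intro p hp
        rw [hj.zero p hp]
        simpa using hX0
      refine ⟨h0, fun p hp => ?_⟩
      rw [hj.succ 0 p hp]
      unfold jstep
      apply clampQ_eq
      have h1 := jval_bound d hX0 h0 hp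
      have h2 := cast_abs_rnd_sub P (jval N M b (x 0) p)
      have h3 : |((rnd P (jval N M b (x 0) p) : ℚ) : ℝ)| ≤ X := by
        have := abs_sub_abs_le_abs_sub ((rnd P (jval N M b (x 0) p) : ℚ) : ℝ)
          ((jval N M b (x 0) p : ℚ) : ℝ)
        rw [h2P] at hX
        linarith
      have h4 : ((|rnd P (jval N M b (x 0) p)| : ℚ) : ℝ) ≤ (B : ℝ) := by
        push_cast
        exact h3.trans hB
      exact_mod_cast h4
    | succ k ih =>
      obtain ⟨ih1, ih2⟩ := ih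
      have h0 : ∀ p < N, |(x (k + 1) p : ℝ)| ≤ X := by
        intro p hp
        rw [ih2 p hp]
        have h1 := jval_bound d hX0 ih1 hp
        have h2 := cast_abs_rnd_sub P (jval N M b (x k) p)
        have := abs_sub_abs_le_abs_sub ((rnd P (jval N M b (x k) p) : ℚ) : ℝ)
          ((jval N M b (x k) p : ℚ) : ℝ)
        rw [h2P] at hX
        linarith
      refine ⟨h0, fun p hp => ?_⟩
      rw [hj.succ (k + 1) p hp]
      unfold jstep
      apply clampQ_eq
      have h1 := jval_bound d hX0 h0 hp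
      have h2 := cast_abs_rnd_sub P (jval N M b (x (k + 1)) p)
      have h3 : |((rnd P (jval N M b (x (k + 1)) p) : ℚ) : ℝ)| ≤ X := by
        have := abs_sub_abs_le_abs_sub ((rnd P (jval N M b (x (k + 1)) p) : ℚ) : ℝ)
          ((jval N M b (x (k + 1)) p : ℚ) : ℝ)
        rw [h2P] at hX
        linarith
      have h4 : ((|rnd P (jval N M b (x (k + 1)) p)| : ℚ) : ℝ) ≤ (B : ℝ) := by
        push_cast
        exact h3.trans hB
      exact_mod_cast h4
  -- increments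
  have hinc : ∀ k, ∀ p < N, |((x (k + 1) p - x k p : ℚ) : ℝ)| ≤ X / 3 ^ k + 3 * (1 / 2 ^ P) := by
    intro k
    induction k with
    | zero =>
      intro p hp
      rw [hj.zero p hp, sub_zero, pow_zero, div_one]
      have := (key 1).1 p hp
      simp only [zero_add]
      linarith
    | succ k ih =>
      intro p hp
      have hD : 0 ≤ X / 3 ^ k + 3 * (1 / 2 ^ P) := by positivity
      have h1 := jval_lip d hD ih hp
      rw [(key (k + 1)).2 p hp, (key k).2 p hp]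
      have h2 := cast_abs_rnd_sub P (jval N M b (x (k + 1)) p)
      have h3 := cast_abs_rnd_sub P (jval N M b (x k) p)
      push_cast at h1 ⊢
      have h4 : X / 3 ^ (k + 1) = X / 3 ^ k / 3 := by rw [pow_succ]; field_simp
      rw [h4]
      rw [abs_le] at h1 h2 h3 ⊢
      constructor <;> linarith [h1.1, h1.2, h2.1, h2.2, h3.1, h3.2]
  refine ⟨(key K).1, fun p hp => ?_⟩
  have hm := d.m₀_pos
  have hMp1 := d.diag_ge' hp
  have hMp2 := d.diag_ge p hp
  have hMp : 0 < (M p p : ℝ) := by linarith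
  have hMp3 := d.diag_le' hp
  -- residual of the approximate system
  have hres : |(∑ q ∈ range N, (M p q : ℝ) * (x K q : ℝ)) - b p| ≤
      2 * Mx * (X / 3 ^ K + 4 / 2 ^ P) := by
    have e1 : (∑ q ∈ range N, (M p q : ℝ) * (x K q : ℝ)) - b p =
        (M p p : ℝ) * ((x K p : ℝ) - ((jval N M b (x K) p : ℚ) : ℝ)) := by
      rw [sum_split hp]
      have e2 : ((jval N M b (x K) p : ℚ) : ℝ) =
          ((b p : ℝ) - ∑ q ∈ range N, if q = p then 0 else (M p q : ℝ) * (x K q : ℝ)) / M p p := by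
        unfold jval
        push_cast
        rw [offd_cast]
      rw [e2]
      field_simp
      ring
    rw [e1, abs_mul, abs_of_pos hMp]
    have h1 := hinc K p hp
    have h2 := cast_abs_rnd_sub P (jval N M b (x K) p)
    rw [(key K).2 p hp] at h1
    push_cast at h1
    have h3 : |(x K p : ℝ) - ((jval N M b (x K) p : ℚ) : ℝ)| ≤ X / 3 ^ K + 4 / 2 ^ P := by
      have h4 : (4 : ℝ) / 2 ^ P = 4 * (1 / 2 ^ P) := by ring
      rw [h4]
      rw [abs_le] at h1 h2 ⊢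
      constructor <;> linarith [h1.1, h1.2, h2.1, h2.2]
    have h5 : 0 ≤ X / 3 ^ K + 4 / 2 ^ P := by positivity
    calc (M p p : ℝ) * |(x K p : ℝ) - ((jval N M b (x K) p : ℚ) : ℝ)|
        ≤ (M p p : ℝ) * (X / 3 ^ K + 4 / 2 ^ P) := mul_le_mul_of_nonneg_left h3 hMp.le
      _ ≤ _ := mul_le_mul_of_nonneg_right hMp3 h5
  have hdiff : |(∑ q ∈ range N, M' p q * (x K q : ℝ)) - ∑ q ∈ range N, (M p q : ℝ) * (x K q : ℝ)| ≤
      N * η * X := by
    rw [← sum_sub_distrib]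
    refine (abs_sum_le_sum_abs _ _).trans ?_
    have h1 : ∀ q ∈ range N, |M' p q * (x K q : ℝ) - (M p q : ℝ) * (x K q : ℝ)| ≤ η * X := by
      intro q hq
      rw [← sub_mul, abs_mul, abs_sub_comm]
      exact mul_le_mul (d.M_close p hp q (mem_range.1 hq)) ((key K).1 q (mem_range.1 hq))
        (abs_nonneg _) d.η_nonneg
    refine (sum_le_sum h1).trans ?_
    rw [sum_const, card_range, nsmul_eq_mul, mul_assoc]
  have hb := d.b_close p hp
  rw [abs_le] at hres hdiff hb ⊢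
  constructor <;> linarith [hres.1, hres.2, hdiff.1, hdiff.2, hb.1, hb.2]

end Crest.Agent.R338.Cal
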