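import Crest.Agent.R338.Cal1
import Crest.Agent.Lib.PT.ArithMore
import Crest.Agent.Lib.PT.ArithRat
import Crest.Agent.Lib.PT.ListFns2

/-!
# Row 338, node CAL (G.4): the rounded Jacobi iteration is polynomial time

`jacL N M b P B K` is the list of the first `N` coordinates of the `K`-th rounded Jacobi iterate.
-/

namespace Crest.Agent.R338.Cal

open Finset Crest.Agent.Lib.PT

/-- one step on lists -/
def jstepL (N : ℕ) (M : ℕ → ℕ → ℚ) (b : ℕ → ℚ) (P : ℕ) (B : ℚ) (x : List ℚ) : List ℚ :=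
  (List.range N).map (fun p => jstep N M b P B (fun q => x.getD q 0) p)

/-- the `K`-th iterate as a list of length `N` -/
def jacL (N : ℕ) (M : ℕ → ℕ → ℚ) (b : ℕ → ℚ) (P : ℕ) (B : ℚ) (K : ℕ) : List ℚ :=
  (jstepL N M b P B)^[K] []

/-- coordinates of the `K`-th iterate -/
def jac (N : ℕ) (M : ℕ → ℕ → ℚ) (b : ℕ → ℚ) (P : ℕ) (B : ℚ) (K : ℕ) (p : ℕ) : ℚ :=
  (jacL N M b P B K).getD p 0

theorem jstepL_getD (N : ℕ) (M : ℕ → ℕ → ℚ) (b : ℕ → ℚ) (P : ℕ) (B : ℚ) (x : List ℚ) {p : ℕ}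
    (hp : p < N) : (jstepL N M b P B x).getD p 0 = jstep N M b P B (fun q => x.getD q 0) p := by
  unfold jstepL
  rw [List.getD_eq_getElem?_getD, List.getElem?_map, List.getElem?_range hp]
  rfl

theorem isJac_jac (N : ℕ) (M : ℕ → ℕ → ℚ) (b : ℕ → ℚ) (P : ℕ) (B : ℚ) :
    IsJac N M b P B (fun k => jac N M b P B k) where
  zero p _ := by simp [jac, jacL]
  succ k p hp := by
    unfold jac jacL
    rw [Function.iterate_succ_apply']
    exact jstepL_getD N M b P B _ hp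

section PTpart

variable {α : Type} [PTCode α]

theorem PTF.rnd {P : α → ℕ} {f : α → ℚ} (hP : PTU P) (hf : PTF f) :
    PTF (fun a => Cal.rnd (P a) (f a)) := by
  have h2 : PTF (fun a => ((2 ^ P a : ℕ) : ℚ)) := (PTF.natTwoPow hP).ratNatCast
  have h : PTF (fun a => ((⌊f a * ((2 ^ P a : ℕ) : ℚ)⌋ : ℤ) : ℚ) / ((2 ^ P a : ℕ) : ℚ)) :=
    PTF.ratDiv (PTF.ratIntCast (PTF.ratFloor (PTF.ratMul hf h2))) h2
  refine h.of_eq fun a => ?_
  unfold Cal.rnd
  push_cast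
  rfl

theorem PTF.clampQ {B f : α → ℚ} (hB : PTF B) (hf : PTF f) :
    PTF (fun a => Cal.clampQ (B a) (f a)) := by
  unfold Cal.clampQ
  exact PTF.ratMax (PTF.ratNeg hB) (PTF.ratMin hB hf)

/-- a truncated grid rational is a grid rational -/
theorem clampQ_grid (P B : ℕ) (z : ℤ) :
    ∃ z' : ℤ, z'.natAbs ≤ B * 2 ^ P ∧ Cal.clampQ (B : ℚ) ((z : ℚ) / 2 ^ P) = mkRat z' (2 ^ P) := by
  have hpos : (0 : ℚ) < 2 ^ P := by positivity
  have hmk : ∀ w : ℤ, mkRat w (2 ^ P) = (w : ℚ) / 2 ^ P := by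
    intro w
    rw [Rat.mkRat_eq_div]
    push_cast
    rfl
  rcases le_or_gt |((z : ℚ) / 2 ^ P)| (B : ℚ) with h | h
  · refine ⟨z, ?_, ?_⟩
    · rw [abs_div, abs_of_pos hpos, div_le_iff₀ hpos] at h
      have h2 : ((z.natAbs : ℕ) : ℚ) ≤ ((B * 2 ^ P : ℕ) : ℚ) := by
        push_cast
        rw [Nat.cast_natAbs]
        push_cast
        exact h
      exact_mod_cast h2
    · rw [Cal.clampQ_eq h, hmk]
  · rcases lt_abs.1 h with h1 | h1
    · refine ⟨(B : ℤ) * 2 ^ P, ?_, ?_⟩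
      · rw [Int.natAbs_mul, Int.natAbs_natCast, Int.natAbs_pow]
        rfl
      · rw [hmk]
        push_cast
        rw [mul_div_assoc, div_self hpos.ne', mul_one]
        unfold Cal.clampQ
        rw [min_eq_left h1.le, max_eq_right]
        have : (0 : ℚ) ≤ B := by positivity
        linarith
    · refine ⟨-((B : ℤ) * 2 ^ P), ?_, ?_⟩
      · rw [Int.natAbs_neg, Int.natAbs_mul, Int.natAbs_natCast, Int.natAbs_pow]
        rfl
      · rw [hmk]
        push_cast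
        rw [neg_div, mul_div_assoc, div_self hpos.ne', mul_one]
        unfold Cal.clampQ
        have : (0 : ℚ) ≤ B := by positivity
        rw [min_eq_right (by linarith), max_eq_left (by linarith)]

theorem sz_clamp_rnd (P B : ℕ) (x : ℚ) :
    sz (Cal.clampQ (B : ℚ) (Cal.rnd P x)) ≤ 2 * (3 + (B.size + P + 1)) + 1 + (P + 1) := by
  unfold Cal.rnd
  obtain ⟨z', h1, h2⟩ := clampQ_grid P B ⌊x * 2 ^ P⌋
  rw [h2, sz_rat]
  have h3 : (mkRat z' (2 ^ P)).den.size ≤ P + 1 := by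
    rw [Nat.size_le]
    have : (mkRat z' (2 ^ P)).den ≤ 2 ^ P := by
      rw [Rat.den_mkRat]
      split_ifs
      · exact Nat.one_le_two_pow
      · exact Nat.div_le_self _ _
    exact this.trans_lt (Nat.pow_lt_pow_right (by norm_num) (by omega))
  have h4 : (mkRat z' (2 ^ P)).num.natAbs.size ≤ B.size + P + 1 := by
    rw [Nat.size_le]
    calc _ ≤ z'.natAbs := Arith.natAbs_num_mkRat_le _ _
      _ ≤ B * 2 ^ P := h1
      _ ≤ 2 ^ B.size * 2 ^ P := Nat.mul_le_mul_right _ (Nat.lt_size_self B).le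
      _ = 2 ^ (B.size + P) := by rw [pow_add]
      _ < 2 ^ (B.size + P + 1) := Nat.pow_lt_pow_right (by norm_num) (by omega)
  omega

/-- the context of the step -/
theorem ptf_entry {M : α → ℕ → ℕ → ℚ} (hM : PTF (fun t : α × ℕ × ℕ => M t.1 t.2.1 t.2.2))
    {γ : Type} [PTCode γ] {f : γ → α} {g h : γ → ℕ} (hf : PTF f) (hg : PTF g) (hh : PTF h) :
    PTF (fun c => M (f c) (g c) (h c)) :=
  PTF.comp (g := fun t : α × ℕ × ℕ => M t.1 t.2.1 t.2.2) (f := fun c => (f c, g c, h c)) hM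
    (PTF.prodMk hf (PTF.prodMk hg hh))

theorem ptf_vec {b : α → ℕ → ℚ} (hb : PTF₂ b)
    {γ : Type} [PTCode γ] {f : γ → α} {g : γ → ℕ} (hf : PTF f) (hg : PTF g) :
    PTF (fun c => b (f c) (g c)) :=
  PTF.comp (g := fun t : α × ℕ => b t.1 t.2) (f := fun c => (f c, g c)) hb (PTF.prodMk hf hg)

theorem ptf_offd {γ : Type} [PTCode γ] {N : γ → ℕ} {M : γ → ℕ → ℕ → ℚ} {x : γ → ℕ → ℚ}
    {p : γ → ℕ} (hN : PTU N) (hM : PTF (fun t : γ × ℕ × ℕ => M t.1 t.2.1 t.2.2))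
    (hx : PTF₂ x) (hp : PTF p) : PTF (fun c => offd (N c) (M c) (x c) (p c)) := by
  unfold offd
  refine PTF.ratSumRange (n := N) (f := fun c q => if q = p c then 0 else M c (p c) q * x c q)
    hN ?_
  refine PTF.ite (PTPred.natEq PTF.snd (PTF.comp hp PTF.fst)) (PTF.const 0) ?_
  exact PTF.ratMul (ptf_entry hM PTF.fst (PTF.comp hp PTF.fst) PTF.snd)
    (ptf_vec hx PTF.fst PTF.snd)

theorem ptf_jval {γ : Type} [PTCode γ] {N : γ → ℕ} {M : γ → ℕ → ℕ → ℚ} {b x : γ → ℕ → ℚ}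
    {p : γ → ℕ} (hN : PTU N) (hM : PTF (fun t : γ × ℕ × ℕ => M t.1 t.2.1 t.2.2))
    (hb : PTF₂ b) (hx : PTF₂ x) (hp : PTF p) :
    PTF (fun c => jval (N c) (M c) (b c) (x c) (p c)) := by
  unfold jval
  exact PTF.ratDiv (PTF.ratSub (ptf_vec hb PTF.id hp) (ptf_offd hN hM hx hp))
    (ptf_entry hM PTF.id hp hp)

theorem ptf_jstep {γ : Type} [PTCode γ] {N P : γ → ℕ} {M : γ → ℕ → ℕ → ℚ} {b x : γ → ℕ → ℚ}
    {B : γ → ℚ} {p : γ → ℕ} (hN : PTU N)
    (hM : PTF (fun t : γ × ℕ × ℕ => M t.1 t.2.1 t.2.2))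
    (hb : PTF₂ b) (hP : PTU P) (hB : PTF B) (hx : PTF₂ x) (hp : PTF p) :
    PTF (fun c => jstep (N c) (M c) (b c) (P c) (B c) (x c) (p c)) := by
  unfold jstep
  exact PTF.clampQ hB (PTF.rnd hP (ptf_jval hN hM hb hx hp))

theorem ptf_jstepL {N P : α → ℕ} {M : α → ℕ → ℕ → ℚ} {b : α → ℕ → ℚ} {B : α → ℚ}
    (hN : PTU N) (hM : PTF (fun t : α × ℕ × ℕ => M t.1 t.2.1 t.2.2))
    (hb : PTF₂ b) (hP : PTU P) (hB : PTF B) :
    PTF (fun t : α × List ℚ => jstepL (N t.1) (M t.1) (b t.1) (P t.1) (B t.1) t.2) := by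
  have hN1 : PTU (fun t : (α × List ℚ) × ℕ => N t.1.1) :=
    PTU.comp hN (PTF.comp PTF.fst PTF.fst)
  have hx : PTF₂ (fun (t : (α × List ℚ) × ℕ) (q : ℕ) => t.1.2.getD (min q (N t.1.1)) 0) := by
    refine PTF.getD (PTF.natMinUn PTF.snd
      (PTU.comp (n := fun t : (α × List ℚ) × ℕ => N t.1.1) hN1 PTF.fst)) ?_ (PTF.const 0)
    exact PTF.comp (g := fun t : (α × List ℚ) × ℕ => t.1.2) (PTF.comp PTF.snd PTF.fst) PTF.fst
  have h1 : PTF (fun t : (α × List ℚ) × ℕ => t.1.1) := PTF.comp PTF.fst PTF.fst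
  have h11 : PTF (fun t : ((α × List ℚ) × ℕ) × ℕ × ℕ => t.1.1.1) :=
    PTF.comp (g := fun t : (α × List ℚ) × ℕ => t.1.1) h1 PTF.fst
  have h12 : PTF (fun t : ((α × List ℚ) × ℕ) × ℕ => t.1.1.1) :=
    PTF.comp (g := fun t : (α × List ℚ) × ℕ => t.1.1) h1 PTF.fst
  have hM1 : PTF (fun t : ((α × List ℚ) × ℕ) × ℕ × ℕ => M t.1.1.1 t.2.1 t.2.2) :=
    ptf_entry hM h11 (PTF.comp PTF.fst PTF.snd) (PTF.comp PTF.snd PTF.snd)
  have hb1 : PTF₂ (fun (t : (α × List ℚ) × ℕ) (q : ℕ) => b t.1.1 q) :=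
    ptf_vec hb h12 PTF.snd
  have hstep : PTF (fun t : (α × List ℚ) × ℕ =>
      jstep (N t.1.1) (M t.1.1) (b t.1.1) (P t.1.1) (B t.1.1)
        (fun q => t.1.2.getD (min q (N t.1.1)) 0) t.2) :=
    ptf_jstep (γ := (α × List ℚ) × ℕ) (N := fun t => N t.1.1) (M := fun t => M t.1.1)
      (b := fun t => b t.1.1) (P := fun t => P t.1.1) (B := fun t => B t.1.1)
      (x := fun t q => t.1.2.getD (min q (N t.1.1)) 0) (p := fun t => t.2)
      hN1 hM1 hb1 (PTU.comp hP h1) (PTF.comp hB h1) hx PTF.snd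
  have h := PTF.tabulate (n := fun t : α × List ℚ => N t.1)
      (f := fun (t : α × List ℚ) p => jstep (N t.1) (M t.1) (b t.1) (P t.1) (B t.1)
        (fun q => t.2.getD (min q (N t.1)) 0) p) (PTU.comp hN PTF.fst) hstep
  refine h.of_eq fun t => ?_
  unfold jstepL
  refine List.map_congr_left fun p _ => ?_
  have e : offd (N t.1) (M t.1) (fun q => t.2.getD (min q (N t.1)) 0) p =
      offd (N t.1) (M t.1) (fun q => t.2.getD q 0) p := by
    unfold offd
    refine sum_congr rfl fun q hq => ?_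
    simp only [min_eq_left (mem_range.1 hq).le]
  unfold jstep jval
  rw [e]

/-- the `K`-th iterate is a polynomial time function of the parameters -/
theorem ptf_jacL {N P K B : α → ℕ} {M : α → ℕ → ℕ → ℚ} {b : α → ℕ → ℚ}
    (hN : PTU N) (hM : PTF (fun t : α × ℕ × ℕ => M t.1 t.2.1 t.2.2))
    (hb : PTF₂ b) (hP : PTU P) (hB : PTF B) (hK : PTU K) :
    PTF (fun a => jacL (N a) (M a) (b a) (P a) (B a) (K a)) := by
  unfold jacL
  have hstepL := ptf_jstepL hN hM hb hP (PTF.ratNatCast hB)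
  have hszN : PB (fun a => N a * (2 * (2 * (3 + (sz (B a) + P a + 1)) + 1 + (P a + 1)) + 1)) := by
    have h1 := hN.pb
    have h2 := hP.pb
    have h3 := PTF.sz hB
    fun_prop
  refine PTF.iterate' hK hstepL (PTF.const []) hszN ?_
  intro a i _
  cases i with
  | zero => simp
  | succ i =>
    rw [Function.iterate_succ_apply']
    generalize (jstepL (N a) (M a) (b a) (P a) (B a))^[i] [] = x
    refine (sz_list_le (m := 2 * (3 + (sz (B a) + P a + 1)) + 1 + (P a + 1)) ?_).trans ?_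
    · intro q hq
      unfold jstepL at hq
      obtain ⟨p, _, rfl⟩ := List.mem_map.1 hq
      unfold jstep
      have := sz_clamp_rnd (P a) (B a) (jval (N a) (M a) (b a) (fun q => x.getD q 0) p)
      rw [sz_nat]
      exact this
    · simp [jstepL]

/-- coordinate `p` of the solution; `p` may be given in binary (it is `0` for `p ≥ N`) -/
theorem ptf_jac {N P K B : α → ℕ} {M : α → ℕ → ℕ → ℚ} {b : α → ℕ → ℚ}
    (hN : PTU N) (hM : PTF (fun t : α × ℕ × ℕ => M t.1 t.2.1 t.2.2))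
    (hb : PTF₂ b) (hP : PTU P) (hB : PTF B) (hK : PTU K) :
    PTF₂ (fun a p => jac (N a) (M a) (b a) (P a) (B a) (K a) p) := by
  have h1 := ptf_jacL hN hM hb hP hB hK
  have h2 : PTF (fun t : α × ℕ => (jacL (N t.1) (M t.1) (b t.1) (P t.1) (B t.1) (K t.1)).getD
      (min t.2 (N t.1)) 0) :=
    PTF.getD (PTF.natMinUn PTF.snd (PTU.comp hN PTF.fst)) (PTF.comp h1 PTF.fst) (PTF.const 0)
  refine h2.of_eq fun t => ?_
  unfold jac
  rcases le_total t.2 (N t.1) with h | h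
  · rw [min_eq_left h]
  · rw [min_eq_right h]
    have hlen : (jacL (N t.1) (M t.1) (b t.1) (P t.1) (B t.1) (K t.1)).length ≤ N t.1 := by
      unfold jacL
      cases K t.1 with
      | zero => simp
      | succ k =>
        rw [Function.iterate_succ_apply']
        simp [jstepL]
    rw [List.getD_eq_default _ _ hlen]
    exact (List.getD_eq_default _ _ (hlen.trans h)).symm

end PTpart

end Crest.Agent.R338.Cal
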