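import Crest.Agent.R338.Iface

/-!
# Row 338, node CAL: the exact real calibration (definitions; G.4, D.11)

`linsol N M b` is the exact real solution of `∑_{q<N} M p q x q = b p` (`p < N`), `0` outside.
Index of the pair `(i, j)`, `i < j < n`: `p = i * n + j < n * n`.
`Acal`, `acal` are the exact solution of the calibration equations `Calib … 0`.
-/

set_option autoImplicit false

noncomputable section

namespace Crest.Agent.R338.Cal

open Finset Matrix

/-- exact solution of a linear system with indices `< N` -/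
def linsol (N : ℕ) (M : ℕ → ℕ → ℝ) (b : ℕ → ℝ) (p : ℕ) : ℝ :=
  if h : p < N then
    ((Matrix.of fun i j : Fin N => M i j)⁻¹ *ᵥ (fun i : Fin N => b i)) ⟨p, h⟩ else 0

/-- the hopping matrix on pair indices (rows: matrix element, columns: unknowns) -/
def Mcal (n k p q : ℕ) : ℝ :=
  if p / n < p % n ∧ q / n < q % n then Mhop n k (q / n) (q % n) (p / n) (p % n)
  else if p = q then 1 else 0

/-- the right hand side `t_ij - F_ij` -/
def bcal (n k : ℕ) (j0 : ℝ) (J : ℕ → ℕ → ℝ) (p : ℕ) : ℝ :=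
  if p / n < p % n then
    (1 / 2) * √(j0 * J (p / n) (p % n) * Dlt n k (p / n) (p % n)) -
      fock (n0' n k) (site n k (p / n)) (site n k (p % n))
  else 0

/-- exact hopping amplitudes of the designer potential -/
def Acal (n k : ℕ) (j0 : ℝ) (J : ℕ → ℕ → ℝ) (i j : ℕ) : ℝ :=
  if i < j ∧ j < n then linsol (n * n) (Mcal n k) (bcal n k j0 J) (i * n + j) else 0

/-- exact on-site offsets of the designer potential -/
def acal (n k : ℕ) (j0 : ℝ) (J : ℕ → ℕ → ℝ) (i : ℕ) : ℝ :=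
  if i < n then
    muS n k i - fock (n0' n k) (site n k i) (site n k i) -
      (∑ i' ∈ range n, ∑ j' ∈ range n,
        if i' < j' then Acal n k j0 J i' j' * Mhop n k i' j' i i else 0)
  else 0

/-- **CalStmt**: the exact calibration.  `j0`, `J` arbitrary in `[0,1]`. -/
def CalStmt : Prop := ∃ C : ℕ, 1 ≤ C ∧ ∀ n k : ℕ, 2 ≤ n → (C * n) ^ C ≤ k →
  ∀ (j0 : ℝ) (J : ℕ → ℕ → ℝ), 0 ≤ j0 → j0 ≤ 1 → (∀ i j, 0 ≤ J i j ∧ J i j ≤ 1) →
    Calib n k j0 J (Acal n k j0 J) (acal n k j0 J) 0 ∧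
    (∀ i j, |Acal n k j0 J i j| ≤ (n0' n k : ℝ) ^ C) ∧
    (∀ i, |acal n k j0 J i| ≤ (n0' n k : ℝ) ^ C)

/-- **HopStmt** (node HK, 866; D.11): dominance of the hopping matrix -/
def HopStmt : Prop := ∃ C : ℕ, 1 ≤ C ∧ ∀ n k : ℕ, (C * (n + 1)) ^ C ≤ k →
  (∀ i j, i < j → j < n → 1 / (k : ℝ) ^ C ≤ Mhop n k i j i j) ∧
  (∀ i j i' j', i < j → j < n → i' < j' → j' < n → (i', j') ≠ (i, j) →
    4 * (n : ℝ) ^ 2 * |Mhop n k i' j' i j| ≤ Mhop n k i j i j)

end Crest.Agent.R338.Cal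

end
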