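import Mathlib
import Crest.Agent.R338.Cal1
import Crest.Agent.R338.CalDefs

/-!
# Row 338, node CAL: the exact solution of a row diagonally dominant system
-/

set_option autoImplicit false

noncomputable section

namespace Crest.Agent.R338.Cal

open Finset Matrix

/-- row diagonal dominance with ratio `1/4` and diagonal at least `m₀ > 0` -/
structure Dom (N : ℕ) (M : ℕ → ℕ → ℝ) (m₀ : ℝ) : Prop where
  pos : 0 < m₀
  diag : ∀ p < N, m₀ ≤ M p p
  off : ∀ p < N, (∑ q ∈ range N, if q = p then 0 else |M p q|) ≤ M p p / 4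

variable {N : ℕ} {M : ℕ → ℕ → ℝ} {m₀ : ℝ}

theorem Dom.stab (d : Dom N M m₀) {z : ℕ → ℝ} {e : ℝ}
    (h : ∀ p < N, |∑ q ∈ range N, M p q * z q| ≤ e) : ∀ p < N, |z p| ≤ 4 / 3 * (e / m₀) := by
  rcases Nat.eq_zero_or_pos N with hN | hN
  · intro p hp
    omega
  obtain ⟨r, hr, hmax⟩ := exists_max_image (range N) (fun p => |z p|) ⟨0, mem_range.2 hN⟩
  have hr' := mem_range.1 hr
  have h1 := h r hr'
  have h2 : |∑ q ∈ range N, if q = r then 0 else M r q * z q| ≤ M r r / 4 * |z r| := by
    refine (abs_sum_le_sum_abs _ _).trans ?_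
    have h3 : ∀ q ∈ range N, |(if q = r then 0 else M r q * z q)| ≤
        (if q = r then 0 else |M r q|) * |z r| := by
      intro q hq
      split_ifs with hqr
      · simp
      · rw [abs_mul]
        exact mul_le_mul_of_nonneg_left (hmax q hq) (abs_nonneg _)
    refine (sum_le_sum h3).trans ?_
    rw [← sum_mul]
    exact mul_le_mul_of_nonneg_right (d.off r hr') (abs_nonneg _)
  rw [sum_split hr'] at h1
  have h4 := d.diag r hr'
  have hm := d.pos
  have h5 : M r r * |z r| ≤ e + M r r / 4 * |z r| := by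
    have h6 : |M r r * z r| ≤ |M r r * z r + ∑ q ∈ range N, if q = r then 0 else M r q * z q| +
        |∑ q ∈ range N, if q = r then 0 else M r q * z q| := by
      have := abs_sub (M r r * z r + ∑ q ∈ range N, if q = r then 0 else M r q * z q)
        (∑ q ∈ range N, if q = r then 0 else M r q * z q)
      rwa [add_sub_cancel_right] at this
    rw [abs_mul, abs_of_pos (by linarith : 0 < M r r)] at h6
    linarith
  have h7 : |z r| ≤ 4 / 3 * (e / m₀) := by
    have h8 : m₀ * |z r| ≤ M r r * |z r| := mul_le_mul_of_nonneg_right h4 (abs_nonneg _)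
    have h9 : m₀ * |z r| ≤ 4 / 3 * e := by linarith
    rw [← mul_div_assoc, le_div_iff₀ hm]
    linarith
  intro p hp
  exact (hmax p (mem_range.2 hp)).trans h7

theorem Dom.det_ne_zero (d : Dom N M m₀) : (Matrix.of fun i j : Fin N => M i j).det ≠ 0 := by
  apply det_ne_zero_of_sum_row_lt_diag
  intro k
  have h1 := d.off k k.2
  have h2 := d.diag k k.2
  have hm := d.pos
  have e : ∑ j ∈ univ.erase k, ‖(Matrix.of fun i j : Fin N => M i j) k j‖ =
      ∑ q ∈ range N, if q = k then 0 else |M k q| := by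
    rw [sum_range, ← sum_erase_add _ _ (mem_univ k)]
    simp only [if_true, add_zero]
    refine sum_congr rfl fun j hj => ?_
    have : (j : ℕ) ≠ k := fun h => (mem_erase.1 hj).1 (Fin.ext h)
    rw [if_neg this]
    rfl
  rw [e]
  have h3 : ‖(Matrix.of fun i j : Fin N => M i j) k k‖ = M k k := by
    rw [of_apply, Real.norm_eq_abs, abs_of_pos (by linarith)]
  rw [h3]
  linarith

theorem Dom.linsol_spec (d : Dom N M m₀) (b : ℕ → ℝ) {p : ℕ} (hp : p < N) :
    ∑ q ∈ range N, M p q * linsol N M b q = b p := by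
  set A : Matrix (Fin N) (Fin N) ℝ := Matrix.of fun i j : Fin N => M i j with hA
  have hdet : IsUnit A.det := isUnit_iff_ne_zero.2 d.det_ne_zero
  have h1 : A *ᵥ (A⁻¹ *ᵥ (fun i : Fin N => b i)) = fun i : Fin N => b i := by
    rw [mulVec_mulVec, mul_nonsing_inv _ hdet, one_mulVec]
  have h2 := congrFun h1 ⟨p, hp⟩
  rw [sum_range, ← h2]
  unfold mulVec dotProduct
  refine sum_congr rfl fun q _ => ?_
  have e1 : linsol N M b q = (A⁻¹ *ᵥ (fun i : Fin N => b i)) q := by
    unfold linsol
    rw [dif_pos q.2]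
  rw [e1]
  rfl

theorem linsol_of_le (M : ℕ → ℕ → ℝ) (b : ℕ → ℝ) {p : ℕ} (hp : N ≤ p) : linsol N M b p = 0 := by
  unfold linsol
  rw [dif_neg (by omega)]

theorem Dom.abs_linsol_le (d : Dom N M m₀) {b : ℕ → ℝ} {β : ℝ} (hβ : 0 ≤ β)
    (hb : ∀ p < N, |b p| ≤ β) (p : ℕ) : |linsol N M b p| ≤ 4 / 3 * (β / m₀) := by
  rcases lt_or_ge p N with hp | hp
  · refine d.stab (z := linsol N M b) (e := β) (fun q hq => ?_) p hp
    rw [d.linsol_spec b hq]
    exact hb q hq
  · rw [linsol_of_le M b hp, abs_zero]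
    have := d.pos
    positivity

/-- uniqueness / error estimate: an approximate solution is close to `linsol` -/
theorem Dom.abs_sub_linsol_le (d : Dom N M m₀) {b : ℕ → ℝ} {x : ℕ → ℝ} {e : ℝ}
    (h : ∀ p < N, |(∑ q ∈ range N, M p q * x q) - b p| ≤ e) {p : ℕ} (hp : p < N) :
    |x p - linsol N M b p| ≤ 4 / 3 * (e / m₀) := by
  refine d.stab (z := fun q => x q - linsol N M b q) (e := e) (fun q hq => ?_) p hp
  have h1 : ∑ r ∈ range N, M q r * (x r - linsol N M b r) = (∑ r ∈ range N, M q r * x r) - b q := by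
    rw [← d.linsol_spec b hq, ← sum_sub_distrib]
    refine sum_congr rfl fun r _ => ?_
    ring
  rw [h1]
  exact h q hq

end Crest.Agent.R338.Cal

end
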