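import Crest.Agent.R338.Cal2
import Crest.Agent.R338.Cal3
import Crest.Agent.R338.Nu1

/-!
# Row 338, node CAL: the exact solution of a diagonally dominant system is polynomial time

`PTR.linsol`: if `M`, `b` are `PTR` (unary indices) and `M a` is row diagonally dominant with
diagonal at least `2^-(B a)`, then the exact solution is `PTR`.
-/

set_option autoImplicit false

namespace Crest.Agent.R338.Cal

open Finset Crest.Agent.Lib.PT Crest.Agent.R338.Nu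

variable {α : Type} [PTCode α]

theorem half_pow_le_half_pow {m n : ℕ} (h : m ≤ n) : (1 / 2 : ℝ) ^ n ≤ (1 / 2) ^ m :=
  pow_le_pow_of_le_one (by norm_num) (by norm_num) h

theorem two_pow_mul_half {m n : ℕ} (h : m ≤ n) : (2 : ℝ) ^ m * (1 / 2) ^ n = (1 / 2) ^ (n - m) := by
  obtain ⟨d, rfl⟩ := Nat.exists_eq_add_of_le h
  rw [pow_add, ← mul_assoc, ← mul_pow]
  norm_num

theorem jac_of_le {N P K p : ℕ} (M : ℕ → ℕ → ℚ) (b : ℕ → ℚ) (B : ℚ) (h : N ≤ p) :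
    jac N M b P B K p = 0 := by
  unfold jac
  have hlen : (jacL N M b P B K).length ≤ N := by
    unfold jacL
    cases K with
    | zero => simp
    | succ k =>
      rw [Function.iterate_succ_apply']
      simp [jstepL]
  rw [List.getD_eq_default _ _ (hlen.trans h)]

/-- the numeric heart: precision bookkeeping -/
theorem jac_close {N B E F k e P K : ℕ} {M' : ℕ → ℕ → ℝ} {b' : ℕ → ℝ} {M : ℕ → ℕ → ℚ}
    {b : ℕ → ℚ} (d : Dom N M' ((1 / 2) ^ B)) (hMx : ∀ p < N, M' p p ≤ 2 ^ E)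
    (hβ : ∀ p < N, |b' p| ≤ 2 ^ F)
    (hM : ∀ p < N, ∀ q < N, |(M p q : ℝ) - M' p q| ≤ (1 / 2) ^ e)
    (hb : ∀ p < N, |(b p : ℝ) - b' p| ≤ (1 / 2) ^ e)
    (he : k + B + N + (F + B + 3) + 4 ≤ e) (hP : k + B + E + 7 ≤ P)
    (hK : k + B + E + (F + B + 3) + 5 ≤ K) {p : ℕ} (hp : p < N) :
    |((jac N M b P ((2 ^ (F + B + 3) : ℕ) : ℚ) K p : ℚ) : ℝ) - linsol N M' b' p| ≤
      (1 / 2) ^ k := by
  set G := F + B + 3 with hG
  have hη0 : (0 : ℝ) ≤ (1 / 2) ^ e := by positivity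
  have hNe : (N : ℝ) * (1 / 2) ^ e ≤ (1 / 2) ^ (e - N) := by
    have h1 : (N : ℝ) ≤ 2 ^ N := by exact_mod_cast Nat.lt_two_pow_self.le
    calc (N : ℝ) * (1 / 2) ^ e ≤ 2 ^ N * (1 / 2) ^ e := by gcongr
      _ = _ := two_pow_mul_half (by omega)
  have dd : Data N M' b' M b ((1 / 2) ^ B) (2 ^ E) (2 ^ F) ((1 / 2) ^ e) :=
    { m₀_pos := by positivity
      η_nonneg := hη0
      β_nonneg := by positivity
      diag_ge := d.diag
      diag_le := hMx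
      off_le := d.off
      b_le := hβ
      M_close := hM
      b_close := hb
      small := by
        refine hNe.trans ((half_pow_le_half_pow (show B + 4 ≤ e - N by omega)).trans (le_of_eq ?_))
        rw [pow_add]
        norm_num
        ring }
  have hPe : (2 : ℝ) / 2 ^ P = 2 * (1 / 2) ^ P := by
    rw [one_div, inv_pow, div_eq_mul_inv]
  have hX : 2 * (((2 : ℝ) ^ F + (1 / 2) ^ e) / (1 / 2) ^ B) + 2 / 2 ^ P ≤ (2 : ℝ) ^ G := by
    have h1 : (1 / 2 : ℝ) ^ e ≤ 1 := pow_le_one₀ (by norm_num) (by norm_num)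
    have h2 : (1 : ℝ) ≤ 2 ^ F := one_le_pow₀ (by norm_num)
    have h3 : ((2 : ℝ) ^ F + (1 / 2) ^ e) / (1 / 2) ^ B ≤ 2 ^ (F + 1) * 2 ^ B := by
      rw [div_le_iff₀ (by positivity)]
      have h4 : (2 : ℝ) ^ B * (1 / 2) ^ B = 1 := by rw [← mul_pow]; norm_num
      calc (2 : ℝ) ^ F + (1 / 2) ^ e ≤ 2 ^ F + 2 ^ F := by linarith
        _ = 2 ^ (F + 1) := by rw [pow_succ]; ring
        _ = 2 ^ (F + 1) * ((2 : ℝ) ^ B * (1 / 2) ^ B) := by rw [h4, mul_one]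
        _ = _ := by ring
    have h5 : (2 : ℝ) / 2 ^ P ≤ 2 := by
      rw [hPe]
      have : (1 / 2 : ℝ) ^ P ≤ 1 := pow_le_one₀ (by norm_num) (by norm_num)
      linarith
    have h6 : (1 : ℝ) ≤ 2 ^ F * 2 ^ B := by
      rw [← pow_add]
      exact one_le_pow₀ (by norm_num)
    calc _ ≤ 2 * ((2 : ℝ) ^ (F + 1) * 2 ^ B) + 2 := by linarith
      _ ≤ 8 * (2 ^ F * 2 ^ B) := by rw [pow_succ]; nlinarith
      _ = 2 ^ G := by rw [hG, pow_add, pow_add]; ring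
  have hB : (2 : ℝ) ^ G ≤ (((2 ^ G : ℕ) : ℚ) : ℝ) := by
    push_cast
    exact le_rfl
  obtain ⟨-, hs⟩ := (isJac_jac N M b P ((2 ^ G : ℕ) : ℚ)).spec dd hX hB K
  have hclose := d.abs_sub_linsol_le (b := b')
    (x := fun q => ((jac N M b P ((2 ^ G : ℕ) : ℚ) K q : ℚ) : ℝ)) hs hp
  refine hclose.trans ?_
  -- the four error terms
  have t1 : (1 / 2 : ℝ) ^ e ≤ (1 / 2) ^ (k + B + 4) := half_pow_le_half_pow (by omega)
  have t2 : (N : ℝ) * (1 / 2) ^ e * 2 ^ G ≤ (1 / 2) ^ (k + B + 4) := by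
    calc (N : ℝ) * (1 / 2) ^ e * 2 ^ G ≤ (1 / 2) ^ (e - N) * 2 ^ G := by gcongr
      _ = 2 ^ G * (1 / 2) ^ (e - N) := mul_comm _ _
      _ = (1 / 2) ^ (e - N - G) := two_pow_mul_half (by omega)
      _ ≤ _ := half_pow_le_half_pow (by omega)
  have t3 : 2 * (2 : ℝ) ^ E * (2 ^ G / 3 ^ K) ≤ (1 / 2) ^ (k + B + 4) := by
    have h1 : (2 : ℝ) ^ G / 3 ^ K ≤ 2 ^ G * (1 / 2) ^ K := by
      rw [div_eq_mul_inv]
      apply mul_le_mul_of_nonneg_left _ (by positivity)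
      rw [one_div, inv_pow]
      apply inv_anti₀ (by positivity)
      exact pow_le_pow_left₀ (by norm_num) (by norm_num) _
    calc 2 * (2 : ℝ) ^ E * (2 ^ G / 3 ^ K) ≤ 2 * (2 : ℝ) ^ E * (2 ^ G * (1 / 2) ^ K) := by gcongr
      _ = 2 ^ (1 + E + G) * (1 / 2) ^ K := by rw [pow_add, pow_add]; ring
      _ = (1 / 2) ^ (K - (1 + E + G)) := two_pow_mul_half (by omega)
      _ ≤ _ := half_pow_le_half_pow (by omega)
  have t4 : 2 * (2 : ℝ) ^ E * (4 / 2 ^ P) ≤ (1 / 2) ^ (k + B + 4) := by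
    have h1 : (4 : ℝ) / 2 ^ P = 4 * (1 / 2) ^ P := by
      rw [one_div, inv_pow, div_eq_mul_inv]
    rw [h1]
    calc 2 * (2 : ℝ) ^ E * (4 * (1 / 2) ^ P) = 2 ^ (3 + E) * (1 / 2) ^ P := by
          rw [pow_add]; ring
      _ = (1 / 2) ^ (P - (3 + E)) := two_pow_mul_half (by omega)
      _ ≤ _ := half_pow_le_half_pow (by omega)
  have hsum : (1 / 2 : ℝ) ^ e + N * (1 / 2) ^ e * 2 ^ G + 2 * 2 ^ E * (2 ^ G / 3 ^ K + 4 / 2 ^ P) ≤
      4 * (1 / 2) ^ (k + B + 4) := by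
    rw [mul_add]
    linarith
  have hB0 : (0 : ℝ) < (1 / 2) ^ B := by positivity
  have h9 : ((1 / 2 : ℝ) ^ e + N * (1 / 2) ^ e * 2 ^ G + 2 * 2 ^ E * (2 ^ G / 3 ^ K + 4 / 2 ^ P)) /
      (1 / 2) ^ B ≤ 4 * (1 / 2) ^ (k + 4) := by
    rw [div_le_iff₀ hB0]
    refine hsum.trans (le_of_eq ?_)
    rw [show k + B + 4 = (k + 4) + B by omega, pow_add _ (k + 4) B]
    ring
  calc _ ≤ 4 / 3 * (4 * (1 / 2 : ℝ) ^ (k + 4)) := by gcongr
    _ = (1 / 3) * (1 / 2) ^ k := by rw [pow_add]; norm_num; ring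
    _ ≤ _ := by
      have : (0 : ℝ) ≤ (1 / 2) ^ k := by positivity
      linarith

/-- `PTU` bound of a `PTR` family over two truncated indices -/
theorem ptu_bound2 {N : α → ℕ} (hN : PTU N) {M : α → ℕ → ℕ → ℝ}
    (hM : PTR (fun p : (α × Un) × Un => M p.1.1 p.1.2.val p.2.val)) :
    ∃ E : α → ℕ, PTU E ∧ ∀ a, ∀ p ≤ N a, ∀ q ≤ N a, |M a p q| ≤ 2 ^ E a := by
  obtain ⟨B, hB, hBb⟩ := hM.bound
  obtain ⟨C, hC, hCb⟩ := ptu_index_bound (α := α × Un) (n := fun p => N p.1)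
    (PTU.comp hN PTF.fst) hB
  obtain ⟨E, hE, hEb⟩ := ptu_index_bound hN hC
  refine ⟨E, hE, fun a p hp q hq => ?_⟩
  refine (hBb ((a, Un.mk p), Un.mk q)).trans ?_
  exact pow_le_pow_right₀ (by norm_num) ((hCb (a, Un.mk p) q hq).trans (hEb a p hp))

theorem ptu_bound1 {N : α → ℕ} (hN : PTU N) {b : α → ℕ → ℝ}
    (hb : PTR (fun p : α × Un => b p.1 p.2.val)) :
    ∃ F : α → ℕ, PTU F ∧ ∀ a, ∀ p ≤ N a, |b a p| ≤ 2 ^ F a := by
  obtain ⟨B, hB, hBb⟩ := hb.bound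
  obtain ⟨C, hC, hCb⟩ := ptu_index_bound hN hB
  refine ⟨C, hC, fun a p hp => ?_⟩
  exact (hBb (a, Un.mk p)).trans (pow_le_pow_right₀ (by norm_num) (hCb a p hp))

/-- **exact linear solve in polynomial time** -/
theorem PTR.linsol {N B : α → ℕ} {M : α → ℕ → ℕ → ℝ} {b : α → ℕ → ℝ} (hN : PTU N) (hB : PTU B)
    (hM : PTR (fun p : (α × Un) × Un => M p.1.1 p.1.2.val p.2.val))
    (hb : PTR (fun p : α × Un => b p.1 p.2.val))
    (hdom : ∀ a, Dom (N a) (M a) ((1 / 2) ^ B a)) :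
    PTR (fun p : α × Un => Cal.linsol (N p.1) (M p.1) (b p.1) p.2.val) := by
  obtain ⟨E, hE, hEb⟩ := ptu_bound2 hN hM
  obtain ⟨F, hF, hFb⟩ := ptu_bound1 hN hb
  -- contexts: `c : (α × Un) × Un`, `c.1.1 = a`, `c.1.2 = index`, `c.2 = precision`
  have h11 : PTF (fun c : (α × Un) × Un => c.1.1) := PTF.comp PTF.fst PTF.fst
  have hN1 : PTU (fun c : (α × Un) × Un => N c.1.1) := PTU.comp hN h11
  have hB1 : PTU (fun c : (α × Un) × Un => B c.1.1) := PTU.comp hB h11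
  have hE1 : PTU (fun c : (α × Un) × Un => E c.1.1) := PTU.comp hE h11
  have hF1 : PTU (fun c : (α × Un) × Un => F c.1.1) := PTU.comp hF h11
  have hk : PTU (fun c : (α × Un) × Un => c.2.val) := PTU.val PTF.snd
  have hG : PTU (fun c : (α × Un) × Un => F c.1.1 + B c.1.1 + 3) :=
    PTU.add (PTU.add hF1 hB1) (PTU.const 3)
  have he : PTU (fun c : (α × Un) × Un =>
      c.2.val + B c.1.1 + N c.1.1 + (F c.1.1 + B c.1.1 + 3) + 4) :=
    PTU.add (PTU.add (PTU.add (PTU.add hk hB1) hN1) hG) (PTU.const 4)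
  have hP : PTU (fun c : (α × Un) × Un => c.2.val + B c.1.1 + E c.1.1 + 7) :=
    PTU.add (PTU.add (PTU.add hk hB1) hE1) (PTU.const 7)
  have hK : PTU (fun c : (α × Un) × Un =>
      c.2.val + B c.1.1 + E c.1.1 + (F c.1.1 + B c.1.1 + 3) + 5) :=
    PTU.add (PTU.add (PTU.add (PTU.add hk hB1) hE1) hG) (PTU.const 5)
  obtain ⟨qM, hqM, hqM'⟩ := hM
  obtain ⟨qb, hqb, hqb'⟩ := hb
  let e : (α × Un) × Un → ℕ := fun c =>
    c.2.val + B c.1.1 + N c.1.1 + (F c.1.1 + B c.1.1 + 3) + 4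
  let Mt : (α × Un) × Un → ℕ → ℕ → ℚ := fun c p q =>
    qM (((c.1.1, Un.mk (min p (N c.1.1))), Un.mk (min q (N c.1.1))), Un.mk (e c))
  let bt : (α × Un) × Un → ℕ → ℚ := fun c p =>
    qb ((c.1.1, Un.mk (min p (N c.1.1))), Un.mk (e c))
  have hMt : PTF (fun t : ((α × Un) × Un) × ℕ × ℕ => Mt t.1 t.2.1 t.2.2) := by
    have g1 : PTF (fun t : ((α × Un) × Un) × ℕ × ℕ => t.1.1.1) :=
      PTF.comp (g := fun c : (α × Un) × Un => c.1.1) h11 PTF.fst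
    have g2 : PTU (fun t : ((α × Un) × Un) × ℕ × ℕ => min t.2.1 (N t.1.1.1)) :=
      PTF.natMinUn (PTF.comp PTF.fst PTF.snd) (PTU.comp (n := fun c : (α × Un) × Un => N c.1.1)
        hN1 PTF.fst)
    have g3 : PTU (fun t : ((α × Un) × Un) × ℕ × ℕ => min t.2.2 (N t.1.1.1)) :=
      PTF.natMinUn (PTF.comp PTF.snd PTF.snd) (PTU.comp (n := fun c : (α × Un) × Un => N c.1.1)
        hN1 PTF.fst)
    have g4 : PTU (fun t : ((α × Un) × Un) × ℕ × ℕ => e t.1) := PTU.comp (n := e) he PTF.fst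
    exact PTF.comp hqM (PTF.prodMk (PTF.prodMk (PTF.prodMk g1 g2) g3) g4)
  have hbt : PTF₂ bt := by
    have g1 : PTF (fun t : ((α × Un) × Un) × ℕ => t.1.1.1) :=
      PTF.comp (g := fun c : (α × Un) × Un => c.1.1) h11 PTF.fst
    have g2 : PTU (fun t : ((α × Un) × Un) × ℕ => min t.2 (N t.1.1.1)) :=
      PTF.natMinUn PTF.snd (PTU.comp (n := fun c : (α × Un) × Un => N c.1.1) hN1 PTF.fst)
    have g4 : PTU (fun t : ((α × Un) × Un) × ℕ => e t.1) := PTU.comp (n := e) he PTF.fst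
    exact PTF.comp hqb (PTF.prodMk (PTF.prodMk g1 g2) g4)
  have hpow : PTF (fun c : (α × Un) × Un => 2 ^ (F c.1.1 + B c.1.1 + 3)) := PTF.natTwoPow hG
  have hj := ptf_jac (N := fun c : (α × Un) × Un => N c.1.1)
    (P := fun c : (α × Un) × Un => c.2.val + B c.1.1 + E c.1.1 + 7)
    (K := fun c : (α × Un) × Un => c.2.val + B c.1.1 + E c.1.1 + (F c.1.1 + B c.1.1 + 3) + 5)
    (B := fun c : (α × Un) × Un => 2 ^ (F c.1.1 + B c.1.1 + 3)) (M := Mt) (b := bt)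
    hN1 hMt hbt hP hpow hK
  have hidx : PTF (fun c : (α × Un) × Un => c.1.2.val) :=
    PTU.toPTF (PTU.val (PTF.comp PTF.snd PTF.fst))
  refine ⟨fun c => jac (N c.1.1) (Mt c) (bt c) (c.2.val + B c.1.1 + E c.1.1 + 7)
      ((2 ^ (F c.1.1 + B c.1.1 + 3) : ℕ) : ℚ)
      (c.2.val + B c.1.1 + E c.1.1 + (F c.1.1 + B c.1.1 + 3) + 5) c.1.2.val,
    PTF.comp (g := fun t : ((α × Un) × Un) × ℕ => _) (f := fun c => (c, c.1.2.val)) hj
      (PTF.prodMk PTF.id hidx), fun c => ?_⟩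
  rcases lt_or_ge c.1.2.val (N c.1.1) with hp | hp
  · refine jac_close (e := e c) (hdom c.1.1) (fun p hp => (le_abs_self _).trans
      (hEb c.1.1 p hp.le p hp.le)) (fun p hp => hFb c.1.1 p hp.le) ?_ ?_ le_rfl le_rfl le_rfl hp
    · intro p hp q hq
      have h := hqM' (((c.1.1, Un.mk (min p (N c.1.1))), Un.mk (min q (N c.1.1))), Un.mk (e c))
      simp only [min_eq_left hp.le, min_eq_left hq.le] at h
      simp only [Mt, min_eq_left hp.le, min_eq_left hq.le]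
      exact h
    · intro p hp
      have h := hqb' ((c.1.1, Un.mk (min p (N c.1.1))), Un.mk (e c))
      simp only [min_eq_left hp.le] at h
      simp only [bt, min_eq_left hp.le]
      exact h
  · beta_reduce
    rw [jac_of_le _ _ _ hp, linsol_of_le _ _ hp]
    simp

end Crest.Agent.R338.Cal
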