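import Crest.Agent.R338.WKB2

/-!
Row 338, node WKB, part 3 (D.2 of the blueprint): WKB bound `h² ≤ 2/r`, `h'² ≤ 2 r` and the uniform
bound `h² ≤ 18 (2κ)^{-1/3}`.
-/

set_option autoImplicit false

noncomputable section

open Set MeasureTheory Real Filter Topology
open Crest.Agent.R338.HO

namespace Crest.Agent.R338.WKB

/-! ### decay at infinity -/

lemma tendsto_poly_gauss (P : Polynomial ℝ) :
    Tendsto (fun x : ℝ => P.eval x * Real.exp (-(x ^ 2) / 2)) atTop (𝓝 0) := by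
  have h1 : Tendsto (fun x : ℝ => P.eval x / Real.exp x) atTop (𝓝 0) := P.tendsto_div_exp_atTop
  have h2 : Tendsto (fun x : ℝ => |P.eval x / Real.exp x|) atTop (𝓝 0) := by
    simpa using h1.abs
  apply squeeze_zero_norm' _ h2
  filter_upwards [eventually_ge_atTop (2:ℝ)] with x hx
  rw [Real.norm_eq_abs, abs_mul, abs_div, Real.abs_exp, Real.abs_exp,
    div_eq_mul_inv |Polynomial.eval x P|, ← Real.exp_neg]
  apply mul_le_mul_of_nonneg_left _ (abs_nonneg _)
  apply Real.exp_le_exp.mpr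
  nlinarith

lemma tendsto_hf (m : ℕ) : Tendsto (hf m) atTop (𝓝 0) := tendsto_poly_gauss (hP m)

lemma tendsto_poly_hf (P : Polynomial ℝ) (m : ℕ) :
    Tendsto (fun x => P.eval x * hf m x) atTop (𝓝 0) := by
  have := tendsto_poly_gauss (P * hP m)
  refine this.congr (fun x => ?_)
  unfold hf; rw [Polynomial.eval_mul]; ring

lemma tendsto_poly_hfd (P : Polynomial ℝ) (m : ℕ) :
    Tendsto (fun x => P.eval x * hfd m x) atTop (𝓝 0) := by
  have h1 := (tendsto_poly_hf P (m - 1)).const_mul √((m : ℝ) / 2)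
  have h2 := (tendsto_poly_hf P (m + 1)).const_mul √(((m : ℝ) + 1) / 2)
  have h3 := h1.sub h2
  simp only [mul_zero, sub_zero] at h3
  refine h3.congr (fun x => ?_)
  unfold hfd; ring

lemma tendsto_hfd (m : ℕ) : Tendsto (hfd m) atTop (𝓝 0) := by
  have := tendsto_poly_hfd 1 m
  simpa using this

/-! ### integrability of polynomial weights -/

lemma integrable_poly_hf_hf (P : Polynomial ℝ) (a b : ℕ) :
    Integrable (fun x => P.eval x * (hf a x * hf b x)) := by
  have := integrable_poly_gauss (P * (hP a * hP b)) one_pos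
  refine this.congr (Eventually.of_forall fun x => ?_)
  simp only [hf_mul_hf, Polynomial.eval_mul]
  ring

lemma integrable_poly_hf_hfd (P : Polynomial ℝ) (a b : ℕ) :
    Integrable (fun x => P.eval x * (hf a x * hfd b x)) := by
  have h1 := (integrable_poly_hf_hf P a (b - 1)).const_mul √((b : ℝ) / 2)
  have h2 := (integrable_poly_hf_hf P a (b + 1)).const_mul √(((b : ℝ) + 1) / 2)
  refine (h1.sub h2).congr (Eventually.of_forall fun x => ?_)
  simp only [Pi.sub_apply]
  unfold hfd; ring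

lemma integrable_poly_hfd_hfd (P : Polynomial ℝ) (a b : ℕ) :
    Integrable (fun x => P.eval x * (hfd a x * hfd b x)) := by
  have h1 := (integrable_poly_hf_hfd P (a - 1) b).const_mul √((a : ℝ) / 2)
  have h2 := (integrable_poly_hf_hfd P (a + 1) b).const_mul √(((a : ℝ) + 1) / 2)
  refine (h1.sub h2).congr (Eventually.of_forall fun x => ?_)
  simp only [Pi.sub_apply]
  nth_rw 3 [hfd]; ring

/-! ### beyond the turning point -/

lemma hasDerivAt_hf_mul_hfd (m : ℕ) (s : ℝ) :
    HasDerivAt (fun s => hf m s * hfd m s) (hfd m s ^ 2 + (s ^ 2 - kap m ^ 2) * hf m s ^ 2) s := by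
  refine ((hsol m).d1 s |>.mul ((hsol m).d2 s)).congr_deriv ?_
  ring

lemma continuous_hfd (m : ℕ) : Continuous (hfd m) := (hsol m).continuous_h'

/-- `h h' ≤ 0` beyond the turning point. -/
lemma hf_mul_hfd_nonpos (m : ℕ) {s : ℝ} (hs : kap m ≤ s) : hf m s * hfd m s ≤ 0 := by
  have hk := kap_pos m
  have hmono : MonotoneOn (fun s => hf m s * hfd m s) (Ici (kap m)) := by
    apply monotoneOn_of_deriv_nonneg (convex_Ici _)
    · exact ((continuous_hf m).mul (continuous_hfd m)).continuousOn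
    · intro t _
      exact (hasDerivAt_hf_mul_hfd m t).differentiableAt.differentiableWithinAt
    · intro t ht
      rw [interior_Ici] at ht
      rw [(hasDerivAt_hf_mul_hfd m t).deriv]
      have h1 : 0 ≤ t ^ 2 - kap m ^ 2 := by
        have : kap m < t := ht
        nlinarith
      positivity
  have hlim : Tendsto (fun s => hf m s * hfd m s) atTop (𝓝 0) := by
    have := (tendsto_hf m).mul (tendsto_hfd m)
    simpa using this
  apply ge_of_tendsto hlim
  filter_upwards [eventually_ge_atTop s] with t ht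
  exact hmono hs (hs.trans ht) ht

lemma hf_sq_antitone (m : ℕ) : AntitoneOn (fun s => hf m s ^ 2) (Ici (kap m)) := by
  apply antitoneOn_of_deriv_nonpos (convex_Ici _)
  · exact ((continuous_hf m).pow 2).continuousOn
  · intro t _
    exact ((hf_deriv m t).pow 2).differentiableAt.differentiableWithinAt
  · intro t ht
    rw [interior_Ici] at ht
    have h1 := hf_mul_hfd_nonpos m (le_of_lt ht)
    have h2 := ((hf_deriv m t).pow 2).deriv
    have h3 : deriv (fun s => hf m s ^ 2) t = 2 * (hf m t * hfd m t) := by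
      have : (fun s => hf m s ^ 2) = (hf m) ^ 2 := rfl
      rw [this, h2]; simp; ring
    rw [h3]; linarith

/-! ### WKB bounds -/

lemma AA_zero_eq (m : ℕ) : AA (kap m) (hf m) (hfd m) 0 = Eh m 0 / kap m := by
  have hk := kap_pos m
  unfold AA Eh
  rw [rr_zero hk.le]
  field_simp
  ring

lemma AA_zero_le (m : ℕ) : AA (kap m) (hf m) (hfd m) 0 ≤ 1 := by
  rw [AA_zero_eq, div_le_one (kap_pos m)]
  exact (Eh_zero_bounds m).2

lemma AA_zero_ge (m : ℕ) : 1 / 2 ≤ AA (kap m) (hf m) (hfd m) 0 := by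
  rw [AA_zero_eq, le_div_iff₀ (kap_pos m)]
  linarith [(Eh_zero_bounds m).1]

lemma Eh_eq_rr_mul_AA (m : ℕ) {s : ℝ} (hs : s ^ 2 < kap m ^ 2) :
    Eh m s = rr (kap m) s * AA (kap m) (hf m) (hfd m) s := by
  have hr := rr_pos hs
  have h2 := rr_sq hs.le
  unfold Eh AA
  rw [← h2]
  field_simp
  ring

/-- (D.2) the amplitude is at most `2` before the Airy zone. -/
theorem AA_le_two (m : ℕ) {s : ℝ} (hs0 : 0 ≤ s) (hs : s ^ 2 < kap m ^ 2)
    (hu : 2 * s ≤ rr (kap m) s ^ 3) : AA (kap m) (hf m) (hfd m) s ≤ 2 := by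
  have := ((hsol m).AA_two_sided hs0 hs hu).1
  linarith [AA_zero_le m]

theorem AA_ge_quarter (m : ℕ) {s : ℝ} (hs0 : 0 ≤ s) (hs : s ^ 2 < kap m ^ 2)
    (hu : 2 * s ≤ rr (kap m) s ^ 3) : 1 / 4 ≤ AA (kap m) (hf m) (hfd m) s := by
  have := ((hsol m).AA_two_sided hs0 hs hu).2
  linarith [AA_zero_ge m]

/-- (D.2) `h² ≤ 2/√(κ²-s²)` as long as `2|s| ≤ (κ²-s²)^{3/2}`. -/
theorem hf_sq_le_two_div (m : ℕ) {s : ℝ} (hs : s ^ 2 < kap m ^ 2)
    (hu : 2 * |s| ≤ rr (kap m) s ^ 3) : hf m s ^ 2 ≤ 2 / rr (kap m) s := by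
  have hr := rr_pos hs
  have hrabs : rr (kap m) |s| = rr (kap m) s := by unfold rr; rw [sq_abs]
  have h1 := AA_le_two m (abs_nonneg s) (by rwa [sq_abs]) (by rwa [hrabs])
  unfold AA at h1
  rw [hrabs, hf_abs_sq] at h1
  have h2 : 0 ≤ hfd m |s| ^ 2 / rr (kap m) s := by positivity
  rw [le_div_iff₀ hr]
  nlinarith

/-- `L = (2κ)^{1/3}`. -/
def LL (m : ℕ) : ℝ := (2 * kap m) ^ ((1:ℝ) / 3)

lemma LL_pos (m : ℕ) : 0 < LL m := Real.rpow_pos_of_pos (by have := kap_pos m; positivity) _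

lemma LL_cube (m : ℕ) : LL m ^ 3 = 2 * kap m := by
  unfold LL
  rw [← Real.rpow_natCast, ← Real.rpow_mul (by have := kap_pos m; positivity)]
  norm_num

lemma one_le_LL (m : ℕ) : 1 ≤ LL m := by
  by_contra hc
  push Not at hc
  have h1 : LL m ^ 3 < 1 := pow_lt_one₀ (LL_pos m).le hc (by norm_num)
  rw [LL_cube] at h1
  linarith [one_le_kap m]

lemma LL_le_kap (m : ℕ) (hm : 1 ≤ m) : LL m ≤ kap m := by
  by_contra hc
  push Not at hc
  have h1 : kap m ^ 3 < LL m ^ 3 := pow_lt_pow_left₀ hc (kap_pos m).le (by norm_num)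
  rw [LL_cube] at h1
  have h2 : kap m ^ 2 = 2 * (m:ℝ) + 1 := kap_sq m
  have h3 : (1:ℝ) ≤ m := by exact_mod_cast hm
  have hk := kap_pos m
  have : kap m ^ 3 = kap m * kap m ^ 2 := by ring
  rw [this, h2] at h1
  nlinarith

/-- the uniform bound on `[0, κ]`, `m ≥ 1` -/
lemma hf_sq_le_aux (m : ℕ) (hm : 1 ≤ m) {s : ℝ} (hs0 : 0 ≤ s) (hsk : s ≤ kap m) :
    hf m s ^ 2 ≤ 18 / LL m := by
  have hk := kap_pos m
  have hL := LL_pos m
  have hLk := LL_le_kap m hm
  have hL3 := LL_cube m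
  set L := LL m with hLdef
  set κ := kap m with hκdef
  -- the boundary of the Airy zone
  set t : ℝ := √(κ ^ 2 - L ^ 2) with ht
  have ht0 : 0 ≤ t := Real.sqrt_nonneg _
  have ht2 : t ^ 2 = κ ^ 2 - L ^ 2 := Real.sq_sqrt (by nlinarith)
  have htk : t ^ 2 < κ ^ 2 := by rw [ht2]; nlinarith
  have htk' : t < κ := lt_of_pow_lt_pow_left₀ 2 hk.le htk
  have hrt : rr κ t = L := by
    unfold rr
    rw [ht2, show κ ^ 2 - (κ ^ 2 - L ^ 2) = L ^ 2 by ring, Real.sqrt_sq hL.le]
  have hcond : 2 * t ≤ rr κ t ^ 3 := by rw [hrt, hL3]; linarith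
  have hAt : AA κ (hf m) (hfd m) t ≤ 2 := AA_le_two m ht0 htk hcond
  have h18 : 2 / L ≤ 18 / L := by
    apply div_le_div_of_nonneg_right (by norm_num) hL.le
  rcases le_total s t with hst | hst
  · -- before the Airy zone
    have hc2 : 2 * s ≤ rr κ s ^ 3 := HSol.cond_mono hs0 hst hcond
    have hs2 : s ^ 2 < κ ^ 2 := lt_of_le_of_lt (pow_le_pow_left₀ hs0 hst 2) htk
    have h1 := hf_sq_le_two_div m hs2 (by rw [abs_of_nonneg hs0]; exact hc2)
    have h2 : L ≤ rr κ s := by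
      rw [← hrt]; unfold rr
      apply Real.sqrt_le_sqrt
      nlinarith
    calc hf m s ^ 2 ≤ 2 / rr κ s := h1
      _ ≤ 2 / L := div_le_div_of_nonneg_left (by norm_num) hL h2
      _ ≤ 18 / L := h18
  · -- inside the Airy zone
    have hEt : Eh m t ≤ 2 * L := by
      rw [Eh_eq_rr_mul_AA m htk, hrt]; nlinarith
    have hd : ∀ y ∈ Icc t s, ‖hfd m y‖ ≤ √(2 * L) := by
      intro y hy
      have hy0 : 0 ≤ y := ht0.trans hy.1
      have hyk : y ≤ κ := hy.2.trans hsk
      have h1 : Eh m y ≤ Eh m t := (hsol m).En_le_of_le ht0 hy.1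
      have h2 : hfd m y ^ 2 ≤ Eh m y := by
        unfold Eh
        have : 0 ≤ kap m ^ 2 - y ^ 2 := by
          have := pow_le_pow_left₀ hy0 hyk 2
          linarith
        nlinarith [mul_nonneg this (sq_nonneg (hf m y))]
      rw [Real.norm_eq_abs]
      apply Real.abs_le_sqrt
      linarith
    have hmv : ‖hf m s - hf m t‖ ≤ √(2 * L) * ‖s - t‖ := by
      apply (convex_Icc t s).norm_image_sub_le_of_norm_hasDerivWithin_le
        (f := hf m) (f' := hfd m) (fun y _ => (hf_deriv m y).hasDerivWithinAt) hd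
        ⟨le_rfl, hst⟩ ⟨hst, le_rfl⟩
    have hlen : s - t ≤ 2 / L := by
      have h1 : κ - t ≤ 2 / L := by
        rw [le_div_iff₀ hL]
        have h2 : (κ - t) * κ ≤ L ^ 2 := by
          have : (κ - t) * (κ + t) = L ^ 2 := by nlinarith
          nlinarith
        -- (κ - t) κ ≤ L²; 2κ = L³ → (κ - t) L ≤ 2
        have h3 : (κ - t) * L ^ 3 ≤ 2 * L ^ 2 := by rw [hL3]; nlinarith
        have h4 : ((κ - t) * L) * L ^ 2 ≤ 2 * L ^ 2 := by nlinarith
        exact le_of_mul_le_mul_right h4 (by positivity)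
      linarith
    rw [Real.norm_eq_abs, Real.norm_eq_abs, abs_of_nonneg (by linarith : 0 ≤ s - t)] at hmv
    have hht : hf m t ^ 2 ≤ 2 / L := by
      have := hf_sq_le_two_div m htk (by rw [abs_of_nonneg ht0]; exact hcond)
      rwa [hrt] at this
    have hht' : |hf m t| ≤ √(2 / L) := Real.abs_le_sqrt hht
    have hsq : √(2 * L) * (2 / L) = 2 * √(2 / L) := by
      have e1 : 2 * L = (2 / L) * L ^ 2 := by field_simp
      rw [e1, Real.sqrt_mul (by positivity), Real.sqrt_sq hL.le]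
      field_simp
    have habs : |hf m s| ≤ 3 * √(2 / L) := by
      have h1 : |hf m s - hf m t| ≤ √(2 * L) * (2 / L) :=
        hmv.trans (mul_le_mul_of_nonneg_left hlen (Real.sqrt_nonneg _))
      rw [hsq] at h1
      have h2 : |hf m s| ≤ |hf m s - hf m t| + |hf m t| := by
        have := abs_add_le (hf m s - hf m t) (hf m t)
        simpa using this
      linarith
    calc hf m s ^ 2 = |hf m s| ^ 2 := (sq_abs _).symm
      _ ≤ (3 * √(2 / L)) ^ 2 := pow_le_pow_left₀ (abs_nonneg _) habs 2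
      _ = 18 / L := by
        rw [mul_pow, Real.sq_sqrt (by positivity)]; ring

/-- (D.2) uniform bound. -/
theorem hf_sq_le (m : ℕ) (s : ℝ) : hf m s ^ 2 ≤ 18 / LL m := by
  rcases Nat.eq_zero_or_pos m with rfl | hm
  · -- `m = 0`
    have h1 : hf 0 s ^ 2 ≤ 1 := by
      have e : hf 0 s ^ 2 = 1 / √π * Real.exp (-(s ^ 2)) := by
        rw [← hf_zero_zero_sq, hf_zero, hf_zero, mul_pow, mul_pow, ← Real.exp_nat_mul,
          ← Real.exp_nat_mul]
        norm_num
        left; ring_nf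
      rw [e]
      have h2 : 1 / √π ≤ 1 := by
        rw [div_le_one (Real.sqrt_pos.mpr Real.pi_pos), Real.one_le_sqrt]
        linarith [Real.two_le_pi]
      have h3 : Real.exp (-(s ^ 2)) ≤ 1 := Real.exp_le_one_iff.mpr (by nlinarith [sq_nonneg s])
      have h4 : 0 ≤ 1 / √π := by positivity
      nlinarith [Real.exp_pos (-(s ^ 2))]
    have h2 : LL 0 ≤ 18 := by
      by_contra hc
      push Not at hc
      have h3 : (18:ℝ) ^ 3 < LL 0 ^ 3 := pow_lt_pow_left₀ hc (by norm_num) (by norm_num)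
      rw [LL_cube] at h3
      have h4 : kap 0 = 1 := by unfold kap; simp
      rw [h4] at h3; norm_num at h3
    calc hf 0 s ^ 2 ≤ 1 := h1
      _ ≤ 18 / LL 0 := by rw [le_div_iff₀ (LL_pos 0)]; linarith
  · rw [← hf_abs_sq]
    rcases le_total |s| (kap m) with h | h
    · exact hf_sq_le_aux m hm (abs_nonneg s) h
    · have h1 := hf_sq_antitone m (Set.mem_Ici.mpr le_rfl) (Set.mem_Ici.mpr h) h
      exact h1.trans (hf_sq_le_aux m hm (kap_pos m).le le_rfl)

end Crest.Agent.R338.WKB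

end
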