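import Crest.Agent.R338.Br
import Crest.Agent.R338.WKB3

/-!
# Row 338, node CAL: uniform bound of the Coulomb integrals of the oscillator orbitals
-/

set_option autoImplicit false

noncomputable section

open MeasureTheory Set Real
open Crest.MathPhysics.ElectronicCoulomb

namespace Crest.Agent.R338.Cal

theorem abs_hf_le (m : ℕ) (s : ℝ) : |HO.hf m s| ≤ 5 := by
  have h1 := WKB.hf_sq_le m s
  have h2 : 18 / WKB.LL m ≤ 18 := div_le_self (by norm_num) (WKB.one_le_LL m)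
  have h3 : HO.hf m s ^ 2 ≤ 5 ^ 2 := by linarith
  exact abs_le_of_sq_le_sq h3 (by norm_num)

theorem abs_phi_le (a : Fin 3 → ℕ) (x : CE.P3) : |CE.phi a x| ≤ 125 := by
  unfold CE.phi
  rw [Finset.abs_prod]
  calc ∏ c, |HO.hf (a c) (x c)| ≤ ∏ _c : Fin 3, (5 : ℝ) :=
        Finset.prod_le_prod (fun _ _ => abs_nonneg _) (fun c _ => abs_hf_le _ _)
    _ = 125 := by rw [Finset.prod_const, Finset.card_univ, Fintype.card_fin]; norm_num

theorem integral_phi_sq (a : Fin 3 → ℕ) : ∫ x : CE.P3, CE.phi a x * CE.phi a x = 1 := by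
  have h := HO.integral_Phi_mul_Phi (ι := Fin 3) a a
  rw [if_pos rfl] at h
  exact h

theorem integral_abs_phi_le (a b : Fin 3 → ℕ) : ∫ x : CE.P3, |CE.phi a x * CE.phi b x| ≤ 1 := by
  have ha := (Br.nice_phi a a).int
  have hb := (Br.nice_phi b b).int
  have h1 : ∫ x : CE.P3, |CE.phi a x * CE.phi b x| ≤
      ∫ x : CE.P3, (CE.phi a x * CE.phi a x + CE.phi b x * CE.phi b x) / 2 := by
    refine integral_mono (Br.nice_phi a b).int.abs ((ha.add hb).div_const 2) fun x => ?_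
    simp only [Pi.add_apply]
    rw [abs_le]
    constructor <;> nlinarith [sq_nonneg (CE.phi a x - CE.phi b x),
      sq_nonneg (CE.phi a x + CE.phi b x)]
  refine h1.trans (le_of_eq ?_)
  rw [integral_div, integral_add ha hb, integral_phi_sq, integral_phi_sq]
  norm_num

theorem abs_D_le {f g : CE.P3 → ℝ} (hf : Integrable f) (hg : CE.Nice g) {A B C : ℝ}
    (hA : ∫ x, |f x| ≤ A) (hB : ∫ x, |g x| ≤ B) (hC : ∀ x, |g x| ≤ C) :
    |CE.D f g| ≤ 2 / √π * (A * B + C * A * √π ^ 3 / 2) := by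
  have hA0 : 0 ≤ A := (integral_nonneg fun _ => abs_nonneg _).trans hA
  have hB0 : 0 ≤ B := (integral_nonneg fun _ => abs_nonneg _).trans hB
  have hC0 : 0 ≤ C := (abs_nonneg _).trans (hC 0)
  have hf0 : 0 ≤ ∫ x, |f x| := integral_nonneg fun _ => abs_nonneg _
  have hg0 : 0 ≤ ∫ x, |g x| := integral_nonneg fun _ => abs_nonneg _
  rw [CE.D_eq_heat hf hg, abs_mul, abs_of_pos (by positivity : 0 < 2 / √π)]
  refine mul_le_mul_of_nonneg_left ?_ (by positivity)
  have hQ := CE.integrableOn_Q hf hg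
  have hle1 : ∀ τ : ℝ, |CE.Q τ f g| ≤ A * B := by
    intro τ
    refine (norm_integral_le_integral_norm _).trans ((CE.norm_Q_le_one hf hg.int τ).trans ?_)
    exact mul_le_mul hA hB hg0 hA0
  have hle2 : ∀ τ : ℝ, 0 < τ → |CE.Q τ f g| ≤ C * A * √π ^ 3 * τ ^ (-3 : ℝ) := by
    intro τ hτ
    refine (norm_integral_le_integral_norm _).trans ((CE.norm_Q_le_cube hf hg.int hC hτ).trans ?_)
    have e : (√π / τ) ^ 3 = √π ^ 3 * τ ^ (-3 : ℝ) := by
      rw [Real.rpow_neg hτ.le, div_pow]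
      norm_num
      ring
    rw [e]
    have : C * (∫ x, |f x|) ≤ C * A := mul_le_mul_of_nonneg_left hA hC0
    calc C * (∫ x, |f x|) * (√π ^ 3 * τ ^ (-3 : ℝ)) ≤ C * A * (√π ^ 3 * τ ^ (-3 : ℝ)) :=
          mul_le_mul_of_nonneg_right this (by positivity)
      _ = _ := by ring
  have hsplit : ∫ τ in Ioi (0 : ℝ), CE.Q τ f g =
      (∫ τ in Ioc (0 : ℝ) 1, CE.Q τ f g) + ∫ τ in Ioi (1 : ℝ), CE.Q τ f g := by
    rw [← setIntegral_union (Ioc_disjoint_Ioi le_rfl) measurableSet_Ioi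
      (hQ.mono_set Ioc_subset_Ioi_self) (hQ.mono_set (Ioi_subset_Ioi zero_le_one)),
      Ioc_union_Ioi_eq_Ioi zero_le_one]
  rw [hsplit]
  refine (abs_add_le _ _).trans (add_le_add ?_ ?_)
  · have h1 : ‖∫ τ in Ioc (0 : ℝ) 1, CE.Q τ f g‖ ≤ A * B * (volume (Ioc (0 : ℝ) 1)).toReal :=
      norm_setIntegral_le_of_norm_le_const (by simp) (fun τ _ => hle1 τ)
    rw [Real.norm_eq_abs] at h1
    refine h1.trans (le_of_eq ?_)
    simp
  · have h1 : IntegrableOn (fun τ : ℝ => C * A * √π ^ 3 * τ ^ (-3 : ℝ)) (Ioi 1) :=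
      (integrableOn_Ioi_rpow_of_lt (by norm_num) one_pos).const_mul _
    have h2 : ‖∫ τ in Ioi (1 : ℝ), CE.Q τ f g‖ ≤ ∫ τ in Ioi (1 : ℝ), C * A * √π ^ 3 * τ ^ (-3 : ℝ) := by
      refine norm_integral_le_of_norm_le h1 ?_
      refine (ae_restrict_iff' measurableSet_Ioi).2 (Filter.Eventually.of_forall fun τ hτ => ?_)
      exact hle2 τ (lt_trans one_pos hτ)
    rw [Real.norm_eq_abs] at h2
    refine h2.trans (le_of_eq ?_)
    rw [integral_const_mul, integral_Ioi_rpow_of_lt (by norm_num) one_pos]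
    norm_num
    ring

/-- **uniform bound of the Coulomb integrals** -/
theorem abs_W4_le (a b c d : Idx) : |W4 a b c d| ≤ 50000 := by
  rw [Br.W4_eq]
  unfold CE.W
  have hC : ∀ x : CE.P3, |CE.phi c x * CE.phi d x| ≤ 15625 := by
    intro x
    rw [abs_mul]
    calc |CE.phi c x| * |CE.phi d x| ≤ 125 * 125 :=
          mul_le_mul (abs_phi_le c x) (abs_phi_le d x) (abs_nonneg _) (by norm_num)
      _ = 15625 := by norm_num
  refine (abs_D_le (Br.nice_phi a b).int (Br.nice_phi c d) (integral_abs_phi_le a b)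
    (integral_abs_phi_le c d) hC).trans ?_
  have hπ := Real.pi_pos
  have hs : √π * √π = π := Real.mul_self_sqrt hπ.le
  have hs0 : 0 < √π := Real.sqrt_pos.2 hπ
  have hs1 : 1 ≤ √π := by
    rw [Real.one_le_sqrt]
    linarith [Real.pi_gt_three]
  have e : 2 / √π * (1 * 1 + 15625 * 1 * √π ^ 3 / 2) = 2 / √π + 15625 * π := by
    have : √π ^ 3 = √π * π := by rw [pow_succ, pow_two, hs]; ring
    rw [this]
    field_simp
  rw [e]
  have h1 : 2 / √π ≤ 2 := div_le_self (by norm_num) hs1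
  have h2 := Real.pi_lt_d2
  linarith

end Crest.Agent.R338.Cal

end
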