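import Mathlib

/-!
Row 338, node WC (helper201): calculus of functions with bounded derivatives of order `≤ N` (`DB`),
and the explicit `C³` cutoff `chi` (`= 1` for `|t| ≤ 1`, `= 0` for `|t| ≥ 2`),
`chi t = Sc (2 - |t|)`, `Sc u = Sm (max 0 (min 1 u))`, `Sm y = y⁴ (35 - 84 y + 70 y² - 20 y³)`.
-/

set_option autoImplicit false

open Set Filter Topology

noncomputable section
namespace Crest.Agent.R338.WC

/-! ### functions with bounded derivatives -/

/-- `f` is `C^N` and all derivatives of order `≤ N` are bounded by `B`. -/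
structure DB {E : Type*} [NormedAddCommGroup E] [NormedSpace ℝ E] (N : ℕ) (f : E → ℝ) (B : ℝ) :
    Prop where
  cd : ContDiff ℝ N f
  bd : ∀ j ≤ N, ∀ x, ‖iteratedFDeriv ℝ j f x‖ ≤ B

namespace DB

variable {E F : Type*} [NormedAddCommGroup E] [NormedSpace ℝ E] [NormedAddCommGroup F]
  [NormedSpace ℝ F] {N : ℕ} {f g : E → ℝ} {B C : ℝ}

theorem nonneg (h : DB N f B) : 0 ≤ B :=
  (norm_nonneg _).trans (h.bd 0 (Nat.zero_le _) 0)

theorem abs_le (h : DB N f B) (x : E) : |f x| ≤ B := by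
  have := h.bd 0 (Nat.zero_le _) x
  rwa [norm_iteratedFDeriv_zero, Real.norm_eq_abs] at this

theorem norm_fderiv_le (h : DB N f B) (hN : 1 ≤ N) (x : E) : ‖fderiv ℝ f x‖ ≤ B := by
  have := h.bd 1 hN x
  rwa [← norm_iteratedFDeriv_fderiv, norm_iteratedFDeriv_zero] at this

theorem mono (h : DB N f B) (hBC : B ≤ C) : DB N f C :=
  ⟨h.cd, fun j hj x => (h.bd j hj x).trans hBC⟩

theorem congr (h : DB N f B) (hfg : ∀ x, g x = f x) : DB N g B := by
  have : g = f := funext hfg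
  rwa [this]

theorem const (c : ℝ) : DB N (fun _ : E => c) |c| := by
  refine ⟨contDiff_const, fun j _ x => ?_⟩
  rcases Nat.eq_zero_or_pos j with rfl | hj
  · rw [norm_iteratedFDeriv_zero, Real.norm_eq_abs]
  · rw [iteratedFDeriv_const_of_ne (by omega)]
    simp

theorem add (hf : DB N f B) (hg : DB N g C) : DB N (fun x => f x + g x) (B + C) := by
  refine ⟨hf.cd.add hg.cd, fun j hj x => ?_⟩
  have hj' : (j : WithTop ℕ∞) ≤ N := by exact_mod_cast hj
  have e : iteratedFDeriv ℝ j (fun x => f x + g x) x =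
      iteratedFDeriv ℝ j f x + iteratedFDeriv ℝ j g x := by
    have := iteratedFDeriv_add_apply (𝕜 := ℝ) (i := j) (x := x) (f := f) (g := g)
      ((hf.cd.of_le hj').contDiffAt) ((hg.cd.of_le hj').contDiffAt)
    simpa [Pi.add_def] using this
  rw [e]
  exact (norm_add_le _ _).trans (add_le_add (hf.bd j hj x) (hg.bd j hj x))

theorem const_mul (hf : DB N f B) (c : ℝ) : DB N (fun x => c * f x) (|c| * B) := by
  refine ⟨contDiff_const.mul hf.cd, fun j hj x => ?_⟩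
  have hj' : (j : WithTop ℕ∞) ≤ N := by exact_mod_cast hj
  have e : iteratedFDeriv ℝ j (fun x => c * f x) x = c • iteratedFDeriv ℝ j f x := by
    have := iteratedFDeriv_const_smul_apply (𝕜 := ℝ) (i := j) (x := x) (f := f) (a := c)
      ((hf.cd.of_le hj').contDiffAt)
    simpa [Pi.smul_def, smul_eq_mul] using this
  rw [e, norm_smul, Real.norm_eq_abs]
  exact mul_le_mul_of_nonneg_left (hf.bd j hj x) (abs_nonneg _)

theorem neg (hf : DB N f B) : DB N (fun x => - f x) B := by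
  have := hf.const_mul (-1)
  refine (this.congr (g := fun x => - f x) fun x => by ring).mono (by simp)

theorem sub (hf : DB N f B) (hg : DB N g C) : DB N (fun x => f x - g x) (B + C) := by
  have := hf.add hg.neg
  exact this.congr fun x => by ring

theorem sum {ι : Type*} (s : Finset ι) {f : ι → E → ℝ} {B : ι → ℝ}
    (h : ∀ i ∈ s, DB N (f i) (B i)) : DB N (fun x => ∑ i ∈ s, f i x) (∑ i ∈ s, B i) := by
  classical
  induction s using Finset.induction_on with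
  | empty =>
    have := DB.const (E := E) (N := N) 0
    refine (this.congr (g := fun x => ∑ i ∈ (∅ : Finset ι), f i x) fun x => by simp).mono (by simp)
  | insert a s ha ih =>
    have h1 := (h a (Finset.mem_insert_self a s)).add
      (ih fun i hi => h i (Finset.mem_insert_of_mem hi))
    rw [Finset.sum_insert ha]
    exact h1.congr fun x => by rw [Finset.sum_insert ha]

theorem mul (hf : DB N f B) (hg : DB N g C) : DB N (fun x => f x * g x) (2 ^ N * B * C) := by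
  refine ⟨hf.cd.mul hg.cd, fun j hj x => ?_⟩
  have hj' : (j : WithTop ℕ∞) ≤ N := by exact_mod_cast hj
  have hB := hf.nonneg
  have hC := hg.nonneg
  have h1 := norm_iteratedFDeriv_mul_le (𝕜 := ℝ) (N := (N : WithTop ℕ∞)) hf.cd hg.cd x (n := j) hj'
  refine h1.trans ?_
  have h2 : ∀ i ∈ Finset.range (j + 1), (j.choose i : ℝ) * ‖iteratedFDeriv ℝ i f x‖ *
      ‖iteratedFDeriv ℝ (j - i) g x‖ ≤ (j.choose i : ℝ) * (B * C) := by
    intro i hi
    have hi' : i ≤ j := by simpa [Nat.lt_succ_iff] using hi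
    rw [mul_assoc]
    refine mul_le_mul_of_nonneg_left ?_ (by positivity)
    exact mul_le_mul (hf.bd i (hi'.trans hj) x) (hg.bd (j - i) (by omega) x) (norm_nonneg _) hB
  refine (Finset.sum_le_sum h2).trans ?_
  rw [← Finset.sum_mul]
  have h3 : ∑ i ∈ Finset.range (j + 1), (j.choose i : ℝ) = 2 ^ j := by
    have := Nat.sum_range_choose j
    exact_mod_cast this
  rw [h3, mul_assoc]
  refine mul_le_mul_of_nonneg_right ?_ (by positivity)
  exact pow_le_pow_right₀ (by norm_num) hj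

/-- composition with a linear map of norm `≤ 1` -/
theorem comp_clm {f : F → ℝ} (hf : DB N f B) (L : E →L[ℝ] F) (hL : ‖L‖ ≤ 1) :
    DB N (fun x => f (L x)) B := by
  refine ⟨hf.cd.comp L.contDiff, fun j hj x => ?_⟩
  have hj' : (j : WithTop ℕ∞) ≤ N := by exact_mod_cast hj
  have e := L.iteratedFDeriv_comp_right (f := f) hf.cd x (i := j) hj'
  have e' : iteratedFDeriv ℝ j (fun x => f (L x)) x =
      (iteratedFDeriv ℝ j f (L x)).compContinuousLinearMap fun _ => L := e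
  rw [e']
  refine (ContinuousMultilinearMap.norm_compContinuousLinearMap_le _ _).trans ?_
  rw [Finset.prod_const]
  calc ‖iteratedFDeriv ℝ j f (L x)‖ * ‖L‖ ^ _ ≤ B * 1 := by
        refine mul_le_mul (hf.bd j hj _) (pow_le_one₀ (norm_nonneg _) hL) (by positivity) hf.nonneg
    _ = B := mul_one _

theorem comp_add {f : E → ℝ} (hf : DB N f B) (c : E) : DB N (fun x => f (c + x)) B := by
  refine ⟨hf.cd.comp (contDiff_const.add contDiff_id), fun j hj x => ?_⟩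
  rw [iteratedFDeriv_comp_add_left]
  exact hf.bd j hj _

/-- a function of one real variable from a chain of derivatives -/
theorem of_chain3 {f0 f1 f2 f3 : ℝ → ℝ} {B : ℝ} (h0 : ∀ x, HasDerivAt f0 (f1 x) x)
    (h1 : ∀ x, HasDerivAt f1 (f2 x) x) (h2 : ∀ x, HasDerivAt f2 (f3 x) x) (h3 : Continuous f3)
    (b0 : ∀ x, |f0 x| ≤ B) (b1 : ∀ x, |f1 x| ≤ B) (b2 : ∀ x, |f2 x| ≤ B) (b3 : ∀ x, |f3 x| ≤ B) :
    DB 3 f0 B := by
  have d0 : deriv f0 = f1 := funext fun x => (h0 x).deriv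
  have d1 : deriv f1 = f2 := funext fun x => (h1 x).deriv
  have d2 : deriv f2 = f3 := funext fun x => (h2 x).deriv
  have c2 : ContDiff ℝ 1 f2 := contDiff_one_iff_deriv.2
    ⟨fun x => (h2 x).differentiableAt, by rw [d2]; exact h3⟩
  have c1 : ContDiff ℝ 2 f1 := by
    have : (2 : WithTop ℕ∞) = 1 + 1 := by norm_num
    rw [this, contDiff_succ_iff_deriv]
    exact ⟨fun x => (h1 x).differentiableAt, by simp, by rw [d1]; exact c2⟩
  have c0 : ContDiff ℝ 3 f0 := by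
    have : (3 : WithTop ℕ∞) = 2 + 1 := by norm_num
    rw [this, contDiff_succ_iff_deriv]
    exact ⟨fun x => (h0 x).differentiableAt, by simp, by rw [d0]; exact c1⟩
  have i0 : iteratedDeriv 0 f0 = f0 := iteratedDeriv_zero
  have i1 : iteratedDeriv 1 f0 = f1 := by rw [iteratedDeriv_one, d0]
  have i2 : iteratedDeriv 2 f0 = f2 := by rw [iteratedDeriv_succ, i1, d1]
  have i3 : iteratedDeriv 3 f0 = f3 := by rw [iteratedDeriv_succ, i2, d2]
  refine ⟨by exact_mod_cast c0, fun j hj x => ?_⟩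
  rw [norm_iteratedFDeriv_eq_norm_iteratedDeriv, Real.norm_eq_abs]
  interval_cases j
  · rw [i0]; exact b0 x
  · rw [i1]; exact b1 x
  · rw [i2]; exact b2 x
  · rw [i3]; exact b3 x

/-- one real variable, from `iteratedDeriv` bounds -/
theorem of_iteratedDeriv {f : ℝ → ℝ} {B : ℝ} (hc : ContDiff ℝ N f)
    (hb : ∀ j ≤ N, ∀ x, |iteratedDeriv j f x| ≤ B) : DB N f B := by
  refine ⟨hc, fun j hj x => ?_⟩
  rw [norm_iteratedFDeriv_eq_norm_iteratedDeriv, Real.norm_eq_abs]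
  exact hb j hj x

theorem abs_iteratedDeriv_le {f : ℝ → ℝ} {B : ℝ} (h : DB N f B) {j : ℕ} (hj : j ≤ N) (x : ℝ) :
    |iteratedDeriv j f x| ≤ B := by
  have := h.bd j hj x
  rwa [norm_iteratedFDeriv_eq_norm_iteratedDeriv, Real.norm_eq_abs] at this

end DB

/-! ### the cutoff -/

/-- clamp to `[0,1]` -/
def cl (u : ℝ) : ℝ := max 0 (min 1 u)

theorem cl_nonneg (u : ℝ) : 0 ≤ cl u := le_max_left _ _

theorem cl_le_one (u : ℝ) : cl u ≤ 1 := max_le zero_le_one (min_le_left _ _)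

theorem cl_of_le {u : ℝ} (h : u ≤ 0) : cl u = 0 := by
  unfold cl
  rw [min_eq_right (h.trans zero_le_one), max_eq_left h]

theorem cl_of_ge {u : ℝ} (h : 1 ≤ u) : cl u = 1 := by
  unfold cl
  rw [min_eq_left h, max_eq_right zero_le_one]

theorem cl_of_mem {u : ℝ} (h0 : 0 ≤ u) (h1 : u ≤ 1) : cl u = u := by
  unfold cl
  rw [min_eq_right h1, max_eq_right h0]

theorem continuous_cl : Continuous cl := by unfold cl; fun_prop

theorem abs_cl_sub_le (u v : ℝ) : |cl u - cl v| ≤ |u - v| := by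
  unfold cl
  have h1 : |max 0 (min 1 u) - max 0 (min 1 v)| ≤ |min 1 u - min 1 v| := by
    have := abs_max_sub_max_le_max (0 : ℝ) (min 1 u) 0 (min 1 v)
    simpa using this
  have h2 : |min 1 u - min 1 v| ≤ |u - v| := by
    have := abs_min_sub_min_le_max (1 : ℝ) u 1 v
    simpa using this
  exact h1.trans h2

theorem hasDerivAt_comp_cl {P P' : ℝ → ℝ} (hP : ∀ u, HasDerivAt P (P' u) u) (h0 : P' 0 = 0)
    (h1 : P' 1 = 0) (u : ℝ) : HasDerivAt (fun u => P (cl u)) (P' (cl u)) u := by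
  by_cases hu : 0 < u ∧ u < 1
  · have e : (fun u => P (cl u)) =ᶠ[𝓝 u] P := by
      filter_upwards [Ioo_mem_nhds hu.1 hu.2] with v hv
      rw [cl_of_mem hv.1.le hv.2.le]
    rw [cl_of_mem hu.1.le hu.2.le]
    exact (hP u).congr_of_eventuallyEq e
  · have hz : P' (cl u) = 0 := by
      rw [not_and_or, not_lt, not_lt] at hu
      rcases hu with hu | hu
      · rw [cl_of_le hu, h0]
      · rw [cl_of_ge hu, h1]
    have h2 := hP (cl u)
    rw [hz] at h2 ⊢
    rw [hasDerivAt_iff_isLittleO] at h2 ⊢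
    simp only [smul_zero, sub_zero] at h2 ⊢
    have h3 : Tendsto cl (𝓝 u) (𝓝 (cl u)) := continuous_cl.continuousAt
    have h4 := h2.comp_tendsto h3
    have h5 : ((fun x' => x' - cl u) ∘ cl) =O[𝓝 u] (fun x' => x' - u) := by
      refine Asymptotics.IsBigO.of_bound 1 (Eventually.of_forall fun v => ?_)
      simp only [Function.comp_apply, Real.norm_eq_abs, one_mul]
      exact abs_cl_sub_le v u
    exact h4.trans_isBigO h5

/-- the smoothstep polynomial -/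
def Sm (y : ℝ) : ℝ := y ^ 4 * (35 - 84 * y + 70 * y ^ 2 - 20 * y ^ 3)
/-- its derivatives -/
def Sm1 (y : ℝ) : ℝ := 140 * (y ^ 3 * (1 - y) ^ 3)
def Sm2 (y : ℝ) : ℝ := 420 * (y ^ 2 * (1 - y) ^ 2 * (1 - 2 * y))
def Sm3 (y : ℝ) : ℝ := 840 * (y * (1 - y) * (1 - 5 * y + 5 * y ^ 2))

theorem hasDerivAt_Sm (y : ℝ) : HasDerivAt Sm (Sm1 y) y := by
  have h : HasDerivAt (fun y : ℝ => 35 * y ^ 4 - 84 * y ^ 5 + 70 * y ^ 6 - 20 * y ^ 7)
      (35 * (4 * y ^ 3) - 84 * (5 * y ^ 4) + 70 * (6 * y ^ 5) - 20 * (7 * y ^ 6)) y := by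
    have a := (hasDerivAt_pow 4 y).const_mul (35 : ℝ)
    have b := (hasDerivAt_pow 5 y).const_mul (84 : ℝ)
    have c := (hasDerivAt_pow 6 y).const_mul (70 : ℝ)
    have d := (hasDerivAt_pow 7 y).const_mul (20 : ℝ)
    exact_mod_cast ((a.sub b).add c).sub d
  have e : Sm = fun y : ℝ => 35 * y ^ 4 - 84 * y ^ 5 + 70 * y ^ 6 - 20 * y ^ 7 := by
    ext y; unfold Sm; ring
  rw [e]
  refine h.congr_deriv ?_
  unfold Sm1; ring

theorem hasDerivAt_Sm1 (y : ℝ) : HasDerivAt Sm1 (Sm2 y) y := by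
  have h : HasDerivAt (fun y : ℝ => 140 * y ^ 3 - 420 * y ^ 4 + 420 * y ^ 5 - 140 * y ^ 6)
      (140 * (3 * y ^ 2) - 420 * (4 * y ^ 3) + 420 * (5 * y ^ 4) - 140 * (6 * y ^ 5)) y := by
    have a := (hasDerivAt_pow 3 y).const_mul (140 : ℝ)
    have b := (hasDerivAt_pow 4 y).const_mul (420 : ℝ)
    have c := (hasDerivAt_pow 5 y).const_mul (420 : ℝ)
    have d := (hasDerivAt_pow 6 y).const_mul (140 : ℝ)
    exact_mod_cast ((a.sub b).add c).sub d
  have e : Sm1 = fun y : ℝ => 140 * y ^ 3 - 420 * y ^ 4 + 420 * y ^ 5 - 140 * y ^ 6 := by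
    ext y; unfold Sm1; ring
  rw [e]
  refine h.congr_deriv ?_
  unfold Sm2; ring

theorem hasDerivAt_Sm2 (y : ℝ) : HasDerivAt Sm2 (Sm3 y) y := by
  have h : HasDerivAt (fun y : ℝ => 420 * y ^ 2 - 1680 * y ^ 3 + 2100 * y ^ 4 - 840 * y ^ 5)
      (420 * (2 * y) - 1680 * (3 * y ^ 2) + 2100 * (4 * y ^ 3) - 840 * (5 * y ^ 4)) y := by
    have a := (hasDerivAt_pow 2 y).const_mul (420 : ℝ)
    have b := (hasDerivAt_pow 3 y).const_mul (1680 : ℝ)
    have c := (hasDerivAt_pow 4 y).const_mul (2100 : ℝ)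
    have d := (hasDerivAt_pow 5 y).const_mul (840 : ℝ)
    have := ((a.sub b).add c).sub d
    refine this.congr_deriv ?_
    norm_num
  have e : Sm2 = fun y : ℝ => 420 * y ^ 2 - 1680 * y ^ 3 + 2100 * y ^ 4 - 840 * y ^ 5 := by
    ext y; unfold Sm2; ring
  rw [e]
  refine h.congr_deriv ?_
  unfold Sm3; ring

/-- the clamped smoothstep, `0` for `u ≤ 0`, `1` for `u ≥ 1`, and its derivatives -/
def Sc (u : ℝ) : ℝ := Sm (cl u)
def Sc1 (u : ℝ) : ℝ := Sm1 (cl u)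
def Sc2 (u : ℝ) : ℝ := Sm2 (cl u)
def Sc3 (u : ℝ) : ℝ := Sm3 (cl u)

theorem hasDerivAt_Sc (u : ℝ) : HasDerivAt Sc (Sc1 u) u :=
  hasDerivAt_comp_cl hasDerivAt_Sm (by unfold Sm1; norm_num) (by unfold Sm1; norm_num) u

theorem hasDerivAt_Sc1 (u : ℝ) : HasDerivAt Sc1 (Sc2 u) u :=
  hasDerivAt_comp_cl hasDerivAt_Sm1 (by unfold Sm2; norm_num) (by unfold Sm2; norm_num) u

theorem hasDerivAt_Sc2 (u : ℝ) : HasDerivAt Sc2 (Sc3 u) u :=
  hasDerivAt_comp_cl hasDerivAt_Sm2 (by unfold Sm3; norm_num) (by unfold Sm3; norm_num) u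

theorem continuous_Sc3 : Continuous Sc3 := by
  unfold Sc3 Sm3
  have := continuous_cl
  fun_prop

theorem Sm_nonneg {y : ℝ} (h0 : 0 ≤ y) (h1 : y ≤ 1) : 0 ≤ Sm y := by
  unfold Sm
  have h2 : 0 ≤ (1 - y) := by linarith
  have : (35 - 84 * y + 70 * y ^ 2 - 20 * y ^ 3) =
      1 + 4 * (1 - y) + 10 * (1 - y) ^ 2 + 20 * (1 - y) ^ 3 := by ring
  rw [this]
  positivity

theorem Sm_le_one {y : ℝ} (h0 : 0 ≤ y) (h1 : y ≤ 1) : Sm y ≤ 1 := by
  have h2 : 0 ≤ 1 - y := by linarith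
  have h := Sm_nonneg h2 (by linarith)
  have e : Sm (1 - y) = 1 - Sm y := by unfold Sm; ring
  rw [e] at h
  linarith

theorem Sc_nonneg (u : ℝ) : 0 ≤ Sc u := Sm_nonneg (cl_nonneg u) (cl_le_one u)

theorem Sc_le_one (u : ℝ) : Sc u ≤ 1 := Sm_le_one (cl_nonneg u) (cl_le_one u)

theorem Sc_of_le {u : ℝ} (h : u ≤ 0) : Sc u = 0 := by
  unfold Sc; rw [cl_of_le h]; unfold Sm; norm_num

theorem Sc_of_ge {u : ℝ} (h : 1 ≤ u) : Sc u = 1 := by
  unfold Sc; rw [cl_of_ge h]; unfold Sm; norm_num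

theorem Sc1_of_le {u : ℝ} (h : u ≤ 0) : Sc1 u = 0 := by
  unfold Sc1; rw [cl_of_le h]; unfold Sm1; norm_num

theorem Sc1_of_ge {u : ℝ} (h : 1 ≤ u) : Sc1 u = 0 := by
  unfold Sc1; rw [cl_of_ge h]; unfold Sm1; norm_num

theorem abs_Sc_le (u : ℝ) : |Sc u| ≤ 1 := by
  rw [abs_of_nonneg (Sc_nonneg u)]; exact Sc_le_one u

theorem quarter {y : ℝ} : y * (1 - y) ≤ 1 / 4 := by nlinarith [sq_nonneg (y - 1 / 2)]

theorem abs_Sm1_le {y : ℝ} (h0 : 0 ≤ y) (h1 : y ≤ 1) : |Sm1 y| ≤ 3 := by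
  have h2 : 0 ≤ 1 - y := by linarith
  have e : Sm1 y = 140 * (y * (1 - y)) ^ 3 := by unfold Sm1; ring
  have h3 : 0 ≤ y * (1 - y) := by positivity
  rw [e, abs_of_nonneg (by positivity)]
  have : (y * (1 - y)) ^ 3 ≤ (1 / 4) ^ 3 := pow_le_pow_left₀ h3 quarter 3
  linarith

theorem abs_Sm2_le {y : ℝ} (h0 : 0 ≤ y) (h1 : y ≤ 1) : |Sm2 y| ≤ 27 := by
  have h2 : 0 ≤ 1 - y := by linarith
  have e : Sm2 y = 420 * (y * (1 - y)) ^ 2 * (1 - 2 * y) := by unfold Sm2; ring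
  have h3 : 0 ≤ y * (1 - y) := by positivity
  rw [e, abs_mul, abs_of_nonneg (by positivity : 0 ≤ 420 * (y * (1 - y)) ^ 2)]
  have h4 : (y * (1 - y)) ^ 2 ≤ (1 / 4) ^ 2 := pow_le_pow_left₀ h3 quarter 2
  have h5 : |1 - 2 * y| ≤ 1 := by rw [_root_.abs_le]; constructor <;> linarith
  calc 420 * (y * (1 - y)) ^ 2 * |1 - 2 * y| ≤ 27 * 1 := by
        refine mul_le_mul (by linarith) h5 (abs_nonneg _) (by norm_num)
    _ = 27 := by norm_num

theorem abs_Sm3_le {y : ℝ} (h0 : 0 ≤ y) (h1 : y ≤ 1) : |Sm3 y| ≤ 210 := by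
  have h2 : 0 ≤ 1 - y := by linarith
  have e : Sm3 y = 840 * (y * (1 - y)) * (1 - 5 * (y * (1 - y))) := by unfold Sm3; ring
  have h3 : 0 ≤ y * (1 - y) := by positivity
  have h4 : y * (1 - y) ≤ 1 / 4 := quarter
  rw [e, abs_mul, abs_of_nonneg (by positivity : 0 ≤ 840 * (y * (1 - y)))]
  have h5 : |1 - 5 * (y * (1 - y))| ≤ 1 := by rw [_root_.abs_le]; constructor <;> linarith
  calc 840 * (y * (1 - y)) * |1 - 5 * (y * (1 - y))| ≤ 210 * 1 := by
        refine mul_le_mul (by linarith) h5 (abs_nonneg _) (by norm_num)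
    _ = 210 := by norm_num

theorem db_Sc : DB 3 Sc 210 :=
  DB.of_chain3 hasDerivAt_Sc hasDerivAt_Sc1 hasDerivAt_Sc2 continuous_Sc3
    (fun x => (abs_Sc_le x).trans (by norm_num))
    (fun x => (abs_Sm1_le (cl_nonneg x) (cl_le_one x)).trans (by norm_num))
    (fun x => (abs_Sm2_le (cl_nonneg x) (cl_le_one x)).trans (by norm_num))
    (fun x => abs_Sm3_le (cl_nonneg x) (cl_le_one x))

/-- the cutoff: `1` for `|t| ≤ 1`, `0` for `|t| ≥ 2` -/
def chi (t : ℝ) : ℝ := Sc (2 - |t|)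

/-- its derivative -/
def chi1 (t : ℝ) : ℝ := Sc (2 - t) * Sc1 (2 + t) - Sc1 (2 - t) * Sc (2 + t)

theorem chi_eq_mul (t : ℝ) : chi t = Sc (2 - t) * Sc (2 + t) := by
  unfold chi
  rcases le_total 0 t with h | h
  · rw [abs_of_nonneg h, Sc_of_ge (u := 2 + t) (by linarith), mul_one]
  · rw [abs_of_nonpos h, Sc_of_ge (u := 2 - t) (by linarith), one_mul, sub_neg_eq_add]

theorem hasDerivAt_chi (t : ℝ) : HasDerivAt chi (chi1 t) t := by
  have e : chi = fun t => Sc (2 - t) * Sc (2 + t) := funext chi_eq_mul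
  rw [e]
  have h1 : HasDerivAt (fun t => Sc (2 - t)) (Sc1 (2 - t) * (-1)) t :=
    (hasDerivAt_Sc (2 - t)).comp t ((hasDerivAt_id t).const_sub 2)
  have h2 : HasDerivAt (fun t => Sc (2 + t)) (Sc1 (2 + t) * 1) t :=
    (hasDerivAt_Sc (2 + t)).comp t ((hasDerivAt_id t).const_add 2)
  refine (h1.mul h2).congr_deriv ?_
  unfold chi1; ring

/-- `χ' (t) = - sign(t) S'(2 - |t|)` -/
theorem chi1_eq (t : ℝ) : chi1 t = if 0 ≤ t then - Sc1 (2 - t) else Sc1 (2 + t) := by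
  unfold chi1
  split_ifs with h
  · rw [Sc_of_ge (u := 2 + t) (by linarith), Sc1_of_ge (u := 2 + t) (by linarith)]; ring
  · rw [not_le] at h
    rw [Sc_of_ge (u := 2 - t) (by linarith), Sc1_of_ge (u := 2 - t) (by linarith)]; ring

theorem chi_nonneg (t : ℝ) : 0 ≤ chi t := Sc_nonneg _

theorem chi_le_one (t : ℝ) : chi t ≤ 1 := Sc_le_one _

theorem chi_of_le {t : ℝ} (h : |t| ≤ 1) : chi t = 1 := Sc_of_ge (by linarith)

theorem chi_of_ge {t : ℝ} (h : 2 ≤ |t|) : chi t = 0 := Sc_of_le (by linarith)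

theorem chi_neg (t : ℝ) : chi (-t) = chi t := by unfold chi; rw [abs_neg]

theorem chi1_of_le {t : ℝ} (h : |t| ≤ 1) : chi1 t = 0 := by
  rw [_root_.abs_le] at h
  unfold chi1
  rw [Sc1_of_ge (u := 2 + t) (by linarith), Sc1_of_ge (u := 2 - t) (by linarith)]; ring

theorem chi1_of_ge {t : ℝ} (h : 2 ≤ |t|) : chi1 t = 0 := by
  rw [chi1_eq]
  rcases le_total 0 t with ht | ht
  · rw [if_pos ht, Sc1_of_le (by rw [abs_of_nonneg ht] at h; linarith), neg_zero]
  · rw [abs_of_nonpos ht] at h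
    rw [if_neg (by linarith), Sc1_of_le (by linarith)]

/-- all derivatives of `chi` of order `≤ 3` are bounded by `CX` -/
def CX : ℝ := 2 ^ 3 * 210 * 210

theorem db_chi : DB 3 chi CX := by
  have h1 : DB 3 (fun t : ℝ => Sc (2 + t)) 210 := db_Sc.comp_add 2
  have h2 : DB 3 (fun t : ℝ => Sc (2 - t)) 210 := by
    have := h1.comp_clm (-(ContinuousLinearMap.id ℝ ℝ)) (by rw [norm_neg]; exact ContinuousLinearMap.norm_id_le)
    refine this.congr fun t => ?_
    simp [sub_eq_add_neg]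
  exact (h2.mul h1).congr chi_eq_mul

/-- the rescaled cutoff: `1` for `|t| ≤ r`, `0` for `|t| ≥ 2 r` -/
theorem db_chi_scaled {r : ℝ} (hr : 1 ≤ r) : DB 3 (fun t => chi (t / r)) CX := by
  have hL : ‖(r⁻¹ : ℝ) • ContinuousLinearMap.id ℝ ℝ‖ ≤ 1 := by
    rw [norm_smul, norm_inv, Real.norm_eq_abs, abs_of_pos (by linarith)]
    have := ContinuousLinearMap.norm_id_le (𝕜 := ℝ) (E := ℝ)
    calc r⁻¹ * ‖ContinuousLinearMap.id ℝ ℝ‖ ≤ 1 * 1 := by
          refine mul_le_mul (inv_le_one_of_one_le₀ hr) this (norm_nonneg _) zero_le_one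
      _ = 1 := by norm_num
  refine (db_chi.comp_clm _ hL).congr fun t => ?_
  simp [div_eq_inv_mul]

theorem CX_pos : 0 < CX := by unfold CX; norm_num

end Crest.Agent.R338.WC
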