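import Crest.Agent.R338.Iface
import Crest.Agent.R338.LatDefs
import Crest.Agent.R338.WCCut

/-!
# Row 338, node P2 (helper714): the exact real data of the reduction map
`HInst → groundEnergyProblem`, and the frozen statements of the nodes that feed the assembly
of `PartIIStmt` (file `P2Main.lean`).

All parameters except the nuclear coordinates and the thresholds are natural numbers of
polynomial size: powers of `k = (c (n+2) (q+1))^c`.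
-/

set_option autoImplicit false

noncomputable section

open MeasureTheory Crest.Quantum.QMA Crest.MathPhysics.CoulombProblem
open Crest.MathPhysics.ElectronicCoulomb
open Crest.Agent.Lib.PT

namespace Crest.Agent.R338.P2

/-! ## Calibration: the exact solution -/

/-- `A`, `a` solve the calibration equations exactly and vanish outside the index range -/
def IsCal (n k : ℕ) (j0 : ℝ) (J : ℕ → ℕ → ℝ) (A : ℕ → ℕ → ℝ) (a : ℕ → ℝ) : Prop :=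
  Calib n k j0 J A a 0 ∧ (∀ i j, ¬ (i < j ∧ j < n) → A i j = 0) ∧ ∀ i, n ≤ i → a i = 0

open Classical in
/-- the exact solution of the calibration equations (`0` if there is none) -/
def calSol (n k : ℕ) (j0 : ℝ) (J : ℕ → ℕ → ℝ) : (ℕ → ℕ → ℝ) × (ℕ → ℝ) :=
  if h : ∃ p : (ℕ → ℕ → ℝ) × (ℕ → ℝ), IsCal n k j0 J p.1 p.2 then h.choose
  else (fun _ _ => 0, fun _ => 0)

/-- node CAL (158 / 866): unique exact solution, polynomial bounds -/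
def CalStmt : Prop := ∃ C : ℕ, 1 ≤ C ∧ ∀ n k : ℕ, (C * (n + 1)) ^ C ≤ k → ∀ (j0 : ℝ) (J : ℕ → ℕ → ℝ),
  (∃! p : (ℕ → ℕ → ℝ) × (ℕ → ℝ), IsCal n k j0 J p.1 p.2) ∧
  (0 ≤ j0 → j0 ≤ 1 → (∀ i j, 0 ≤ J i j ∧ J i j ≤ 1) →
    ∀ (A : ℕ → ℕ → ℝ) (a : ℕ → ℝ), IsCal n k j0 J A a →
      (∀ i j, |A i j| ≤ (k : ℝ) ^ C) ∧ ∀ i, |a i| ≤ (k : ℝ) ^ C)

/-! ## The cut-off potential -/

/-- `w` times the cutoff: equal to `w` for `|x c| ≤ Lw`, zero if some `|x c| ≥ 2 Lw` -/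
def wcut (Lw : ℝ) (w : Pos3 → ℝ) (x : Pos3) : ℝ := w x * ∏ c : Fin 3, WC.chi (x c / Lw)

/-- node WC (201): bounds for `w = wpot` and for its cut-off -/
def WcStmt : Prop := ∃ C : ℕ, 1 ≤ C ∧ ∀ (n k : ℕ) (Lam Amax : ℝ) (A : ℕ → ℕ → ℝ) (a : ℕ → ℝ) (Lw : ℝ),
  1 ≤ n → 1 ≤ k → 1 ≤ Lam → 1 ≤ Amax → 1 ≤ Lw → (∀ i j, |A i j| ≤ Amax) → (∀ i, |a i| ≤ Amax) →
  let w := wpot n k Lam A a
  let wc := wcut Lw w
  let G := ((n0' n k : ℝ) + Lam + Amax + 2) ^ C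
  Continuous w ∧ (∀ x, |w x| ≤ G) ∧ (∀ x, |wc x| ≤ G) ∧ ContDiff ℝ 1 wc ∧
  (∀ x, (∀ c, |x c| ≤ Lw) → wc x = w x) ∧
  (∀ x, (∃ c, 2 * Lw ≤ |x c|) → wc x = 0) ∧
  (∀ x, ‖fderiv ℝ wc x‖ ≤ G) ∧
  (∀ x v, ‖fderiv ℝ wc (x + v) - fderiv ℝ wc x‖ ≤ G * ‖v‖) ∧
  (∀ x v, ‖fderiv ℝ wc (x + v) + fderiv ℝ wc (x - v) - (2 : ℝ) • fderiv ℝ wc x‖ ≤ G * ‖v‖ ^ 2)

/-! ## The lattice -/

/-- node LAT (820 / 701 / 581): the displaced proton lattice satisfies `NucOK`.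
`N` nuclei enumerated by `e`, `w` the designer potential, `wc` its cut-off. -/
def LatStmt : Prop := ∃ C : ℕ, 1 ≤ C ∧ ∀ (n0 nL N : ℕ) (lam s K R Lw G Wb eps : ℝ)
  (d : (Fin 3 → ℤ) → Pos3) (w wc : Pos3 → ℝ) (e : Fin N ≃ {α // α ∈ Lat.Box nL}),
  0 < lam → lam ≤ 1 → 0 < s → s ≤ 1 → s ^ 3 = 4 * Real.pi * lam / 3 → (C : ℝ) ≤ K → K * s ≤ 1 →
  (C : ℝ) ≤ R → 1 ≤ Lw → Lw + s ≤ nL * s → C * R ≤ nL * s → 1 ≤ G → 0 ≤ eps → 1 ≤ Wb →
  Lat.Disp s d wc Lw G eps → Continuous w → (∀ x, |w x| ≤ Wb) → (∀ x, |wc x| ≤ Wb) →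
  (∀ x : Pos3, (∀ c, |x c| ≤ 2 * R) → wc x = w x) →
  C * (lam * Wb) ≤ R ^ 2 → C * ((nL : ℝ) * s) ^ 2 ≤ R ^ 8 →
  let E2 : ℝ := C * (R ^ 4 / ((nL : ℝ) * s) ^ 2 + lam * G ^ 2 * (s ^ 2 * Lw + K * s) +
      lam * eps * Lw / s ^ 3 + ((nL : ℝ) + 1) ^ C * Real.exp (-K ^ 2) / s ^ C)
  E2 ≤ 1 →
  NucOK n0 lam (-(Lat.V0 lam s (1 / (K * s) ^ 2) nL 0)) R (C * ((n0 : ℝ) + 2) ^ C * lam * K ^ 4 * s)
    E2 (C * lam * K ^ 3) Wb (fun i => Lat.nuc s d (e i).1) w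

/-! ## Scaling -/

/-- node SCALE (271, Fm3): dilation by `lam` -/
def ScaleStmt : Prop := ∀ (n K : ℕ) (nuc : Fin K → Pos3) (lam : ℝ), 0 < lam → ∀ a : ℝ,
  (InfEnergyLE (fun x : Config n => lam * unitNucleiPotential nuc x) a →
    InfEnergyLE (unitNucleiPotential (n := n) fun α => lam • nuc α) (a / lam ^ 2)) ∧
  (InfEnergyGE (fun x : Config n => lam * unitNucleiPotential nuc x) a →
    InfEnergyGE (unitNucleiPotential (n := n) fun α => lam • nuc α) (a / lam ^ 2))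

/-! ## The exact data of the map -/

/-- the fixed numerals of the map: `k = (c (n+2) (q+1))^c`, `j0 = 1/((nq)^cB k^4)`, `Lam = k^l`,
`B = k^b` (lattice constant `1/A`, `A = B^8`), `R = k^r B^3`, `nL = k^m B^11` -/
structure Cst where
  /-- exponent of `k` -/
  c : ℕ
  /-- exponent in `j0` -/
  cB : ℕ
  /-- exponent of `Lam` -/
  l : ℕ
  /-- exponent of `B` -/
  b : ℕ
  /-- exponent of `R` -/
  r : ℕ
  /-- exponent of `nL` -/
  m : ℕ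

variable (C : Cst) (h : HInst)

/-- the base parameter -/
def kP : ℕ := (C.c * (h.n + 2) * (h.q + 1)) ^ C.c
/-- the shell -/
def n0P : ℕ := n0' h.n (kP C h)
/-- the selection strength -/
def LamP : ℕ := kP C h ^ C.l
/-- `B` -/
def BP : ℕ := kP C h ^ C.b
/-- inverse physical lattice constant -/
def AP : ℕ := BP C h ^ 8
/-- scaled radius -/
def RP : ℕ := kP C h ^ C.r * BP C h ^ 3
/-- half size of the lattice -/
def nLP : ℕ := kP C h ^ C.m * BP C h ^ 11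
/-- the displacement of the proton `α` is zero if some `|α c| > MdP` -/
def MdP : ℕ := 4 * RP C h * BP C h ^ 2
/-- number of electrons -/
def NP : ℕ := numEl (n0P C h) h.n

/-- the coupling scale -/
def j0P : ℝ := 1 / (((h.n : ℝ) * h.q) ^ C.cB * (kP C h : ℝ) ^ 4)
/-- the couplings -/
def JfP (i j : ℕ) : ℝ := (h.J i j : ℝ)
/-- exact hopping strengths -/
def AcP : ℕ → ℕ → ℝ := (calSol h.n (kP C h) (j0P C h) (JfP h)).1
/-- exact offsets -/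
def acP : ℕ → ℝ := (calSol h.n (kP C h) (j0P C h) (JfP h)).2
/-- the designer potential -/
def wP : Pos3 → ℝ := wpot h.n (kP C h) (LamP C h) (AcP C h) (acP C h)
/-- its cut-off, equal to `wP` for `|x c| ≤ 2 R`, zero for `|x c| ≥ 4 R` -/
def wcP : Pos3 → ℝ := wcut (2 * (RP C h : ℝ)) (wP C h)

/-- `(3/(4π))^{1/4}` -/
def kap : ℝ := √(√(3 / (4 * Real.pi)))
/-- the scale `λ = (3/(4πA³))^{1/4}` -/
def lamP : ℝ := kap / (BP C h : ℝ) ^ 6
/-- scaled lattice constant, `s = 1/(A λ)` -/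
def sP : ℝ := 1 / (kap * (BP C h : ℝ) ^ 2)
/-- Ewald parameter `a = 1/(K s)²`, `K = k` -/
def aP : ℝ := 1 / ((kP C h : ℝ) * sP C h) ^ 2
/-- the constant `C_0` -/
def C0P : ℝ := -(Lat.V0 (lamP C h) (sP C h) (aP C h) (nLP C h) 0)

/-- exact physical displacement of the proton `α` (component `c`): `(λ²/3) ∂_c w_c(s α)` -/
def DexP (α : Fin 3 → ℤ) (c : Fin 3) : ℝ :=
  lamP C h ^ 2 / 3 * (gradient (wcP C h) (Lat.pt (sP C h) α)) c

/-- exact threshold (physical units) -/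
def thrP : ℝ :=
  (EN (n0P C h) h.n - numEl (n0P C h) h.n * C0P C h + lamP C h * Ecc (n0P C h) (wP C h) +
    lamP C h * (constH h.n (kP C h) (LamP C h) (j0P C h) (JfP h) +
      j0P C h * ((h.e : ℝ) + 1 / (2 * (h.q : ℝ))))) / lamP C h ^ 2

/-! ## Numerics -/

/-- node NUM (860 / 207): the reduction map in polynomial time.
`l` may be any duplicate free enumeration of the box. -/
def NumStmt : Prop := ∃ c0 : ℕ, ∀ C : Cst, c0 ≤ C.c → ∃ I : HInst → Instance,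
  PTF (fun h : HInst => (⟨(I h).code⟩ : Bits)) ∧ ∀ h : HInst, h.Valid →
    (I h).electrons = NP C h ∧
    (∃ (l : List (Fin 3 → ℤ)) (D : (Fin 3 → ℤ) → Fin 3 → ℚ), l.Nodup ∧
      (∀ α, α ∈ l ↔ α ∈ Lat.Box (nLP C h)) ∧
      (I h).nuclei = l.map (fun α c => (α c : ℚ) / (AP C h : ℚ) - D α c) ∧
      (∀ α c, |((D α c : ℚ) : ℝ) - DexP C h α c| ≤ (1 / 2) ^ kP C h) ∧
      (∀ α, (∃ c, (MdP C h : ℤ) < |α c|) → D α = 0)) ∧
    |(((I h).lower : ℚ) : ℝ) - (thrP C h - 1 / 2)| ≤ 1 / 8 ∧ (I h).upper = (I h).lower + 1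

end Crest.Agent.R338.P2

end
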