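import Crest.Agent.R338.EX0

/-!
# Row 338, NODE EX, file EX3 (helper439): `∫ e^{-2s²} h_i h_j h_k h_l`

`I4 i j k l = ∫ exp (-(2 s²)) h_i h_j h_k h_l ds` (the factors of the matrix elements of `w_hop`)
and its closed formula `I4_eq`:
`I4 i j k l = Irat i j k l / (2 √π √(2^(i+j+k+l) i! j! k! l!))` with the rational double sum
`Irat i j k l = ∑_{p ≤ i+j} ∑_{q ≤ k+l} hh i j p * hh k l q * gq (p+q)`.
-/

set_option autoImplicit false

open MeasureTheory Polynomial Real Finset

noncomputable section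

namespace Crest.Agent.R338.EX

open Crest.Agent.R338.HO

/-- normalised Gaussian moments: `∫ x^m e^{-4x²} dx = (√π/2) gq m`;
`gq (2k) = (2k)!/(16^k k!) = (2k-1)‼/8^k`, `gq (2k+1) = 0`. -/
def gq (m : ℕ) : ℚ :=
  if m % 2 = 0 then (m.factorial : ℚ) / (16 ^ (m / 2) * ((m / 2).factorial : ℚ)) else 0

theorem gq_zero : gq 0 = 1 := by simp [gq]

theorem gq_one : gq 1 = 0 := by simp [gq]

theorem gq_add_two (m : ℕ) : 8 * gq (m + 2) = ((m : ℚ) + 1) * gq m := by
  rcases Nat.even_or_odd' m with ⟨k, hk | hk⟩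
  · have h1 : m % 2 = 0 := by omega
    have h2 : (m + 2) % 2 = 0 := by omega
    have h3 : (m + 2) / 2 = k + 1 := by omega
    have h4 : m / 2 = k := by omega
    rw [gq, gq, if_pos h1, if_pos h2, h3, h4]
    have f1 : ((m + 2).factorial : ℚ) = ((m : ℚ) + 2) * (((m : ℚ) + 1) * (m.factorial : ℚ)) := by
      rw [Nat.factorial_succ, Nat.factorial_succ]; push_cast; ring
    have f2 : ((k + 1).factorial : ℚ) = ((k : ℚ) + 1) * (k.factorial : ℚ) := by
      rw [Nat.factorial_succ]; push_cast; ring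
    have f3 : (m : ℚ) = 2 * k := by rw [hk]; push_cast; ring
    have f4 : (k.factorial : ℚ) ≠ 0 := by exact_mod_cast k.factorial_ne_zero
    have f5 : (k : ℚ) + 1 ≠ 0 := by positivity
    rw [f1, f2, f3, pow_succ]
    field_simp
    ring
  · have h1 : ¬ m % 2 = 0 := by omega
    have h2 : ¬ (m + 2) % 2 = 0 := by omega
    rw [gq, gq, if_neg h1, if_neg h2]; ring

theorem integrable_pow_gauss (m : ℕ) {b : ℝ} (hb : 0 < b) :
    Integrable (fun x : ℝ => x ^ m * Real.exp (-b * x ^ 2)) := by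
  simpa using integrable_poly_gauss (X ^ m) hb

theorem integral_pow_gauss_four (m : ℕ) :
    ∫ x : ℝ, x ^ m * Real.exp (-4 * x ^ 2) = √π / 2 * ((gq m : ℚ) : ℝ) := by
  induction m using Nat.strong_induction_on with
  | _ m ih =>
    match m, ih with
    | 0, _ =>
      have h4 : √(π / 4) = √π / 2 := by
        rw [Real.sqrt_div' _ (by norm_num : (0 : ℝ) ≤ 4)]
        rw [show (4 : ℝ) = 2 ^ 2 by norm_num, Real.sqrt_sq (by norm_num)]
      simp only [pow_zero, one_mul, gq_zero, Rat.cast_one, mul_one]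
      rw [integral_gaussian, h4]
    | 1, _ =>
      have h := integral_eq_zero_of_hasDerivAt_of_integrable
        (f := fun x : ℝ => Real.exp (-4 * x ^ 2))
        (f' := fun x : ℝ => (-8) * (x ^ 1 * Real.exp (-4 * x ^ 2)))
        (fun x => by
          have h1 : HasDerivAt (fun x : ℝ => -4 * x ^ 2) (-4 * (2 * x)) x := by
            simpa using (hasDerivAt_pow 2 x).const_mul (-4)
          have h2 := h1.exp
          refine h2.congr_deriv ?_
          ring)
        ((integrable_pow_gauss 1 (by norm_num)).const_mul _)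
        (integrable_exp_neg_mul_sq (by norm_num))
      rw [integral_const_mul] at h
      rw [gq_one]
      have : (∫ x : ℝ, x ^ 1 * Real.exp (-4 * x ^ 2)) = 0 := by
        rcases mul_eq_zero.1 h with h | h
        · norm_num at h
        · exact h
      rw [this]; simp
    | m + 2, ih =>
      have hm := ih m (by omega)
      have h := integral_eq_zero_of_hasDerivAt_of_integrable
        (f := fun x : ℝ => x ^ (m + 1) * Real.exp (-4 * x ^ 2))
        (f' := fun x : ℝ => ((m : ℝ) + 1) * (x ^ m * Real.exp (-4 * x ^ 2))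
          - 8 * (x ^ (m + 2) * Real.exp (-4 * x ^ 2)))
        (fun x => by
          have h1 : HasDerivAt (fun x : ℝ => -4 * x ^ 2) (-4 * (2 * x)) x := by
            simpa using (hasDerivAt_pow 2 x).const_mul (-4)
          have h2 := (hasDerivAt_pow (m + 1) x).mul h1.exp
          refine h2.congr_deriv ?_
          push_cast
          ring)
        (((integrable_pow_gauss m (by norm_num)).const_mul _).sub
          ((integrable_pow_gauss (m + 2) (by norm_num)).const_mul _))
        (integrable_pow_gauss (m + 1) (by norm_num))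
      rw [integral_sub ((integrable_pow_gauss m (by norm_num)).const_mul _)
        ((integrable_pow_gauss (m + 2) (by norm_num)).const_mul _),
        integral_const_mul, integral_const_mul, hm] at h
      have h8 : (8 : ℝ) * ((gq (m + 2) : ℚ) : ℝ) = ((m : ℝ) + 1) * ((gq m : ℚ) : ℝ) := by
        have := gq_add_two m
        exact_mod_cast this
      have h9 : 8 * (∫ x : ℝ, x ^ (m + 2) * Real.exp (-4 * x ^ 2)) =
          8 * (√π / 2 * ((gq (m + 2) : ℚ) : ℝ)) := by
        calc 8 * (∫ x : ℝ, x ^ (m + 2) * Real.exp (-4 * x ^ 2))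
            = ((m : ℝ) + 1) * (√π / 2 * ((gq m : ℚ) : ℝ)) := by linarith
          _ = √π / 2 * (((m : ℝ) + 1) * ((gq m : ℚ) : ℝ)) := by ring
          _ = _ := by rw [← h8]; ring
      exact mul_left_cancel₀ (by norm_num) h9

/-- the basic one dimensional integral of the hopping potentials -/
def I4 (i j k l : ℕ) : ℝ :=
  ∫ s : ℝ, Real.exp (-(2 * s ^ 2)) * (hf i s * hf j s * (hf k s * hf l s))

/-- rational part of `I4` -/
def Irat (i j k l : ℕ) : ℚ :=
  ∑ p ∈ range (i + j + 1), ∑ q ∈ range (k + l + 1), hh i j p * hh k l q * gq (p + q)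

theorem I4_integrand (i j k l : ℕ) (s : ℝ) :
    Real.exp (-(2 * s ^ 2)) * (hf i s * hf j s * (hf k s * hf l s)) =
      ∑ p ∈ range (i + j + 1), ∑ q ∈ range (k + l + 1),
        (hn i * hn j * (hn k * hn l) * (((hh i j p : ℚ) : ℝ) * ((hh k l q : ℚ) : ℝ))) *
          (s ^ (p + q) * Real.exp (-4 * s ^ 2)) := by
  rw [hf_eq, hf_eq, hf_eq, hf_eq]
  have e1 : Real.exp (-4 * s ^ 2) = Real.exp (-(2 * s ^ 2)) *
      (Real.exp (-(s ^ 2) / 2) * Real.exp (-(s ^ 2) / 2) *
        (Real.exp (-(s ^ 2) / 2) * Real.exp (-(s ^ 2) / 2))) := by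
    rw [← Real.exp_add, ← Real.exp_add, ← Real.exp_add]; congr 1; ring
  calc _ = hn i * hn j * (hn k * hn l) * Real.exp (-4 * s ^ 2) *
        (((HP i).eval s * (HP j).eval s) * ((HP k).eval s * (HP l).eval s)) := by rw [e1]; ring
    _ = _ := by
      rw [eval_HP_mul, eval_HP_mul, Finset.sum_mul_sum, Finset.mul_sum]
      refine Finset.sum_congr rfl fun p _ => ?_
      rw [Finset.mul_sum]
      refine Finset.sum_congr rfl fun q _ => ?_
      rw [pow_add]; ring

theorem integrable_I4 (i j k l : ℕ) :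
    Integrable (fun s : ℝ => Real.exp (-(2 * s ^ 2)) * (hf i s * hf j s * (hf k s * hf l s))) := by
  simp_rw [I4_integrand]
  refine integrable_finsetSum _ fun p _ => integrable_finsetSum _ fun q _ => ?_
  exact (integrable_pow_gauss (p + q) (by norm_num)).const_mul _

theorem I4_eq_hn (i j k l : ℕ) :
    I4 i j k l = hn i * hn j * (hn k * hn l) * (√π / 2) * ((Irat i j k l : ℚ) : ℝ) := by
  unfold I4
  simp_rw [I4_integrand]
  rw [integral_finsetSum _ (fun p _ => integrable_finsetSum _ fun q _ =>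
    (integrable_pow_gauss (p + q) (by norm_num)).const_mul _)]
  unfold Irat
  push_cast
  rw [Finset.mul_sum]
  refine Finset.sum_congr rfl fun p _ => ?_
  rw [integral_finsetSum _ (fun q _ =>
    (integrable_pow_gauss (p + q) (by norm_num)).const_mul _), Finset.mul_sum]
  refine Finset.sum_congr rfl fun q _ => ?_
  rw [integral_const_mul, integral_pow_gauss_four]
  ring

theorem hn_four (i j k l : ℕ) : hn i * hn j * (hn k * hn l) * (√π / 2) =
    1 / (2 * √π * √((2 : ℝ) ^ (i + j + k + l) *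
      (((i.factorial * j.factorial * (k.factorial * l.factorial) : ℕ)) : ℝ))) := by
  unfold hn
  have hp : π ^ (-(1 / 4) : ℝ) * π ^ (-(1 / 4) : ℝ) * (π ^ (-(1 / 4) : ℝ) * π ^ (-(1 / 4) : ℝ))
      = π⁻¹ := by
    rw [← Real.rpow_add Real.pi_pos, ← Real.rpow_add Real.pi_pos, ← Real.rpow_neg_one]
    congr 1; norm_num
  have hs : √((2 : ℝ) ^ (i + j + k + l) *
      (((i.factorial * j.factorial * (k.factorial * l.factorial) : ℕ)) : ℝ)) =
      √((2 : ℝ) ^ i * (i.factorial : ℝ)) * √((2 : ℝ) ^ j * (j.factorial : ℝ)) *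
      (√((2 : ℝ) ^ k * (k.factorial : ℝ)) * √((2 : ℝ) ^ l * (l.factorial : ℝ))) := by
    rw [← Real.sqrt_mul (by positivity), ← Real.sqrt_mul (by positivity),
      ← Real.sqrt_mul (by positivity)]
    congr 1
    push_cast
    ring
  rw [hs]
  have hpi : √π * √π = π := Real.mul_self_sqrt Real.pi_pos.le
  have hpi0 : √π ≠ 0 := by positivity
  have a1 : √((2 : ℝ) ^ i * (i.factorial : ℝ)) ≠ 0 := by positivity
  have a2 : √((2 : ℝ) ^ j * (j.factorial : ℝ)) ≠ 0 := by positivity
  have a3 : √((2 : ℝ) ^ k * (k.factorial : ℝ)) ≠ 0 := by positivity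
  have a4 : √((2 : ℝ) ^ l * (l.factorial : ℝ)) ≠ 0 := by positivity
  set A := √((2 : ℝ) ^ i * (i.factorial : ℝ))
  set B := √((2 : ℝ) ^ j * (j.factorial : ℝ))
  set C := √((2 : ℝ) ^ k * (k.factorial : ℝ))
  set D := √((2 : ℝ) ^ l * (l.factorial : ℝ))
  calc π ^ (-(1 / 4) : ℝ) / A * (π ^ (-(1 / 4) : ℝ) / B) *
        (π ^ (-(1 / 4) : ℝ) / C * (π ^ (-(1 / 4) : ℝ) / D)) * (√π / 2)
      = (π ^ (-(1 / 4) : ℝ) * π ^ (-(1 / 4) : ℝ) * (π ^ (-(1 / 4) : ℝ) * π ^ (-(1 / 4) : ℝ))) /
        (A * B * (C * D)) * (√π / 2) := by field_simp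
    _ = π⁻¹ / (A * B * (C * D)) * (√π / 2) := by rw [hp]
    _ = _ := by
      have h1 : √π / π = 1 / √π := by
        rw [div_eq_div_iff Real.pi_ne_zero hpi0, hpi, one_mul]
      calc π⁻¹ / (A * B * (C * D)) * (√π / 2)
          = (√π / π) * (1 / (2 * (A * B * (C * D)))) := by field_simp
        _ = 1 / √π * (1 / (2 * (A * B * (C * D)))) := by rw [h1]
        _ = _ := by field_simp

/-- **closed formula** -/
theorem I4_eq (i j k l : ℕ) :
    I4 i j k l = ((Irat i j k l : ℚ) : ℝ) / (2 * √π * √((2 : ℝ) ^ (i + j + k + l) *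
      (((i.factorial * j.factorial * (k.factorial * l.factorial) : ℕ)) : ℝ))) := by
  rw [I4_eq_hn, hn_four]; ring

end Crest.Agent.R338.EX
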