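import Crest.Agent.R338.Lag2

/-!
Row 338, node B.3a / D.12 (helper695): the selection potentials
`Dsel m x = ∫_0^∞ q exp (-q^2/4) L_m (q^2/2) cos (q x) dq`.
-/

set_option autoImplicit false

open MeasureTheory Set
open scoped Nat ContDiff

noncomputable section
namespace Crest.Agent.R338.Lag
open Crest.Agent.R338.HO

/-! ### cosine transforms -/

/-- cosine transform with a phase -/
def CT (g : ℝ → ℝ) (θ x : ℝ) : ℝ := ∫ q in Ioi (0 : ℝ), g q * Real.cos (q * x + θ)

/-- continuous functions all of whose moments on `(0,∞)` are integrable -/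
def GM (g : ℝ → ℝ) : Prop := Continuous g ∧ ∀ r : ℕ, IntegrableOn (fun q => q ^ r * g q) (Ioi 0)

theorem GM.integrableOn {g : ℝ → ℝ} (h : GM g) : IntegrableOn g (Ioi 0) := by
  have := h.2 0
  simpa using this

theorem GM.pow_mul {g : ℝ → ℝ} (h : GM g) (r : ℕ) : GM (fun q => q ^ r * g q) := by
  refine ⟨(continuous_pow r).mul h.1, fun s => ?_⟩
  have := h.2 (s + r)
  refine this.congr_fun (fun q _ => ?_) measurableSet_Ioi
  simp only
  rw [pow_add]; ring

theorem GM.integrableOn_cos {g : ℝ → ℝ} (h : GM g) (θ x : ℝ) :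
    IntegrableOn (fun q => g q * Real.cos (q * x + θ)) (Ioi 0) := by
  refine Integrable.mul_bdd (c := 1) h.integrableOn ?_ ?_
  · apply Continuous.aestronglyMeasurable
    fun_prop
  · filter_upwards with q
    rw [Real.norm_eq_abs]
    exact Real.abs_cos_le_one _

theorem hasDerivAt_CT {g : ℝ → ℝ} (h : GM g) (θ x : ℝ) :
    HasDerivAt (CT g θ) (CT (fun q => q ^ 1 * g q) (θ + Real.pi / 2) x) x := by
  have h1 : GM (fun q => q ^ 1 * g q) := h.pow_mul 1
  have key := hasDerivAt_integral_of_dominated_loc_of_deriv_le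
    (μ := volume.restrict (Ioi (0 : ℝ))) (x₀ := x) (s := Set.univ)
    (F := fun x q => g q * Real.cos (q * x + θ))
    (F' := fun x q => (q ^ 1 * g q) * Real.cos (q * x + (θ + Real.pi / 2)))
    (bound := fun q => ‖q ^ 1 * g q‖) Filter.univ_mem
    (Filter.Eventually.of_forall fun y => (h.integrableOn_cos θ y).aestronglyMeasurable)
    (h.integrableOn_cos θ x)
    (h1.integrableOn_cos (θ + Real.pi / 2) x).aestronglyMeasurable
    (by
      filter_upwards with q y _
      rw [norm_mul]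
      refine mul_le_of_le_one_right (norm_nonneg _) ?_
      rw [Real.norm_eq_abs]
      exact Real.abs_cos_le_one _)
    h1.integrableOn.norm
    (by
      filter_upwards with q y _
      have h2 : HasDerivAt (fun y : ℝ => q * y + θ) q y := by
        have := ((hasDerivAt_id y).const_mul q).add_const θ
        simpa using this
      have h3 := (h2.cos).const_mul (g q)
      refine h3.congr_deriv ?_
      rw [← add_assoc, Real.cos_add_pi_div_two]
      ring)
  exact key.2

theorem iteratedDeriv_CT {g : ℝ → ℝ} (h : GM g) (θ : ℝ) (r : ℕ) :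
    iteratedDeriv r (CT g θ) = CT (fun q => q ^ r * g q) (θ + r * (Real.pi / 2)) := by
  induction r with
  | zero =>
    simp
  | succ r ih =>
    rw [iteratedDeriv_succ, ih]
    funext x
    rw [(hasDerivAt_CT (h.pow_mul r) _ x).deriv]
    unfold CT
    apply setIntegral_congr_fun measurableSet_Ioi
    intro q _
    simp only
    push_cast
    rw [pow_succ]
    ring_nf

theorem contDiff_CT {g : ℝ → ℝ} (h : GM g) (θ : ℝ) : ContDiff ℝ ∞ (CT g θ) := by
  apply contDiff_of_differentiable_iteratedDeriv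
  intro r _
  rw [iteratedDeriv_CT h]
  exact fun x => (hasDerivAt_CT (h.pow_mul r) _ x).differentiableAt

theorem abs_CT_le {g : ℝ → ℝ} (h : GM g) (θ x : ℝ) :
    |CT g θ x| ≤ ∫ q in Ioi (0 : ℝ), |g q| := by
  unfold CT
  rw [← Real.norm_eq_abs]
  refine (norm_integral_le_integral_norm _).trans ?_
  apply setIntegral_mono_on (h.integrableOn_cos θ x).norm h.integrableOn.abs measurableSet_Ioi
  intro q _
  rw [norm_mul, Real.norm_eq_abs, Real.norm_eq_abs]
  exact mul_le_of_le_one_right (abs_nonneg _) (Real.abs_cos_le_one _)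

/-! ### the functions `q ↦ q exp (-q^2/4) L_m (q^2/2)` -/

theorem IsPoly.comp {f g : ℝ → ℝ} (hf : IsPoly f) (hg : IsPoly g) : IsPoly (fun t => f (g t)) := by
  obtain ⟨p, hp⟩ := hf
  obtain ⟨q, hq⟩ := hg
  exact ⟨p.comp q, fun t => by simp [hp, hq]⟩

theorem IsPoly.gm {f : ℝ → ℝ} (hf : IsPoly f) {b : ℝ} (hb : 0 < b) :
    GM (fun q => f q * Real.exp (-b * q ^ 2)) := by
  refine ⟨hf.continuous.mul (by fun_prop), fun r => ?_⟩
  obtain ⟨p, hp⟩ := (isPoly_pow r).mul hf
  refine (integrable_poly_gauss p hb).integrableOn.congr_fun (fun q _ => ?_) measurableSet_Ioi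
  simp only
  rw [← hp]; ring

theorem isPoly_half_sq : IsPoly (fun q : ℝ => q ^ 2 / 2) :=
  ⟨Polynomial.C (1 / 2) * Polynomial.X ^ 2, fun t => by simp; ring⟩

/-- the weight `q exp (-q^2/4) L_m (q^2/2)` -/
def gw (m : ℕ) (q : ℝ) : ℝ := q * Real.exp (-(q ^ 2) / 4) * lag m (q ^ 2 / 2)

theorem gw_eq (m : ℕ) : gw m = fun q => (q * lag m (q ^ 2 / 2)) * Real.exp (-(1 / 4) * q ^ 2) := by
  funext q
  unfold gw
  rw [show -(q ^ 2) / 4 = -(1 / 4) * q ^ 2 by ring]
  ring

theorem gm_gw (m : ℕ) : GM (gw m) := by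
  rw [gw_eq]
  exact (isPoly_id.mul ((isPoly_lag m).comp isPoly_half_sq)).gm (by norm_num)

/-- the selection potential -/
def Dsel (m : ℕ) (x : ℝ) : ℝ :=
  ∫ q in Ioi (0 : ℝ), q * Real.exp (-(q ^ 2) / 4) * lag m (q ^ 2 / 2) * Real.cos (q * x)

theorem Dsel_eq (m : ℕ) : Dsel m = CT (gw m) 0 := by
  funext x
  unfold Dsel CT gw
  simp

theorem Dsel_neg (m : ℕ) (x : ℝ) : Dsel m (-x) = Dsel m x := by
  unfold Dsel
  simp

theorem contDiff_Dsel (m : ℕ) : ContDiff ℝ ∞ (Dsel m) := by
  rw [Dsel_eq]; exact contDiff_CT (gm_gw m) 0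

theorem continuous_Dsel (m : ℕ) : Continuous (Dsel m) := (contDiff_Dsel m).continuous

/-- substitution `t = q^2/2` -/
theorem image_half_sq : (fun q : ℝ => q ^ 2 / 2) '' Ioi 0 = Ioi 0 := by
  ext t
  constructor
  · rintro ⟨q, hq, rfl⟩
    have : (0 : ℝ) < q := hq
    show (0 : ℝ) < q ^ 2 / 2
    positivity
  · intro ht
    have ht' : (0 : ℝ) < t := ht
    refine ⟨√(2 * t), Real.sqrt_pos.2 (by positivity), ?_⟩
    show √(2 * t) ^ 2 / 2 = t
    rw [Real.sq_sqrt (by positivity)]; ring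

theorem injOn_half_sq : InjOn (fun q : ℝ => q ^ 2 / 2) (Ioi 0) := by
  intro a ha b hb h
  have ha' : (0 : ℝ) < a := ha
  have hb' : (0 : ℝ) < b := hb
  simp only at h
  nlinarith [sq_nonneg (a - b), mul_pos ha' hb']

theorem hasDeriv_half_sq (q : ℝ) (s : Set ℝ) :
    HasDerivWithinAt (fun q : ℝ => q ^ 2 / 2) q s q := by
  have := ((hasDerivAt_pow 2 q).div_const 2).hasDerivWithinAt (s := s)
  refine this.congr_deriv ?_
  norm_num

theorem integral_half_sq (f : ℝ → ℝ) :
    ∫ q in Ioi (0 : ℝ), q * f (q ^ 2 / 2) = ∫ t in Ioi (0 : ℝ), f t := by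
  have h := integral_image_eq_integral_abs_deriv_smul (s := Ioi (0 : ℝ))
    (f := fun q : ℝ => q ^ 2 / 2) (f' := fun q => q) measurableSet_Ioi
    (fun q _ => hasDeriv_half_sq q _) injOn_half_sq f
  rw [image_half_sq] at h
  rw [h]
  apply setIntegral_congr_fun measurableSet_Ioi
  intro q hq
  have : (0 : ℝ) < q := hq
  simp [abs_of_pos this]

theorem integrableOn_half_sq (f : ℝ → ℝ) (hf : IntegrableOn f (Ioi 0)) :
    IntegrableOn (fun q : ℝ => q * f (q ^ 2 / 2)) (Ioi 0) := by
  have h := (integrableOn_image_iff_integrableOn_abs_deriv_smul (s := Ioi (0 : ℝ))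
    (f := fun q : ℝ => q ^ 2 / 2) (f' := fun q => q) measurableSet_Ioi
    (fun q _ => hasDeriv_half_sq q _) injOn_half_sq f).1 (by rw [image_half_sq]; exact hf)
  refine h.congr_fun (fun q hq => ?_) measurableSet_Ioi
  have : (0 : ℝ) < q := hq
  simp [abs_of_pos this]

/-! ### orthogonality with `h_k ^ 2` -/

theorem integrable_Dsel_hf (m a b : ℕ) :
    Integrable (fun x => Dsel m x * (hf a x * hf b x)) := by
  refine Integrable.bdd_mul (c := ∫ q in Ioi (0 : ℝ), |gw m q|) (integrable_hf_mul_hf a b)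
    (continuous_Dsel m).aestronglyMeasurable ?_
  filter_upwards with x
  rw [Dsel_eq, Real.norm_eq_abs]
  exact abs_CT_le (gm_gw m) 0 x

theorem integral_Dsel_hf_sq (m k : ℕ) :
    ∫ x, Dsel m x * (hf k x * hf k x) = if m = k then 1 else 0 := by
  have hswap : ∫ x, (∫ q in Ioi (0 : ℝ), gw m q * Real.cos (q * x) * (hf k x * hf k x)) =
      ∫ q in Ioi (0 : ℝ), (∫ x, gw m q * Real.cos (q * x) * (hf k x * hf k x)) := by
    apply integral_integral_swap
    have h1 : Integrable (fun z : ℝ × ℝ => (hf k z.1 * hf k z.1) * gw m z.2)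
        (volume.prod (volume.restrict (Ioi (0 : ℝ)))) :=
      (integrable_hf_mul_hf k k).mul_prod (gm_gw m).integrableOn
    have h2 : Integrable (fun z : ℝ × ℝ => (hf k z.1 * hf k z.1) * gw m z.2 *
        Real.cos (z.2 * z.1)) (volume.prod (volume.restrict (Ioi (0 : ℝ)))) := by
      refine h1.mul_bdd (c := 1) ?_ ?_
      · apply Continuous.aestronglyMeasurable
        fun_prop
      · filter_upwards with z
        rw [Real.norm_eq_abs]
        exact Real.abs_cos_le_one _
    refine h2.congr ?_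
    filter_upwards with z
    simp only [Function.uncurry]
    ring
  have h3 : ∀ x, Dsel m x * (hf k x * hf k x) =
      ∫ q in Ioi (0 : ℝ), gw m q * Real.cos (q * x) * (hf k x * hf k x) := by
    intro x
    rw [integral_mul_const]
    rfl
  simp only [h3]
  rw [hswap, ← ip_lag m k]
  unfold ip
  rw [← integral_half_sq (fun t => lag m t * lag k t * Real.exp (-t))]
  apply setIntegral_congr_fun measurableSet_Ioi
  intro q _
  simp only
  have h4 : ∫ x, gw m q * Real.cos (q * x) * (hf k x * hf k x) =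
      gw m q * ∫ x, hf k x * hf k x * Real.cos (q * x) := by
    rw [← integral_const_mul]
    congr 1; ext x; ring
  rw [h4, integral_hf_sq_cos]
  unfold gw
  have h5 : Real.exp (-(q ^ 2 / 2)) = Real.exp (-(q ^ 2) / 4) * Real.exp (-(q ^ 2) / 4) := by
    rw [← Real.exp_add]; ring_nf
  rw [h5]; ring

end Crest.Agent.R338.Lag
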