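import Crest.Agent.R338.Bridge
import Crest.Agent.R338.Lag3
import Crest.Agent.R338.EX3
import Crest.Agent.R338.XF4

/-!
# Row 338, module XF5 (helper345): matrix elements of the designer potential
-/

set_option autoImplicit false

noncomputable section

open MeasureTheory Finset
open Crest.MathPhysics.ElectronicCoulomb

namespace Crest.Agent.R338.XF

/-! ### products over the coordinates -/

theorem integral_prod3 (g : Fin 3 → ℝ → ℝ) :
    ∫ x : Pos3, ∏ c, g c (x c) = ∏ c, ∫ s, g c s := by
  have e : ∫ x : Pos3, ∏ c, g c (x c) = ∫ y : Fin 3 → ℝ, ∏ i, g i (y i) := by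
    rw [← (EuclideanSpace.volume_preserving_symm_measurableEquiv_toLp (Fin 3)).integral_comp'
      (g := fun y : Fin 3 → ℝ => ∏ i, g i (y i))]
    rfl
  rw [e, integral_fintype_prod_volume_eq_prod g]

theorem integrable_prod3 (g : Fin 3 → ℝ → ℝ) (hg : ∀ c, Integrable (g c)) :
    Integrable (fun x : Pos3 => ∏ c, g c (x c)) := by
  have h := Integrable.fintype_prod (ι := Fin 3) (f := g) (μ := fun _ => volume) hg
  exact ((EuclideanSpace.volume_preserving_symm_measurableEquiv_toLp
    (Fin 3)).integrable_comp_emb (MeasurableEquiv.measurableEmbedding _)).2 h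

theorem orb_mul (a b : Idx) (x : Pos3) (u : Fin 3 → ℝ → ℝ) :
    (∏ c, u c (x c)) * (orb a x * orb b x) =
      ∏ c, (fun s => u c s * (HO.hf (a c) s * HO.hf (b c) s)) (x c) := by
  unfold orb
  rw [hf_eq', ← prod_mul_distrib, ← prod_mul_distrib]

theorem w1_prod (u : Fin 3 → ℝ → ℝ) (a b : Idx) :
    w1 (fun x => ∏ c, u c (x c)) a b = ∏ c, ∫ s, u c s * (HO.hf (a c) s * HO.hf (b c) s) := by
  unfold w1
  simp only [orb_mul]
  rw [integral_prod3 (fun c s => u c s * (HO.hf (a c) s * HO.hf (b c) s))]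

theorem integrable_w1_prod (u : Fin 3 → ℝ → ℝ) (a b : Idx)
    (h : ∀ c, Integrable fun s => u c s * (HO.hf (a c) s * HO.hf (b c) s)) :
    Integrable (fun x : Pos3 => (∏ c, u c (x c)) * (orb a x * orb b x)) := by
  simp only [orb_mul]
  exact integrable_prod3 _ h

/-! ### selection potential -/

theorem Dm_eq (m : ℕ) : Dm m = Lag.Dsel m := by
  funext x
  unfold Dm Lag.Dsel
  have h : ∀ y : ℝ, lag m y = Lag.lag m y := by
    intro y
    unfold lag Lag.lag
    refine sum_congr rfl fun j _ => ?_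
    rw [neg_pow y j]; ring
  simp only [h]

/-- one dimensional matrix element of the selection function -/
def Dint (m a b : ℕ) : ℝ := ∫ s, Lag.Dsel m s * (HO.hf a s * HO.hf b s)

theorem Dint_self (m k : ℕ) : Dint m k k = if m = k then 1 else 0 := Lag.integral_Dsel_hf_sq m k

/-- coordinate function on the third coordinate -/
theorem sel2_eq (m : ℕ) : (fun x : Pos3 => Dm m (x 2)) =
    fun x => ∏ c, (![fun _ => 1, fun _ => 1, Lag.Dsel m] : Fin 3 → ℝ → ℝ) c (x c) := by
  funext x
  rw [Fin.prod_univ_three, Dm_eq]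
  simp

theorem sel0_eq (m : ℕ) : (fun x : Pos3 => Dm m (x 0)) =
    fun x => ∏ c, (![Lag.Dsel m, fun _ => 1, fun _ => 1] : Fin 3 → ℝ → ℝ) c (x c) := by
  funext x
  rw [Fin.prod_univ_three, Dm_eq]
  simp

theorem one_int (a b : ℕ) : ∫ s, (1 : ℝ) * (HO.hf a s * HO.hf b s) = if a = b then 1 else 0 := by
  simp only [one_mul]
  exact HO.integral_hf_mul_hf a b

theorem w1_sel2 (m : ℕ) (a b : Idx) : w1 (fun x => Dm m (x 2)) a b =
    if a 0 = b 0 ∧ a 1 = b 1 then Dint m (a 2) (b 2) else 0 := by
  rw [sel2_eq, w1_prod, Fin.prod_univ_three]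
  simp only [Matrix.cons_val_zero, Matrix.cons_val_one, Matrix.cons_val, one_int]
  by_cases h0 : a 0 = b 0 <;> by_cases h1 : a 1 = b 1 <;> simp [h0, h1, Dint]

theorem w1_sel0 (m : ℕ) (a b : Idx) : w1 (fun x => Dm m (x 0)) a b =
    if a 1 = b 1 ∧ a 2 = b 2 then Dint m (a 0) (b 0) else 0 := by
  rw [sel0_eq, w1_prod, Fin.prod_univ_three]
  simp only [Matrix.cons_val_zero, Matrix.cons_val_one, Matrix.cons_val, one_int]
  by_cases h0 : a 1 = b 1 <;> by_cases h1 : a 2 = b 2 <;> simp [h0, h1, Dint]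

theorem int_one (a b : ℕ) : Integrable fun s => (1 : ℝ) * (HO.hf a s * HO.hf b s) := by
  simpa only [one_mul] using HO.integrable_hf_mul_hf a b

theorem integrable_sel2 (m : ℕ) (a b : Idx) :
    Integrable (fun x : Pos3 => Dm m (x 2) * (orb a x * orb b x)) := by
  have h := integrable_w1_prod ![fun _ => 1, fun _ => 1, Lag.Dsel m] a b (by
    intro c
    fin_cases c
    · exact int_one _ _
    · exact int_one _ _
    · exact Lag.integrable_Dsel_hf m _ _)
  refine h.congr (Filter.Eventually.of_forall fun x => ?_)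
  have := congrFun (sel2_eq m) x
  simp only at this
  simp only [this]

theorem integrable_sel0 (m : ℕ) (a b : Idx) :
    Integrable (fun x : Pos3 => Dm m (x 0) * (orb a x * orb b x)) := by
  have h := integrable_w1_prod ![Lag.Dsel m, fun _ => 1, fun _ => 1] a b (by
    intro c
    fin_cases c
    · exact Lag.integrable_Dsel_hf m _ _
    · exact int_one _ _
    · exact int_one _ _)
  refine h.congr (Filter.Eventually.of_forall fun x => ?_)
  have := congrFun (sel0_eq m) x
  simp only at this
  simp only [this]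

/-! ### hopping potentials -/

/-- Gaussian times two Hermite functions -/
def gh (i j : ℕ) (s : ℝ) : ℝ := Real.exp (-(2 * s ^ 2)) * (HO.hf i s * HO.hf j s)

theorem gh_int (i j a b : ℕ) : ∫ s, gh i j s * (HO.hf a s * HO.hf b s) = EX.I4 i j a b := by
  unfold EX.I4 gh
  congr 1; funext s; ring

theorem integrable_gh (i j a b : ℕ) : Integrable fun s => gh i j s * (HO.hf a s * HO.hf b s) := by
  refine (EX.integrable_I4 i j a b).congr (Filter.Eventually.of_forall fun s => ?_)
  simp only [gh]; ring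

theorem vhop_eq (n k i j : ℕ) : vhop n k i j =
    fun x : Pos3 => ∏ c, (![gh (mi n k i) (mi n k j),
      gh (n0' n k - mi n k i) (n0' n k - mi n k j), fun _ => 1] : Fin 3 → ℝ → ℝ) c (x c) := by
  funext x
  rw [Fin.prod_univ_three]
  simp only [Matrix.cons_val_zero, Matrix.cons_val_one, Matrix.cons_val, mul_one]
  unfold vhop gh
  rw [hf_eq']
  have e : ∀ y : ℝ, -2 * y ^ 2 = -(2 * y ^ 2) := fun y => by ring
  rw [e, e]

/-- matrix elements of the hopping potentials, all oscillator orbitals -/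
theorem w1_vhop (n k i j : ℕ) (a b : Idx) : w1 (vhop n k i j) a b =
    if a 2 = b 2 then EX.I4 (mi n k i) (mi n k j) (a 0) (b 0) *
      EX.I4 (n0' n k - mi n k i) (n0' n k - mi n k j) (a 1) (b 1) else 0 := by
  rw [vhop_eq, w1_prod, Fin.prod_univ_three]
  simp only [Matrix.cons_val_zero, Matrix.cons_val_one, Matrix.cons_val, one_int, gh_int]
  by_cases h : a 2 = b 2 <;> simp [h]

theorem integrable_vhop (n k i j : ℕ) (a b : Idx) :
    Integrable (fun x : Pos3 => vhop n k i j x * (orb a x * orb b x)) := by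
  rw [vhop_eq]
  refine integrable_w1_prod _ a b ?_
  intro c
  fin_cases c
  · exact integrable_gh _ _ _ _
  · exact integrable_gh _ _ _ _
  · exact int_one _ _

/-- **matrix elements of the designer potential**, all oscillator orbitals -/
theorem w1_wpot (n k : ℕ) (Lam : ℝ) (A : ℕ → ℕ → ℝ) (a : ℕ → ℝ) (c c' : Idx) :
    w1 (wpot n k Lam A a) c c' =
      -Lam * (if c 0 = c' 0 ∧ c 1 = c' 1 then Dint 0 (c 2) (c' 2) else 0) -
      ∑ i ∈ range n, (Lam - a i) * (if c 1 = c' 1 ∧ c 2 = c' 2 then
        Dint (mi n k i) (c 0) (c' 0) else 0) +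
      ∑ i ∈ range n, ∑ j ∈ range n, if i < j then A i j * w1 (vhop n k i j) c c' else 0 := by
  have hI1 : Integrable (fun x : Pos3 => -Lam * (Dm 0 (x 2) * (orb c x * orb c' x))) :=
    (integrable_sel2 0 c c').const_mul _
  have hI2 : ∀ i ∈ range n, Integrable (fun x : Pos3 =>
      (Lam - a i) * (Dm (mi n k i) (x 0) * (orb c x * orb c' x))) :=
    fun i _ => (integrable_sel0 _ c c').const_mul _
  have hI3 : ∀ i ∈ range n, ∀ j ∈ range n, Integrable (fun x : Pos3 =>
      if i < j then A i j * (vhop n k i j x * (orb c x * orb c' x)) else 0) := by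
    intro i _ j _
    split_ifs
    · exact (integrable_vhop n k i j c c').const_mul _
    · exact integrable_zero _ _ _
  have e : w1 (wpot n k Lam A a) c c' = ∫ x : Pos3, (-Lam * (Dm 0 (x 2) * (orb c x * orb c' x)) -
      ∑ i ∈ range n, (Lam - a i) * (Dm (mi n k i) (x 0) * (orb c x * orb c' x)) +
      ∑ i ∈ range n, ∑ j ∈ range n,
        if i < j then A i j * (vhop n k i j x * (orb c x * orb c' x)) else 0) := by
    unfold w1
    congr 1; funext x
    unfold wpot
    rw [add_mul, sub_mul, sum_mul, sum_mul]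
    congr 1
    · congr 1
      · ring
      · exact sum_congr rfl fun i _ => by ring
    · refine sum_congr rfl fun i _ => ?_
      rw [sum_mul]
      refine sum_congr rfl fun j _ => ?_
      split_ifs
      · ring
      · ring
  have hJ3 : Integrable (fun x : Pos3 => ∑ i ∈ range n, ∑ j ∈ range n,
      if i < j then A i j * (vhop n k i j x * (orb c x * orb c' x)) else 0) :=
    integrable_finsetSum _ fun i hi => integrable_finsetSum _ fun j hj => hI3 i hi j hj
  have hJ2 : Integrable (fun x : Pos3 => ∑ i ∈ range n,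
      (Lam - a i) * (Dm (mi n k i) (x 0) * (orb c x * orb c' x))) :=
    integrable_finsetSum _ hI2
  have hJ12 : Integrable (fun x : Pos3 => -Lam * (Dm 0 (x 2) * (orb c x * orb c' x)) -
      ∑ i ∈ range n, (Lam - a i) * (Dm (mi n k i) (x 0) * (orb c x * orb c' x))) := hI1.sub hJ2
  rw [e, integral_add hJ12 hJ3, integral_sub hI1 hJ2, integral_const_mul,
    integral_finsetSum _ hI2, integral_finsetSum _
      (fun i hi => integrable_finsetSum _ fun j hj => hI3 i hi j hj)]
  congr 1
  · congr 1
    · have := w1_sel2 0 c c'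
      unfold w1 at this
      rw [this]
    · refine sum_congr rfl fun i _ => ?_
      rw [integral_const_mul]
      have := w1_sel0 (mi n k i) c c'
      unfold w1 at this
      rw [this]
  · refine sum_congr rfl fun i hi => ?_
    rw [integral_finsetSum _ (fun j hj => hI3 i hi j hj)]
    refine sum_congr rfl fun j _ => ?_
    split_ifs
    · rw [integral_const_mul]; rfl
    · simp

/-- inside one shell the selection part is diagonal -/
theorem w1_wpot_shell (n k n0 : ℕ) (Lam : ℝ) (A : ℕ → ℕ → ℝ) (a : ℕ → ℝ) {c c' : Idx}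
    (hc : c ∈ shell n0) (hc' : c' ∈ shell n0) :
    w1 (wpot n k Lam A a) c c' =
      (if c = c' then -Lam * (if c 2 = 0 then 1 else 0) -
        ∑ i ∈ range n, (Lam - a i) * (if c 0 = mi n k i then 1 else 0) else 0) +
      ∑ i ∈ range n, ∑ j ∈ range n, if i < j then A i j * w1 (vhop n k i j) c c' else 0 := by
  rw [w1_wpot]
  congr 1
  rw [mem_shell] at hc hc'
  by_cases h : c = c'
  · subst h
    simp only [true_and, Dint_self, if_true]
    simp only [eq_comm]
  · have h1 : ¬ (c 0 = c' 0 ∧ c 1 = c' 1) := by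
      rintro ⟨h0, h1⟩
      apply h
      funext e
      fin_cases e
      · exact h0
      · exact h1
      · show c 2 = c' 2
        omega
    have h2 : ¬ (c 1 = c' 1 ∧ c 2 = c' 2) := by
      rintro ⟨h0, h1⟩
      apply h
      funext e
      fin_cases e
      · show c 0 = c' 0
        omega
      · exact h0
      · exact h1
    simp [h, h1, h2]

/-- diagonal matrix elements -/
theorem w1_wpot_diag (n k : ℕ) (Lam : ℝ) (A : ℕ → ℕ → ℝ) (a : ℕ → ℝ) (c : Idx) :
    w1 (wpot n k Lam A a) c c =
      -Lam * (if c 2 = 0 then 1 else 0) -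
        ∑ i ∈ range n, (Lam - a i) * (if c 0 = mi n k i then 1 else 0) +
      ∑ i ∈ range n, ∑ j ∈ range n, if i < j then A i j * w1 (vhop n k i j) c c else 0 := by
  have h := w1_wpot_shell n k (c 0 + c 1 + c 2) Lam A a (c := c) (c' := c)
    ((mem_shell _ _).2 rfl) ((mem_shell _ _).2 rfl)
  rw [h, if_pos rfl]

/-- **core sum of the designer potential** -/
theorem sum_core_wpot (n k n0 : ℕ) (Lam : ℝ) (A : ℕ → ℕ → ℝ) (a : ℕ → ℝ) :
    ∑ c ∈ core n0, w1 (wpot n k Lam A a) c c =
      -Lam * ((n0 * (n0 + 1) : ℕ) : ℝ) / 2 -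
        ∑ i ∈ range n, (Lam - a i) * (((n0 - mi n k i) * (n0 - mi n k i + 1) : ℕ) : ℝ) / 2 +
      ∑ i ∈ range n, ∑ j ∈ range n, if i < j then
        A i j * ∑ c ∈ core n0, w1 (vhop n k i j) c c else 0 := by
  simp only [w1_wpot_diag, sum_add_distrib, sum_sub_distrib]
  congr 1
  · congr 1
    · rw [← mul_sum, sum_boole]
      have := card_core_thd n0 0
      rw [Nat.sub_zero] at this
      have h2 : ((n0 * (n0 + 1) : ℕ) : ℝ) = 2 * (#{c ∈ core n0 | c 2 = 0} : ℝ) := by
        exact_mod_cast this.symm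
      rw [h2]; ring
    · rw [sum_comm]
      refine sum_congr rfl fun i _ => ?_
      rw [← mul_sum, sum_boole]
      have := card_core_fst n0 (mi n k i)
      have h2 : (((n0 - mi n k i) * (n0 - mi n k i + 1) : ℕ) : ℝ) =
          2 * (#{c ∈ core n0 | c 0 = mi n k i} : ℝ) := by
        exact_mod_cast this.symm
      rw [h2]; ring
  · rw [sum_comm]
    refine sum_congr rfl fun i _ => ?_
    rw [sum_comm]
    refine sum_congr rfl fun j _ => ?_
    split_ifs
    · rw [mul_sum]
    · simp

/-- `Mhop` in closed form -/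
theorem Mhop_eq (n k i j k' l' : ℕ) : Mhop n k i j k' l' =
    EX.I4 (mi n k i) (mi n k j) (mi n k k') (mi n k l') *
      EX.I4 (n0' n k - mi n k i) (n0' n k - mi n k j) (n0' n k - mi n k k') (n0' n k - mi n k l') := by
  unfold Mhop
  rw [w1_vhop]
  simp [site]

/-- core sum of the hopping potential as a nested range sum -/
theorem sum_core_vhop (n k i j n0 : ℕ) : ∑ c ∈ core n0, w1 (vhop n k i j) c c =
    ∑ c0 ∈ range n0, ∑ c1 ∈ range (n0 - c0), ((n0 - c0 - c1 : ℕ) : ℝ) *
      (EX.I4 (mi n k i) (mi n k j) c0 c0 *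
        EX.I4 (n0' n k - mi n k i) (n0' n k - mi n k j) c1 c1) := by
  rw [sum_core]
  refine sum_congr rfl fun c0 _ => sum_congr rfl fun c1 _ => ?_
  simp only [w1_vhop]
  simp

end Crest.Agent.R338.XF
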