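import Crest.Agent.R338.Cal3
import Crest.Agent.R338.Cal5
import Crest.Agent.R338.P2Defs
import Crest.Agent.R338.XF5

/-!
# Row 338, node CAL: the exact calibration from the dominance of the hopping matrix
-/

set_option autoImplicit false

noncomputable section

open MeasureTheory
open Crest.MathPhysics.ElectronicCoulomb

namespace Crest.Agent.R338.Cal

open Finset

/-! ### pair indices -/

theorem pair_div {n i j : ℕ} (hj : j < n) : (i * n + j) / n = i := by
  rw [Nat.add_comm, Nat.add_mul_div_right _ _ (by omega), Nat.div_eq_of_lt hj, zero_add]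

theorem pair_mod {n i j : ℕ} (hj : j < n) : (i * n + j) % n = j := by
  rw [Nat.add_comm, Nat.add_mul_mod_self_right, Nat.mod_eq_of_lt hj]

theorem pair_lt {n i j : ℕ} (hi : i < n) (hj : j < n) : i * n + j < n * n := by
  have h1 : (i + 1) * n ≤ n * n := Nat.mul_le_mul_right n hi
  have h2 : (i + 1) * n = i * n + n := by ring
  omega

theorem sum_range_mul' {M : Type*} [AddCommMonoid M] (m n : ℕ) (f : ℕ → M) :
    ∑ q ∈ range (m * n), f q = ∑ i ∈ range m, ∑ j ∈ range n, f (i * n + j) := by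
  induction m with
  | zero => simp
  | succ m ih =>
    rw [Nat.succ_mul, sum_range_add, sum_range_succ, ih]

/-! ### bounds -/

theorem abs_I4_le (a b c d : ℕ) : |EX.I4 a b c d| ≤ 1250 := by
  unfold EX.I4
  have hi : Integrable (fun s : ℝ => 625 * Real.exp (-2 * s ^ 2)) :=
    (integrable_exp_neg_mul_sq (by norm_num)).const_mul _
  rw [← Real.norm_eq_abs]
  refine (norm_integral_le_of_norm_le hi (Filter.Eventually.of_forall fun s => ?_)).trans ?_
  · rw [norm_mul, Real.norm_of_nonneg (Real.exp_pos _).le, Real.norm_eq_abs, abs_mul, abs_mul,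
      abs_mul]
    have h1 := abs_hf_le a s
    have h2 := abs_hf_le b s
    have h3 := abs_hf_le c s
    have h4 := abs_hf_le d s
    have h5 : |HO.hf a s| * |HO.hf b s| * (|HO.hf c s| * |HO.hf d s|) ≤ 5 * 5 * (5 * 5) := by
      gcongr
    have e : Real.exp (-(2 * s ^ 2)) = Real.exp (-2 * s ^ 2) := by congr 1; ring
    rw [e]
    calc _ ≤ Real.exp (-2 * s ^ 2) * (5 * 5 * (5 * 5)) := by gcongr
      _ = _ := by ring
  · rw [integral_const_mul, integral_gaussian]
    have : √(Real.pi / 2) ≤ 2 := by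
      rw [Real.sqrt_le_left (by norm_num)]
      linarith [Real.pi_lt_four]
    linarith

theorem abs_Mhop_le (n k i j i' j' : ℕ) : |Mhop n k i j i' j'| ≤ 1562500 := by
  rw [XF.Mhop_eq, abs_mul]
  calc _ ≤ (1250 : ℝ) * 1250 :=
        mul_le_mul (abs_I4_le _ _ _ _) (abs_I4_le _ _ _ _) (abs_nonneg _) (by norm_num)
    _ = _ := by norm_num

theorem card_core_le (n0 : ℕ) : (core n0).card ≤ n0 ^ 3 := by
  unfold core
  refine (card_filter_le _ _).trans ?_
  rw [Fintype.card_piFinset]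
  simp

theorem abs_fock_le (n0 : ℕ) (a b : Idx) : |fock n0 a b| ≤ 150000 * (n0 : ℝ) ^ 3 := by
  unfold fock
  refine (abs_sum_le_sum_abs _ _).trans ?_
  have h1 : ∀ c ∈ core n0, |2 * W4 a b c c - W4 a c c b| ≤ 150000 := by
    intro c _
    have h2 := abs_W4_le a b c c
    have h3 := abs_W4_le a c c b
    rw [abs_le] at h2 h3 ⊢
    constructor <;> linarith [h2.1, h2.2, h3.1, h3.2]
  refine (sum_le_sum h1).trans ?_
  rw [sum_const, nsmul_eq_mul, mul_comm]
  have : ((core n0).card : ℝ) ≤ (n0 : ℝ) ^ 3 := by exact_mod_cast card_core_le n0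
  linarith

theorem abs_Vc_le (n k i j : ℕ) : |Vc n k i j| ≤ 50000 := abs_W4_le _ _ _ _

theorem abs_Dlt_le (n k i j : ℕ) : |Dlt n k i j| ≤ 100000 := by
  unfold Dlt
  have h1 := abs_Vc_le n k i i
  have h2 := abs_Vc_le n k j j
  have h3 := abs_Vc_le n k i j
  rw [abs_le] at h1 h2 h3 ⊢
  constructor <;> linarith [h1.1, h1.2, h2.1, h2.2, h3.1, h3.2]

theorem abs_muS_le (n k i : ℕ) : |muS n k i| ≤ 50000 * ((n : ℝ) + 1) := by
  unfold muS
  have h1 := abs_Vc_le n k i i
  have h2 : |∑ j ∈ (range n).erase i, Vc n k i j| ≤ 50000 * (n : ℝ) := by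
    refine (abs_sum_le_sum_abs _ _).trans ((sum_le_sum fun j _ => abs_Vc_le n k i j).trans ?_)
    rw [sum_const, nsmul_eq_mul, mul_comm]
    have h3 : (((range n).erase i).card : ℝ) ≤ n := by
      have := card_erase_le (s := range n) (a := i)
      rw [card_range] at this
      exact_mod_cast this
    linarith
  rw [abs_le] at h1 h2 ⊢
  constructor <;> linarith [h1.1, h1.2, h2.1, h2.2]

theorem abs_t_le {j0 : ℝ} (h0 : 0 ≤ j0) (h1 : j0 ≤ 1) {x : ℝ} (hx0 : 0 ≤ x) (hx1 : x ≤ 1)
    (n k i j : ℕ) : |1 / 2 * √(j0 * x * Dlt n k i j)| ≤ 50000 := by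
  have hD := abs_Dlt_le n k i j
  have h2 : j0 * x * Dlt n k i j ≤ 100000 := by
    have h3 : 0 ≤ j0 * x := mul_nonneg h0 hx0
    have h4 : j0 * x ≤ 1 := by nlinarith
    calc j0 * x * Dlt n k i j ≤ j0 * x * |Dlt n k i j| :=
          mul_le_mul_of_nonneg_left (le_abs_self _) h3
      _ ≤ 1 * 100000 := mul_le_mul h4 hD (abs_nonneg _) (by norm_num)
      _ = _ := by norm_num
  have h5 : √(j0 * x * Dlt n k i j) ≤ 100000 := by
    rw [Real.sqrt_le_left (by norm_num)]
    linarith
  rw [abs_of_nonneg (by positivity)]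
  linarith

/-! ### dominance of `Mcal` -/

/-- the consequence of `HopStmt` for fixed `n`, `k` -/
structure Hop (n k C : ℕ) : Prop where
  diag : ∀ i j, i < j → j < n → 1 / (k : ℝ) ^ C ≤ Mhop n k i j i j
  off : ∀ i j i' j', i < j → j < n → i' < j' → j' < n → (i', j') ≠ (i, j) →
    4 * (n : ℝ) ^ 2 * |Mhop n k i' j' i j| ≤ Mhop n k i j i j

theorem Hop.dom {n k C : ℕ} (h : Hop n k C) (hk : 1 ≤ k) :
    Dom (n * n) (Mcal n k) (1 / (k : ℝ) ^ C) := by
  have hk' : (1 : ℝ) ≤ k := by exact_mod_cast hk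
  have hkC : (1 : ℝ) ≤ (k : ℝ) ^ C := one_le_pow₀ hk'
  have hm1 : 1 / (k : ℝ) ^ C ≤ 1 := by
    rw [div_le_one (by positivity)]
    exact hkC
  refine ⟨by positivity, fun p hp => ?_, fun p hp => ?_⟩
  · unfold Mcal
    by_cases hv : p / n < p % n
    · have hn : 0 < n := by
        rcases Nat.eq_zero_or_pos n with h0 | h0
        · subst h0; simp at hp
        · exact h0
      rw [if_pos ⟨hv, hv⟩]
      exact h.diag _ _ hv (Nat.mod_lt _ hn)
    · rw [if_neg (fun hc => hv hc.1), if_pos rfl]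
      exact hm1
  · have hn : 0 < n := by
      rcases Nat.eq_zero_or_pos n with h0 | h0
      · subst h0; simp at hp
      · exact h0
    by_cases hv : p / n < p % n
    · have hpp : Mcal n k p p = Mhop n k (p / n) (p % n) (p / n) (p % n) := by
        unfold Mcal
        rw [if_pos ⟨hv, hv⟩]
      have hpos : 0 < Mcal n k p p := by
        rw [hpp]
        exact lt_of_lt_of_le (by positivity) (h.diag _ _ hv (Nat.mod_lt _ hn))
      have hterm : ∀ q ∈ range (n * n), (if q = p then 0 else |Mcal n k p q|) ≤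
          Mcal n k p p / (4 * (n : ℝ) ^ 2) := by
        intro q hq
        have hn' : (0 : ℝ) < n := by exact_mod_cast hn
        split_ifs with hqp
        · positivity
        · by_cases hvq : q / n < q % n
          · have e : Mcal n k p q = Mhop n k (q / n) (q % n) (p / n) (p % n) := by
              unfold Mcal
              rw [if_pos ⟨hv, hvq⟩]
            rw [e, hpp, le_div_iff₀ (by positivity), mul_comm]
            refine h.off _ _ _ _ hv (Nat.mod_lt _ hn) hvq (Nat.mod_lt _ hn) fun heq => hqp ?_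
            have h1 := congrArg Prod.fst heq
            have h2 := congrArg Prod.snd heq
            simp only at h1 h2
            rw [← Nat.div_add_mod q n, ← Nat.div_add_mod p n, h1, h2]
          · have e : Mcal n k p q = 0 := by
              unfold Mcal
              rw [if_neg (fun hc => hvq hc.2), if_neg (fun hc => hqp hc.symm)]
            rw [e, abs_zero]
            positivity
      refine (sum_le_sum hterm).trans (le_of_eq ?_)
      rw [sum_const, card_range, nsmul_eq_mul]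
      have hn' : (n : ℝ) ≠ 0 := by exact_mod_cast hn.ne'
      push_cast
      field_simp
    · have hpp : Mcal n k p p = 1 := by
        unfold Mcal
        rw [if_neg (fun hc => hv hc.1), if_pos rfl]
      have hterm : ∀ q ∈ range (n * n), (if q = p then 0 else |Mcal n k p q|) ≤ 0 := by
        intro q _
        split_ifs with hqp
        · exact le_rfl
        · have e : Mcal n k p q = 0 := by
            unfold Mcal
            rw [if_neg (fun hc => hv hc.1), if_neg (fun hc => hqp hc.symm)]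
          rw [e, abs_zero]
      refine (sum_le_sum hterm).trans ?_
      rw [hpp, sum_const_zero]
      norm_num

/-- a function on pairs as a vector -/
def vec (n : ℕ) (A : ℕ → ℕ → ℝ) (p : ℕ) : ℝ := if p / n < p % n then A (p / n) (p % n) else 0

/-- row of `Mcal` applied to a vector on pairs -/
theorem Mcal_vec (n k : ℕ) (A : ℕ → ℕ → ℝ) {i j : ℕ} (hij : i < j) (hj : j < n) :
    ∑ q ∈ range (n * n), Mcal n k (i * n + j) q * vec n A q =
      ∑ i' ∈ range n, ∑ j' ∈ range n, if i' < j' then A i' j' * Mhop n k i' j' i j else 0 := by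
  rw [sum_range_mul']
  refine sum_congr rfl fun i' _ => sum_congr rfl fun j' hj' => ?_
  have hj'' := mem_range.1 hj'
  unfold Mcal vec
  rw [pair_div hj, pair_mod hj, pair_div hj'', pair_mod hj'']
  by_cases h : i' < j'
  · rw [if_pos ⟨hij, h⟩, if_pos h, if_pos h]
    ring
  · rw [if_neg h, if_neg h, mul_zero]

theorem Mcal_vec_invalid (n k : ℕ) (A : ℕ → ℕ → ℝ) {p : ℕ} (hp : p < n * n)
    (hv : ¬ p / n < p % n) : ∑ q ∈ range (n * n), Mcal n k p q * vec n A q = 0 := by
  refine sum_eq_zero fun q _ => ?_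
  unfold Mcal
  rw [if_neg (fun hc => hv hc.1)]
  by_cases hpq : p = q
  · subst hpq
    unfold vec
    rw [if_neg hv, mul_zero]
  · rw [if_neg hpq, zero_mul]

/-- entries of the solution at non-pairs vanish -/
theorem Dom.linsol_invalid {n k : ℕ} {m₀ : ℝ} (d : Dom (n * n) (Mcal n k) m₀) (j0 : ℝ)
    (J : ℕ → ℕ → ℝ) {p : ℕ} (hp : p < n * n) (hv : ¬ p / n < p % n) :
    linsol (n * n) (Mcal n k) (bcal n k j0 J) p = 0 := by
  have h := d.linsol_spec (bcal n k j0 J) hp
  have hb : bcal n k j0 J p = 0 := by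
    unfold bcal
    rw [if_neg hv]
  rw [hb] at h
  rw [← h]
  symm
  rw [sum_eq_single p]
  · unfold Mcal
    rw [if_neg (fun hc => hv hc.1), if_pos rfl, one_mul]
  · intro q _ hqp
    unfold Mcal
    rw [if_neg (fun hc => hv hc.1), if_neg (fun hc => hqp hc.symm), zero_mul]
  · intro hc
    exact absurd (mem_range.2 hp) hc

theorem Dom.vec_Acal {n k : ℕ} {m₀ : ℝ} (d : Dom (n * n) (Mcal n k) m₀) (j0 : ℝ)
    (J : ℕ → ℕ → ℝ) {p : ℕ} (hp : p < n * n) :
    vec n (Acal n k j0 J) p = linsol (n * n) (Mcal n k) (bcal n k j0 J) p := by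
  have hn : 0 < n := by
    rcases Nat.eq_zero_or_pos n with h0 | h0
    · subst h0; simp at hp
    · exact h0
  unfold vec
  by_cases hv : p / n < p % n
  · rw [if_pos hv]
    unfold Acal
    rw [if_pos ⟨hv, Nat.mod_lt _ hn⟩]
    congr 1
    rw [mul_comm]
    exact Nat.div_add_mod p n
  · rw [if_neg hv, d.linsol_invalid j0 J hp hv]

/-- **the calibration is exact** -/
theorem Dom.isCal {n k : ℕ} {m₀ : ℝ} (d : Dom (n * n) (Mcal n k) m₀) (j0 : ℝ)
    (J : ℕ → ℕ → ℝ) : P2.IsCal n k j0 J (Acal n k j0 J) (acal n k j0 J) := by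
  refine ⟨⟨fun i hi j hj hij => ?_, fun i hi => ?_⟩, fun i j h => ?_, fun i h => ?_⟩
  · have h1 : ∑ q ∈ range (n * n), Mcal n k (i * n + j) q * vec n (Acal n k j0 J) q =
        bcal n k j0 J (i * n + j) := by
      rw [← d.linsol_spec (bcal n k j0 J) (pair_lt hi hj)]
      refine sum_congr rfl fun q hq => ?_
      rw [d.vec_Acal j0 J (mem_range.1 hq)]
    rw [Mcal_vec n k _ hij hj] at h1
    rw [h1]
    unfold bcal
    rw [pair_div hj, pair_mod hj, if_pos hij]
    rw [abs_le]
    constructor <;> linarith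
  · have : acal n k j0 J i = muS n k i - fock (n0' n k) (site n k i) (site n k i) -
        (∑ i' ∈ range n, ∑ j' ∈ range n,
          if i' < j' then Acal n k j0 J i' j' * Mhop n k i' j' i i else 0) := by
      unfold acal
      rw [if_pos hi]
    rw [this, abs_le]
    constructor <;> linarith
  · unfold Acal
    rw [if_neg h]
  · unfold acal
    rw [if_neg (by omega)]

/-- uniqueness of the exact calibration -/
theorem Dom.isCal_unique {n k : ℕ} {m₀ : ℝ} (d : Dom (n * n) (Mcal n k) m₀) {j0 : ℝ}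
    {J A A' : ℕ → ℕ → ℝ} {a a' : ℕ → ℝ} (h : P2.IsCal n k j0 J A a)
    (h' : P2.IsCal n k j0 J A' a') : A = A' ∧ a = a' := by
  obtain ⟨⟨h1, h2⟩, h3, h4⟩ := h
  obtain ⟨⟨h1', h2'⟩, h3', h4'⟩ := h'
  have hz : ∀ p < n * n, |vec n (fun i j => A i j - A' i j) p| ≤ 4 / 3 * (0 / m₀) := by
    refine d.stab fun p hp => ?_
    have hn : 0 < n := by
      rcases Nat.eq_zero_or_pos n with h0 | h0
      · subst h0; simp at hp
      · exact h0
    by_cases hv : p / n < p % n
    · have hpe : p / n * n + p % n = p := by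
        rw [mul_comm]
        exact Nat.div_add_mod p n
      have hmod := Nat.mod_lt p hn
      rw [← hpe, Mcal_vec n k _ hv hmod]
      have e : (∑ i' ∈ range n, ∑ j' ∈ range n, if i' < j' then
          (A i' j' - A' i' j') * Mhop n k i' j' (p / n) (p % n) else 0) =
          (∑ i' ∈ range n, ∑ j' ∈ range n, if i' < j' then
            A i' j' * Mhop n k i' j' (p / n) (p % n) else 0) -
          ∑ i' ∈ range n, ∑ j' ∈ range n, if i' < j' then
            A' i' j' * Mhop n k i' j' (p / n) (p % n) else 0 := by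
        rw [← sum_sub_distrib]
        refine sum_congr rfl fun i' _ => ?_
        rw [← sum_sub_distrib]
        refine sum_congr rfl fun j' _ => ?_
        split_ifs
        · ring
        · ring
      rw [e]
      have g1 := h1 _ (hv.trans hmod) _ hmod hv
      have g2 := h1' _ (hv.trans hmod) _ hmod hv
      rw [abs_le] at g1 g2 ⊢
      constructor <;> linarith [g1.1, g1.2, g2.1, g2.2]
    · rw [Mcal_vec_invalid n k _ hp hv, abs_zero]
  have hAA : A = A' := by
    funext i j
    by_cases hij : i < j ∧ j < n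
    · have h5 := hz (i * n + j) (pair_lt (hij.1.trans hij.2) hij.2)
      unfold vec at h5
      rw [pair_div hij.2, pair_mod hij.2, if_pos hij.1, zero_div, mul_zero] at h5
      have := abs_nonpos_iff.1 h5
      linarith
    · rw [h3 i j hij, h3' i j hij]
  refine ⟨hAA, ?_⟩
  funext i
  rcases lt_or_ge i n with hi | hi
  · have g1 := h2 i hi
    have g2 := h2' i hi
    rw [hAA] at g1
    rw [abs_le] at g1 g2
    linarith [g1.1, g1.2, g2.1, g2.2]
  · rw [h4 i hi, h4' i hi]

/-- `calSol` of `P2Defs` is `(Acal, acal)` -/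
theorem Dom.calSol_eq {n k : ℕ} {m₀ : ℝ} (d : Dom (n * n) (Mcal n k) m₀) (j0 : ℝ)
    (J : ℕ → ℕ → ℝ) : P2.calSol n k j0 J = (Acal n k j0 J, acal n k j0 J) := by
  unfold P2.calSol
  have hex : ∃ p : (ℕ → ℕ → ℝ) × (ℕ → ℝ), P2.IsCal n k j0 J p.1 p.2 :=
    ⟨(Acal n k j0 J, acal n k j0 J), d.isCal j0 J⟩
  rw [dif_pos hex]
  obtain ⟨h1, h2⟩ := d.isCal_unique hex.choose_spec (d.isCal j0 J)
  exact Prod.ext h1 h2

/-! ### polynomial bounds -/

theorem base_le {n k C : ℕ} (hC : 2000000 ≤ C) (h : (C * (n + 1)) ^ C ≤ k) :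
    2000000 * (n + 1) ≤ k := by
  have h1 : 1 ≤ C * (n + 1) := Nat.mul_pos (by omega) (by omega)
  calc 2000000 * (n + 1) ≤ C * (n + 1) := Nat.mul_le_mul_right _ hC
    _ = (C * (n + 1)) ^ 1 := (pow_one _).symm
    _ ≤ (C * (n + 1)) ^ C := Nat.pow_le_pow_right h1 (by omega)
    _ ≤ k := h

theorem n0'_le {n k : ℕ} (h : 2000000 * (n + 1) ≤ k) : n0' n k ≤ k ^ 15 := by
  have hn : n ≤ k := by omega
  have h32 : 32 ≤ k := by omega
  have hY : Yn n ≤ k ^ 4 := by
    unfold Yn
    calc 16 * n ^ 3 + 16 * n ^ 2 ≤ 16 * k ^ 3 + 16 * k ^ 3 := by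
          refine Nat.add_le_add (Nat.mul_le_mul_left _ (Nat.pow_le_pow_left hn 3))
            (Nat.mul_le_mul_left _ ?_)
          exact (Nat.pow_le_pow_left hn 2).trans (Nat.pow_le_pow_right (by omega) (by omega))
      _ = 32 * k ^ 3 := by ring
      _ ≤ k * k ^ 3 := Nat.mul_le_mul_right _ h32
      _ = k ^ 4 := by ring
  unfold n0'
  calc 16 * (k ^ 3) ^ 2 * Yn n ^ 2 ≤ k * (k ^ 3) ^ 2 * (k ^ 4) ^ 2 :=
        Nat.mul_le_mul (Nat.mul_le_mul_right _ (by omega)) (Nat.pow_le_pow_left hY 2)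
    _ = k ^ 15 := by ring

theorem bounds {n k C : ℕ} {m₀ : ℝ} (d : Dom (n * n) (Mcal n k) m₀) (hm : m₀ = 1 / (k : ℝ) ^ C)
    (hk : 2000000 * (n + 1) ≤ k) {j0 : ℝ} {J : ℕ → ℕ → ℝ} (h0 : 0 ≤ j0) (h1 : j0 ≤ 1)
    (hJ : ∀ i j, 0 ≤ J i j ∧ J i j ≤ 1) :
    (∀ i j, |Acal n k j0 J i j| ≤ (k : ℝ) ^ (C + 48)) ∧
    ∀ i, |acal n k j0 J i| ≤ (k : ℝ) ^ (C + 52) := by
  have hkr : (2000000 : ℝ) * (n + 1) ≤ k := by exact_mod_cast hk
  have hn0 : (0 : ℝ) ≤ n := by positivity
  have hk1 : (2000000 : ℝ) ≤ k := by nlinarith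
  have hkn : (n : ℝ) + 1 ≤ k := by nlinarith
  have hkp : (1 : ℝ) ≤ k := by linarith
  have hf : ∀ a b : Idx, |fock (n0' n k) a b| ≤ (k : ℝ) ^ 46 := by
    intro a b
    refine (abs_fock_le _ a b).trans ?_
    have h2 : ((n0' n k : ℕ) : ℝ) ≤ (k : ℝ) ^ 15 := by exact_mod_cast n0'_le hk
    calc 150000 * ((n0' n k : ℕ) : ℝ) ^ 3 ≤ k * ((k : ℝ) ^ 15) ^ 3 := by
          gcongr
          linarith
      _ = (k : ℝ) ^ 46 := by ring
  have hb : ∀ p < n * n, |bcal n k j0 J p| ≤ (k : ℝ) ^ 47 := by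
    intro p _
    unfold bcal
    split_ifs with hv
    · have h2 := abs_t_le h0 h1 (hJ (p / n) (p % n)).1 (hJ (p / n) (p % n)).2 n k (p / n) (p % n)
      have h3 := hf (site n k (p / n)) (site n k (p % n))
      have h4 : (1 : ℝ) ≤ (k : ℝ) ^ 46 := one_le_pow₀ hkp
      have h5 : 50000 + (k : ℝ) ^ 46 ≤ (k : ℝ) ^ 47 := by
        have : (k : ℝ) ^ 47 = k * (k : ℝ) ^ 46 := by ring
        rw [this]
        nlinarith
      rw [abs_le] at h2 h3 ⊢
      constructor <;> linarith [h2.1, h2.2, h3.1, h3.2]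
    · rw [abs_zero]
      positivity
  have hA : ∀ i j, |Acal n k j0 J i j| ≤ (k : ℝ) ^ (C + 48) := by
    intro i j
    unfold Acal
    split_ifs with hij
    · refine (d.abs_linsol_le (β := (k : ℝ) ^ 47) (by positivity) hb _).trans ?_
      rw [hm, div_div_eq_mul_div, div_one]
      have e : (k : ℝ) ^ (C + 48) = k * ((k : ℝ) ^ 47 * (k : ℝ) ^ C) := by
        rw [pow_add]; ring
      rw [e]
      apply mul_le_mul_of_nonneg_right _ (by positivity)
      linarith
    · rw [abs_zero]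
      positivity
  refine ⟨hA, fun i => ?_⟩
  unfold acal
  split_ifs with hi
  · have h2 := abs_muS_le n k i
    have h3 := hf (site n k i) (site n k i)
    have h4 : |∑ i' ∈ range n, ∑ j' ∈ range n,
        if i' < j' then Acal n k j0 J i' j' * Mhop n k i' j' i i else 0| ≤
        (k : ℝ) ^ 2 * ((k : ℝ) ^ (C + 48) * 1562500) := by
      refine (abs_sum_le_sum_abs _ _).trans ?_
      have h5 : ∀ i' ∈ range n, |∑ j' ∈ range n,
          if i' < j' then Acal n k j0 J i' j' * Mhop n k i' j' i i else 0| ≤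
          n * ((k : ℝ) ^ (C + 48) * 1562500) := by
        intro i' _
        refine (abs_sum_le_sum_abs _ _).trans ?_
        have h6 : ∀ j' ∈ range n, |(if i' < j' then Acal n k j0 J i' j' * Mhop n k i' j' i i
            else 0)| ≤ (k : ℝ) ^ (C + 48) * 1562500 := by
          intro j' _
          split_ifs
          · rw [abs_mul]
            exact mul_le_mul (hA _ _) (abs_Mhop_le _ _ _ _ _ _) (abs_nonneg _) (by positivity)
          · rw [abs_zero]
            positivity
        refine (sum_le_sum h6).trans (le_of_eq ?_)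
        rw [sum_const, card_range, nsmul_eq_mul]
      refine (sum_le_sum h5).trans ?_
      rw [sum_const, card_range, nsmul_eq_mul, ← mul_assoc]
      have : (n : ℝ) * n ≤ (k : ℝ) ^ 2 := by nlinarith
      exact mul_le_mul_of_nonneg_right this (by positivity)
    have h7 : (k : ℝ) ^ 2 * ((k : ℝ) ^ (C + 48) * 1562500) ≤ (k : ℝ) ^ (C + 51) := by
      have e : (k : ℝ) ^ (C + 51) = (k : ℝ) ^ 2 * ((k : ℝ) ^ (C + 48) * k) := by
        rw [pow_add, pow_add]; ring
      rw [e]
      gcongr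
      linarith
    have h8 : 50000 * ((n : ℝ) + 1) ≤ (k : ℝ) ^ (C + 51) := by
      calc 50000 * ((n : ℝ) + 1) ≤ (k : ℝ) ^ 1 := by rw [pow_one]; linarith
        _ ≤ (k : ℝ) ^ (C + 51) := pow_le_pow_right₀ hkp (by omega)
    have h9 : (k : ℝ) ^ 46 ≤ (k : ℝ) ^ (C + 51) := pow_le_pow_right₀ hkp (by omega)
    have h10 : 3 * (k : ℝ) ^ (C + 51) ≤ (k : ℝ) ^ (C + 52) := by
      have e : (k : ℝ) ^ (C + 52) = k * (k : ℝ) ^ (C + 51) := by
        rw [pow_add, pow_add]; ring
      rw [e]
      apply mul_le_mul_of_nonneg_right _ (by positivity)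
      linarith
    rw [abs_le] at h2 h3 h4 ⊢
    constructor <;> linarith [h2.1, h2.2, h3.1, h3.2, h4.1, h4.2]
  · rw [abs_zero]
    positivity

/-- node CAL from node HK -/
theorem calStmt_of_hop (H : HopStmt) : P2.CalStmt := by
  obtain ⟨C, hC, H⟩ := H
  refine ⟨C + 2000000, by omega, fun n k hk j0 J => ?_⟩
  have hk2 := base_le (by omega) hk
  have hkC : (C * (n + 1)) ^ C ≤ k := by
    refine le_trans ?_ hk
    calc (C * (n + 1)) ^ C ≤ ((C + 2000000) * (n + 1)) ^ C :=
          Nat.pow_le_pow_left (Nat.mul_le_mul_right _ (by omega)) _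
      _ ≤ ((C + 2000000) * (n + 1)) ^ (C + 2000000) :=
          Nat.pow_le_pow_right (Nat.mul_pos (by omega) (by omega)) (by omega)
  obtain ⟨H1, H2⟩ := H n k hkC
  have d : Dom (n * n) (Mcal n k) (1 / (k : ℝ) ^ C) := Hop.dom ⟨H1, H2⟩ (by omega)
  have hkp : (1 : ℝ) ≤ k := by
    have : 1 ≤ k := by omega
    exact_mod_cast this
  refine ⟨⟨(Acal n k j0 J, acal n k j0 J), d.isCal j0 J, fun p hp => ?_⟩,
    fun h0 h1 hJ A a hA => ?_⟩
  · obtain ⟨e1, e2⟩ := d.isCal_unique hp (d.isCal j0 J)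
    exact Prod.ext e1 e2
  · obtain ⟨e1, e2⟩ := d.isCal_unique hA (d.isCal j0 J)
    obtain ⟨b1, b2⟩ := bounds d rfl hk2 h0 h1 hJ
    rw [e1, e2]
    exact ⟨fun i j => (b1 i j).trans (pow_le_pow_right₀ hkp (by omega)),
      fun i => (b2 i).trans (pow_le_pow_right₀ hkp (by omega))⟩

end Crest.Agent.R338.Cal

end
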