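import Mathlib.Data.Nat.Factorial.DoubleFactorial
import Mathlib.Data.Nat.Choose.Factorization
import Mathlib.Analysis.SpecialFunctions.Gamma.Basic
import Crest.Agent.R338.Nu1

/-!
# Row 338, numerics (helper860), part 3: binomials, double factorials, integer intervals,
Gaussian integral, miscellaneous
-/

set_option autoImplicit false

namespace Crest.Agent.R338.Nu

open Crest.Agent.Lib.PT

variable {α β γ : Type} [PTCode α] [PTCode β] [PTCode γ]

@[fun_prop]
theorem ptf_unVal {f : α → Un} (hf : PTF f) : PTF (fun a => (f a).val) :=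
  PTU.toPTF (PTU.val hf)

/-- maximum of unary numbers -/
@[fun_prop]
theorem ptu_max {m n : α → ℕ} (hm : PTU m) (hn : PTU n) : PTU (fun a => Max.max (m a) (n a)) :=
  (PTU.add (PTU.sub hm hn) hn).of_eq (fun a => by omega)

/-- a PTF natural number which is bounded by a unary one is unary -/
theorem ptu_of_le {f g : α → ℕ} (hf : PTF f) (hg : PTU g) (h : ∀ a, f a ≤ g a) : PTU f :=
  (PTF.natMinUn hf hg).of_eq (fun a => Nat.min_eq_left (h a))

@[fun_prop]
theorem ptu_div {m n : α → ℕ} (hm : PTU m) (hn : PTU n) : PTU (fun a => m a / n a) :=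
  ptu_of_le (PTF.natDiv hm.toPTF hn.toPTF) hm (fun _ => Nat.div_le_self _ _)

@[fun_prop]
theorem ptu_mod {m n : α → ℕ} (hm : PTU m) (hn : PTU n) : PTU (fun a => m a % n a) :=
  ptu_of_le (PTF.natMod hm.toPTF hn.toPTF) hm (fun _ => Nat.mod_le _ _)

theorem ptf_choose {n k : α → ℕ} (hn : PTU n) (hk : PTU k) :
    PTF (fun a => (n a).choose (k a)) := by
  have h1 : PTF (fun a => (n a).factorial / ((k a).factorial * (n a - k a).factorial)) :=
    PTF.natDiv (PTF.natFactorial hn)
      (PTF.natMul (PTF.natFactorial hk) (PTF.natFactorial (PTU.sub hn hk)))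
  refine (PTF.ite (p := fun a => k a ≤ n a) (PTU.le hk hn) h1 (PTF.const 0)).of_eq (fun a => ?_)
  by_cases h : k a ≤ n a
  · rw [if_pos h, Nat.choose_eq_factorial_div_factorial h]
  · rw [if_neg h, Nat.choose_eq_zero_of_lt (by omega)]

theorem PTR.choose {n k : α → ℕ} (hn : PTU n) (hk : PTU k) :
    PTR (fun a => ((n a).choose (k a) : ℝ)) := PTR.natCast (ptf_choose hn hk)

/-- double factorial as a product over a range -/
theorem doubleFactorial_eq (n : ℕ) :
    n.doubleFactorial = ∏ i ∈ Finset.range (n / 2), (n - 2 * i) * (if n % 2 = 0 then 1 else 1) := by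
  simp only [ite_self, mul_one]
  induction n using Nat.strong_induction_on with
  | _ n ih =>
    match n with
    | 0 => simp
    | 1 => simp
    | (m + 2) =>
      rw [Nat.doubleFactorial_add_two, ih m (by omega), show (m + 2) / 2 = m / 2 + 1 by omega,
        Finset.prod_range_succ']
      rw [mul_comm]
      congr 1
      exact Finset.prod_congr rfl (fun i _ => by omega)

theorem ptf_doubleFactorial {n : α → ℕ} (hn : PTU n) : PTF (fun a => (n a).doubleFactorial) := by
  have h1 : PTF (fun p : α × Un => (n p.1 - 2 * p.2.val) : α × Un → ℕ) :=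
    (PTU.sub (PTU.comp hn PTF.fst) (PTU.mul (PTU.const 2) ptu_snd)).toPTF
  have h2 : PTF (fun a => ∏ i ∈ Finset.range (n a / 2), (n a - 2 * i)) := by
    refine (PTF.natProdRange (ptu_div hn (PTU.const 2))
      (f := fun a i => n a - 2 * (Min.min i (n a))) ?_).of_eq (fun a => ?_)
    · exact PTF.comp (g := fun p : α × Un => (n p.1 - 2 * p.2.val) )
        (f := fun x : α × ℕ => (x.1, Un.mk (Min.min x.2 (n x.1)))) h1
        (PTF.prodMk PTF.fst (PTF.natMinUn PTF.snd (PTU.comp hn PTF.fst)))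
    · refine Finset.prod_congr rfl (fun i hi => ?_)
      rw [Nat.min_eq_left (by have := Finset.mem_range.1 hi; omega)]
  refine h2.of_eq (fun a => ?_)
  rw [doubleFactorial_eq]
  simp

theorem PTR.doubleFactorial {n : α → ℕ} (hn : PTU n) :
    PTR (fun a => ((n a).doubleFactorial : ℝ)) := PTR.natCast (ptf_doubleFactorial hn)

/-! ### natural powers of 2 and -1 -/

theorem PTR.negOnePow {n : α → ℕ} (hn : PTU n) : PTR (fun a => (-1 : ℝ) ^ n a) :=
  PTR.pow (PTR.one.neg) hn

theorem PTR.twoPow {n : α → ℕ} (hn : PTU n) : PTR (fun a => (2 : ℝ) ^ n a) :=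
  PTR.pow (PTR.ofNat 2) hn

/-- sum over the integer interval `[-n, n]` -/
theorem sum_Icc_eq_range (n : ℕ) (f : ℤ → ℝ) :
    ∑ k ∈ Finset.Icc (-(n : ℤ)) n, f k = ∑ i ∈ Finset.range (2 * n + 1), f ((i : ℤ) - n) := by
  refine (Finset.sum_nbij' (fun i : ℕ => (i : ℤ) - n) (fun k : ℤ => (k + n).toNat) ?_ ?_ ?_ ?_ ?_).symm
  · intro i hi
    have := Finset.mem_range.1 hi
    rw [Finset.mem_Icc]
    constructor <;> omega
  · intro k hk
    have := Finset.mem_Icc.1 hk
    rw [Finset.mem_range]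
    omega
  · intro i _
    simp
  · intro k hk
    have := Finset.mem_Icc.1 hk
    rw [Int.toNat_of_nonneg (by omega)]
    ring
  · intro i _
    rfl

theorem PTR.sumIcc {n : α → ℕ} {r : α → ℤ → ℝ} (hn : PTU n)
    (hr : PTR (fun p : α × Un => r p.1 ((p.2.val : ℤ) - n p.1))) :
    PTR (fun a => ∑ k ∈ Finset.Icc (-(n a : ℤ)) (n a), r a k) :=
  (PTR.sumRange (r := fun a i => r a ((i : ℤ) - n a))
    (PTU.succ (PTU.mul (PTU.const 2) hn)) hr).of_eq (fun a => (sum_Icc_eq_range (n a) (r a)).symm)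

/-- `∫₀¹ exp(-c v²) dv`, as a series -/
theorem hasSum_gaussInt (c : ℝ) :
    HasSum (fun j : ℕ => (-c) ^ j / (j.factorial : ℝ) * ((2 * j + 1 : ℕ) : ℝ)⁻¹)
      (∫ v in (0 : ℝ)..1, Real.exp (-(c * v ^ 2))) := by
  have hsum : ∀ v : ℝ, HasSum (fun j : ℕ => (-c) ^ j / (j.factorial : ℝ) * v ^ (2 * j))
      (Real.exp (-(c * v ^ 2))) := by
    intro v
    have h := NormedSpace.expSeries_div_hasSum_exp (𝔸 := ℝ) (-(c * v ^ 2))
    rw [← Real.exp_eq_exp_ℝ] at h
    refine h.congr_fun ?_ |> fun h => h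
    intro j
    rw [show -(c * v ^ 2) = (-c) * v ^ 2 by ring, mul_pow, ← pow_mul]
    ring
  have hint : ∀ j : ℕ, ∫ v in (0 : ℝ)..1, (-c) ^ j / (j.factorial : ℝ) * v ^ (2 * j)
      = (-c) ^ j / (j.factorial : ℝ) * ((2 * j + 1 : ℕ) : ℝ)⁻¹ := by
    intro j
    rw [intervalIntegral.integral_const_mul, integral_pow]
    push_cast
    simp
  have h1 := intervalIntegral.hasSum_integral_of_dominated_convergence (μ := MeasureTheory.volume)
    (a := (0 : ℝ)) (b := 1) (F := fun (j : ℕ) (v : ℝ) => (-c) ^ j / (j.factorial : ℝ) * v ^ (2 * j))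
    (f := fun v => Real.exp (-(c * v ^ 2)))
    (fun (j : ℕ) (_ : ℝ) => |c| ^ j / (j.factorial : ℝ)) (fun j => by fun_prop)
    (fun j => by
      refine Filter.Eventually.of_forall (fun v hv => ?_)
      rw [Set.uIoc_of_le zero_le_one, Set.mem_Ioc] at hv
      rw [Real.norm_eq_abs, abs_mul, abs_div, abs_pow, abs_neg,
        abs_of_nonneg (by positivity : (0 : ℝ) ≤ (j.factorial : ℝ)), abs_pow, abs_of_pos hv.1]
      have : v ^ (2 * j) ≤ 1 := pow_le_one₀ hv.1.le hv.2
      exact mul_le_of_le_one_right (by positivity) this)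
    (by
      refine Filter.Eventually.of_forall (fun v _ => ?_)
      exact Real.summable_pow_div_factorial |c|)
    intervalIntegrable_const
    (Filter.Eventually.of_forall (fun v _ => hsum v))
  simpa only [hint] using h1

/-- `∫₀¹ exp(-c v²) dv` for unary-bounded `c` -/
theorem PTR.gaussInt {c : α → ℝ} (hc : PTR c) {B : α → ℕ} (hB : PTU B) (h : ∀ a, |c a| ≤ B a) :
    PTR (fun a => ∫ v in (0 : ℝ)..1, Real.exp (-(c a * v ^ 2))) := by
  refine PTR.hasSum
    (c := fun a j => (-(c a)) ^ j / (j.factorial : ℝ) * ((2 * j + 1 : ℕ) : ℝ)⁻¹)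
    (B := fun a => 3 * B a) ?_ (PTU.mul (PTU.const 3) hB) (fun a j => ?_)
    (fun a => hasSum_gaussInt (c a))
  · have h1 : PTR (fun p : α × Un => (-(c p.1)) ^ p.2.val) := PTR.pow ((hc.neg).comp PTF.fst) ptu_snd
    have h2 : PTU (fun p : α × Un => 2 * p.2.val + 1) := PTU.succ (PTU.mul (PTU.const 2) ptu_snd)
    exact (h1.div_of_inv (PTR.factorialInv ptu_snd)).mul (PTR.natInv h2.toPTF)
  · rw [abs_mul, abs_div, abs_pow, abs_neg,
      abs_of_nonneg (by positivity : (0 : ℝ) ≤ (j.factorial : ℝ)),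
      abs_of_nonneg (by positivity : (0 : ℝ) ≤ (((2 * j + 1 : ℕ) : ℝ))⁻¹)]
    refine (mul_le_of_le_one_right (by positivity) ?_).trans (exp_term_bound (h a) j)
    apply inv_le_one_of_one_le₀
    push_cast
    have : (0 : ℝ) ≤ j := by positivity
    linarith

end Crest.Agent.R338.Nu
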