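import Crest.Agent.R338.Iface
import Crest.Agent.R338.Nu2

/-!
# Row 338, numerics (helper860): data of a Heisenberg instance and the integer parameters
-/

set_option autoImplicit false

namespace Crest.Agent.R338.Nu

open Crest.Agent.Lib.PT

variable {α : Type} [PTCode α]

@[fun_prop]
theorem ptu_hn {h : α → HInst} (hh : PTF h) : PTU (fun a => (h a).n) := by
  unfold HInst.n; fun_prop

@[fun_prop]
theorem ptu_hq {h : α → HInst} (hh : PTF h) : PTU (fun a => (h a).q) := by
  unfold HInst.q; fun_prop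

theorem ptf_hJ {h : α → HInst} {i j : α → ℕ} (hh : PTF h) (hi : PTU i) (hj : PTU j) :
    PTF (fun a => (h a).J (i a) (j a)) := by
  unfold HInst.J
  exact PTF.getD (PTU.add (PTU.mul hi (ptu_hn hh)) hj) (by fun_prop) (PTF.const 0)

theorem ptr_hJ {h : α → HInst} {i j : α → ℕ} (hh : PTF h) (hi : PTU i) (hj : PTU j) :
    PTR (fun a => (((h a).J (i a) (j a) : ℚ) : ℝ)) := PTR.ratCast (ptf_hJ hh hi hj)

@[fun_prop]
theorem ptf_he {h : α → HInst} (hh : PTF h) : PTF (fun a => (h a).e) := by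
  unfold HInst.e; fun_prop

@[fun_prop]
theorem ptu_Yn {n : α → ℕ} (hn : PTU n) : PTU (fun a => Yn (n a)) := by
  unfold Yn; fun_prop

@[fun_prop]
theorem ptu_nu {n i : α → ℕ} (hn : PTU n) (hi : PTU i) : PTU (fun a => nu (n a) (i a)) := by
  unfold nu; fun_prop

@[fun_prop]
theorem ptu_mi {n k i : α → ℕ} (hn : PTU n) (hk : PTU k) (hi : PTU i) :
    PTU (fun a => mi (n a) (k a) (i a)) := by
  unfold mi; fun_prop

@[fun_prop]
theorem ptu_n0' {n k : α → ℕ} (hn : PTU n) (hk : PTU k) :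
    PTU (fun a => n0' (n a) (k a)) := by
  unfold n0'; fun_prop

/-- sums over pairs `i, j < n` -/
theorem PTR.sum2 {n m : α → ℕ} {r : α → ℕ → ℕ → ℝ} (hn : PTU n) (hm : PTU m)
    (hr : PTR (fun p : (α × Un) × Un => r p.1.1 p.1.2.val p.2.val)) :
    PTR (fun a => ∑ i ∈ Finset.range (n a), ∑ j ∈ Finset.range (m a), r a i j) :=
  PTR.sumRange (r := fun a i => ∑ j ∈ Finset.range (m a), r a i j) hn
    (PTR.sumRange (α := α × Un) (r := fun p j => r p.1 p.2.val j) (PTU.comp hm PTF.fst) hr)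

/-- sums over pairs with `i < j` -/
theorem PTR.sum2lt {n m : α → ℕ} {r : α → ℕ → ℕ → ℝ} (hn : PTU n) (hm : PTU m)
    (hr : PTR (fun p : (α × Un) × Un => r p.1.1 p.1.2.val p.2.val)) :
    PTR (fun a => ∑ i ∈ Finset.range (n a), ∑ j ∈ Finset.range (m a), if i < j then r a i j else 0) :=
  PTR.sum2 (r := fun a i j => if i < j then r a i j else 0) hn hm
    (PTR.ite (p := fun p : (α × Un) × Un => p.1.2.val < p.2.val)
      (PTU.lt (PTU.val (by fun_prop)) (PTU.val (by fun_prop))) hr PTR.zero)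

end Crest.Agent.R338.Nu
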