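import Crest.Agent.R338.EX4
import Crest.Agent.R338.NuH
import Crest.Agent.R338.XF4

/-!
# Row 338, NODE EX, file EX5 (helper439): polynomial time computability (`PTR`, 860's calculus)
of `I4`, `w1 (vhop ..) a b`, `Mhop` and the core sums of `vhop`.
-/

set_option autoImplicit false

open MeasureTheory Real Finset

noncomputable section

namespace Crest.Agent.R338.EX

open Crest.Agent.Lib.PT Crest.Agent.R338.Nu

variable {α : Type} [PTCode α]

theorem ptpred_even {m : α → ℕ} (hm : PTU m) : PTPred (fun a => m a % 2 = 0) :=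
  PTU.eq (ptu_mod hm (PTU.const 2)) (PTU.const 0)

/-- coefficients of the Hermite polynomials -/
theorem ptr_hc {m p : α → ℕ} (hm : PTU m) (hp : PTU p) :
    PTR (fun a => ((hc (m a) (p a) : ℚ) : ℝ)) := by
  have hd : PTU (fun a => m a - p a) := PTU.sub hm hp
  have hd2 : PTU (fun a => (m a - p a) / 2) := ptu_div hd (PTU.const 2)
  have h1 : PTR (fun a => (-1 : ℝ) ^ ((m a - p a) / 2) * ((m a).factorial : ℝ) * (2 : ℝ) ^ p a *
      ((((m a - p a) / 2).factorial : ℝ)⁻¹ * ((p a).factorial : ℝ)⁻¹)) :=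
    (((PTR.negOnePow hd2).mul (PTR.factorial hm)).mul (PTR.twoPow hp)).mul
      ((PTR.factorialInv hd2).mul (PTR.factorialInv hp))
  refine (PTR.ite (p := fun a => p a ≤ m a) (PTU.le hp hm)
    (PTR.ite (p := fun a => (m a - p a) % 2 = 0) (ptpred_even hd) h1 PTR.zero)
    PTR.zero).of_eq (fun a => ?_)
  by_cases h2 : p a ≤ m a
  · by_cases h3 : (m a - p a) % 2 = 0
    · rw [if_pos h2, if_pos h3, hc, if_pos ⟨h2, h3⟩]
      push_cast
      rw [div_eq_mul_inv, mul_inv]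
    · rw [if_pos h2, if_neg h3, hc, if_neg (fun h => h3 h.2)]; simp
  · rw [if_neg h2, hc, if_neg (fun h => h2 h.1)]; simp

theorem ptr_hh {a b p : α → ℕ} (ha : PTU a) (hb : PTU b) (hp : PTU p) :
    PTR (fun x => ((hh (a x) (b x) (p x) : ℚ) : ℝ)) := by
  have h := PTR.sumRange (n := fun x => p x + 1)
    (r := fun x i => ((hc (a x) i : ℚ) : ℝ) * ((hc (b x) (p x - i) : ℚ) : ℝ))
    (PTU.succ hp)
    ((ptr_hc (PTU.comp ha PTF.fst) ptu_snd).mul
      (ptr_hc (PTU.comp hb PTF.fst) (PTU.sub (PTU.comp hp PTF.fst) ptu_snd)))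
  refine h.of_eq (fun x => ?_)
  unfold hh
  push_cast
  rfl

theorem ptr_gq {m : α → ℕ} (hm : PTU m) : PTR (fun a => ((gq (m a) : ℚ) : ℝ)) := by
  have hd2 : PTU (fun a => m a / 2) := ptu_div hm (PTU.const 2)
  have h1 : PTR (fun a => ((m a).factorial : ℝ) * ((((1 / 16 : ℚ) : ℚ) : ℝ) ^ (m a / 2) *
      ((m a / 2).factorial : ℝ)⁻¹)) :=
    (PTR.factorial hm).mul ((PTR.pow (PTR.constRat (1 / 16)) hd2).mul (PTR.factorialInv hd2))
  refine (PTR.ite (p := fun a => m a % 2 = 0) (ptpred_even hm) h1 PTR.zero).of_eq (fun a => ?_)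
  by_cases h3 : m a % 2 = 0
  · rw [if_pos h3, gq, if_pos h3]
    push_cast
    rw [div_eq_mul_inv _ ((16 : ℝ) ^ (m a / 2) * _), mul_inv, one_div, inv_pow]
  · rw [if_neg h3, gq, if_neg h3]; simp

theorem ptr_Irat {i j k l : α → ℕ} (hi : PTU i) (hj : PTU j) (hk : PTU k) (hl : PTU l) :
    PTR (fun a => ((Irat (i a) (j a) (k a) (l a) : ℚ) : ℝ)) := by
  have h := PTR.sum2 (n := fun x => i x + j x + 1) (m := fun x => k x + l x + 1)
    (r := fun x p q => ((hh (i x) (j x) p : ℚ) : ℝ) * ((hh (k x) (l x) q : ℚ) : ℝ) *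
      ((gq (p + q) : ℚ) : ℝ))
    (PTU.succ (PTU.add hi hj)) (PTU.succ (PTU.add hk hl))
    (by
      have f11 : PTF (fun p : (α × Un) × Un => p.1.1) := by fun_prop
      have f12 : PTU (fun p : (α × Un) × Un => p.1.2.val) := PTU.val (by fun_prop)
      have f2 : PTU (fun p : (α × Un) × Un => p.2.val) := PTU.val (by fun_prop)
      exact ((ptr_hh (PTU.comp hi f11) (PTU.comp hj f11) f12).mul
        (ptr_hh (PTU.comp hk f11) (PTU.comp hl f11) f2)).mul (ptr_gq (PTU.add f12 f2)))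
  refine h.of_eq (fun x => ?_)
  unfold Irat
  push_cast
  rfl

theorem ptr_I4 {i j k l : α → ℕ} (hi : PTU i) (hj : PTU j) (hk : PTU k) (hl : PTU l) :
    PTR (fun a => I4 (i a) (j a) (k a) (l a)) := by
  have hS : PTR (fun a => √((2 : ℝ) ^ (i a + j a + k a + l a) *
      ((((i a).factorial * (j a).factorial * ((k a).factorial * (l a).factorial) : ℕ)) : ℝ))) := by
    refine PTR.sqrt ((PTR.twoPow (PTU.add (PTU.add (PTU.add hi hj) hk) hl)).mul ?_)
    exact PTR.natCast (PTF.natMul (PTF.natMul (PTF.natFactorial hi) (PTF.natFactorial hj))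
      (PTF.natMul (PTF.natFactorial hk) (PTF.natFactorial hl)))
  have hD : PTR (fun a => 2 * √π * √((2 : ℝ) ^ (i a + j a + k a + l a) *
      ((((i a).factorial * (j a).factorial * ((k a).factorial * (l a).factorial) : ℕ)) : ℝ))) :=
    ((PTR.ofNat 2).mul (PTR.sqrt PTR.pi)).mul hS
  refine (PTR.div (ptr_Irat hi hj hk hl) hD (PTU.const 1) (fun a => ?_)).of_eq
    (fun a => (I4_eq _ _ _ _).symm)
  have h1 : (1 : ℝ) ≤ √π := by
    rw [Real.one_le_sqrt]; linarith [Real.pi_gt_three]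
  have h2 : (1 : ℝ) ≤ √((2 : ℝ) ^ (i a + j a + k a + l a) *
      ((((i a).factorial * (j a).factorial * ((k a).factorial * (l a).factorial) : ℕ)) : ℝ)) := by
    rw [Real.one_le_sqrt]
    have h3 : (1 : ℝ) ≤ (2 : ℝ) ^ (i a + j a + k a + l a) := one_le_pow₀ (by norm_num)
    have h4 : (1 : ℝ) ≤ ((((i a).factorial * (j a).factorial *
        ((k a).factorial * (l a).factorial) : ℕ)) : ℝ) := by
      have : 0 < (i a).factorial * (j a).factorial * ((k a).factorial * (l a).factorial) := by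
        positivity
      exact_mod_cast this
    nlinarith
  rw [abs_of_pos (by positivity)]
  push_cast at h2 ⊢
  nlinarith

/-- the calibration matrix -/
theorem ptr_Mhop {n k i j i' j' : α → ℕ} (hn : PTU n) (hk : PTU k) (hi : PTU i) (hj : PTU j)
    (hi' : PTU i') (hj' : PTU j') :
    PTR (fun a => Mhop (n a) (k a) (i a) (j a) (i' a) (j' a)) := by
  have e0 := ptu_n0' hn hk
  have h1 := ptr_I4 (ptu_mi hn hk hi) (ptu_mi hn hk hj) (ptu_mi hn hk hi') (ptu_mi hn hk hj')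
  have h2 := ptr_I4 (PTU.sub e0 (ptu_mi hn hk hi)) (PTU.sub e0 (ptu_mi hn hk hj))
    (PTU.sub e0 (ptu_mi hn hk hi')) (PTU.sub e0 (ptu_mi hn hk hj'))
  exact (h1.mul h2).of_eq (fun a => (Mhop_eq _ _ _ _ _ _).symm)

/-- matrix elements of the hopping potentials, all multi-indices -/
theorem ptr_w1_vhop {n k i j : α → ℕ} {a b : α → Idx} (hn : PTU n) (hk : PTU k) (hi : PTU i)
    (hj : PTU j) (ha : ∀ c, PTU (fun x => a x c)) (hb : ∀ c, PTU (fun x => b x c)) :
    PTR (fun x => w1 (vhop (n x) (k x) (i x) (j x)) (a x) (b x)) := by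
  have e0 := ptu_n0' hn hk
  have h1 := ptr_I4 (ptu_mi hn hk hi) (ptu_mi hn hk hj) (ha 0) (hb 0)
  have h2 := ptr_I4 (PTU.sub e0 (ptu_mi hn hk hi)) (PTU.sub e0 (ptu_mi hn hk hj)) (ha 1) (hb 1)
  have h3 : PTR (fun x => if a x 2 = b x 2 then (1 : ℝ) else 0) :=
    PTR.ite (p := fun x => a x 2 = b x 2) (PTU.eq (ha 2) (hb 2)) PTR.one PTR.zero
  exact ((h1.mul h2).mul h3).of_eq (fun x => (w1_vhop _ _ _ _ _ _).symm)

/-- core sum of a hopping potential, as a double sum -/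
theorem core_vhop (n k i j n0 : ℕ) :
    ∑ c ∈ core n0, w1 (vhop n k i j) c c =
      ∑ c0 ∈ range n0, ∑ c1 ∈ range n0, ((n0 - c0 - c1 : ℕ) : ℝ) *
        (I4 (mi n k i) (mi n k j) c0 c0 *
          I4 (n0' n k - mi n k i) (n0' n k - mi n k j) c1 c1) := by
  rw [XF.sum_core]
  refine Finset.sum_congr rfl fun c0 h0 => ?_
  rw [Finset.mem_range] at h0
  have e1 : ∑ c1 ∈ range (n0 - c0), ∑ c2 ∈ range (n0 - c0 - c1),
      w1 (vhop n k i j) ![c0, c1, c2] ![c0, c1, c2] =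
      ∑ c1 ∈ range (n0 - c0), ((n0 - c0 - c1 : ℕ) : ℝ) *
        (I4 (mi n k i) (mi n k j) c0 c0 *
          I4 (n0' n k - mi n k i) (n0' n k - mi n k j) c1 c1) := by
    refine Finset.sum_congr rfl fun c1 _ => ?_
    have e2 : ∀ c2, w1 (vhop n k i j) ![c0, c1, c2] ![c0, c1, c2] =
        I4 (mi n k i) (mi n k j) c0 c0 *
          I4 (n0' n k - mi n k i) (n0' n k - mi n k j) c1 c1 := by
      intro c2
      rw [w1_vhop]
      simp
    simp only [e2, Finset.sum_const, Finset.card_range, nsmul_eq_mul]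
  rw [e1]
  refine Finset.sum_subset (Finset.range_mono (Nat.sub_le _ _)) fun c1 _ h => ?_
  rw [Finset.mem_range, not_lt] at h
  have : n0 - c0 - c1 = 0 := by omega
  rw [this]; simp

theorem ptr_core_vhop {n k i j n0 : α → ℕ} (hn : PTU n) (hk : PTU k) (hi : PTU i) (hj : PTU j)
    (h0 : PTU n0) :
    PTR (fun x => ∑ c ∈ core (n0 x), w1 (vhop (n x) (k x) (i x) (j x)) c c) := by
  have h := PTR.sum2 (n := n0) (m := n0)
    (r := fun x c0 c1 => ((n0 x - c0 - c1 : ℕ) : ℝ) *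
        (I4 (mi (n x) (k x) (i x)) (mi (n x) (k x) (j x)) c0 c0 *
          I4 (n0' (n x) (k x) - mi (n x) (k x) (i x)) (n0' (n x) (k x) - mi (n x) (k x) (j x)) c1 c1))
    h0 h0
    (by
      have f11 : PTF (fun p : (α × Un) × Un => p.1.1) := by fun_prop
      have f12 : PTU (fun p : (α × Un) × Un => p.1.2.val) := PTU.val (by fun_prop)
      have f2 : PTU (fun p : (α × Un) × Un => p.2.val) := PTU.val (by fun_prop)
      have hn' := PTU.comp hn f11
      have hk' := PTU.comp hk f11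
      have hi' := PTU.comp hi f11
      have hj' := PTU.comp hj f11
      have e0 := ptu_n0' hn' hk'
      exact (PTR.natCastU (PTU.sub (PTU.sub (PTU.comp h0 f11) f12) f2)).mul
        ((ptr_I4 (ptu_mi hn' hk' hi') (ptu_mi hn' hk' hj') f12 f12).mul
          (ptr_I4 (PTU.sub e0 (ptu_mi hn' hk' hi')) (PTU.sub e0 (ptu_mi hn' hk' hj')) f2 f2)))
  exact h.of_eq (fun x => (core_vhop _ _ _ _ _).symm)

end Crest.Agent.R338.EX
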