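import Crest.Agent.R338.HK7

/-!
Row 338 (S0529), node HK: the hopping matrix in the form `Cal.HopStmt` of node CAL.
-/

set_option autoImplicit false

open MeasureTheory Set Real Filter
open scoped Topology

noncomputable section
namespace Crest.Agent.R338.HK
open Crest.Agent.R338 (Yn nu mi n0' site vhop Mhop w1 Idx)

theorem Yn_le_k {n k : ℕ} (hn : 2 ≤ n) (hk : (12000 * n) ^ 12000 ≤ k) : Yn n ≤ k := by
  refine le_trans ?_ hk
  calc Yn n ≤ (12000 * n) ^ 3 := by
        unfold Yn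
        have : n ^ 2 ≤ n ^ 3 := Nat.pow_le_pow_right (by omega) (by norm_num)
        have h2 : (12000 * n) ^ 3 = 12000 ^ 3 * n ^ 3 := by ring
        rw [h2]
        nlinarith
    _ ≤ (12000 * n) ^ 12000 := Nat.pow_le_pow_right (by omega) (by norm_num)

theorem n0'_le {n k : ℕ} (hn : 2 ≤ n) (hk : (12000 * n) ^ 12000 ≤ k) : n0' n k ≤ k ^ 9 := by
  have h1 := Yn_le_k hn hk
  have h16 : 16 ≤ k := by
    have h1 : 12000 * n ≤ k := (Nat.le_self_pow (by norm_num) _).trans hk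
    omega
  unfold n0'
  calc 16 * (k ^ 3) ^ 2 * Yn n ^ 2 ≤ k * (k ^ 3) ^ 2 * k ^ 2 := by gcongr
    _ = k ^ 9 := by ring

/-- **HopStmt** (the shape consumed by node CAL) -/
theorem hopStmt : ∃ C : ℕ, 1 ≤ C ∧ ∀ n k : ℕ, (C * (n + 1)) ^ C ≤ k →
    (∀ i j, i < j → j < n → 1 / (k : ℝ) ^ C ≤ Mhop n k i j i j) ∧
    (∀ i j i' j', i < j → j < n → i' < j' → j' < n → (i', j') ≠ (i, j) →
      4 * (n : ℝ) ^ 2 * |Mhop n k i' j' i j| ≤ Mhop n k i j i j) := by
  refine ⟨12000, by norm_num, fun n k hk' => ⟨fun i j hij hj => ?_,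
    fun i j i' j' hij hj hij' hj' hne => ?_⟩⟩
  · have hn : 2 ≤ n := by omega
    have hk : (12000 * n) ^ 12000 ≤ k :=
      le_trans (Nat.pow_le_pow_left (by omega) _) hk'
    refine le_trans ?_ (Mhop_diag_ge' hn hk (by omega) hj)
    have hk1 : 1 ≤ k := by
      have h1 : 12000 * n ≤ k := (Nat.le_self_pow (by norm_num) _).trans hk
      omega
    have h5 : (n0' n k : ℝ) ≤ (k : ℝ) ^ 9 := by exact_mod_cast n0'_le hn hk
    have h6 : 0 < n0' n k := by
      unfold n0'
      have := Yn_pos (n := n) (by omega)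
      positivity
    have h7 : (0 : ℝ) < n0' n k := by exact_mod_cast h6
    have h8 : (1 : ℝ) ≤ k := by exact_mod_cast hk1
    apply one_div_le_one_div_of_le (by positivity)
    calc (n0' n k : ℝ) ^ 3 ≤ ((k : ℝ) ^ 9) ^ 3 := by gcongr
      _ = (k : ℝ) ^ 27 := by ring
      _ ≤ (k : ℝ) ^ 12000 := pow_le_pow_right₀ h8 (by norm_num)
  · have hn : 2 ≤ n := by omega
    have hk : (12000 * n) ^ 12000 ≤ k :=
      le_trans (Nat.pow_le_pow_left (by omega) _) hk'
    have h := Mhop_off_le_diag (n := n) (k := k) (i := i') (j := j') (a := i) (b := j) hn hk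
      (by omega) hj' (by omega) hj (by omega)
      (fun h => hne (by rw [h.1, h.2])) (fun h => by omega)
    have hn0 : (0 : ℝ) < n := by exact_mod_cast (by omega : 0 < n)
    calc 4 * (n : ℝ) ^ 2 * |Mhop n k i' j' i j|
        ≤ 4 * (n : ℝ) ^ 2 * (1 / (4 * (n : ℝ) ^ 2) * Mhop n k i j i j) := by gcongr
      _ = Mhop n k i j i j := by field_simp

end Crest.Agent.R338.HK
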