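import Crest.Agent.R338.NuH

/-!
# Row 338, numerics (helper860), part 4: more `fun_prop` automation for `PTR`
-/

set_option autoImplicit false

namespace Crest.Agent.R338.Nu

open Crest.Agent.Lib.PT

variable {α β γ : Type} [PTCode α] [PTCode β] [PTCode γ]

attribute [fun_prop] PTF.natFactorial ptf_choose ptf_doubleFactorial PTR.pow PTR.ite PTU.eq

/-- sum over a range, inner index unary; `fun_prop`-friendly uncurried form -/
theorem PTR.sumRange' {n : α → ℕ} {r : α × Un → ℝ} (hn : PTU n) (hr : PTR r) :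
    PTR (fun a => ∑ i ∈ Finset.range (n a), r (a, Un.mk i)) :=
  PTR.sumRange (r := fun a i => r (a, Un.mk i)) hn hr

/-- division by a factorial -/
theorem PTR.divFactorial {r : α → ℝ} {n : α → ℕ} (hr : PTR r) (hn : PTU n) :
    PTR (fun a => r a / ((n a).factorial : ℝ)) := hr.div_of_inv (PTR.factorialInv hn)

/-- division by a power of two -/
theorem PTR.divTwoPow {r : α → ℝ} {n : α → ℕ} (hr : PTR r) (hn : PTU n) :
    PTR (fun a => r a / 2 ^ n a) :=
  (hr.mul ((PTR.constRat (1 / 2)).pow hn)).of_eq (fun a => by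
    push_cast
    rw [one_div, inv_pow, ← div_eq_mul_inv])

/-- division by a positive rational-valued PTF function is total -/
theorem PTR.divRat {r : α → ℝ} {f : α → ℚ} (hr : PTR r) (hf : PTF f) :
    PTR (fun a => r a / ((f a : ℚ) : ℝ)) := hr.div_of_inv (PTR.ratInv hf)

/-- division by `√f`, `f` a natural number (total: value `0` when `f a = 0`) -/
theorem PTR.divSqrtNat {r : α → ℝ} {f : α → ℕ} (hr : PTR r) (hf : PTF f) :
    PTR (fun a => r a / √((f a : ℕ) : ℝ)) := by
  have h : PTR (fun a => √(((f a : ℕ) : ℝ)⁻¹)) := PTR.sqrt (PTR.natInv hf)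
  exact (hr.mul h).of_eq (fun a => by rw [Real.sqrt_inv, div_eq_mul_inv])

/-- division by `√q`, `q` a rational number -/
theorem PTR.divSqrtRat {r : α → ℝ} {f : α → ℚ} (hr : PTR r) (hf : PTF f) :
    PTR (fun a => r a / √((f a : ℚ) : ℝ)) := by
  have h : PTR (fun a => √(((f a : ℚ) : ℝ)⁻¹)) := PTR.sqrt (PTR.ratInv hf)
  exact (hr.mul h).of_eq (fun a => by rw [Real.sqrt_inv, div_eq_mul_inv])

/-- `√π`, `(√π)⁻¹`, `√(2/π)` -/
theorem PTR.sqrtPi : PTR (fun _ : α => √Real.pi) := PTR.pi.sqrt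

theorem PTR.sqrtPiInv : PTR (fun _ : α => (√Real.pi)⁻¹) :=
  (PTR.piInv.sqrt).of_eq (fun _ => Real.sqrt_inv _)

theorem PTR.sqrtTwoDivPi : PTR (fun _ : α => √(2 / Real.pi)) :=
  (((PTR.ofNat 2).mul PTR.piInv).sqrt).of_eq (fun _ => by rw [div_eq_mul_inv])

/-- **tables**: rational approximations of a unary-indexed real family with precision `2^-P` -/
theorem PTR.family {r : α → ℕ → ℝ} (hr : PTR (fun p : α × Un => r p.1 p.2.val)) {P : α → ℕ}
    (hP : PTU P) : ∃ q : α → ℕ → ℚ, PTF (fun p : α × Un => q p.1 p.2.val) ∧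
      ∀ a i, |((q a i : ℚ) : ℝ) - r a i| ≤ (1 / 2) ^ P a := by
  obtain ⟨q, hq, hq'⟩ := hr.get (γ := α × Un) (f := fun c => c) (k := fun c => P c.1) PTF.id
    (PTU.comp hP PTF.fst)
  exact ⟨fun a i => q (a, Un.mk i), hq, fun a i => hq' (a, Un.mk i)⟩

/-- list of values of a unary-indexed family -/
theorem ptf_table {δ : Type} [PTCode δ] {q : α → ℕ → δ}
    (hq : PTF (fun p : α × Un => q p.1 p.2.val)) {N : α → ℕ} (hN : PTU N) :
    PTF (fun a => (List.range (N a)).map (q a)) := by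
  have h := PTF.tabulate (f := fun a i => q a (Min.min i (N a))) hN
    (PTF.comp (g := fun p : α × Un => q p.1 p.2.val)
      (f := fun x : α × ℕ => (x.1, Un.mk (Min.min x.2 (N x.1)))) hq
      (PTF.prodMk PTF.fst (PTF.natMinUn PTF.snd (PTU.comp hN PTF.fst))))
  refine PTF.of_eq h (fun a => ?_)
  refine List.map_congr_left (fun i hi => ?_)
  rw [Nat.min_eq_left (List.mem_range.1 hi).le]

section tests
example : PTR (fun p : (α × Un) × Un => (p.1.2.val : ℝ) * √((p.2.val : ℝ) + 1) + (3:ℝ)/4 * Real.pi) := by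
  fun_prop
example : PTR (fun p : (α × Un) × Un => |(p.1.2.val : ℝ) - 2| * √((p.2.val : ℝ) + 1) ^ 2 +
    max (3:ℝ) Real.pi / ((p.2.val + 1 : ℕ) : ℝ)) := by fun_prop
example : PTR (fun x : ((α × Un) × Un) × Un => ((x.2.val).choose x.1.2.val : ℝ) * (1/2 : ℝ) ^ x.2.val) := by
  fun_prop
example : PTR (fun p : (α × Un) × Un => ∑ i ∈ Finset.range (p.1.2.val ^ 2), (i.choose p.2.val : ℝ) * (1/2) ^ i) := by
  apply PTR.sumRange
  · fun_prop
  · fun_prop
end tests

end Crest.Agent.R338.Nu
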