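import Crest.Agent.R338.P2Defs
import Crest.Agent.R338.Nu3

/-!
# Row 338, numerics (helper860): the parameters of the map (P2Defs) as PTU / PTR functions
-/

set_option autoImplicit false

namespace Crest.Agent.R338.Nu

open Crest.Agent.Lib.PT Crest.Agent.R338.P2

variable {α : Type} [PTCode α] (C : Cst) {h : α → HInst}

@[fun_prop]
theorem ptu_kP (hh : PTF h) : PTU (fun a => kP C (h a)) := by
  unfold kP
  have := ptu_hn hh
  have := ptu_hq hh
  fun_prop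

@[fun_prop]
theorem ptu_n0P (hh : PTF h) : PTU (fun a => n0P C (h a)) := by
  unfold n0P
  exact ptu_n0' (ptu_hn hh) (ptu_kP C hh)

@[fun_prop]
theorem ptu_LamP (hh : PTF h) : PTU (fun a => LamP C (h a)) := by
  unfold LamP
  exact PTU.pow (ptu_kP C hh) _

@[fun_prop]
theorem ptu_BP (hh : PTF h) : PTU (fun a => BP C (h a)) := by
  unfold BP
  exact PTU.pow (ptu_kP C hh) _

@[fun_prop]
theorem ptu_AP (hh : PTF h) : PTU (fun a => AP C (h a)) := by
  unfold AP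
  exact PTU.pow (ptu_BP C hh) _

@[fun_prop]
theorem ptu_RP (hh : PTF h) : PTU (fun a => RP C (h a)) := by
  unfold RP
  exact PTU.mul (PTU.pow (ptu_kP C hh) _) (PTU.pow (ptu_BP C hh) _)

@[fun_prop]
theorem ptu_nLP (hh : PTF h) : PTU (fun a => nLP C (h a)) := by
  unfold nLP
  exact PTU.mul (PTU.pow (ptu_kP C hh) _) (PTU.pow (ptu_BP C hh) _)

@[fun_prop]
theorem ptu_MdP (hh : PTF h) : PTU (fun a => MdP C (h a)) := by
  unfold MdP
  exact PTU.mul (PTU.mul (PTU.const 4) (ptu_RP C hh)) (PTU.pow (ptu_BP C hh) _)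

/-! ### the scale -/

theorem kap_ge : 1 / 2 ≤ kap := by
  unfold kap
  have h1 : (1 / 16 : ℝ) ≤ 3 / (4 * Real.pi) := by
    rw [div_le_div_iff₀ (by norm_num) (by positivity)]
    have := Real.pi_le_four
    linarith
  have h2 : (1 / 4 : ℝ) ≤ √(3 / (4 * Real.pi)) := by
    apply Real.le_sqrt_of_sq_le
    norm_num at h1 ⊢
    linarith
  apply Real.le_sqrt_of_sq_le
  norm_num at h2 ⊢
  linarith

theorem kap_pos : 0 < kap := lt_of_lt_of_le (by norm_num) kap_ge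

theorem kap_le_one : kap ≤ 1 := by
  unfold kap
  have h1 : 3 / (4 * Real.pi) ≤ 1 := by
    rw [div_le_one (by positivity)]
    have := Real.pi_gt_three
    linarith
  have h2 : √(3 / (4 * Real.pi)) ≤ 1 := by
    rw [Real.sqrt_le_one]
    exact h1
  rw [Real.sqrt_le_one]
  exact h2

@[fun_prop]
theorem ptr_kap : PTR (fun _ : α => kap) := by
  unfold kap
  have h1 : PTR (fun _ : α => (3 / 4 : ℝ) * (Real.pi)⁻¹) :=
    ((PTR.constRat (3 / 4)).of_eq (fun _ => by norm_num)).mul PTR.piInv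
  have h2 : PTR (fun _ : α => 3 / (4 * Real.pi)) := h1.of_eq (fun _ => by
    rw [div_mul_eq_div_div, div_eq_mul_inv (3 / 4 : ℝ)])
  exact h2.sqrt.sqrt

@[fun_prop]
theorem ptr_kapInv : PTR (fun _ : α => kap⁻¹) :=
  ptr_kap.inv' (PTU.const 2) (fun _ => by
    rw [abs_of_pos kap_pos]
    have := kap_ge
    push_cast
    linarith)

theorem ptr_lamP (hh : PTF h) : PTR (fun a => lamP C (h a)) := by
  have h1 : PTR (fun a => kap / ((BP C (h a) ^ 6 : ℕ) : ℝ)) :=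
    ptr_kap.divNat (PTU.toPTF (PTU.pow (ptu_BP C hh) 6))
  refine h1.of_eq (fun a => ?_)
  unfold lamP
  push_cast
  rfl

theorem ptr_lamPInv (hh : PTF h) : PTR (fun a => (lamP C (h a))⁻¹) := by
  have h1 : PTR (fun a => kap⁻¹ * ((BP C (h a) ^ 6 : ℕ) : ℝ)) :=
    ptr_kapInv.mul (PTR.natCastU (PTU.pow (ptu_BP C hh) 6))
  refine h1.of_eq (fun a => ?_)
  unfold lamP
  push_cast
  rw [inv_div, div_eq_mul_inv, mul_comm]

theorem ptr_sP (hh : PTF h) : PTR (fun a => sP C (h a)) := by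
  have h1 : PTR (fun a => kap⁻¹ * ((BP C (h a) ^ 2 : ℕ) : ℝ)⁻¹) :=
    ptr_kapInv.mul (PTR.natInv (PTU.toPTF (PTU.pow (ptu_BP C hh) 2)))
  refine h1.of_eq (fun a => ?_)
  unfold sP
  push_cast
  rw [one_div, mul_inv]

theorem ptr_j0P (hh : PTF h) : PTR (fun a => j0P C (h a)) := by
  have h1 : PTU (fun a => ((h a).n * (h a).q) ^ C.cB * kP C (h a) ^ 4) :=
    PTU.mul (PTU.pow (PTU.mul (ptu_hn hh) (ptu_hq hh)) _) (PTU.pow (ptu_kP C hh) 4)
  refine (PTR.natInv h1.toPTF).of_eq (fun a => ?_)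
  unfold j0P
  push_cast
  rw [one_div]

theorem ptr_JfP {i j : α → ℕ} (hh : PTF h) (hi : PTU i) (hj : PTU j) :
    PTR (fun a => JfP (h a) (i a) (j a)) := ptr_hJ hh hi hj

/-- everything in `thrP` except `C0P`, `Ecc`, `constH`, `EN`, `numEl` -/
theorem ptr_thrP {C0 Ec cH En : α → ℝ} {nE : α → ℕ} (hh : PTF h) (h1 : PTR C0) (h2 : PTR Ec)
    (h3 : PTR cH) (h4 : PTR En) (h5 : PTF nE)
    (e1 : ∀ a, C0 a = C0P C (h a)) (e2 : ∀ a, Ec a = Ecc (n0P C (h a)) (wP C (h a)))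
    (e3 : ∀ a, cH a = constH (h a).n (kP C (h a)) (LamP C (h a)) (j0P C (h a)) (JfP (h a)))
    (e4 : ∀ a, En a = EN (n0P C (h a)) (h a).n)
    (e5 : ∀ a, nE a = numEl (n0P C (h a)) (h a).n) : PTR (fun a => thrP C (h a)) := by
  have hl := ptr_lamP C hh
  have hli := ptr_lamPInv C hh
  have hj := ptr_j0P C hh
  have he : PTR (fun a => (((h a).e : ℚ) : ℝ)) := PTR.ratCast (ptf_he hh)
  have hq : PTR (fun a => ((2 * (h a).q : ℕ) : ℝ)⁻¹) :=
    PTR.natInv (PTU.toPTF (PTU.mul (PTU.const 2) (ptu_hq hh)))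
  have key : PTR (fun a => (En a - (nE a : ℝ) * C0 a + lamP C (h a) * Ec a +
      lamP C (h a) * (cH a + j0P C (h a) * ((((h a).e : ℚ) : ℝ) + ((2 * (h a).q : ℕ) : ℝ)⁻¹))) *
      ((lamP C (h a))⁻¹ * (lamP C (h a))⁻¹)) := by fun_prop
  refine key.of_eq (fun a => ?_)
  rw [e1, e2, e3, e4, e5]
  unfold thrP
  push_cast
  rw [one_div, div_eq_mul_inv, pow_two, mul_inv (lamP C (h a))]

end Crest.Agent.R338.Nu
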