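import Crest.Agent.R338.XF5
import Crest.Agent.R338.Nu2

/-!
# Row 338, module XF7 (helper345): the numbers of the reduction are computable (calculus `PTR`)

Everything is derived from two hypotheses, discharged in other files:
`PTW4` (Coulomb integrals) and `PTI4` (one dimensional Gaussian integrals).
-/

set_option autoImplicit false

noncomputable section

open Finset
open Crest.Agent.Lib.PT Crest.Agent.R338.Nu
open Crest.MathPhysics.ElectronicCoulomb

namespace Crest.Agent.R338.XF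

variable {α β γ : Type} [PTCode α] [PTCode β] [PTCode γ]

/-- multi-indices with unary components -/
def PIdx (a : α → Idx) : Prop := ∀ i, PTU (fun x => a x i)

theorem PIdx.comp {a : α → Idx} (ha : PIdx a) {f : γ → α} (hf : PTF f) : PIdx (fun c => a (f c)) :=
  fun i => PTU.comp (ha i) hf

theorem PIdx.vec3 {a b c : α → ℕ} (ha : PTU a) (hb : PTU b) (hc : PTU c) :
    PIdx (fun x => ![a x, b x, c x]) := by
  intro i
  fin_cases i
  · exact ha
  · exact hb
  · exact hc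

/-- the Coulomb integrals are computable -/
def PTW4 : Prop := ∀ (α : Type) [PTCode α] (a b c d : α → Idx), PIdx a → PIdx b → PIdx c → PIdx d →
  PTR (fun x => W4 (a x) (b x) (c x) (d x))

/-- the one dimensional integrals are computable -/
def PTI4 : Prop := ∀ (α : Type) [PTCode α] (a b c d : α → ℕ), PTU a → PTU b → PTU c → PTU d →
  PTR (fun x => EX.I4 (a x) (b x) (c x) (d x))

/-- sums over the core -/
theorem ptr_sum_core {n0 : α → ℕ} {f : α → Idx → ℝ} (hn : PTU n0)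
    (hf : PTR (fun p : ((α × Un) × Un) × Un => f p.1.1.1 ![p.1.1.2.val, p.1.2.val, p.2.val])) :
    PTR (fun x => ∑ c ∈ core (n0 x), f x c) := by
  have h3 : PTR (fun p : (α × Un) × Un => ∑ c2 ∈ range (n0 p.1.1 - p.1.2.val - p.2.val),
      f p.1.1 ![p.1.2.val, p.2.val, c2]) := by
    refine PTR.sumRange (r := fun (p : (α × Un) × Un) c2 => f p.1.1 ![p.1.2.val, p.2.val, c2]) ?_ hf
    exact PTU.sub (PTU.sub (PTU.comp hn (by fun_prop)) (PTU.val (by fun_prop)))
      (PTU.val (by fun_prop))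
  have h2 : PTR (fun p : α × Un => ∑ c1 ∈ range (n0 p.1 - p.2.val),
      ∑ c2 ∈ range (n0 p.1 - p.2.val - c1), f p.1 ![p.2.val, c1, c2]) := by
    refine PTR.sumRange (r := fun (p : α × Un) c1 => ∑ c2 ∈ range (n0 p.1 - p.2.val - c1),
      f p.1 ![p.2.val, c1, c2]) ?_ h3
    exact PTU.sub (PTU.comp hn (by fun_prop)) (PTU.val (by fun_prop))
  have h1 := PTR.sumRange (r := fun (x : α) c0 => ∑ c1 ∈ range (n0 x - c0),
      ∑ c2 ∈ range (n0 x - c0 - c1), f x ![c0, c1, c2]) hn h2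
  exact h1.of_eq fun x => (sum_core (n0 x) (f x)).symm

theorem ptr_W4 (hW : PTW4) {a b c d : α → Idx} (ha : PIdx a) (hb : PIdx b) (hc : PIdx c)
    (hd : PIdx d) : PTR (fun x => W4 (a x) (b x) (c x) (d x)) := hW α a b c d ha hb hc hd

theorem ptr_fock (hW : PTW4) {n0 : α → ℕ} {a b : α → Idx} (hn : PTU n0) (ha : PIdx a)
    (hb : PIdx b) : PTR (fun x => fock (n0 x) (a x) (b x)) := by
  unfold fock
  have hc : PIdx (fun p : ((α × Un) × Un) × Un =>
      (![p.1.1.2.val, p.1.2.val, p.2.val] : Idx)) :=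
    PIdx.vec3 (PTU.val (by fun_prop)) (PTU.val (by fun_prop)) (PTU.val (by fun_prop))
  have ha' : PIdx (fun p : ((α × Un) × Un) × Un => a p.1.1.1) := ha.comp (by fun_prop)
  have hb' : PIdx (fun p : ((α × Un) × Un) × Un => b p.1.1.1) := hb.comp (by fun_prop)
  refine ptr_sum_core (f := fun x c => 2 * W4 (a x) (b x) c c - W4 (a x) c c (b x)) hn ?_
  exact ((PTR.ofNat 2).mul (ptr_W4 hW ha' hb' hc hc)).sub (ptr_W4 hW ha' hc hc hb')

/-- the Coulomb part of the core energy -/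
def EccW (n0 : ℕ) : ℝ := ∑ c ∈ core n0, ∑ c' ∈ core n0, (2 * W4 c c c' c' - W4 c c' c c')

theorem ptr_EccW (hW : PTW4) {n0 : α → ℕ} (hn : PTU n0) : PTR (fun x => EccW (n0 x)) := by
  unfold EccW
  refine ptr_sum_core (f := fun x c => ∑ c' ∈ core (n0 x), (2 * W4 c c c' c' - W4 c c' c c')) hn ?_
  have hn' : PTU (fun p : ((α × Un) × Un) × Un => n0 p.1.1.1) := PTU.comp hn (by fun_prop)
  refine ptr_sum_core (n0 := fun p : ((α × Un) × Un) × Un => n0 p.1.1.1)
    (f := fun p c' => 2 * W4 ![p.1.1.2.val, p.1.2.val, p.2.val] ![p.1.1.2.val, p.1.2.val, p.2.val]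
      c' c' - W4 ![p.1.1.2.val, p.1.2.val, p.2.val] c' ![p.1.1.2.val, p.1.2.val, p.2.val] c') hn' ?_
  have hc : PIdx (fun p : ((((((α × Un) × Un) × Un) × Un) × Un) × Un) =>
      (![p.1.1.1.1.1.2.val, p.1.1.1.1.2.val, p.1.1.1.2.val] : Idx)) :=
    PIdx.vec3 (PTU.val (by fun_prop)) (PTU.val (by fun_prop)) (PTU.val (by fun_prop))
  have hc' : PIdx (fun p : ((((((α × Un) × Un) × Un) × Un) × Un) × Un) =>
      (![p.1.1.2.val, p.1.2.val, p.2.val] : Idx)) :=
    PIdx.vec3 (PTU.val (by fun_prop)) (PTU.val (by fun_prop)) (PTU.val (by fun_prop))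
  exact ((PTR.ofNat 2).mul (ptr_W4 hW hc hc hc' hc')).sub (ptr_W4 hW hc hc' hc hc')

/-! ### sites -/

@[fun_prop]
theorem ptu_Yn {n : α → ℕ} (hn : PTU n) : PTU (fun x => Yn (n x)) := by
  unfold Yn; fun_prop

@[fun_prop]
theorem ptu_nu {n i : α → ℕ} (hn : PTU n) (hi : PTU i) : PTU (fun x => nu (n x) (i x)) := by
  unfold nu; fun_prop

@[fun_prop]
theorem ptu_mi {n k i : α → ℕ} (hn : PTU n) (hk : PTU k) (hi : PTU i) :
    PTU (fun x => mi (n x) (k x) (i x)) := by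
  unfold mi; fun_prop

@[fun_prop]
theorem ptu_n0' {n k : α → ℕ} (hn : PTU n) (hk : PTU k) : PTU (fun x => n0' (n x) (k x)) := by
  unfold n0'; fun_prop

theorem pidx_site {n k i : α → ℕ} (hn : PTU n) (hk : PTU k) (hi : PTU i) :
    PIdx (fun x => site (n x) (k x) (i x)) := by
  unfold site
  exact PIdx.vec3 (by fun_prop) (by fun_prop) (by fun_prop)

theorem ptr_Vc (hW : PTW4) {n k i j : α → ℕ} (hn : PTU n) (hk : PTU k) (hi : PTU i) (hj : PTU j) :
    PTR (fun x => Vc (n x) (k x) (i x) (j x)) := by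
  unfold Vc
  exact ptr_W4 hW (pidx_site hn hk hi) (pidx_site hn hk hi) (pidx_site hn hk hj)
    (pidx_site hn hk hj)

theorem ptr_Dlt (hW : PTW4) {n k i j : α → ℕ} (hn : PTU n) (hk : PTU k) (hi : PTU i)
    (hj : PTU j) : PTR (fun x => Dlt (n x) (k x) (i x) (j x)) := by
  unfold Dlt
  exact (((ptr_Vc hW hn hk hi hi).add (ptr_Vc hW hn hk hj hj)).divOfNat 2).sub
    (ptr_Vc hW hn hk hi hj)

theorem ptr_muS (hW : PTW4) {n k i : α → ℕ} (hn : PTU n) (hk : PTU k) (hi : PTU i) :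
    PTR (fun x => muS (n x) (k x) (i x)) := by
  have e : ∀ x, muS (n x) (k x) (i x) = -(Vc (n x) (k x) (i x) (i x)) / 2 -
      ∑ j ∈ range (n x), if j = i x then 0 else Vc (n x) (k x) (i x) j := by
    intro x
    unfold muS
    congr 1
    rw [← Finset.sum_filter_ne_zero]
    rw [← Finset.sum_filter_ne_zero (s := range (n x))]
    refine Finset.sum_congr ?_ ?_
    · ext j
      simp only [mem_filter, mem_erase]
      constructor
      · rintro ⟨⟨h1, h2⟩, h3⟩
        exact ⟨h2, by rw [if_neg h1]; exact h3⟩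
      · rintro ⟨h1, h2⟩
        by_cases h : j = i x
        · simp [h] at h2
        · rw [if_neg h] at h2
          exact ⟨⟨h, h1⟩, h2⟩
    · intro j hj
      simp only [mem_filter] at hj
      by_cases h : j = i x
      · exfalso; exact hj.2 (if_pos h)
      · rw [if_neg h]
  refine PTR.of_eq ?_ fun x => (e x).symm
  refine ((ptr_Vc hW hn hk hi hi).neg.divOfNat 2).sub ?_
  refine PTR.sumRange (r := fun x j => if j = i x then 0 else Vc (n x) (k x) (i x) j) hn ?_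
  refine PTR.ite (p := fun p : α × Un => p.2.val = i p.1)
    (PTU.eq (PTU.val PTF.snd) (PTU.comp hi PTF.fst)) PTR.zero ?_
  exact ptr_Vc hW (PTU.comp hn PTF.fst) (PTU.comp hk PTF.fst) (PTU.comp hi PTF.fst)
    (PTU.val PTF.snd)

/-- double sums over pairs -/
theorem ptr_sum_pairs {n : α → ℕ} {f : α → ℕ → ℕ → ℝ} (hn : PTU n)
    (hf : PTR (fun p : (α × Un) × Un => f p.1.1 p.1.2.val p.2.val)) :
    PTR (fun x => ∑ i ∈ range (n x), ∑ j ∈ range (n x), if i < j then f x i j else 0) := by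
  refine PTR.sumRange (r := fun x i => ∑ j ∈ range (n x), if i < j then f x i j else 0) hn ?_
  refine PTR.sumRange (n := fun p : α × Un => n p.1)
    (r := fun (p : α × Un) j => if p.2.val < j then f p.1 p.2.val j else 0)
    (PTU.comp hn PTF.fst) ?_
  exact PTR.ite (p := fun p : (α × Un) × Un => p.1.2.val < p.2.val)
    (PTU.lt (PTU.val (by fun_prop)) (PTU.val (by fun_prop))) hf PTR.zero

/-! ### hopping integrals -/

theorem ptr_I4 (hI : PTI4) {a b c d : α → ℕ} (ha : PTU a) (hb : PTU b) (hc : PTU c) (hd : PTU d) :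
    PTR (fun x => EX.I4 (a x) (b x) (c x) (d x)) := hI α a b c d ha hb hc hd

theorem ptr_Mhop (hI : PTI4) {n k i j k' l' : α → ℕ} (hn : PTU n) (hk : PTU k) (hi : PTU i)
    (hj : PTU j) (hk' : PTU k') (hl' : PTU l') :
    PTR (fun x => Mhop (n x) (k x) (i x) (j x) (k' x) (l' x)) := by
  refine PTR.of_eq ?_ fun x => (Mhop_eq (n x) (k x) (i x) (j x) (k' x) (l' x)).symm
  exact (ptr_I4 hI (by fun_prop) (by fun_prop) (by fun_prop) (by fun_prop)).mul
    (ptr_I4 hI (by fun_prop) (by fun_prop) (by fun_prop) (by fun_prop))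

theorem ptr_core_vhop (hI : PTI4) {n k i j n0 : α → ℕ} (hn : PTU n) (hk : PTU k) (hi : PTU i)
    (hj : PTU j) (hn0 : PTU n0) :
    PTR (fun x => ∑ c ∈ core (n0 x), w1 (vhop (n x) (k x) (i x) (j x)) c c) := by
  refine ptr_sum_core (f := fun x c => w1 (vhop (n x) (k x) (i x) (j x)) c c) hn0 ?_
  have e : ∀ p : ((α × Un) × Un) × Un,
      w1 (vhop (n p.1.1.1) (k p.1.1.1) (i p.1.1.1) (j p.1.1.1))
        ![p.1.1.2.val, p.1.2.val, p.2.val] ![p.1.1.2.val, p.1.2.val, p.2.val] =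
      EX.I4 (mi (n p.1.1.1) (k p.1.1.1) (i p.1.1.1)) (mi (n p.1.1.1) (k p.1.1.1) (j p.1.1.1))
        p.1.1.2.val p.1.1.2.val *
      EX.I4 (n0' (n p.1.1.1) (k p.1.1.1) - mi (n p.1.1.1) (k p.1.1.1) (i p.1.1.1))
        (n0' (n p.1.1.1) (k p.1.1.1) - mi (n p.1.1.1) (k p.1.1.1) (j p.1.1.1))
        p.1.2.val p.1.2.val := by
    intro p
    rw [w1_vhop]
    simp
  refine PTR.of_eq ?_ fun p => (e p).symm
  have h1 : PTU (fun p : ((α × Un) × Un) × Un => n p.1.1.1) := PTU.comp hn (by fun_prop)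
  have h2 : PTU (fun p : ((α × Un) × Un) × Un => k p.1.1.1) := PTU.comp hk (by fun_prop)
  have h3 : PTU (fun p : ((α × Un) × Un) × Un => i p.1.1.1) := PTU.comp hi (by fun_prop)
  have h4 : PTU (fun p : ((α × Un) × Un) × Un => j p.1.1.1) := PTU.comp hj (by fun_prop)
  have h5 : PTU (fun p : ((α × Un) × Un) × Un => p.1.1.2.val) := PTU.val (by fun_prop)
  have h6 : PTU (fun p : ((α × Un) × Un) × Un => p.1.2.val) := PTU.val (by fun_prop)
  exact (ptr_I4 hI (ptu_mi h1 h2 h3) (ptu_mi h1 h2 h4) h5 h5).mul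
    (ptr_I4 hI (PTU.sub (ptu_n0' h1 h2) (ptu_mi h1 h2 h3))
      (PTU.sub (ptu_n0' h1 h2) (ptu_mi h1 h2 h4)) h6 h6)

/-- the core sum of the designer potential -/
theorem ptr_core_wpot (hI : PTI4) {n k n0 : α → ℕ} {Lam : α → ℝ} {A : α → ℕ → ℕ → ℝ}
    {a : α → ℕ → ℝ} (hn : PTU n) (hk : PTU k) (hn0 : PTU n0) (hL : PTR Lam)
    (hA : PTR (fun p : (α × Un) × Un => A p.1.1 p.1.2.val p.2.val))
    (ha : PTR (fun p : α × Un => a p.1 p.2.val)) :
    PTR (fun x => ∑ c ∈ core (n0 x), w1 (wpot (n x) (k x) (Lam x) (A x) (a x)) c c) := by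
  refine PTR.of_eq ?_ fun x => (sum_core_wpot (n x) (k x) (n0 x) (Lam x) (A x) (a x)).symm
  have t1 : PTR (fun x => -Lam x * ((n0 x * (n0 x + 1) : ℕ) : ℝ) / 2) :=
    (hL.neg.mul (PTR.natCastU (by fun_prop))).divOfNat 2
  have t2 : PTR (fun x => ∑ i ∈ range (n x), (Lam x - a x i) *
      (((n0 x - mi (n x) (k x) i) * (n0 x - mi (n x) (k x) i + 1) : ℕ) : ℝ) / 2) := by
    refine PTR.sumRange (r := fun x i => (Lam x - a x i) *
      (((n0 x - mi (n x) (k x) i) * (n0 x - mi (n x) (k x) i + 1) : ℕ) : ℝ) / 2) hn ?_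
    have h1 : PTU (fun p : α × Un => n p.1) := PTU.comp hn PTF.fst
    have h2 : PTU (fun p : α × Un => k p.1) := PTU.comp hk PTF.fst
    have h3 : PTU (fun p : α × Un => n0 p.1) := PTU.comp hn0 PTF.fst
    have h4 : PTU (fun p : α × Un => p.2.val) := PTU.val PTF.snd
    have h5 : PTU (fun p : α × Un => n0 p.1 - mi (n p.1) (k p.1) p.2.val) :=
      PTU.sub h3 (ptu_mi h1 h2 h4)
    exact (((hL.comp PTF.fst).sub ha).mul
      (PTR.natCastU (PTU.mul h5 (PTU.succ h5)))).divOfNat 2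
  refine (t1.sub t2).add ?_
  refine ptr_sum_pairs (f := fun x i j => A x i j *
    ∑ c ∈ core (n0 x), w1 (vhop (n x) (k x) i j) c c) hn ?_
  refine hA.mul ?_
  exact ptr_core_vhop (α := (α × Un) × Un) hI (n := fun p => n p.1.1) (k := fun p => k p.1.1)
    (i := fun p => p.1.2.val) (j := fun p => p.2.val) (n0 := fun p => n0 p.1.1)
    (PTU.comp hn (by fun_prop)) (PTU.comp hk (by fun_prop)) (PTU.val (by fun_prop))
    (PTU.val (by fun_prop)) (PTU.comp hn0 (by fun_prop))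

theorem ptr_Ecc (hW : PTW4) (hI : PTI4) {n k n0 : α → ℕ} {Lam : α → ℝ} {A : α → ℕ → ℕ → ℝ}
    {a : α → ℕ → ℝ} (hn : PTU n) (hk : PTU k) (hn0 : PTU n0) (hL : PTR Lam)
    (hA : PTR (fun p : (α × Un) × Un => A p.1.1 p.1.2.val p.2.val))
    (ha : PTR (fun p : α × Un => a p.1 p.2.val)) :
    PTR (fun x => Ecc (n0 x) (wpot (n x) (k x) (Lam x) (A x) (a x))) :=
  (((PTR.ofNat 2).mul (ptr_core_wpot hI hn hk hn0 hL hA ha)).add (ptr_EccW hW hn0)).of_eq
    fun _ => rfl

/-- the constant of the shell problem -/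
theorem ptr_constH (hW : PTW4) {n k : α → ℕ} {Lam j0 : α → ℝ} {J : α → ℕ → ℕ → ℝ} (hn : PTU n)
    (hk : PTU k) (hL : PTR Lam) (hj0 : PTR j0)
    (hJ : PTR (fun p : (α × Un) × Un => J p.1.1 p.1.2.val p.2.val)) :
    PTR (fun x => constH (n x) (k x) (Lam x) (j0 x) (J x)) := by
  unfold constH
  have t1 : PTR (fun x => -2 * Lam x * (n x : ℝ)) :=
    ((PTR.ofNat 2).neg.mul hL).mul (PTR.natCastU hn)
  have t2 : PTR (fun x => (∑ i ∈ range (n x), Vc (n x) (k x) i i) / 2) := by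
    refine PTR.divOfNat (PTR.sumRange (r := fun x i => Vc (n x) (k x) i i) hn ?_) 2
    exact ptr_Vc hW (PTU.comp hn PTF.fst) (PTU.comp hk PTF.fst) (PTU.val PTF.snd)
      (PTU.val PTF.snd)
  have t3 : PTR (fun x => ∑ i ∈ range (n x), ∑ j ∈ range (n x),
      if i < j then Vc (n x) (k x) i j else 0) := by
    refine ptr_sum_pairs (f := fun x i j => Vc (n x) (k x) i j) hn ?_
    exact ptr_Vc hW (PTU.comp hn (by fun_prop)) (PTU.comp hk (by fun_prop))
      (PTU.val (by fun_prop)) (PTU.val (by fun_prop))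
  have t4 : PTR (fun x => ∑ i ∈ range (n x), ∑ j ∈ range (n x),
      if i < j then J x i j else 0) := ptr_sum_pairs (f := J) hn hJ
  exact ((t1.sub t2).sub t3).sub ((hj0.divOfNat 4).mul t4)

/-! ### electrons and unperturbed energy -/

theorem numEl_eq' (n0 Nv : ℕ) : numEl n0 Nv = n0 * (n0 + 1) * (n0 + 2) / 3 + Nv := by
  unfold numEl
  have := card_core n0
  omega

theorem ptu_numEl {n0 Nv : α → ℕ} (hn : PTU n0) (hv : PTU Nv) :
    PTU (fun x => numEl (n0 x) (Nv x)) :=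
  (PTU.add (ptu_div (PTU.mul (PTU.mul hn (PTU.succ hn)) (PTU.add hn (PTU.const 2)))
    (PTU.const 3)) hv).of_eq fun x => (numEl_eq' (n0 x) (Nv x)).symm

theorem ptr_EN {n0 Nv : α → ℕ} (hn : PTU n0) (hv : PTU Nv) :
    PTR (fun x => EN (n0 x) (Nv x)) := by
  refine PTR.of_eq ?_ fun x => (EN_eq (n0 x) (Nv x)).symm
  have h1 : PTR (fun x => (n0 x : ℝ)) := PTR.natCastU hn
  have h2 : PTR (fun x => (Nv x : ℝ)) := PTR.natCastU hv
  have h3 : PTR (fun _ : α => (1 : ℝ)) := PTR.one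
  have h4 : PTR (fun _ : α => (2 : ℝ)) := PTR.ofNat 2
  have h5 : PTR (fun _ : α => (3 : ℝ) / 2) := (PTR.ofNat 3).divOfNat 2
  exact ((((((h1.sub h3).mul h1).mul (h1.add h3)).mul (h1.add h4)).divOfNat 4).add
    (((h1.mul (h1.add h3)).mul (h1.add h4)).divOfNat 2)).add (h2.mul (h1.add h5))

end Crest.Agent.R338.XF
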