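import Crest.Agent.R338.Cal4
import Crest.Agent.R338.Cal6
import Crest.Agent.R338.HK8
import Crest.Agent.R338.XF7
import Crest.Agent.R338.EX5
import Crest.Agent.R338.CFnu
import Crest.Agent.R338.NuP

/-!
# Row 338, node CAL: the calibration statement and the PTR instances of the calibrated data
-/

set_option autoImplicit false

noncomputable section

namespace Crest.Agent.R338.Cal

open Finset Crest.Agent.Lib.PT Crest.Agent.R338.Nu

/-- **CalStmt** of `P2Defs` -/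
theorem calStmt : P2.CalStmt := calStmt_of_hop HK.hopStmt

/-- the numeral of the dominance -/
theorem exists_dom : ∃ C0 : ℕ, 1 ≤ C0 ∧ ∀ n k : ℕ, (C0 * (n + 1)) ^ C0 ≤ k →
    Dom (n * n) (Mcal n k) (1 / (k : ℝ) ^ C0) := by
  obtain ⟨C, hC, H⟩ := HK.hopStmt
  refine ⟨C, hC, fun n k hk => ?_⟩
  obtain ⟨H1, H2⟩ := H n k hk
  have hk1 : 1 ≤ k := by
    refine le_trans ?_ hk
    exact Nat.one_le_pow _ _ (Nat.mul_pos (by omega) (by omega))
  exact Hop.dom ⟨H1, H2⟩ hk1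

theorem Dom.mono {N : ℕ} {M : ℕ → ℕ → ℝ} {m₀ m₁ : ℝ} (d : Dom N M m₀) (h1 : 0 < m₁)
    (h : m₁ ≤ m₀) : Dom N M m₁ := ⟨h1, fun p hp => h.trans (d.diag p hp), d.off⟩

theorem half_pow_le_one_div (k C : ℕ) (hk : 1 ≤ k) : (1 / 2 : ℝ) ^ (k * C) ≤ 1 / (k : ℝ) ^ C := by
  have h1 : (k : ℝ) ≤ 2 ^ k := by exact_mod_cast Nat.lt_two_pow_self.le
  have hk' : (0 : ℝ) < k := by exact_mod_cast hk
  rw [one_div, inv_pow, one_div]
  apply inv_anti₀ (by positivity)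
  calc (k : ℝ) ^ C ≤ ((2 : ℝ) ^ k) ^ C := by gcongr
    _ = 2 ^ (k * C) := by rw [pow_mul]

section PTRpart

variable {α : Type} [PTCode α]

theorem ptw4 : XF.PTW4 := fun α _ a b c d ha hb hc hd =>
  (CF.ptr_W (a := a) (b := b) (c := c) (d := d) ha hb hc hd).of_eq
    (fun x => (Br.W4_eq (a x) (b x) (c x) (d x)).symm)

theorem ptr_Mcal {n k p q : α → ℕ} (hn : PTU n) (hk : PTU k) (hp : PTU p) (hq : PTU q) :
    PTR (fun a => Mcal (n a) (k a) (p a) (q a)) := by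
  unfold Mcal
  have h1 := ptu_div hp hn
  have h2 := ptu_mod hp hn
  have h3 := ptu_div hq hn
  have h4 := ptu_mod hq hn
  refine PTR.ite (p := fun a => p a / n a < p a % n a ∧ q a / n a < q a % n a)
    (PTPred.and (PTU.lt h1 h2) (PTU.lt h3 h4)) (EX.ptr_Mhop hn hk h3 h4 h1 h2) ?_
  exact PTR.ite (p := fun a => p a = q a) (PTU.eq hp hq) PTR.one PTR.zero

theorem ptr_bcal {n k p : α → ℕ} {j0 : α → ℝ} {J : α → ℕ → ℕ → ℝ} (hn : PTU n) (hk : PTU k)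
    (hj0 : PTR j0) (hJ : PTR (fun p : (α × Un) × Un => J p.1.1 p.1.2.val p.2.val))
    (hp : PTU p) : PTR (fun a => bcal (n a) (k a) (j0 a) (J a) (p a)) := by
  unfold bcal
  have h1 := ptu_div hp hn
  have h2 := ptu_mod hp hn
  refine PTR.ite (p := fun a => p a / n a < p a % n a) (PTU.lt h1 h2) ?_ PTR.zero
  have hJ' : PTR (fun a => J a (p a / n a) (p a % n a)) :=
    hJ.comp (f := fun a => ((a, Un.mk (p a / n a)), Un.mk (p a % n a)))
      (PTF.prodMk (PTF.prodMk PTF.id h1) h2)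
  have hD := XF.ptr_Dlt ptw4 hn hk h1 h2
  have hF := XF.ptr_fock ptw4 (XF.ptu_n0' hn hk) (XF.pidx_site hn hk h1) (XF.pidx_site hn hk h2)
  have hhalf : PTR (fun _ : α => (1 / 2 : ℝ)) :=
    (PTR.constRat (1 / 2)).of_eq (fun _ => by norm_num)
  exact (hhalf.mul ((hj0.mul hJ').mul hD).sqrt).sub hF

/-- exact hopping amplitudes are `PTR` -/
theorem ptr_Acal {C0 : ℕ} (H : ∀ n k : ℕ, (C0 * (n + 1)) ^ C0 ≤ k →
    Dom (n * n) (Mcal n k) (1 / (k : ℝ) ^ C0)) {n k : α → ℕ} {j0 : α → ℝ}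
    {J : α → ℕ → ℕ → ℝ} (hn : PTU n) (hk : PTU k) (hnk : ∀ a, (C0 * (n a + 1)) ^ C0 ≤ k a)
    (hk1 : ∀ a, 1 ≤ k a)
    (hj0 : PTR j0) (hJ : PTR (fun p : (α × Un) × Un => J p.1.1 p.1.2.val p.2.val))
    {i j : α → ℕ} (hi : PTU i) (hj : PTU j) :
    PTR (fun a => Acal (n a) (k a) (j0 a) (J a) (i a) (j a)) := by
  have hsol : PTR (fun p : α × Un => linsol (n p.1 * n p.1) (Mcal (n p.1) (k p.1))
      (bcal (n p.1) (k p.1) (j0 p.1) (J p.1)) p.2.val) := by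
    refine PTR.linsol (N := fun a => n a * n a) (B := fun a => k a * C0)
      (M := fun a => Mcal (n a) (k a)) (b := fun a => bcal (n a) (k a) (j0 a) (J a))
      (PTU.mul hn hn) (PTU.mul hk (PTU.const C0)) ?_ ?_ ?_
    · have h11 : PTF (fun p : (α × Un) × Un => p.1.1) := PTF.comp PTF.fst PTF.fst
      exact ptr_Mcal (PTU.comp hn h11) (PTU.comp hk h11)
        (PTU.val (PTF.comp PTF.snd PTF.fst)) (PTU.val PTF.snd)
    · refine ptr_bcal (α := α × Un) (n := fun p => n p.1) (k := fun p => k p.1)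
        (j0 := fun p => j0 p.1) (J := fun p => J p.1) (p := fun p => p.2.val)
        (PTU.comp hn PTF.fst) (PTU.comp hk PTF.fst) (hj0.comp PTF.fst) ?_ (PTU.val PTF.snd)
      exact hJ.comp (f := fun p : ((α × Un) × Un) × Un => ((p.1.1.1, p.1.2), p.2))
        (PTF.prodMk (PTF.prodMk (PTF.comp PTF.fst (PTF.comp PTF.fst PTF.fst))
          (PTF.comp PTF.snd PTF.fst)) PTF.snd)
    · intro a
      exact (H (n a) (k a) (hnk a)).mono (by positivity) (half_pow_le_one_div (k a) C0 (hk1 a))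
  unfold Acal
  refine PTR.ite (p := fun a => i a < j a ∧ j a < n a)
    (PTPred.and (PTU.lt hi hj) (PTU.lt hj hn)) ?_ PTR.zero
  exact hsol.comp (f := fun a => (a, Un.mk (i a * n a + j a)))
    (PTF.prodMk PTF.id (PTU.add (PTU.mul hi hn) hj))

/-- exact offsets are `PTR` -/
theorem ptr_acal {C0 : ℕ} (H : ∀ n k : ℕ, (C0 * (n + 1)) ^ C0 ≤ k →
    Dom (n * n) (Mcal n k) (1 / (k : ℝ) ^ C0)) {n k : α → ℕ} {j0 : α → ℝ}
    {J : α → ℕ → ℕ → ℝ} (hn : PTU n) (hk : PTU k) (hnk : ∀ a, (C0 * (n a + 1)) ^ C0 ≤ k a)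
    (hk1 : ∀ a, 1 ≤ k a)
    (hj0 : PTR j0) (hJ : PTR (fun p : (α × Un) × Un => J p.1.1 p.1.2.val p.2.val))
    {i : α → ℕ} (hi : PTU i) :
    PTR (fun a => acal (n a) (k a) (j0 a) (J a) (i a)) := by
  unfold acal
  refine PTR.ite (p := fun a => i a < n a) (PTU.lt hi hn) ?_ PTR.zero
  have hF := XF.ptr_fock ptw4 (XF.ptu_n0' hn hk) (XF.pidx_site hn hk hi) (XF.pidx_site hn hk hi)
  have hmu := XF.ptr_muS ptw4 hn hk hi
  refine (hmu.sub hF).sub ?_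
  refine PTR.sum2lt (r := fun a i' j' => Acal (n a) (k a) (j0 a) (J a) i' j' *
    Mhop (n a) (k a) i' j' (i a) (i a)) hn hn ?_
  have h11 : PTF (fun p : (α × Un) × Un => p.1.1) := PTF.comp PTF.fst PTF.fst
  have hi' : PTU (fun p : (α × Un) × Un => p.1.2.val) := PTU.val (PTF.comp PTF.snd PTF.fst)
  have hj' : PTU (fun p : (α × Un) × Un => p.2.val) := PTU.val PTF.snd
  refine PTR.mul ?_ (EX.ptr_Mhop (PTU.comp hn h11) (PTU.comp hk h11) hi' hj' (PTU.comp hi h11)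
    (PTU.comp hi h11))
  refine ptr_Acal (α := (α × Un) × Un) H (n := fun p => n p.1.1) (k := fun p => k p.1.1)
    (j0 := fun p => j0 p.1.1) (J := fun p => J p.1.1) (PTU.comp hn h11) (PTU.comp hk h11)
    (fun p => hnk p.1.1) (fun p => hk1 p.1.1) (hj0.comp h11) ?_ hi' hj'
  exact hJ.comp (f := fun p : (((α × Un) × Un) × Un) × Un => ((p.1.1.1.1, p.1.2), p.2))
    (PTF.prodMk (PTF.prodMk (PTF.comp (g := fun p : (α × Un) × Un => p.1.1) h11
      (PTF.comp (g := fun p : ((α × Un) × Un) × Un => p.1) PTF.fst PTF.fst))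
      (PTF.comp PTF.snd PTF.fst)) PTF.snd)

/-! ### the data of `P2Defs` -/

theorem kP_ge {C0 : ℕ} (hC0 : 1 ≤ C0) (C : P2.Cst) (hC : C0 ≤ C.c) (h : HInst) :
    (C0 * (h.n + 1)) ^ C0 ≤ P2.kP C h ∧ 1 ≤ P2.kP C h := by
  have h1 : C0 * (h.n + 1) ≤ C.c * (h.n + 2) * (h.q + 1) := by
    calc C0 * (h.n + 1) ≤ C.c * (h.n + 2) := Nat.mul_le_mul hC (by omega)
      _ ≤ C.c * (h.n + 2) * (h.q + 1) := Nat.le_mul_of_pos_right _ (by omega)
  have h2 : 1 ≤ C0 * (h.n + 1) := Nat.mul_pos (by omega) (by omega)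
  have h3 : 1 ≤ C.c * (h.n + 2) * (h.q + 1) := h2.trans h1
  unfold P2.kP
  refine ⟨?_, Nat.one_le_pow _ _ h3⟩
  calc (C0 * (h.n + 1)) ^ C0 ≤ (C.c * (h.n + 2) * (h.q + 1)) ^ C0 := Nat.pow_le_pow_left h1 _
    _ ≤ _ := Nat.pow_le_pow_right h3 hC

theorem exists_AcP_eq : ∃ c0 : ℕ, 1 ≤ c0 ∧ ∀ C : P2.Cst, c0 ≤ C.c → ∀ h : HInst,
    P2.AcP C h = Acal h.n (P2.kP C h) (P2.j0P C h) (P2.JfP h) ∧
    P2.acP C h = acal h.n (P2.kP C h) (P2.j0P C h) (P2.JfP h) := by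
  obtain ⟨C0, hC0, H⟩ := exists_dom
  refine ⟨C0, hC0, fun C hC h => ?_⟩
  have d := H h.n (P2.kP C h) (kP_ge hC0 C hC h).1
  unfold P2.AcP P2.acP
  rw [d.calSol_eq]
  exact ⟨rfl, rfl⟩

/-- **PTR of the calibrated data** of `P2Defs` -/
theorem exists_ptr_AcP : ∃ c0 : ℕ, ∀ C : P2.Cst, c0 ≤ C.c →
    (∀ (α : Type) [PTCode α] (h : α → HInst) (i j : α → ℕ), PTF h → PTU i → PTU j →
      PTR (fun a => P2.AcP C (h a) (i a) (j a))) ∧
    (∀ (α : Type) [PTCode α] (h : α → HInst) (i : α → ℕ), PTF h → PTU i →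
      PTR (fun a => P2.acP C (h a) (i a))) := by
  obtain ⟨C0, hC0, H⟩ := exists_dom
  have key : ∀ C : P2.Cst, C0 ≤ C.c → ∀ h : HInst,
      P2.AcP C h = Acal h.n (P2.kP C h) (P2.j0P C h) (P2.JfP h) ∧
      P2.acP C h = acal h.n (P2.kP C h) (P2.j0P C h) (P2.JfP h) := by
    intro C hC h
    have d := H h.n (P2.kP C h) (kP_ge hC0 C hC h).1
    unfold P2.AcP P2.acP
    rw [d.calSol_eq]
    exact ⟨rfl, rfl⟩
  refine ⟨C0, fun C hC => ⟨fun α _ h i j hh hi hj => ?_, fun α _ h i hh hi => ?_⟩⟩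
  · have hJ : PTR (fun p : (α × Un) × Un => P2.JfP (h p.1.1) p.1.2.val p.2.val) :=
      ptr_JfP (PTF.comp hh (PTF.comp PTF.fst PTF.fst)) (PTU.val (PTF.comp PTF.snd PTF.fst))
        (PTU.val PTF.snd)
    refine (ptr_Acal H (n := fun a => (h a).n) (k := fun a => P2.kP C (h a))
      (j0 := fun a => P2.j0P C (h a)) (J := fun a => P2.JfP (h a)) (ptu_hn hh) (ptu_kP C hh)
      (fun a => (kP_ge hC0 C hC (h a)).1) (fun a => (kP_ge hC0 C hC (h a)).2)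
      (ptr_j0P C hh) hJ hi hj).of_eq fun a => ?_
    rw [(key C hC (h a)).1]
  · have hJ : PTR (fun p : (α × Un) × Un => P2.JfP (h p.1.1) p.1.2.val p.2.val) :=
      ptr_JfP (PTF.comp hh (PTF.comp PTF.fst PTF.fst)) (PTU.val (PTF.comp PTF.snd PTF.fst))
        (PTU.val PTF.snd)
    refine (ptr_acal H (n := fun a => (h a).n) (k := fun a => P2.kP C (h a))
      (j0 := fun a => P2.j0P C (h a)) (J := fun a => P2.JfP (h a)) (ptu_hn hh) (ptu_kP C hh)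
      (fun a => (kP_ge hC0 C hC (h a)).1) (fun a => (kP_ge hC0 C hC (h a)).2)
      (ptr_j0P C hh) hJ hi).of_eq fun a => ?_
    rw [(key C hC (h a)).2]

end PTRpart

end Crest.Agent.R338.Cal

end
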