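import Mathlib

/-!
# Row 338, node I.2: the clock (Kitaev) Hamiltonian for an abstract list of gates

States: `Ψ : (Fin T → Bool) → W → ℝ` (clock configuration, then wire configuration).
-/

set_option autoImplicit false
set_option linter.unusedSectionVars false
set_option maxHeartbeats 1000000

namespace Crest.Agent.R338.Clock

open Finset

section Basic

variable {W : Type*} [Fintype W]

/-- Real inner product. -/
def ip (f g : W → ℝ) : ℝ := ∑ w, f w * g w

/-- Squared norm. -/
def nsq (f : W → ℝ) : ℝ := ∑ w, f w ^ 2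

lemma nsq_eq_ip (f : W → ℝ) : nsq f = ip f f := by
  simp [nsq, ip, pow_two]

lemma nsq_nonneg (f : W → ℝ) : 0 ≤ nsq f := Finset.sum_nonneg fun _ _ => sq_nonneg _

lemma ip_comm (f g : W → ℝ) : ip f g = ip g f := by
  simp [ip, mul_comm]

lemma ip_add_left (f g h : W → ℝ) : ip (f + g) h = ip f h + ip g h := by
  simp [ip, add_mul, Finset.sum_add_distrib]

lemma ip_add_right (f g h : W → ℝ) : ip f (g + h) = ip f g + ip f h := by
  simp [ip, mul_add, Finset.sum_add_distrib]

lemma ip_sub_left (f g h : W → ℝ) : ip (f - g) h = ip f h - ip g h := by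
  simp [ip, sub_mul, Finset.sum_sub_distrib]

lemma ip_sub_right (f g h : W → ℝ) : ip f (g - h) = ip f g - ip f h := by
  simp [ip, mul_sub, Finset.sum_sub_distrib]

lemma ip_zero_left (h : W → ℝ) : ip (0 : W → ℝ) h = 0 := by simp [ip]
lemma ip_zero_right (h : W → ℝ) : ip h (0 : W → ℝ) = 0 := by simp [ip]
lemma nsq_zero : nsq (0 : W → ℝ) = 0 := by simp [nsq]

lemma nsq_sub (f g : W → ℝ) : nsq (f - g) = nsq f + nsq g - 2 * ip f g := by
  rw [nsq_eq_ip, ip_sub_left, ip_sub_right, ip_sub_right, nsq_eq_ip, nsq_eq_ip, ip_comm g f]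
  ring

/-- weighted AM-GM for the inner product -/
lemma ip_le {θ : ℝ} (hθ : 0 < θ) (f g : W → ℝ) :
    ip f g ≤ 1 / (2 * θ) * nsq f + θ / 2 * nsq g := by
  unfold ip nsq
  rw [Finset.mul_sum, Finset.mul_sum, ← Finset.sum_add_distrib]
  refine Finset.sum_le_sum fun w _ => ?_
  have h : 0 ≤ (f w - θ * g w) ^ 2 / (2 * θ) := by positivity
  have h2 : (f w - θ * g w) ^ 2 / (2 * θ) =
      1 / (2 * θ) * f w ^ 2 + θ / 2 * g w ^ 2 - f w * g w := by
    field_simp; ring
  linarith

lemma nsq_add_le (f g : W → ℝ) : nsq (f + g) ≤ 2 * nsq f + 2 * nsq g := by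
  unfold nsq
  rw [Finset.mul_sum, Finset.mul_sum, ← Finset.sum_add_distrib]
  refine Finset.sum_le_sum fun w _ => ?_
  simp only [Pi.add_apply]
  nlinarith [sq_nonneg (f w - g w)]

/-- `(f+g)² ≤ (21/20) f² + 21 g²` -/
lemma nsq_add_le' (f g : W → ℝ) : nsq (f + g) ≤ 21 / 20 * nsq f + 21 * nsq g := by
  unfold nsq
  rw [Finset.mul_sum, Finset.mul_sum, ← Finset.sum_add_distrib]
  refine Finset.sum_le_sum fun w _ => ?_
  simp only [Pi.add_apply]
  nlinarith [sq_nonneg (f w - 20 * g w)]

/-- A gate: linear, symmetric, involutive. -/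
structure IsGate (U : (W → ℝ) →ₗ[ℝ] (W → ℝ)) : Prop where
  symm : ∀ f g, ip (U f) g = ip f (U g)
  invol : ∀ f, U (U f) = f

lemma IsGate.nsq_eq {U : (W → ℝ) →ₗ[ℝ] (W → ℝ)} (h : IsGate U) (f : W → ℝ) :
    nsq (U f) = nsq f := by
  rw [nsq_eq_ip, h.symm, h.invol, ← nsq_eq_ip]

/-- Weighted squared norm, e.g. `‖Π_rej f‖²` or `⟨f, N f⟩`. -/
def wsq (a : W → ℝ) (f : W → ℝ) : ℝ := ∑ w, a w * f w ^ 2

lemma wsq_nonneg {a : W → ℝ} (ha : ∀ w, 0 ≤ a w) (f : W → ℝ) : 0 ≤ wsq a f :=
  Finset.sum_nonneg fun w _ => mul_nonneg (ha w) (sq_nonneg _)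

lemma wsq_le_nsq {a : W → ℝ} (ha : ∀ w, a w ≤ 1) (f : W → ℝ) : wsq a f ≤ nsq f := by
  unfold wsq nsq
  exact Finset.sum_le_sum fun w _ => by nlinarith [ha w, sq_nonneg (f w)]

/-- `‖Π(f+g)‖² ≥ (19/20) ‖Π f‖² - 19 ‖Π g‖²` -/
lemma wsq_add_ge {a : W → ℝ} (ha : ∀ w, 0 ≤ a w) (f g : W → ℝ) :
    19 / 20 * wsq a f - 19 * wsq a g ≤ wsq a (f + g) := by
  unfold wsq
  rw [Finset.mul_sum, Finset.mul_sum, ← Finset.sum_sub_distrib]
  refine Finset.sum_le_sum fun w _ => ?_
  simp only [Pi.add_apply]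
  have : 0 ≤ a w * (f w + 20 * g w) ^ 2 := mul_nonneg (ha w) (sq_nonneg _)
  nlinarith

end Basic

section ClockStates

variable {T : ℕ}

/-- legal clock string `1^s 0^{T-s}` -/
def leg (T s : ℕ) : Fin T → Bool := fun i => decide ((i : ℕ) < s)

/-- flip clock qubit `t` -/
def flip (t : Fin T) (c : Fin T → Bool) : Fin T → Bool := Function.update c t (!c t)

lemma flip_flip (t : Fin T) (c : Fin T → Bool) : flip t (flip t c) = c := by
  funext i
  unfold flip
  by_cases h : i = t
  · subst h; simp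
  · simp [Function.update_of_ne h]

/-- the involution `flip t` as an equivalence -/
def flipEquiv (t : Fin T) : (Fin T → Bool) ≃ (Fin T → Bool) where
  toFun := flip t
  invFun := flip t
  left_inv := flip_flip t
  right_inv := flip_flip t

/-- number of clock violations -/
def viol (c : Fin T → Bool) : ℝ :=
  ∑ i : Fin T, ∑ j : Fin T, if (j : ℕ) = i + 1 ∧ c i = false ∧ c j = true then (1 : ℝ) else 0

/-- legality -/
def Legal (c : Fin T → Bool) : Prop :=
  ∀ i j : Fin T, (j : ℕ) = i + 1 → ¬ (c i = false ∧ c j = true)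

lemma legal_leg (s : ℕ) : Legal (leg T s) := by
  intro i j hij h
  simp only [leg, decide_eq_false_iff_not, decide_eq_true_eq] at h
  omega

lemma viol_leg (s : ℕ) : viol (leg T s) = 0 := by
  unfold viol
  refine Finset.sum_eq_zero fun i _ => Finset.sum_eq_zero fun j _ => ?_
  rw [if_neg]
  rintro ⟨h1, h2⟩
  exact legal_leg s i j h1 h2

lemma viol_nonneg (c : Fin T → Bool) : 0 ≤ viol c :=
  Finset.sum_nonneg fun i _ => Finset.sum_nonneg fun j _ => by split_ifs <;> norm_num

lemma one_le_viol {c : Fin T → Bool} (h : ¬ Legal c) : 1 ≤ viol c := by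
  unfold Legal at h
  push Not at h
  obtain ⟨i, j, hij, h1, h2⟩ := h
  unfold viol
  have h3 : (1 : ℝ) ≤ ∑ j : Fin T, if (j : ℕ) = i + 1 ∧ c i = false ∧ c j = true then (1 : ℝ) else 0 := by
    calc (1 : ℝ) = (if (j : ℕ) = i + 1 ∧ c i = false ∧ c j = true then (1 : ℝ) else 0) :=
          (if_pos ⟨hij, h1, h2⟩).symm
      _ ≤ _ := Finset.single_le_sum
          (f := fun j : Fin T => if (j : ℕ) = i + 1 ∧ c i = false ∧ c j = true then (1 : ℝ) else 0)
          (fun j _ => by split_ifs <;> norm_num) (Finset.mem_univ j)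
  exact h3.trans (Finset.single_le_sum
    (f := fun i : Fin T => ∑ j : Fin T, if (j : ℕ) = i + 1 ∧ c i = false ∧ c j = true then (1 : ℝ) else 0)
    (fun i _ => Finset.sum_nonneg fun j _ => by split_ifs <;> norm_num) (Finset.mem_univ i))

lemma legal_iff (c : Fin T → Bool) : Legal c ↔ ∃ s, s ≤ T ∧ c = leg T s := by
  constructor
  · intro h
    by_cases hall : ∃ n : ℕ, ∃ hn : n < T, c ⟨n, hn⟩ = false
    · classical
      let s := Nat.find hall
      obtain ⟨hs, hcs⟩ := Nat.find_spec hall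
      refine ⟨s, hs.le, ?_⟩
      -- beyond s all false
      have hge : ∀ k : ℕ, ∀ hk : s + k < T, c ⟨s + k, hk⟩ = false := by
        intro k
        induction k with
        | zero => intro hk; exact hcs
        | succ k ih =>
          intro hk
          have h1 := ih (by omega)
          have h2 := h ⟨s + k, by omega⟩ ⟨s + (k + 1), hk⟩ (by simp; omega)
          by_contra h3
          rw [Bool.not_eq_false] at h3
          exact h2 ⟨h1, h3⟩
      funext i
      unfold leg
      by_cases hi : (i : ℕ) < s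
      · rw [decide_eq_true hi]
        have := Nat.find_min hall hi
        push Not at this
        have h4 := this i.2
        simpa using h4
      · rw [decide_eq_false hi]
        have h5 := hge (i - s) (by have := i.2; omega)
        have h6 : (⟨s + (i - s), by have := i.2; omega⟩ : Fin T) = i := by
          apply Fin.ext; simp; omega
        rw [← h6]; exact h5
    · push Not at hall
      refine ⟨T, le_rfl, ?_⟩
      funext i
      unfold leg
      rw [decide_eq_true i.2]
      have := hall i i.2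
      simpa using this
  · rintro ⟨s, _, rfl⟩
    exact legal_leg s

lemma leg_inj {s s' : ℕ} (hs : s ≤ T) (hs' : s' ≤ T) (h : leg T s = leg T s') : s = s' := by
  by_contra hne
  rcases Nat.lt_or_gt_of_ne hne with hlt | hlt
  · have := congrFun h ⟨s, by omega⟩
    simp only [leg, lt_self_iff_false, decide_false, hlt, decide_true] at this
    exact absurd this (by decide)
  · have := congrFun h ⟨s', by omega⟩
    simp only [leg, lt_self_iff_false, decide_false, hlt, decide_true] at this
    exact absurd this (by decide)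

lemma flip_leg (t : Fin T) : flip t (leg T t) = leg T (t + 1) := by
  funext i
  unfold flip leg
  by_cases h : i = t
  · subst h; simp
  · rw [Function.update_of_ne h]
    have : (i : ℕ) ≠ t := fun h' => h (Fin.ext h')
    by_cases h1 : (i : ℕ) < t
    · rw [decide_eq_true h1, decide_eq_true (by omega)]
    · rw [decide_eq_false h1, decide_eq_false (by omega)]

lemma flip_leg_succ (t : Fin T) : flip t (leg T (t + 1)) = leg T t := by
  rw [← flip_leg, flip_flip]

/-- both `c` and `flip t c` legal iff `c` is `leg t` or `leg (t+1)` -/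
lemma legal_flip {t : Fin T} {c : Fin T → Bool} (h1 : Legal c) (h2 : Legal (flip t c)) :
    c = leg T t ∨ c = leg T (t + 1) := by
  obtain ⟨s, hs, rfl⟩ := (legal_iff c).1 h1
  rcases lt_trichotomy (t : ℕ) s with hts | hts | hts
  · -- t < s : position t is true, flipped to false; legal iff t = s - 1
    right
    by_cases he : s = t + 1
    · rw [he]
    · exfalso
      have ht1 : (t : ℕ) + 1 < T := by omega
      refine h2 t ⟨t + 1, ht1⟩ rfl ⟨?_, ?_⟩
      · simp [flip, leg, hts]
      · unfold flip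
        rw [Function.update_of_ne (by intro h; have := congrArg Fin.val h; simp at this)]
        simp only [leg, decide_eq_true_eq]
        omega
  · left; rw [hts]
  · exfalso
    have ht0 : 0 < (t : ℕ) := by omega
    refine h2 ⟨t - 1, by omega⟩ t (by simp; omega) ⟨?_, ?_⟩
    · unfold flip
      rw [Function.update_of_ne (by intro h; have := congrArg Fin.val h; simp at this; omega)]
      simp only [leg, decide_eq_false_iff_not]
      omega
    · simp only [flip, Function.update_self, leg]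
      rw [decide_eq_false (by omega)]
      rfl

/-- sum over legal strings -/
lemma sum_legal (F : (Fin T → Bool) → ℝ) [DecidablePred (Legal (T := T))] :
    ∑ c ∈ univ.filter (fun c : Fin T → Bool => Legal c), F c =
      ∑ s ∈ range (T + 1), F (leg T s) := by
  have himg : univ.filter (fun c : Fin T → Bool => Legal c) = (range (T + 1)).image (leg T) := by
    ext c
    simp only [mem_filter, mem_univ, true_and, mem_image, mem_range]
    rw [legal_iff]
    constructor
    · rintro ⟨s, hs, rfl⟩; exact ⟨s, by omega, rfl⟩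
    · rintro ⟨s, hs, rfl⟩; exact ⟨s, by omega, rfl⟩
  rw [himg, Finset.sum_image]
  intro s hs s' hs' h
  simp only [coe_range, Set.mem_Iio] at hs hs'
  exact leg_inj (by omega) (by omega) h

end ClockStates

section Hamiltonian

variable {W : Type*} [Fintype W] {T : ℕ}

/-- clock weight `(1 + c_first - c_last)/2` -/
noncomputable def wt (first last : Fin T) (c : Fin T → Bool) : ℝ :=
  (1 + (if c first = true then 1 else 0) - (if c last = true then 1 else 0)) / 2

lemma wt_nonneg (first last : Fin T) (c : Fin T → Bool) : 0 ≤ wt first last c := by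
  unfold wt; split_ifs <;> norm_num

/-- total squared norm of a clock state -/
def tsq (Ψ : (Fin T → Bool) → W → ℝ) : ℝ := ∑ c, nsq (Ψ c)

/-- propagation term -/
noncomputable def hProp (first last : Fin T) (U : Fin T → (W → ℝ) →ₗ[ℝ] (W → ℝ))
    (Ψ : (Fin T → Bool) → W → ℝ) : ℝ :=
  ∑ c, wt first last c * nsq (Ψ c)
    - (1 / 2) * ∑ t, ∑ c, ip (Ψ c) (U t (Ψ (flip t c)))

/-- The clock Hamiltonian.  `rej` is the indicator of rejection, `cnt` the number of constrained
wires which are `1`. -/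
noncomputable def HK (first last : Fin T) (rej cnt : W → ℝ) (U : Fin T → (W → ℝ) →ₗ[ℝ] (W → ℝ))
    (Jin Jprop Jclk : ℝ) (Ψ : (Fin T → Bool) → W → ℝ) : ℝ :=
  (∑ c, if c last = true then wsq rej (Ψ c) else 0)
    + Jin * (∑ c, if c first = true then 0 else wsq cnt (Ψ c))
    + Jprop * hProp first last U Ψ
    + Jclk * ∑ c, viol c * nsq (Ψ c)

/-- `W_t = U_{t-1} ⋯ U_0` -/
noncomputable def Wt (U : Fin T → (W → ℝ) →ₗ[ℝ] (W → ℝ)) : ℕ → (W → ℝ) → (W → ℝ)
  | 0 => fun f => f
  | t + 1 => fun f => if h : t < T then U ⟨t, h⟩ (Wt U t f) else Wt U t f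

/-- inverse of `W_t` -/
noncomputable def Vt (U : Fin T → (W → ℝ) →ₗ[ℝ] (W → ℝ)) : ℕ → (W → ℝ) →ₗ[ℝ] (W → ℝ)
  | 0 => LinearMap.id
  | t + 1 => if h : t < T then (Vt U t).comp (U ⟨t, h⟩) else Vt U t

variable {U : Fin T → (W → ℝ) →ₗ[ℝ] (W → ℝ)}

lemma nsq_Wt (hU : ∀ t, IsGate (U t)) (t : ℕ) (f : W → ℝ) : nsq (Wt U t f) = nsq f := by
  induction t with
  | zero => rfl
  | succ t ih =>
    unfold Wt
    by_cases h : t < T
    · rw [dif_pos h, (hU _).nsq_eq, ih]
    · rw [dif_neg h, ih]

lemma nsq_Vt (hU : ∀ t, IsGate (U t)) (t : ℕ) (f : W → ℝ) : nsq (Vt U t f) = nsq f := by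
  induction t generalizing f with
  | zero => rfl
  | succ t ih =>
    unfold Vt
    by_cases h : t < T
    · rw [dif_pos h, LinearMap.comp_apply, ih, (hU _).nsq_eq]
    · rw [dif_neg h, ih]

lemma Wt_Vt (hU : ∀ t, IsGate (U t)) (t : ℕ) (f : W → ℝ) : Wt U t (Vt U t f) = f := by
  induction t generalizing f with
  | zero => rfl
  | succ t ih =>
    unfold Wt Vt
    by_cases h : t < T
    · rw [dif_pos h, dif_pos h, LinearMap.comp_apply, ih, (hU _).invol]
    · rw [dif_neg h, dif_neg h, ih]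

lemma Wt_succ (t : Fin T) (f : W → ℝ) : Wt U (t + 1) f = U t (Wt U t f) := by
  conv_lhs => unfold Wt
  rw [dif_pos t.2]

lemma Wt_add (t : ℕ) (f g : W → ℝ) : Wt U t (f + g) = Wt U t f + Wt U t g := by
  induction t with
  | zero => rfl
  | succ t ih =>
    unfold Wt
    by_cases h : t < T
    · rw [dif_pos h, dif_pos h, dif_pos h, ih, map_add]
    · rw [dif_neg h, dif_neg h, dif_neg h, ih]

lemma Vt_succ_apply (t : Fin T) (f : W → ℝ) : Vt U (t + 1) f = Vt U t (U t f) := by
  conv_lhs => unfold Vt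
  rw [dif_pos t.2, LinearMap.comp_apply]

/-- `∑_s wt(leg s) a_s = ½ ∑_t (a_t + a_{t+1})` -/
lemma sum_wt_leg {first last : Fin T} (hf : (first : ℕ) = 0) (hl : (last : ℕ) + 1 = T)
    (a : ℕ → ℝ) :
    ∑ s ∈ range (T + 1), wt first last (leg T s) * a s =
      (1 / 2) * ∑ t : Fin T, (a t + a (t + 1)) := by
  have hT : 0 < T := by omega
  have hw : ∀ s ∈ range (T + 1), wt first last (leg T s) * a s =
      (1 / 2) * ((if s < T then a s else 0) + (if 0 < s then a s else 0)) := by
    intro s hs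
    rw [mem_range] at hs
    unfold wt
    simp only [leg, decide_eq_true_eq]
    rw [hf]
    by_cases h0 : 0 < s
    · by_cases hT' : s < T
      · rw [if_pos h0, if_neg (by omega : ¬ (last : ℕ) < s), if_pos hT', if_pos h0]; ring
      · rw [if_pos h0, if_pos (by omega : (last : ℕ) < s), if_neg hT', if_pos h0]; ring
    · have : s = 0 := by omega
      subst this
      rw [if_neg h0, if_neg (by omega : ¬ (last : ℕ) < 0), if_pos hT, if_neg h0]; ring
  rw [Finset.sum_congr rfl hw, ← Finset.mul_sum, Finset.sum_add_distrib, Finset.sum_add_distrib]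
  congr 2
  · rw [Finset.sum_range_succ, if_neg (lt_irrefl T), add_zero, Finset.sum_range]
    exact Finset.sum_congr rfl fun t _ => by rw [if_pos t.2]
  · rw [Finset.sum_range_succ', if_neg (lt_irrefl 0), add_zero, Finset.sum_range]
    exact Finset.sum_congr rfl fun t _ => by rw [if_pos (Nat.succ_pos _)]

open Classical in
/-- lower bound of the propagation term -/
lemma hProp_ge {first last : Fin T} (hf : (first : ℕ) = 0) (hl : (last : ℕ) + 1 = T)
    (hU : ∀ t, IsGate (U t)) (Ψ : (Fin T → Bool) → W → ℝ) {θ : ℝ} (hθ : 0 < θ) (hθ1 : θ ≤ 1) :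
    (1 / 2) * ∑ t : Fin T, nsq (Ψ (leg T (t + 1)) - U t (Ψ (leg T t)))
      - (T : ℝ) / 2 * (θ * (∑ s ∈ range (T + 1), nsq (Ψ (leg T s)))
        + 1 / θ * ∑ c ∈ univ.filter (fun c : Fin T → Bool => ¬ Legal c), nsq (Ψ c)) ≤
      hProp first last U Ψ := by
  -- diagonal part
  have hdiag : (1 / 2) * ∑ t : Fin T, (nsq (Ψ (leg T t)) + nsq (Ψ (leg T (t + 1)))) ≤
      ∑ c, wt first last c * nsq (Ψ c) := by
    rw [← sum_wt_leg hf hl (fun s => nsq (Ψ (leg T s)))]
    rw [← sum_legal (fun c => wt first last c * nsq (Ψ c))]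
    exact Finset.sum_le_sum_of_subset_of_nonneg (Finset.subset_univ _)
      fun c _ _ => mul_nonneg (wt_nonneg _ _ _) (nsq_nonneg _)
  -- weights
  let g : (Fin T → Bool) → ℝ := fun c => if Legal c then θ / 2 else 1 / (2 * θ)
  have hg0 : ∀ c, 0 ≤ g c := fun c => by
    simp only [g]; split_ifs <;> positivity
  have hgsum : 2 * ∑ c, g c * nsq (Ψ c) =
      θ * (∑ s ∈ range (T + 1), nsq (Ψ (leg T s)))
        + 1 / θ * ∑ c ∈ univ.filter (fun c : Fin T → Bool => ¬ Legal c), nsq (Ψ c) := by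
    rw [← Finset.sum_filter_add_sum_filter_not univ (fun c : Fin T → Bool => Legal c), mul_add]
    congr 1
    · rw [← sum_legal (fun c => nsq (Ψ c)), Finset.mul_sum, Finset.mul_sum]
      refine Finset.sum_congr rfl fun c hc => ?_
      simp only [g, if_pos (Finset.mem_filter.1 hc).2]; ring
    · rw [Finset.mul_sum, Finset.mul_sum]
      refine Finset.sum_congr rfl fun c hc => ?_
      simp only [g, if_neg (Finset.mem_filter.1 hc).2]; field_simp
  have hcross : ∀ t : Fin T, ∑ c, ip (Ψ c) (U t (Ψ (flip t c))) ≤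
      2 * ip (Ψ (leg T (t + 1))) (U t (Ψ (leg T t)))
        + (θ * (∑ s ∈ range (T + 1), nsq (Ψ (leg T s)))
        + 1 / θ * ∑ c ∈ univ.filter (fun c : Fin T → Bool => ¬ Legal c), nsq (Ψ c)) := by
    intro t
    have hne : leg T t ≠ leg T (t + 1) := by
      intro h
      have := leg_inj (T := T) t.2.le (by have := t.2; omega) h
      omega
    -- pointwise bound
    have hpt : ∀ c, ip (Ψ c) (U t (Ψ (flip t c))) ≤
        (if c = leg T t ∨ c = leg T (t + 1) then ip (Ψ c) (U t (Ψ (flip t c))) else 0)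
          + (g c * nsq (Ψ c) + g (flip t c) * nsq (Ψ (flip t c))) := by
      intro c
      have hnn : 0 ≤ g c * nsq (Ψ c) + g (flip t c) * nsq (Ψ (flip t c)) :=
        add_nonneg (mul_nonneg (hg0 _) (nsq_nonneg _)) (mul_nonneg (hg0 _) (nsq_nonneg _))
      by_cases hc : c = leg T t ∨ c = leg T (t + 1)
      · rw [if_pos hc]; linarith
      · rw [if_neg hc, zero_add]
        have hU' : nsq (U t (Ψ (flip t c))) = nsq (Ψ (flip t c)) := (hU t).nsq_eq _
        have h12 : (1 : ℝ) / 2 ≤ 1 / (2 * θ) := by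
          apply one_div_le_one_div_of_le (by positivity); linarith
        by_cases h1 : Legal c
        · by_cases h2 : Legal (flip t c)
          · exact absurd (legal_flip h1 h2) hc
          · simp only [g, if_pos h1, if_neg h2]
            have := ip_le hθ (U t (Ψ (flip t c))) (Ψ c)
            rw [hU', ip_comm] at this
            linarith
        · by_cases h2 : Legal (flip t c)
          · simp only [g, if_neg h1, if_pos h2]
            have := ip_le hθ (Ψ c) (U t (Ψ (flip t c)))
            rw [hU'] at this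
            linarith
          · simp only [g, if_neg h1, if_neg h2]
            have := ip_le one_pos (Ψ c) (U t (Ψ (flip t c)))
            rw [hU'] at this
            have hn1 := nsq_nonneg (Ψ c)
            have hn2 := nsq_nonneg (Ψ (flip t c))
            nlinarith
    refine (Finset.sum_le_sum fun c _ => hpt c).trans ?_
    rw [Finset.sum_add_distrib, Finset.sum_add_distrib]
    have hre : ∑ c, g (flip t c) * nsq (Ψ (flip t c)) = ∑ c, g c * nsq (Ψ c) :=
      (flipEquiv t).sum_comp (fun c => g c * nsq (Ψ c))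
    rw [hre, ← hgsum]
    have hLL : (∑ c, if c = leg T t ∨ c = leg T (t + 1) then ip (Ψ c) (U t (Ψ (flip t c))) else 0)
        = 2 * ip (Ψ (leg T (t + 1))) (U t (Ψ (leg T t))) := by
      rw [← Finset.sum_filter]
      have : univ.filter (fun c : Fin T → Bool => c = leg T t ∨ c = leg T (t + 1)) =
          {leg T t, leg T (t + 1)} := by
        ext c; simp
      rw [this, Finset.sum_pair hne, flip_leg, flip_leg_succ]
      rw [ip_comm (Ψ (leg T t)), (hU t).symm]
      ring
    rw [hLL]; linarith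
  unfold hProp
  have hsum := Finset.sum_le_sum fun t (_ : t ∈ (univ : Finset (Fin T))) => hcross t
  rw [Finset.sum_add_distrib, ← Finset.mul_sum, Finset.sum_const, Finset.card_univ,
    Fintype.card_fin, nsmul_eq_mul] at hsum
  have hexp : (1 / 2) * ∑ t : Fin T, nsq (Ψ (leg T (t + 1)) - U t (Ψ (leg T t))) =
      (1 / 2) * ∑ t : Fin T, (nsq (Ψ (leg T t)) + nsq (Ψ (leg T (t + 1))))
        - ∑ t : Fin T, ip (Ψ (leg T (t + 1))) (U t (Ψ (leg T t))) := by
    rw [Finset.mul_sum, Finset.mul_sum, ← Finset.sum_sub_distrib]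
    refine Finset.sum_congr rfl fun t _ => ?_
    rw [nsq_sub, (hU t).nsq_eq]; ring
  rw [hexp]
  nlinarith

/-- distance along the path: `nsq (χ_s - χ_0) ≤ T * ∑ nsq (χ_{t+1} - χ_t)` -/
lemma nsq_path (χ : ℕ → W → ℝ) (s : ℕ) (hs : s ≤ T) :
    nsq (χ s - χ 0) ≤ (T : ℝ) * ∑ t : Fin T, nsq (χ (t + 1) - χ t) := by
  have htel : ∀ w, χ s w - χ 0 w = ∑ t ∈ range s, (χ (t + 1) w - χ t w) := by
    intro w
    rw [Finset.sum_range_sub (fun t => χ t w)]
  have h1 : ∀ w, (χ s w - χ 0 w) ^ 2 ≤ (T : ℝ) * ∑ t ∈ range T, (χ (t + 1) w - χ t w) ^ 2 := by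
    intro w
    rw [htel w]
    have h2 := sq_sum_le_card_mul_sum_sq (s := range s) (f := fun t => χ (t + 1) w - χ t w)
    rw [card_range] at h2
    refine h2.trans ?_
    have h3 : ∑ t ∈ range s, (χ (t + 1) w - χ t w) ^ 2 ≤ ∑ t ∈ range T, (χ (t + 1) w - χ t w) ^ 2 :=
      Finset.sum_le_sum_of_subset_of_nonneg (Finset.range_mono hs) fun _ _ _ => sq_nonneg _
    have h4 : (0 : ℝ) ≤ ∑ t ∈ range s, (χ (t + 1) w - χ t w) ^ 2 :=
      Finset.sum_nonneg fun _ _ => sq_nonneg _
    have h5 : (s : ℝ) ≤ T := by exact_mod_cast hs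
    calc (s : ℝ) * ∑ t ∈ range s, (χ (t + 1) w - χ t w) ^ 2
        ≤ T * ∑ t ∈ range s, (χ (t + 1) w - χ t w) ^ 2 := mul_le_mul_of_nonneg_right h5 h4
      _ ≤ T * ∑ t ∈ range T, (χ (t + 1) w - χ t w) ^ 2 :=
          mul_le_mul_of_nonneg_left h3 (Nat.cast_nonneg _)
  unfold nsq
  calc ∑ w, (χ s - χ 0) w ^ 2 ≤ ∑ w, (T : ℝ) * ∑ t ∈ range T, (χ (t + 1) w - χ t w) ^ 2 :=
        Finset.sum_le_sum fun w _ => h1 w
    _ = (T : ℝ) * ∑ t : Fin T, ∑ w, (χ (t + 1) - χ t) w ^ 2 := by
        rw [← Finset.mul_sum]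
        congr 1
        rw [Finset.sum_comm, Finset.sum_range]
        rfl

open Classical in
/-- **NO case.**  If every valid `χ` is rejected with weight `≥ 2/3`, then
`HK Ψ ≥ (7/12)/(T+1) ‖Ψ‖²`. -/
theorem HK_ge {first last : Fin T} (hf : (first : ℕ) = 0) (hl : (last : ℕ) + 1 = T)
    {rej cnt : W → ℝ} (hrej0 : ∀ w, 0 ≤ rej w) (hrej1 : ∀ w, rej w ≤ 1)
    (hcnt : ∀ w, cnt w = 0 ∨ 1 ≤ cnt w)
    (hU : ∀ t, IsGate (U t)) {Jin Jprop Jclk : ℝ}
    (hJin : 64 ≤ Jin) (hJprop : 128 * (T : ℝ) ≤ Jprop)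
    (hJclk : 13 * Jprop ^ 2 * (T : ℝ) ^ 2 * (T + 1) + 1 ≤ Jclk)
    (hno : ∀ χ : W → ℝ, (∀ w, cnt w ≠ 0 → χ w = 0) → 2 / 3 * nsq χ ≤ wsq rej (Wt U T χ))
    (Ψ : (Fin T → Bool) → W → ℝ) :
    7 / 12 / ((T : ℝ) + 1) * tsq Ψ ≤ HK first last rej cnt U Jin Jprop Jclk Ψ := by
  have hTpos : 0 < T := by omega
  have hT1 : (1 : ℝ) ≤ T := by exact_mod_cast hTpos
  have hcnt0 : ∀ w, 0 ≤ cnt w := fun w => by rcases hcnt w with h | h <;> linarith
  have hJp : 0 < Jprop := by linarith
  have hJi : 0 < Jin := by linarith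
  set L : ℝ := ∑ s ∈ range (T + 1), nsq (Ψ (leg T s)) with hL
  set I : ℝ := ∑ c ∈ univ.filter (fun c : Fin T → Bool => ¬ Legal c), nsq (Ψ c) with hI
  have hL0 : 0 ≤ L := Finset.sum_nonneg fun _ _ => nsq_nonneg _
  have hI0 : 0 ≤ I := Finset.sum_nonneg fun _ _ => nsq_nonneg _
  have htot : tsq Ψ = L + I := by
    unfold tsq
    rw [← Finset.sum_filter_add_sum_filter_not univ (fun c : Fin T → Bool => Legal c),
      sum_legal]
  -- clock term
  have hclk : I ≤ ∑ c, viol c * nsq (Ψ c) := by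
    have h1 : I ≤ ∑ c ∈ univ.filter (fun c : Fin T → Bool => ¬ Legal c), viol c * nsq (Ψ c) :=
      Finset.sum_le_sum fun c hc => by
        have := one_le_viol (Finset.mem_filter.1 hc).2
        nlinarith [nsq_nonneg (Ψ c)]
    exact h1.trans (Finset.sum_le_sum_of_subset_of_nonneg (Finset.subset_univ _)
      fun c _ _ => mul_nonneg (viol_nonneg _) (nsq_nonneg _))
  -- output term
  have hlT : leg T T last = true := by simp [leg]
  have hout : wsq rej (Ψ (leg T T)) ≤ ∑ c, if c last = true then wsq rej (Ψ c) else 0 := by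
    have h1 := Finset.single_le_sum
      (f := fun c : Fin T → Bool => if c last = true then wsq rej (Ψ c) else 0)
      (fun c _ => by split_ifs <;> [exact wsq_nonneg hrej0 _; exact le_rfl])
      (Finset.mem_univ (leg T T))
    simpa [hlT] using h1
  -- input term
  have hf0 : leg T 0 first = false := by simp [leg]
  have hin : wsq cnt (Ψ (leg T 0)) ≤ ∑ c, if c first = true then 0 else wsq cnt (Ψ c) := by
    have h1 := Finset.single_le_sum
      (f := fun c : Fin T → Bool => if c first = true then 0 else wsq cnt (Ψ c))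
      (fun c _ => by split_ifs <;> [exact le_rfl; exact wsq_nonneg hcnt0 _])
      (Finset.mem_univ (leg T 0))
    simpa [hf0] using h1
  -- pulled back history
  let χ : ℕ → W → ℝ := fun s => Vt U s (Ψ (leg T s))
  have hχn : ∀ s, nsq (χ s) = nsq (Ψ (leg T s)) := fun s => nsq_Vt hU s _
  set D : ℝ := ∑ t : Fin T, nsq (χ (t + 1) - χ t) with hD
  have hD0 : 0 ≤ D := Finset.sum_nonneg fun _ _ => nsq_nonneg _
  have hDeq : ∑ t : Fin T, nsq (Ψ (leg T (t + 1)) - U t (Ψ (leg T t))) = D := by
    refine Finset.sum_congr rfl fun t _ => ?_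
    have : χ (t + 1) - χ t = Vt U (t + 1) (Ψ (leg T (t + 1)) - U t (Ψ (leg T t))) := by
      rw [map_sub]
      have h1 : Vt U (t + 1) (U t (Ψ (leg T t))) = Vt U t (Ψ (leg T t)) := by
        rw [Vt_succ_apply, (hU t).invol]
      rw [h1]
    rw [this, nsq_Vt hU]
  -- θ
  set θ : ℝ := 1 / (26 * Jprop * T * (T + 1)) with hθ
  have hden : 0 < 26 * Jprop * T * (T + 1) := by positivity
  have hθ0 : 0 < θ := by rw [hθ]; positivity
  have hθ1 : θ ≤ 1 := by
    rw [hθ, div_le_one hden]
    have : (1 : ℝ) ≤ Jprop := by linarith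
    have h2 : (1 : ℝ) ≤ 26 * Jprop := by linarith
    have h3 : (1 : ℝ) ≤ 26 * Jprop * T := by nlinarith
    nlinarith
  have hprop := hProp_ge hf hl hU Ψ hθ0 hθ1
  rw [hDeq, ← hL, ← hI] at hprop
  have hprop' : 1 / 2 * D - (T : ℝ) / 2 * (θ * L + 1 / θ * I) ≤ hProp first last U Ψ := hprop
  -- Jprop * T/2 * θ = 1/(52 (T+1)),  Jprop * T/2 / θ = 13 Jprop² T² (T+1)
  have hθa : Jprop * ((T : ℝ) / 2 * θ) = 1 / (52 * (T + 1)) := by
    rw [hθ]; field_simp; ring
  have hθb : Jprop * ((T : ℝ) / 2 * (1 / θ)) = 13 * Jprop ^ 2 * (T : ℝ) ^ 2 * (T + 1) := by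
    rw [hθ]; field_simp; ring
  -- v and u
  let v : W → ℝ := fun w => if cnt w = 0 then χ 0 w else 0
  let u : W → ℝ := fun w => if cnt w = 0 then 0 else χ 0 w
  have hvu : ∀ s, χ s = v + (u + (χ s - χ 0)) := by
    intro s; funext w
    simp only [v, u, Pi.add_apply, Pi.sub_apply]
    split_ifs <;> ring
  have hu : nsq u ≤ wsq cnt (Ψ (leg T 0)) := by
    have : χ 0 = Ψ (leg T 0) := rfl
    rw [← this]
    unfold nsq wsq
    refine Finset.sum_le_sum fun w _ => ?_
    simp only [u]
    rcases hcnt w with h | h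
    · rw [if_pos h, h]; simp
    · rw [if_neg (by linarith)]; nlinarith [sq_nonneg (χ 0 w)]
  have hvno : 2 / 3 * nsq v ≤ wsq rej (Wt U T v) := hno v fun w hw => by
    simp only [v]; rw [if_neg hw]
  have hrest : ∀ s ≤ T, nsq (u + (χ s - χ 0)) ≤ 2 * (nsq u + T * D) := by
    intro s hs
    refine (nsq_add_le _ _).trans ?_
    have := nsq_path χ s hs
    rw [← hD] at this
    linarith
  -- rejection weight
  have hrejT : 19 / 20 * (2 / 3 * nsq v) - 19 * (2 * (nsq u + T * D)) ≤
      wsq rej (Ψ (leg T T)) := by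
    have h1 : Ψ (leg T T) = Wt U T v + Wt U T (u + (χ T - χ 0)) := by
      rw [← Wt_add, ← hvu T]
      exact (Wt_Vt hU T _).symm
    rw [h1]
    refine le_trans ?_ (wsq_add_ge hrej0 _ _)
    have h2 : wsq rej (Wt U T (u + (χ T - χ 0))) ≤ 2 * (nsq u + T * D) :=
      (wsq_le_nsq hrej1 _).trans (by rw [nsq_Wt hU]; exact hrest T le_rfl)
    linarith
  -- norm
  have hLle : L ≤ (T + 1) * (21 / 20 * nsq v + 21 * (2 * (nsq u + T * D))) := by
    have h1 : ∀ s ∈ range (T + 1), nsq (Ψ (leg T s)) ≤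
        21 / 20 * nsq v + 21 * (2 * (nsq u + T * D)) := by
      intro s hs
      rw [mem_range] at hs
      rw [← hχn s, hvu s]
      refine (nsq_add_le' _ _).trans ?_
      have := hrest s (by omega)
      linarith
    have h2 := Finset.sum_le_sum h1
    rw [Finset.sum_const, card_range, nsmul_eq_mul] at h2
    push_cast at h2
    exact h2
  have hTp1 : 0 < (T : ℝ) + 1 := by positivity
  have hLdiv : L / (T + 1) ≤ 21 / 20 * nsq v + 21 * (2 * (nsq u + T * D)) := by
    rw [div_le_iff₀ hTp1]; linarith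
  have hu0 : 0 ≤ nsq u := nsq_nonneg _
  have hmain : 38 / 63 * (L / (T + 1)) - 64 * (nsq u + T * D) ≤ wsq rej (Ψ (leg T T)) := by
    have hTD : 0 ≤ T * D := by positivity
    nlinarith
  -- assemble
  unfold HK
  rw [htot]
  have hA : Jprop * (1 / 2 * D - (T : ℝ) / 2 * (θ * L + 1 / θ * I)) ≤
      Jprop * hProp first last U Ψ := mul_le_mul_of_nonneg_left hprop' hJp.le
  have hA' : Jprop * (1 / 2 * D - (T : ℝ) / 2 * (θ * L + 1 / θ * I)) =
      Jprop / 2 * D - 1 / (52 * (T + 1)) * L - 13 * Jprop ^ 2 * (T : ℝ) ^ 2 * (T + 1) * I := by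
    have : Jprop * (1 / 2 * D - (T : ℝ) / 2 * (θ * L + 1 / θ * I)) =
      Jprop / 2 * D - Jprop * ((T : ℝ) / 2 * θ) * L - Jprop * ((T : ℝ) / 2 * (1 / θ)) * I := by ring
    rw [this, hθa, hθb]
  have hB : Jclk * I ≤ Jclk * ∑ c, viol c * nsq (Ψ c) :=
    mul_le_mul_of_nonneg_left hclk (by
      have : 0 ≤ 13 * Jprop ^ 2 * (T : ℝ) ^ 2 * (T + 1) := by positivity
      linarith)
  have hC : Jin * nsq u ≤ Jin * ∑ c, if c first = true then 0 else wsq cnt (Ψ c) :=
    mul_le_mul_of_nonneg_left (hu.trans hin) hJi.le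
  have hC' : 64 * nsq u ≤ Jin * nsq u := mul_le_mul_of_nonneg_right hJin hu0
  have hD' : 64 * (T * D) ≤ Jprop / 2 * D := by
    have : 64 * (T : ℝ) ≤ Jprop / 2 := by linarith
    calc 64 * (T * D) = (64 * T) * D := by ring
      _ ≤ Jprop / 2 * D := mul_le_mul_of_nonneg_right this hD0
  have hE : (13 * Jprop ^ 2 * (T : ℝ) ^ 2 * (T + 1) + 1) * I ≤ Jclk * I :=
    mul_le_mul_of_nonneg_right hJclk hI0
  have hF : 7 / 12 / ((T : ℝ) + 1) * I ≤ I := by
    have : 7 / 12 / ((T : ℝ) + 1) ≤ 1 := by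
      rw [div_le_one hTp1]; linarith
    nlinarith
  have hG : 7 / 12 / ((T : ℝ) + 1) * L ≤ 38 / 63 * (L / (T + 1)) - 1 / (52 * (T + 1)) * L := by
    have h1 : 38 / 63 * (L / (T + 1)) - 1 / (52 * (T + 1)) * L - 7 / 12 / ((T : ℝ) + 1) * L =
        (38 / 63 - 1 / 52 - 7 / 12) * (L / (T + 1)) := by
      field_simp
    have h2 : 0 ≤ L / ((T : ℝ) + 1) := by positivity
    have h3 : 0 ≤ (38 / 63 - 1 / 52 - 7 / 12 : ℝ) * (L / (T + 1)) :=
      mul_nonneg (by norm_num) h2
    linarith
  linarith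

open Classical in
/-- **YES case.**  The history state. -/
theorem HK_history {first last : Fin T} (hf : (first : ℕ) = 0) (hl : (last : ℕ) + 1 = T)
    {rej cnt : W → ℝ} (hU : ∀ t, IsGate (U t)) (Jin Jprop Jclk : ℝ)
    (χ : W → ℝ) (hχ : ∀ w, cnt w ≠ 0 → χ w = 0) :
    ∃ Ψ : (Fin T → Bool) → W → ℝ, tsq Ψ = ((T : ℝ) + 1) * nsq χ ∧
      HK first last rej cnt U Jin Jprop Jclk Ψ = wsq rej (Wt U T χ) := by
  have hTpos : 0 < T := by omega
  let Ψ : (Fin T → Bool) → W → ℝ := fun c =>
    ∑ s ∈ range (T + 1), if c = leg T s then Wt U s χ else 0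
  have hleg : ∀ s ≤ T, Ψ (leg T s) = Wt U s χ := by
    intro s hs
    simp only [Ψ]
    rw [Finset.sum_eq_single s]
    · rw [if_pos rfl]
    · intro s' hs' hne
      rw [mem_range] at hs'
      rw [if_neg]
      intro h
      exact hne (leg_inj hs (by omega) h).symm
    · intro h; exact absurd (mem_range.2 (by omega)) h
  have hill : ∀ c, ¬ Legal c → Ψ c = 0 := by
    intro c hc
    simp only [Ψ]
    refine Finset.sum_eq_zero fun s _ => ?_
    rw [if_neg]
    rintro rfl
    exact hc (legal_leg s)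
  -- sums reduce to legal strings
  have hred : ∀ F : (Fin T → Bool) → ℝ, (∀ c, ¬ Legal c → F c = 0) →
      ∑ c, F c = ∑ s ∈ range (T + 1), F (leg T s) := by
    intro F hF
    rw [← sum_legal, ← Finset.sum_filter_add_sum_filter_not univ (fun c : Fin T → Bool => Legal c)]
    rw [Finset.sum_eq_zero (s := univ.filter (fun c : Fin T → Bool => ¬ Legal c))
      (fun c hc => hF c (Finset.mem_filter.1 hc).2), add_zero]
  refine ⟨Ψ, ?_, ?_⟩
  · unfold tsq
    rw [hred _ (fun c hc => by rw [hill c hc, nsq_zero])]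
    rw [Finset.sum_congr rfl (fun s hs => by
      rw [hleg s (by rw [mem_range] at hs; omega), nsq_Wt hU])]
    rw [Finset.sum_const, card_range, nsmul_eq_mul]; push_cast; ring
  · unfold HK
    have h1 : (∑ c, if c last = true then wsq rej (Ψ c) else 0) = wsq rej (Wt U T χ) := by
      rw [hred _ (fun c hc => by rw [hill c hc]; simp [wsq])]
      rw [Finset.sum_eq_single T]
      · have : leg T T last = true := by simp [leg]
        rw [if_pos this, hleg T le_rfl]
      · intro s hs hne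
        rw [mem_range] at hs
        have : leg T s last = false := by
          simp only [leg, decide_eq_false_iff_not]; omega
        rw [this]; simp
      · intro h; exact absurd (mem_range.2 (by omega)) h
    have h2 : (∑ c, if c first = true then 0 else wsq cnt (Ψ c)) = 0 := by
      rw [hred _ (fun c hc => by rw [hill c hc]; simp [wsq])]
      refine Finset.sum_eq_zero fun s hs => ?_
      rw [mem_range] at hs
      by_cases hs0 : s = 0
      · subst hs0
        rw [hleg 0 (by omega)]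
        have : leg T 0 first = false := by simp [leg]
        rw [this]
        simp only [Bool.false_eq_true, if_false]
        unfold wsq
        refine Finset.sum_eq_zero fun w _ => ?_
        by_cases hw : cnt w = 0
        · rw [hw]; ring
        · have : (Wt U 0 χ) w = 0 := hχ w hw
          rw [this]; ring
      · have : leg T s first = true := by
          simp only [leg, decide_eq_true_eq]; omega
        rw [if_pos this]
    have h4 : (∑ c, viol c * nsq (Ψ c)) = 0 := by
      rw [hred _ (fun c hc => by rw [hill c hc, nsq_zero, mul_zero])]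
      exact Finset.sum_eq_zero fun s _ => by rw [viol_leg, zero_mul]
    have h3 : hProp first last U Ψ = 0 := by
      unfold hProp
      rw [hred _ (fun c hc => by rw [hill c hc, nsq_zero, mul_zero])]
      rw [sum_wt_leg hf hl (fun s => nsq (Ψ (leg T s)))]
      have hcross : ∀ t : Fin T, ∑ c, ip (Ψ c) (U t (Ψ (flip t c))) = 2 * nsq χ := by
        intro t
        have hne : leg T t ≠ leg T (t + 1) := by
          intro h
          have := leg_inj (T := T) t.2.le (by have := t.2; omega) h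
          omega
        have hpt : ∀ c, ip (Ψ c) (U t (Ψ (flip t c))) =
            (if c = leg T t ∨ c = leg T (t + 1) then ip (Ψ c) (U t (Ψ (flip t c))) else 0) := by
          intro c
          by_cases hc : c = leg T t ∨ c = leg T (t + 1)
          · rw [if_pos hc]
          · rw [if_neg hc]
            by_cases h1 : Legal c
            · by_cases h2 : Legal (flip t c)
              · exact absurd (legal_flip h1 h2) hc
              · rw [hill _ h2, map_zero, ip_zero_right]
            · rw [hill _ h1, ip_zero_left]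
        rw [Finset.sum_congr rfl fun c _ => hpt c, ← Finset.sum_filter]
        have : univ.filter (fun c : Fin T → Bool => c = leg T t ∨ c = leg T (t + 1)) =
            {leg T t, leg T (t + 1)} := by
          ext c; simp
        rw [this, Finset.sum_pair hne, flip_leg, flip_leg_succ,
          hleg t t.2.le, hleg (t + 1) (by have := t.2; omega), Wt_succ, (hU t).invol,
          ← nsq_eq_ip, ← nsq_eq_ip, (hU t).nsq_eq, nsq_Wt hU]
        ring
      have hd : ∀ t : Fin T, nsq (Ψ (leg T t)) + nsq (Ψ (leg T (t + 1))) = 2 * nsq χ := by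
        intro t
        rw [hleg t t.2.le, hleg (t + 1) (by have := t.2; omega), nsq_Wt hU, nsq_Wt hU]; ring
      rw [Finset.sum_congr rfl fun t _ => hcross t, Finset.sum_congr rfl fun t _ => hd t]
      ring
    rw [h1, h2, h3, h4]; ring

end Hamiltonian

end Crest.Agent.R338.Clock
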