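import Mathlib

/-!
Row 338, common file: real qubit operators on `(ι → Bool) → ℝ` (any finite index type of wires).
`X i`, `Z i`, `N i = (1 - Z i)/2` as elements of `Module.End ℝ (Q ι)`; the real pairing is
`φ ⬝ᵥ ψ`, quadratic form of `A` is `E A ψ = ψ ⬝ᵥ A ψ`.
-/

set_option autoImplicit false

namespace Crest.Agent.R338

open Finset

/-- real state vectors of the qubits `ι` -/
abbrev Q (ι : Type*) := (ι → Bool) → ℝ

/-- operators on `Q ι` -/
abbrev Op (ι : Type*) := Module.End ℝ (Q ι)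

/-- flip the bit `i` -/
def flip {ι : Type*} [DecidableEq ι] (i : ι) (σ : ι → Bool) : ι → Bool :=
  Function.update σ i (!σ i)

section flip
variable {ι : Type*} [DecidableEq ι]

@[simp] lemma flip_same (i : ι) (σ : ι → Bool) : flip i σ i = !σ i := by simp [flip]

@[simp] lemma flip_ne {i j : ι} (h : j ≠ i) (σ : ι → Bool) : flip i σ j = σ j := by
  simp [flip, h]

lemma flip_apply (i j : ι) (σ : ι → Bool) : flip i σ j = if j = i then !σ j else σ j := by
  by_cases h : j = i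
  · subst h; simp
  · simp [h]

@[simp] lemma flip_flip (i : ι) (σ : ι → Bool) : flip i (flip i σ) = σ := by
  funext j
  by_cases h : j = i
  · subst h; simp
  · simp [h]

lemma flip_comm (i j : ι) (σ : ι → Bool) : flip i (flip j σ) = flip j (flip i σ) := by
  funext k
  simp only [flip_apply]
  split_ifs <;> rfl

lemma flip_ne_self (i : ι) (σ : ι → Bool) : flip i σ ≠ σ := by
  intro h
  have := congrFun h i
  simp at this

/-- flipping is an involution of the configurations -/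
def flipEquiv (i : ι) : (ι → Bool) ≃ (ι → Bool) where
  toFun := flip i
  invFun := flip i
  left_inv := flip_flip i
  right_inv := flip_flip i

@[simp] lemma flipEquiv_apply (i : ι) (σ : ι → Bool) : flipEquiv i σ = flip i σ := rfl

end flip

/-- the sign `(-1)^b` -/
def sg (b : Bool) : ℝ := if b then -1 else 1

@[simp] lemma sg_true : sg true = -1 := rfl
@[simp] lemma sg_false : sg false = 1 := rfl
@[simp] lemma sg_not (b : Bool) : sg (!b) = -sg b := by cases b <;> simp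
@[simp] lemma sg_mul_self (b : Bool) : sg b * sg b = 1 := by cases b <;> simp
@[simp] lemma sg_sq (b : Bool) : sg b ^ 2 = 1 := by cases b <;> simp
lemma abs_sg (b : Bool) : |sg b| = 1 := by cases b <;> simp

section ops
variable {ι : Type*} [DecidableEq ι]

/-- Pauli `X` on wire `i` -/
def X (i : ι) : Op ι where
  toFun ψ := fun σ => ψ (flip i σ)
  map_add' _ _ := rfl
  map_smul' _ _ := rfl

omit [DecidableEq ι] in
/-- Pauli `Z` on wire `i` (`+1` on `false`) -/
def Z (i : ι) : Op ι where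
  toFun ψ := fun σ => sg (σ i) * ψ σ
  map_add' _ _ := by funext σ; simp [mul_add]
  map_smul' _ _ := by funext σ; simp [mul_left_comm]

omit [DecidableEq ι] in
/-- projection on `|1⟩` at wire `i` -/
def Nb (i : ι) : Op ι where
  toFun ψ := fun σ => if σ i then ψ σ else 0
  map_add' _ _ := by funext σ; by_cases h : σ i <;> simp [h]
  map_smul' _ _ := by funext σ; by_cases h : σ i <;> simp [h]

lemma X_apply (i : ι) (ψ : Q ι) (σ : ι → Bool) : X i ψ σ = ψ (flip i σ) := rfl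

omit [DecidableEq ι] in
lemma Z_apply (i : ι) (ψ : Q ι) (σ : ι → Bool) : Z i ψ σ = sg (σ i) * ψ σ := rfl

omit [DecidableEq ι] in
lemma Nb_apply (i : ι) (ψ : Q ι) (σ : ι → Bool) : Nb i ψ σ = if σ i then ψ σ else 0 := rfl

@[simp] lemma X_mul_self (i : ι) : X i * X i = 1 := by
  ext ψ σ; simp [X_apply, Module.End.mul_apply]

omit [DecidableEq ι] in
@[simp] lemma Z_mul_self (i : ι) : Z i * Z i = 1 := by
  ext ψ σ; simp [Z_apply, Module.End.mul_apply, ← mul_assoc]

omit [DecidableEq ι] in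
@[simp] lemma Nb_mul_self (i : ι) : Nb i * Nb i = Nb i := by
  refine LinearMap.ext fun ψ => funext fun σ => ?_
  by_cases h : σ i <;> simp [Nb_apply, Module.End.mul_apply, h]

omit [DecidableEq ι] in
/-- `Z = 1 - 2 n` -/
lemma Z_eq (i : ι) : (Z i : Op ι) = 1 - (2 : ℝ) • Nb i := by
  refine LinearMap.ext fun ψ => funext fun σ => ?_
  simp only [Z_apply, LinearMap.sub_apply, Module.End.one_apply, LinearMap.smul_apply, Pi.sub_apply,
    Pi.smul_apply, Nb_apply, smul_eq_mul]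
  by_cases h : σ i
  · simp [h]; ring
  · simp [h]

omit [DecidableEq ι] in
/-- `n = (1 - Z)/2` -/
lemma Nb_eq (i : ι) : (Nb i : Op ι) = (1 / 2 : ℝ) • (1 - Z i) := by
  rw [Z_eq]; simp [smul_smul]

lemma X_comm (i j : ι) : Commute (X i) (X j) := by
  refine LinearMap.ext fun ψ => funext fun σ => ?_
  simp [Module.End.mul_apply, X_apply, flip_comm]

omit [DecidableEq ι] in
lemma Z_comm (i j : ι) : Commute (Z i : Op ι) (Z j) := by
  refine LinearMap.ext fun ψ => funext fun σ => ?_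
  simp [Module.End.mul_apply, Z_apply, mul_left_comm]

lemma X_Z_comm {i j : ι} (h : i ≠ j) : Commute (X i) (Z j) := by
  refine LinearMap.ext fun ψ => funext fun σ => ?_
  simp [Module.End.mul_apply, Z_apply, X_apply, h.symm]

/-- `X Z = - Z X` on the same wire -/
lemma X_mul_Z (i : ι) : X i * Z i = -(Z i * X i) := by
  refine LinearMap.ext fun ψ => funext fun σ => ?_
  simp [Module.End.mul_apply, Z_apply, X_apply]

end ops

section form
variable {ι : Type*} [Fintype ι] [DecidableEq ι]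

/-- quadratic form of an operator -/
def E (A : Op ι) (ψ : Q ι) : ℝ := ψ ⬝ᵥ A ψ

/-- squared norm -/
def nsq (ψ : Q ι) : ℝ := ψ ⬝ᵥ ψ

lemma nsq_eq_sum (ψ : Q ι) : nsq ψ = ∑ σ, ψ σ ^ 2 := by
  simp [nsq, dotProduct, sq]

lemma nsq_nonneg (ψ : Q ι) : 0 ≤ nsq ψ := by
  rw [nsq_eq_sum]; positivity

lemma nsq_eq_zero {ψ : Q ι} : nsq ψ = 0 ↔ ψ = 0 := by
  simp [nsq, dotProduct_self_eq_zero]

lemma nsq_smul (c : ℝ) (ψ : Q ι) : nsq (c • ψ) = c ^ 2 * nsq ψ := by
  simp [nsq, sq, mul_assoc]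

lemma E_one (ψ : Q ι) : E 1 ψ = nsq ψ := rfl

lemma E_add (A B : Op ι) (ψ : Q ι) : E (A + B) ψ = E A ψ + E B ψ := by
  simp [E, dotProduct_add]

lemma E_sub (A B : Op ι) (ψ : Q ι) : E (A - B) ψ = E A ψ - E B ψ := by
  simp [E, dotProduct_sub]

lemma E_smul (c : ℝ) (A : Op ι) (ψ : Q ι) : E (c • A) ψ = c * E A ψ := by
  simp [E]

lemma E_neg (A : Op ι) (ψ : Q ι) : E (-A) ψ = -E A ψ := by
  simp [E]

lemma E_zero (ψ : Q ι) : E (0 : Op ι) ψ = 0 := by simp [E]

lemma E_sum {κ : Type*} (s : Finset κ) (A : κ → Op ι) (ψ : Q ι) :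
    E (∑ k ∈ s, A k) ψ = ∑ k ∈ s, E (A k) ψ := by
  simp [E, LinearMap.sum_apply, dotProduct_sum]

/-- symmetric operators (for the real pairing) -/
def Sym (A : Op ι) : Prop := ∀ φ ψ : Q ι, φ ⬝ᵥ A ψ = A φ ⬝ᵥ ψ

lemma Sym.one : Sym (1 : Op ι) := fun _ _ => rfl

lemma Sym.zero : Sym (0 : Op ι) := fun φ ψ => by simp

lemma Sym.add {A B : Op ι} (hA : Sym A) (hB : Sym B) : Sym (A + B) := fun φ ψ => by
  simp [dotProduct_add, add_dotProduct, hA φ ψ, hB φ ψ]

lemma Sym.sub {A B : Op ι} (hA : Sym A) (hB : Sym B) : Sym (A - B) := fun φ ψ => by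
  simp [dotProduct_sub, sub_dotProduct, hA φ ψ, hB φ ψ]

lemma Sym.smul {A : Op ι} (c : ℝ) (hA : Sym A) : Sym (c • A) := fun φ ψ => by
  simp [hA φ ψ]

lemma Sym.neg {A : Op ι} (hA : Sym A) : Sym (-A) := fun φ ψ => by
  simp [hA φ ψ]

lemma Sym.sum {κ : Type*} {s : Finset κ} {A : κ → Op ι} (h : ∀ k ∈ s, Sym (A k)) :
    Sym (∑ k ∈ s, A k) := by
  classical
  induction s using Finset.induction_on with
  | empty => simpa using Sym.zero
  | insert a s ha ih =>
    rw [Finset.sum_insert ha]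
    exact (h a (Finset.mem_insert_self a s)).add (ih fun k hk => h k (Finset.mem_insert_of_mem hk))

lemma Sym.mul {A B : Op ι} (hA : Sym A) (hB : Sym B) (hc : Commute A B) : Sym (A * B) :=
  fun φ ψ => by
    rw [Module.End.mul_apply, hA, hB, ← Module.End.mul_apply, ← hc.eq]

lemma sym_X (i : ι) : Sym (X i) := fun φ ψ => by
  simp only [dotProduct, X_apply]
  rw [← Equiv.sum_comp (flipEquiv i)]
  simp

lemma sym_Z (i : ι) : Sym (Z i : Op ι) := fun φ ψ => by
  simp only [dotProduct, Z_apply]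
  exact Finset.sum_congr rfl fun σ _ => by ring

lemma sym_Nb (i : ι) : Sym (Nb i : Op ι) := fun φ ψ => by
  simp only [dotProduct, Nb_apply]
  refine Finset.sum_congr rfl fun σ _ => ?_
  by_cases h : σ i <;> simp [h]

/-- polarisation of the form for `φ + ψ` -/
lemma E_add_vec {A : Op ι} (hA : Sym A) (φ ψ : Q ι) :
    E A (φ + ψ) = E A φ + 2 * (φ ⬝ᵥ A ψ) + E A ψ := by
  have h := hA ψ φ
  simp only [E, map_add, dotProduct_add, add_dotProduct]
  rw [h, dotProduct_comm (A ψ) φ]; ring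

lemma E_smul_vec (A : Op ι) (c : ℝ) (ψ : Q ι) : E A (c • ψ) = c ^ 2 * E A ψ := by
  simp [E, sq, mul_assoc]

/-- operator inequality in the form sense -/
def Le (A B : Op ι) : Prop := ∀ ψ, E A ψ ≤ E B ψ

/-- `|A| ≤ a` in the form sense -/
def FB (A : Op ι) (a : ℝ) : Prop := ∀ ψ, |E A ψ| ≤ a * nsq ψ

lemma FB.add {A B : Op ι} {a b : ℝ} (hA : FB A a) (hB : FB B b) : FB (A + B) (a + b) := fun ψ => by
  rw [E_add, add_mul]
  exact (abs_add_le _ _).trans (add_le_add (hA ψ) (hB ψ))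

lemma FB.neg {A : Op ι} {a : ℝ} (hA : FB A a) : FB (-A) a := fun ψ => by
  rw [E_neg, abs_neg]; exact hA ψ

lemma FB.sub {A B : Op ι} {a b : ℝ} (hA : FB A a) (hB : FB B b) : FB (A - B) (a + b) := by
  rw [sub_eq_add_neg]; exact hA.add hB.neg

lemma FB.smul {A : Op ι} {a : ℝ} (c : ℝ) (hA : FB A a) : FB (c • A) (|c| * a) := fun ψ => by
  rw [E_smul, abs_mul, mul_assoc]
  exact mul_le_mul_of_nonneg_left (hA ψ) (abs_nonneg c)

lemma FB.mono {A : Op ι} {a b : ℝ} (hA : FB A a) (h : a ≤ b) : FB A b := fun ψ =>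
  (hA ψ).trans (mul_le_mul_of_nonneg_right h (nsq_nonneg ψ))

lemma FB.sum {κ : Type*} {s : Finset κ} {A : κ → Op ι} {a : κ → ℝ} (h : ∀ k ∈ s, FB (A k) (a k)) :
    FB (∑ k ∈ s, A k) (∑ k ∈ s, a k) := fun ψ => by
  rw [E_sum, Finset.sum_mul]
  exact (Finset.abs_sum_le_sum_abs _ _).trans (Finset.sum_le_sum fun k hk => h k hk ψ)

/-- Cauchy-Schwarz for the pairing -/
lemma dot_sq_le (φ ψ : Q ι) : (φ ⬝ᵥ ψ) ^ 2 ≤ nsq φ * nsq ψ := by
  simp only [dotProduct, nsq_eq_sum]
  exact Finset.sum_mul_sq_le_sq_mul_sq _ _ _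

/-- a symmetric involution is an isometry -/
lemma nsq_invol {A : Op ι} (hA : Sym A) (h : A * A = 1) (ψ : Q ι) : nsq (A ψ) = nsq ψ := by
  unfold nsq
  rw [hA (A ψ) ψ, ← Module.End.mul_apply, h, Module.End.one_apply]

lemma abs_dot_le (φ ψ : Q ι) : |φ ⬝ᵥ ψ| ≤ (nsq φ + nsq ψ) / 2 := by
  have h1 := nsq_nonneg (φ + ψ)
  have h2 := nsq_nonneg (φ - ψ)
  have e1 : nsq (φ + ψ) = nsq φ + 2 * (φ ⬝ᵥ ψ) + nsq ψ := by
    simp only [nsq, add_dotProduct, dotProduct_add, dotProduct_comm ψ φ]; ring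
  have e2 : nsq (φ - ψ) = nsq φ - 2 * (φ ⬝ᵥ ψ) + nsq ψ := by
    simp only [nsq, sub_dotProduct, dotProduct_sub, dotProduct_comm ψ φ]; ring
  rw [abs_le]; constructor <;> linarith

/-- a symmetric involution has form bound `1` -/
lemma FB_invol {A : Op ι} (hA : Sym A) (h : A * A = 1) : FB A 1 := fun ψ => by
  have := abs_dot_le ψ (A ψ)
  rw [nsq_invol hA h] at this
  simpa [E] using this.trans (le_of_eq (by ring))

lemma FB_X (i : ι) : FB (X i) 1 := FB_invol (sym_X i) (X_mul_self i)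
lemma FB_Z (i : ι) : FB (Z i : Op ι) 1 := FB_invol (sym_Z i) (Z_mul_self i)

lemma E_Nb (i : ι) (ψ : Q ι) : E (Nb i) ψ = nsq (Nb i ψ) := by
  unfold nsq E
  rw [← sym_Nb i ψ (Nb i ψ), ← Module.End.mul_apply, Nb_mul_self]

end form

end Crest.Agent.R338
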