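import Crest.Agent.R338.Clock
import Crest.Agent.R338.Pauli
import Crest.Agent.R338.RCDefs

/-!
# Row 338, node I.2: the clock Hamiltonian as a Pauli operator on `W ⊕ Fin T`

`W` = wires, `Fin T` = clock qubits, for a word of elementary gates (`RC.EG W`).
-/

set_option autoImplicit false
set_option linter.unusedSectionVars false
set_option maxHeartbeats 1000000

namespace Crest.Agent.R338.CK

open Finset Crest.Agent.R338 Crest.Agent.R338.RC

section GateOp

variable {ι : Type*} [DecidableEq ι]

/-- `cos θ_k Z_a + sin θ_k X_a` -/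
noncomputable def rotOp (k : Fin 3) (a : ι) : Op ι :=
  Real.cos (ang k) • Z a + Real.sin (ang k) • X a

/-- `(1 + Z_a + Z_b - Z_a Z_b)/2` -/
noncomputable def czOp (a b : ι) : Op ι := (1 / 2 : ℝ) • (1 + Z a + Z b - Z a * Z b)

/-- the operator of an elementary gate, wires relabelled by `f` -/
noncomputable def gOp {W : Type} (f : W → ι) : EG W → Op ι
  | EG.rot k a => rotOp k (f a)
  | EG.cz a b => czOp (f a) (f b)

lemma rotOp_mul_self (k : Fin 3) (a : ι) : rotOp k a * rotOp k a = 1 := by
  refine LinearMap.ext fun ψ => funext fun σ => ?_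
  have h : Real.cos (ang k) * Real.cos (ang k) + Real.sin (ang k) * Real.sin (ang k) = 1 := by
    have := Real.cos_sq_add_sin_sq (ang k)
    nlinarith
  simp only [rotOp, Module.End.mul_apply, LinearMap.add_apply, LinearMap.smul_apply, Pi.add_apply,
    Pi.smul_apply, Z_apply, X_apply, smul_eq_mul, flip_same, sg_not, Module.End.one_apply,
    R338.flip_flip]
  have h2 := sg_mul_self (σ a)
  linear_combination (ψ σ) * h + (Real.cos (ang k) * Real.cos (ang k) * ψ σ) * h2

lemma czOp_apply (a b : ι) (ψ : Q ι) (σ : ι → Bool) :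
    czOp a b ψ σ = if σ a = true ∧ σ b = true then -ψ σ else ψ σ := by
  unfold czOp
  simp only [LinearMap.smul_apply, LinearMap.sub_apply, LinearMap.add_apply, Module.End.one_apply,
    Module.End.mul_apply, Pi.smul_apply, Pi.sub_apply, Pi.add_apply, Z_apply, smul_eq_mul]
  cases h1 : σ a <;> cases h2 : σ b <;> simp <;> ring

lemma czOp_mul_self (a b : ι) : czOp a b * czOp a b = (1 : Op ι) := by
  refine LinearMap.ext fun ψ => funext fun σ => ?_
  rw [Module.End.mul_apply, czOp_apply, czOp_apply]
  split_ifs <;> simp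

lemma gOp_mul_self {W : Type} (f : W → ι) (g : EG W) : gOp f g * gOp f g = 1 := by
  cases g with
  | rot k a => exact rotOp_mul_self k (f a)
  | cz a b => exact czOp_mul_self (f a) (f b)

variable [Fintype ι]

lemma sym_rotOp (k : Fin 3) (a : ι) : Sym (rotOp k a) :=
  ((sym_Z a).smul _).add ((sym_X a).smul _)

lemma sym_czOp (a b : ι) : Sym (czOp a b : Op ι) := by
  intro φ ψ
  simp only [dotProduct, czOp_apply]
  refine Finset.sum_congr rfl fun σ _ => ?_
  split_ifs <;> ring

lemma sym_gOp {W : Type} (f : W → ι) (g : EG W) : Sym (gOp f g) := by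
  cases g with
  | rot k a => exact sym_rotOp k (f a)
  | cz a b => exact sym_czOp (f a) (f b)

end GateOp

section Wires

variable {W : Type} [DecidableEq W]

/-- the operator form of an elementary gate is `EG.act` -/
lemma gOp_eq_act (g : EG W) (ψ : RVec W) : gOp id g ψ = g.act ψ := by
  funext σ
  cases g with
  | rot k a =>
    simp only [gOp, rotOp, id, EG.act, LinearMap.add_apply, LinearMap.smul_apply, Pi.add_apply,
      Pi.smul_apply, Z_apply, X_apply, smul_eq_mul, R338.flip]
    cases h : σ a
    · have e : Function.update σ a false = σ := by rw [← h]; exact Function.update_eq_self a σ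
      rw [e]; simp [rmat]
    · have e : Function.update σ a true = σ := by rw [← h]; exact Function.update_eq_self a σ
      rw [e]; simp [rmat]; ring
  | cz a b =>
    simp only [gOp, id, EG.act, czOp_apply]

variable [Fintype W]

lemma isGate_gOp (g : EG W) : Clock.IsGate (gOp id g : Op W) where
  symm f h := by
    have := sym_gOp id g f h
    simp only [dotProduct] at this
    unfold Clock.ip
    exact this.symm
  invol f := by
    have := gOp_mul_self id g
    rw [← Module.End.mul_apply, this, Module.End.one_apply]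

end Wires

section Curry

variable {W : Type} {κ : Type}

/-- clock configuration first -/
def cur (ψ : Q (W ⊕ κ)) : (κ → Bool) → (W → Bool) → ℝ := fun c w => ψ (Sum.elim w c)

/-- inverse of `cur` -/
def unc (Ψ : (κ → Bool) → (W → Bool) → ℝ) : Q (W ⊕ κ) :=
  fun σ => Ψ (fun k => σ (Sum.inr k)) (fun a => σ (Sum.inl a))

@[simp] lemma cur_unc (Ψ : (κ → Bool) → (W → Bool) → ℝ) : cur (unc Ψ) = Ψ := by
  funext c w; simp [cur, unc]

lemma elim_surj (σ : W ⊕ κ → Bool) :
    Sum.elim (fun a => σ (Sum.inl a)) (fun k => σ (Sum.inr k)) = σ := by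
  funext x; cases x <;> rfl

variable [DecidableEq W] [DecidableEq κ]

lemma flip_inl (a : W) (w : W → Bool) (c : κ → Bool) :
    R338.flip (Sum.inl a) (Sum.elim w c) = Sum.elim (R338.flip a w) c := by
  funext x
  cases x with
  | inl b => simp only [flip_apply, Sum.elim_inl, Sum.inl.injEq]
  | inr k => simp

lemma flip_inr (k : κ) (w : W → Bool) (c : κ → Bool) :
    R338.flip (Sum.inr k) (Sum.elim w c) = Sum.elim w (R338.flip k c) := by
  funext x
  cases x with
  | inl b => simp
  | inr j => simp only [flip_apply, Sum.elim_inr, Sum.inr.injEq]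

lemma cur_gOp (g : EG W) (ψ : Q (W ⊕ κ)) (c : κ → Bool) :
    cur (gOp (Sum.inl : W → W ⊕ κ) g ψ) c = gOp id g (cur ψ c) := by
  funext w
  cases g with
  | rot k a =>
    simp only [cur, gOp, rotOp, id, LinearMap.add_apply, LinearMap.smul_apply, Pi.add_apply,
      Pi.smul_apply, Z_apply, X_apply, smul_eq_mul, flip_inl, Sum.elim_inl]
  | cz a b =>
    simp only [cur, gOp, id, czOp_apply, Sum.elim_inl]
    exact if_congr Iff.rfl rfl rfl

lemma cur_X (k : κ) (ψ : Q (W ⊕ κ)) (c : κ → Bool) :
    cur (X (Sum.inr k) ψ) c = cur ψ (R338.flip k c) := by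
  funext w
  simp only [cur, X_apply, flip_inr]

variable [Fintype W] [Fintype κ]

/-- configurations of the sum -/
def cfg : (κ → Bool) × (W → Bool) ≃ (W ⊕ κ → Bool) where
  toFun p := Sum.elim p.2 p.1
  invFun σ := (fun k => σ (Sum.inr k), fun a => σ (Sum.inl a))
  left_inv p := by simp
  right_inv σ := elim_surj σ

lemma sum_cfg (F : (W ⊕ κ → Bool) → ℝ) : ∑ σ, F σ = ∑ c : κ → Bool, ∑ w : W → Bool, F (Sum.elim w c) := by
  rw [← Equiv.sum_comp cfg, Fintype.sum_prod_type]
  rfl

lemma dot_cur (φ ψ : Q (W ⊕ κ)) : φ ⬝ᵥ ψ = ∑ c, Clock.ip (cur φ c) (cur ψ c) := by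
  unfold dotProduct Clock.ip
  rw [sum_cfg]
  rfl

lemma nsq_cur (ψ : Q (W ⊕ κ)) : R338.nsq ψ = ∑ c, Clock.nsq (cur ψ c) := by
  unfold R338.nsq
  rw [dot_cur]
  exact Finset.sum_congr rfl fun c _ => (Clock.nsq_eq_ip _).symm

end Curry

section HK

variable {W : Type} [DecidableEq W] [Fintype W] {T : ℕ}

/-- the clock Hamiltonian `H_K` as a Pauli operator. `con` is the set of constrained wires. -/
noncomputable def HKop (g : Fin T → EG W) (first last : Fin T) (out : W) (con : Finset W)
    (Jin Jprop Jclk : ℝ) : Op (W ⊕ Fin T) :=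
  (1 - Nb (Sum.inl out)) * Nb (Sum.inr last)
  + Jin • ∑ a ∈ con, Nb (Sum.inl a) * (1 - Nb (Sum.inr first))
  + Jprop • ((1 / 2 : ℝ) • (1 + Nb (Sum.inr first) - Nb (Sum.inr last))
      - (1 / 2 : ℝ) • ∑ t : Fin T, gOp Sum.inl (g t) * X (Sum.inr t))
  + Jclk • ∑ i : Fin T, ∑ j : Fin T, if (j : ℕ) = i + 1 then
      (1 - Nb (Sum.inr i)) * Nb (Sum.inr j) else 0

/-- rejection indicator -/
def rejF (out : W) : (W → Bool) → ℝ := fun w => if w out then 0 else 1

/-- number of violated constraints -/
def cntF (con : Finset W) : (W → Bool) → ℝ := fun w => ∑ a ∈ con, if w a then 1 else 0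

theorem E_HKop (g : Fin T → EG W) (first last : Fin T) (out : W) (con : Finset W)
    (Jin Jprop Jclk : ℝ) (ψ : Q (W ⊕ Fin T)) :
    E (HKop g first last out con Jin Jprop Jclk) ψ =
      Clock.HK first last (rejF out) (cntF con) (fun t => gOp id (g t)) Jin Jprop Jclk (cur ψ) := by
  unfold HKop Clock.HK
  rw [E_add, E_add, E_add, E_smul, E_smul, E_smul]
  congr 1
  · congr 1
    · congr 1
      · -- output
        unfold E
        rw [dot_cur]
        refine Finset.sum_congr rfl fun c _ => ?_
        unfold Clock.ip Clock.wsq rejF cur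
        cases hc : c last
        · simp only [Bool.false_eq_true, if_false]
          refine Finset.sum_eq_zero fun w _ => ?_
          simp [Module.End.mul_apply, Nb_apply, hc]
        · simp only [if_true]
          refine Finset.sum_congr rfl fun w _ => ?_
          cases hw : w out <;> simp [Module.End.mul_apply, Nb_apply, hc, hw, sq]
      · -- input
        congr 1
        rw [E_sum]
        have h1 : ∀ a ∈ con, E (Nb (Sum.inl a) * (1 - Nb (Sum.inr first))) ψ =
            ∑ c : Fin T → Bool, if c first = true then 0 else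
              ∑ w : W → Bool, (if w a then (1 : ℝ) else 0) * cur ψ c w ^ 2 := by
          intro a _
          unfold E
          rw [dot_cur]
          refine Finset.sum_congr rfl fun c _ => ?_
          unfold Clock.ip cur
          cases hc : c first
          · simp only [Bool.false_eq_true, if_false]
            refine Finset.sum_congr rfl fun w _ => ?_
            cases hw : w a <;> simp [Module.End.mul_apply, Nb_apply, hc, hw, sq]
          · simp only [if_true]
            refine Finset.sum_eq_zero fun w _ => ?_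
            cases hw : w a <;> simp [Module.End.mul_apply, Nb_apply, hc, hw]
        rw [Finset.sum_congr rfl h1, Finset.sum_comm]
        refine Finset.sum_congr rfl fun c _ => ?_
        by_cases hc : c first = true
        · simp [hc]
        · simp only [hc, Bool.false_eq_true, if_false]
          unfold Clock.wsq cntF
          rw [Finset.sum_comm]
          refine Finset.sum_congr rfl fun w _ => ?_
          rw [Finset.sum_mul]
    · -- propagation
      congr 1
      unfold Clock.hProp
      rw [E_sub, E_smul, E_smul]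
      congr 1
      · rw [E_sub, E_add, E_one]
        have h1 : ∀ k : Fin T, E (Nb (Sum.inr k)) ψ =
            ∑ c : Fin T → Bool, (if c k = true then (1 : ℝ) else 0) * Clock.nsq (cur ψ c) := by
          intro k
          unfold E
          rw [dot_cur]
          refine Finset.sum_congr rfl fun c _ => ?_
          unfold Clock.ip Clock.nsq cur
          rw [Finset.mul_sum]
          refine Finset.sum_congr rfl fun w _ => ?_
          cases hk : c k <;> simp [Nb_apply, hk, sq]
        rw [h1, h1, nsq_cur, ← Finset.sum_add_distrib, ← Finset.sum_sub_distrib, Finset.mul_sum]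
        refine Finset.sum_congr rfl fun c _ => ?_
        unfold Clock.wt
        ring
      · congr 1
        rw [E_sum]
        refine Finset.sum_congr rfl fun t _ => ?_
        unfold E
        rw [dot_cur]
        refine Finset.sum_congr rfl fun c _ => ?_
        rw [Module.End.mul_apply, cur_gOp, cur_X]
        rfl
  · -- clock
    congr 1
    rw [E_sum]
    have h1 : ∀ i : Fin T, E (∑ j : Fin T, if (j : ℕ) = i + 1 then
        (1 - Nb (Sum.inr i)) * Nb (Sum.inr j) else (0 : Op (W ⊕ Fin T))) ψ =
        ∑ c : Fin T → Bool, (∑ j : Fin T, if (j : ℕ) = i + 1 ∧ c i = false ∧ c j = true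
          then (1 : ℝ) else 0) * Clock.nsq (cur ψ c) := by
      intro i
      rw [E_sum]
      have h2 : ∀ j : Fin T, E (if (j : ℕ) = i + 1 then
          (1 - Nb (Sum.inr i)) * Nb (Sum.inr j) else (0 : Op (W ⊕ Fin T))) ψ =
          ∑ c : Fin T → Bool, (if (j : ℕ) = i + 1 ∧ c i = false ∧ c j = true
            then (1 : ℝ) else 0) * Clock.nsq (cur ψ c) := by
        intro j
        by_cases hj : (j : ℕ) = i + 1
        · rw [if_pos hj]
          unfold E
          rw [dot_cur]
          refine Finset.sum_congr rfl fun c _ => ?_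
          unfold Clock.ip Clock.nsq cur
          rw [Finset.mul_sum]
          refine Finset.sum_congr rfl fun w _ => ?_
          cases hi' : c i <;> cases hj' : c j <;>
            simp [Module.End.mul_apply, Nb_apply, hi', hj', hj, sq]
        · rw [if_neg hj, E_zero]
          symm
          refine Finset.sum_eq_zero fun c _ => ?_
          rw [if_neg (fun h => hj h.1), zero_mul]
      rw [Finset.sum_congr rfl fun j _ => h2 j, Finset.sum_comm]
      refine Finset.sum_congr rfl fun c _ => ?_
      rw [Finset.sum_mul]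
    rw [Finset.sum_congr rfl fun i _ => h1 i, Finset.sum_comm]
    refine Finset.sum_congr rfl fun c _ => ?_
    unfold Clock.viol
    rw [Finset.sum_mul]

/-- the word as a family of gates -/
def gfam (w : List (EG W)) : Fin w.length → EG W := fun t => w.get t

/-- running the word is `W_T` -/
lemma Wt_eq_run (w : List (EG W)) (χ : RVec W) :
    Clock.Wt (fun t : Fin w.length => (gOp id (gfam w t) : Op W)) w.length χ = run w χ := by
  have key : ∀ n ≤ w.length,
      Clock.Wt (fun t : Fin w.length => (gOp id (gfam w t) : Op W)) n χ = run (w.take n) χ := by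
    intro n
    induction n with
    | zero => intro _; simp [Clock.Wt, run]
    | succ n ih =>
      intro hn
      have hn' : n < w.length := by omega
      have h1 := Clock.Wt_succ (U := fun t : Fin w.length => (gOp id (gfam w t) : Op W)) ⟨n, hn'⟩ χ
      simp only at h1
      rw [h1, ih hn'.le, gOp_eq_act]
      unfold run
      rw [List.take_succ_eq_append_getElem hn', List.foldl_append]
      rfl
  have := key w.length le_rfl
  rwa [List.take_length] at this

/-- the counts are `0` or `≥ 1` -/
lemma cntF_zero_or (con : Finset W) (w : W → Bool) : cntF con w = 0 ∨ 1 ≤ cntF con w := by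
  unfold cntF
  by_cases h : ∃ a ∈ con, w a = true
  · obtain ⟨a, ha, hw⟩ := h
    right
    calc (1 : ℝ) = (if w a then (1 : ℝ) else 0) := by rw [hw]; rfl
      _ ≤ _ := Finset.single_le_sum (f := fun a => if w a then (1 : ℝ) else 0)
          (fun a _ => by split_ifs <;> norm_num) ha
  · push Not at h
    left
    exact Finset.sum_eq_zero fun a ha => by simp [h a ha]

lemma cntF_ne_zero (con : Finset W) (w : W → Bool) :
    cntF con w ≠ 0 ↔ ∃ a ∈ con, w a = true := by
  constructor
  · intro h
    by_contra h'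
    push Not at h'
    exact h (Finset.sum_eq_zero fun a ha => by simp [h' a ha])
  · rintro ⟨a, ha, hw⟩
    have : (1 : ℝ) ≤ cntF con w := by
      calc (1 : ℝ) = (if w a then (1 : ℝ) else 0) := by rw [hw]; rfl
        _ ≤ _ := Finset.single_le_sum (f := fun a => if w a then (1 : ℝ) else 0)
            (fun a _ => by split_ifs <;> norm_num) ha
    linarith

lemma wsq_rejF (out : W) (χ : RVec W) : Clock.wsq (rejF out) χ = RC.wt out false χ := by
  unfold Clock.wsq rejF RC.wt
  refine Finset.sum_congr rfl fun w _ => ?_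
  cases w out <;> simp

/-- the parameters of the clock Hamiltonian -/
structure Params (T : ℕ) (Jin Jprop Jclk : ℝ) : Prop where
  hin : 64 ≤ Jin
  hprop : 128 * (T : ℝ) ≤ Jprop
  hclk : 13 * Jprop ^ 2 * (T : ℝ) ^ 2 * (T + 1) + 1 ≤ Jclk

/-- the standard choice `J_in = 64`, `J_prop = 128 T`, `J_clk = 2^19 T^5` -/
lemma params_std {T : ℕ} (hT : 1 ≤ T) : Params T 64 (128 * T) (524288 * (T : ℝ) ^ 5) where
  hin := le_rfl
  hprop := le_rfl
  hclk := by
    have h : (1 : ℝ) ≤ T := by exact_mod_cast hT
    have h4 : (1 : ℝ) ≤ (T : ℝ) ^ 4 := one_le_pow₀ h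
    have h5 : (T : ℝ) ^ 4 ≤ (T : ℝ) ^ 5 := pow_le_pow_right₀ h (by norm_num)
    have e : 13 * (128 * (T : ℝ)) ^ 2 * (T : ℝ) ^ 2 * (T + 1) + 1 =
        212992 * (T : ℝ) ^ 5 + 212992 * (T : ℝ) ^ 4 + 1 := by ring
    rw [e]; linarith

variable {w : List (EG W)} {first last : Fin w.length} {out : W} {con : Finset W}
  {Jin Jprop Jclk : ℝ}

/-- **Node I.2, YES side.** -/
theorem clock_yes (hf : (first : ℕ) = 0) (hl : (last : ℕ) + 1 = w.length)
    (hyes : ∃ χ : RVec W, RC.nsq χ = 1 ∧ (∀ σ, (∃ a ∈ con, σ a = true) → χ σ = 0) ∧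
      RC.wt out false (run w χ) ≤ 1 / 3) :
    ∃ ψ : Q (W ⊕ Fin w.length), R338.nsq ψ = 1 ∧
      E (HKop (gfam w) first last out con Jin Jprop Jclk) ψ ≤ 1 / 3 / ((w.length : ℝ) + 1) := by
  obtain ⟨χ, hn, hv, hr⟩ := hyes
  obtain ⟨Ψ, h1, h2⟩ := Clock.HK_history (rej := rejF out) (cnt := cntF con) hf hl
    (fun t => isGate_gOp (gfam w t)) Jin Jprop Jclk χ
    (fun σ hσ => hv σ ((cntF_ne_zero con σ).1 hσ))
  have hT : (0 : ℝ) < (w.length : ℝ) + 1 := by positivity
  rw [Wt_eq_run, wsq_rejF] at h2
  have hχ : Clock.nsq χ = 1 := hn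
  rw [hχ, mul_one] at h1
  -- normalise
  set c : ℝ := (Real.sqrt ((w.length : ℝ) + 1))⁻¹ with hc
  have hc2 : c ^ 2 = 1 / ((w.length : ℝ) + 1) := by
    rw [hc, inv_pow, Real.sq_sqrt hT.le, one_div]
  refine ⟨c • unc Ψ, ?_, ?_⟩
  · rw [nsq_smul, nsq_cur, cur_unc, hc2]
    have : ∑ c, Clock.nsq (Ψ c) = Clock.tsq Ψ := rfl
    rw [this, h1]; field_simp
  · rw [E_smul_vec, E_HKop, cur_unc, h2, hc2]
    calc 1 / ((w.length : ℝ) + 1) * RC.wt out false (run w χ)
        ≤ 1 / ((w.length : ℝ) + 1) * (1 / 3) := mul_le_mul_of_nonneg_left hr (by positivity)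
      _ = 1 / 3 / ((w.length : ℝ) + 1) := by ring

/-- **Node I.2, NO side.** -/
theorem clock_no (hf : (first : ℕ) = 0) (hl : (last : ℕ) + 1 = w.length)
    (hJ : Params w.length Jin Jprop Jclk)
    (hno : ∀ χ : RVec W, RC.nsq χ = 1 → (∀ σ, (∃ a ∈ con, σ a = true) → χ σ = 0) →
      2 / 3 ≤ RC.wt out false (run w χ))
    (ψ : Q (W ⊕ Fin w.length)) :
    7 / 12 / ((w.length : ℝ) + 1) * R338.nsq ψ ≤
      E (HKop (gfam w) first last out con Jin Jprop Jclk) ψ := by
  rw [E_HKop, nsq_cur]
  refine Clock.HK_ge hf hl (fun w => by unfold rejF; split_ifs <;> norm_num)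
    (fun w => by unfold rejF; split_ifs <;> norm_num) (cntF_zero_or con)
    (fun t => isGate_gOp (gfam w t)) hJ.hin hJ.hprop hJ.hclk ?_ (cur ψ)
  intro χ hχ
  rw [Wt_eq_run, wsq_rejF]
  by_cases h0 : Clock.nsq χ = 0
  · rw [h0, mul_zero]
    unfold RC.wt
    exact Finset.sum_nonneg fun σ _ => by split_ifs <;> positivity
  · have hpos : 0 < Clock.nsq χ := lt_of_le_of_ne (Clock.nsq_nonneg χ) (Ne.symm h0)
    set c : ℝ := (Real.sqrt (Clock.nsq χ))⁻¹ with hc
    have hc2 : c ^ 2 = (Clock.nsq χ)⁻¹ := by
      rw [hc, inv_pow, Real.sq_sqrt hpos.le]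
    have hlin : run w (c • χ) = c • run w χ := by
      rw [← Wt_eq_run, ← Wt_eq_run]
      have key : ∀ n, Clock.Wt (fun t : Fin w.length => (gOp id (gfam w t) : Op W)) n (c • χ) =
          c • Clock.Wt (fun t : Fin w.length => (gOp id (gfam w t) : Op W)) n χ := by
        intro n
        induction n with
        | zero => rfl
        | succ n ih =>
          unfold Clock.Wt
          by_cases h : n < w.length
          · rw [dif_pos h, dif_pos h, ih, map_smul]
          · rw [dif_neg h, dif_neg h, ih]
      exact key _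
    have h1 := hno (c • χ) (by
      have : RC.nsq (c • χ) = c ^ 2 * Clock.nsq χ := by
        unfold RC.nsq Clock.nsq
        rw [Finset.mul_sum]
        exact Finset.sum_congr rfl fun σ _ => by simp only [Pi.smul_apply, smul_eq_mul]; ring
      rw [this, hc2]; exact inv_mul_cancel₀ h0)
      (fun σ hσ => by
        have : χ σ = 0 := hχ σ ((cntF_ne_zero con σ).2 hσ)
        simp [this])
    rw [hlin] at h1
    have h2 : RC.wt out false (c • run w χ) = c ^ 2 * RC.wt out false (run w χ) := by
      unfold RC.wt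
      rw [Finset.mul_sum]
      refine Finset.sum_congr rfl fun σ _ => ?_
      split_ifs
      · simp only [Pi.smul_apply, smul_eq_mul]; ring
      · ring
    rw [h2, hc2, inv_mul_eq_div, le_div_iff₀ hpos] at h1
    exact h1

end HK

end Crest.Agent.R338.CK
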