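import Crest.Prelude.Def_CoulombHamiltonian
import Crest.Agent.R335.HMoll
import Crest.Agent.R335.HFourier

/-!
Row 338 (S0529), node H1DENSITY (helper490), part 0: permutations of configurations, `H¹` calculus
on `Config n` (complex), elementary inequalities.
-/

set_option autoImplicit false

open MeasureTheory Filter Set Crest.MathPhysics.ElectronicCoulomb
open scoped ENNReal Topology ContDiff

noncomputable section
namespace Crest.Agent.R338.Dens
open Crest.Agent.R335 Crest.Agent.R335.HF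

variable {n : ℕ}

theorem kineticOne_eq_kin (f : Config n → ℂ) : kineticOne f = kin f := rfl

/-- relabelling of the electrons as a linear isometry -/
def permL (σ : Equiv.Perm (Fin n)) : Config n ≃ₗᵢ[ℝ] Config n :=
  LinearIsometryEquiv.piLpCongrLeft 2 ℝ ℝ (Equiv.prodCongr σ.symm (Equiv.refl (Fin 3)))

theorem permL_apply (σ : Equiv.Perm (Fin n)) (x : Config n) : permL σ x = permConfig σ x := by
  ext ⟨i, c⟩
  simp [permL, permConfig, LinearIsometryEquiv.piLpCongrLeft_apply, Equiv.piCongrLeft']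

theorem permConfig_apply (σ : Equiv.Perm (Fin n)) (x : Config n) (i : Fin n) (c : Fin 3) :
    permConfig σ x (i, c) = x (σ i, c) := rfl

theorem permConfig_permConfig (σ τ : Equiv.Perm (Fin n)) (x : Config n) :
    permConfig τ (permConfig σ x) = permConfig (σ * τ) x := by
  ext ⟨i, c⟩
  simp [permConfig_apply]

theorem permConfig_one (x : Config n) : permConfig 1 x = x := by
  ext ⟨i, c⟩
  simp [permConfig_apply]

theorem elPos_permConfig (σ : Equiv.Perm (Fin n)) (i : Fin n) (x : Config n) :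
    elPos i (permConfig σ x) = elPos (σ i) x := by
  ext c
  simp [elPos, permConfig_apply]

theorem permConfig_eq_permL (σ : Equiv.Perm (Fin n)) : permConfig σ = permL σ :=
  funext fun x => (permL_apply σ x).symm

theorem mp_perm (σ : Equiv.Perm (Fin n)) :
    MeasurePreserving (permConfig σ) (volume : Measure (Config n)) volume := by
  rw [permConfig_eq_permL]
  exact (permL σ).measurePreserving

theorem me_perm (σ : Equiv.Perm (Fin n)) : MeasurableEmbedding (permConfig σ) := by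
  rw [permConfig_eq_permL]
  exact (permL σ).toHomeomorph.measurableEmbedding

theorem lintegral_perm (σ : Equiv.Perm (Fin n)) (f : Config n → ℝ≥0∞) :
    ∫⁻ x, f (permConfig σ x) = ∫⁻ x, f x :=
  (mp_perm σ).lintegral_comp_emb (me_perm σ) f

theorem integral_perm {F : Type*} [NormedAddCommGroup F] [NormedSpace ℝ F]
    (σ : Equiv.Perm (Fin n)) (f : Config n → F) :
    ∫ x, f (permConfig σ x) = ∫ x, f x :=
  (mp_perm σ).integral_comp (me_perm σ) f

theorem memLp_perm {F : Type*} [NormedAddCommGroup F] {f : Config n → F} {p : ℝ≥0∞}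
    (hF : MemLp f p volume) (σ : Equiv.Perm (Fin n)) : MemLp (fun x => f (permConfig σ x)) p volume :=
  hF.comp_measurePreserving (mp_perm σ)

theorem contDiff_perm (σ : Equiv.Perm (Fin n)) : ContDiff ℝ ∞ (permConfig σ) := by
  rw [permConfig_eq_permL]
  exact (permL σ).contDiff

/-! ### gradients of permuted functions -/

theorem permL_symm_single (σ : Equiv.Perm (Fin n)) (i : Fin n) (c : Fin 3) :
    (permL σ).symm (EuclideanSpace.single (σ.symm i, c) (1 : ℝ)) =
      EuclideanSpace.single (i, c) (1 : ℝ) := by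
  rw [LinearIsometryEquiv.symm_apply_eq, permL_apply]
  ext ⟨j, d⟩
  rw [permConfig_apply]
  simp only [PiLp.single_apply, Prod.mk.injEq]
  have e : (j = σ.symm i ∧ d = c) ↔ (σ j = i ∧ d = c) := by
    rw [Equiv.eq_symm_apply]
  by_cases h : σ j = i ∧ d = c
  · rw [if_pos (e.2 h), if_pos h]
  · rw [if_neg (fun h' => h (e.1 h')), if_neg h]

/-- gradient of the permuted function -/
def permGr (σ : Equiv.Perm (Fin n)) (v : Gr (Fin n × Fin 3) ℂ) : Gr (Fin n × Fin 3) ℂ :=
  WithLp.toLp 2 fun ic => v (σ.symm ic.1, ic.2)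

theorem permGr_apply (σ : Equiv.Perm (Fin n)) (v : Gr (Fin n × Fin 3) ℂ) (i : Fin n) (c : Fin 3) :
    permGr σ v (i, c) = v (σ.symm i, c) := rfl

theorem norm_permGr (σ : Equiv.Perm (Fin n)) (v : Gr (Fin n × Fin 3) ℂ) :
    ‖permGr σ v‖ ^ 2 = ‖v‖ ^ 2 := by
  rw [PiLp.norm_sq_eq_of_L2, PiLp.norm_sq_eq_of_L2]
  exact Equiv.sum_comp (Equiv.prodCongr σ.symm (Equiv.refl (Fin 3)))
    (fun ic : Fin n × Fin 3 => ‖v ic‖ ^ 2)

theorem isH1_perm {f : Config n → ℂ} {g : Config n → Gr (Fin n × Fin 3) ℂ} (h : IsH1 f g)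
    (σ : Equiv.Perm (Fin n)) :
    IsH1 (fun x => f (permConfig σ x)) (fun x => permGr σ (g (permConfig σ x))) where
  memf := memLp_perm h.memf σ
  memg := memLp_of_comp fun ⟨i, c⟩ => by
    simp only [permGr_apply]
    exact memLp_perm (h.memgi (σ.symm i, c)) σ
  ibp := fun φ h1 h2 ⟨i, c⟩ => by
    set ψ : Config n → ℝ := fun y => φ ((permL σ).symm y) with hψ
    have hψ1 : ContDiff ℝ ∞ ψ := h1.comp (permL σ).symm.contDiff
    have hψ2 : HasCompactSupport ψ := h2.comp_homeomorph (permL σ).symm.toHomeomorph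
    have key := h.ibp ψ hψ1 hψ2 (σ.symm i, c)
    have e1 : ∀ x, fderiv ℝ φ x (EuclideanSpace.single (i, c) (1 : ℝ)) =
        fderiv ℝ ψ (permConfig σ x) (EuclideanSpace.single (σ.symm i, c) (1 : ℝ)) := by
      intro x
      have h3 : DifferentiableAt ℝ φ ((permL σ).symm (permConfig σ x)) :=
        (h1.differentiable (by simp)) _
      have h4 : HasFDerivAt (fun y : Config n => (permL σ).symm y)
          ((permL σ).symm.toContinuousLinearEquiv : Config n →L[ℝ] Config n) (permConfig σ x) :=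
        ((permL σ).symm.toContinuousLinearEquiv.hasFDerivAt)
      have h5 := (h3.hasFDerivAt.comp (permConfig σ x) h4).fderiv
      have h6 : fderiv ℝ ψ (permConfig σ x) = _ := h5
      rw [h6]
      have h7 : (permL σ).symm (permConfig σ x) = x := by
        rw [← permL_apply, LinearIsometryEquiv.symm_apply_apply]
      rw [h7]
      have h8 := permL_symm_single σ i c
      simp only [ContinuousLinearMap.comp_apply]
      congr 1
      exact h8.symm
    have e2 : ∀ x, φ x = ψ (permConfig σ x) := by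
      intro x
      simp only [hψ]
      rw [← permL_apply, LinearIsometryEquiv.symm_apply_apply]
    simp only [permGr_apply]
    calc ∫ x, fderiv ℝ φ x (EuclideanSpace.single (i, c) (1 : ℝ)) • f (permConfig σ x)
        = ∫ x, (fun y => fderiv ℝ ψ y (EuclideanSpace.single (σ.symm i, c) (1 : ℝ)) • f y)
            (permConfig σ x) := by
          refine integral_congr_ae (Eventually.of_forall fun x => ?_)
          simp only [e1]
      _ = ∫ y, fderiv ℝ ψ y (EuclideanSpace.single (σ.symm i, c) (1 : ℝ)) • f y :=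
          integral_perm σ (fun y => fderiv ℝ ψ y
            (EuclideanSpace.single (σ.symm i, c) (1 : ℝ)) • f y)
      _ = - ∫ y, ψ y • g y (σ.symm i, c) := key
      _ = - ∫ x, (fun y => ψ y • g y (σ.symm i, c)) (permConfig σ x) := by
          rw [integral_perm σ (fun y => ψ y • g y (σ.symm i, c))]
      _ = - ∫ x, φ x • g (permConfig σ x) (σ.symm i, c) := by
          congr 1
          refine integral_congr_ae (Eventually.of_forall fun x => ?_)
          simp only [e2]

/-! ### elementary inequality -/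

theorem abs_sq_add_sub_le {F : Type*} [NormedAddCommGroup F] (a b : F) {t : ℝ} (ht : 0 < t) :
    |‖a + b‖ ^ 2 - ‖a‖ ^ 2| ≤ t * ‖a‖ ^ 2 + (1 + 1 / t) * ‖b‖ ^ 2 := by
  have h1 : ‖a + b‖ ≤ ‖a‖ + ‖b‖ := norm_add_le a b
  have h2 : ‖a‖ ≤ ‖a + b‖ + ‖b‖ := by
    have := norm_sub_le (a + b) b
    simpa using this
  have h3 : 2 * ‖a‖ * ‖b‖ ≤ t * ‖a‖ ^ 2 + 1 / t * ‖b‖ ^ 2 := by
    have h4 : 0 ≤ (t * ‖a‖ - ‖b‖) ^ 2 / t := by positivity
    have h5 : (t * ‖a‖ - ‖b‖) ^ 2 / t = t * ‖a‖ ^ 2 - 2 * ‖a‖ * ‖b‖ + 1 / t * ‖b‖ ^ 2 := by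
      field_simp
      ring
    linarith
  have ha := norm_nonneg a
  have hb := norm_nonneg b
  have hab := norm_nonneg (a + b)
  rw [abs_le]
  constructor
  · have : ‖a‖ ^ 2 ≤ ‖a + b‖ ^ 2 + (2 * ‖a‖ * ‖b‖ + ‖b‖ ^ 2) := by
      rcases le_total ‖a‖ ‖b‖ with h | h
      · nlinarith
      · have : (‖a‖ - ‖b‖) ^ 2 ≤ ‖a + b‖ ^ 2 := by
          apply pow_le_pow_left₀ (by linarith) (by linarith)
        nlinarith
    nlinarith
  · have : ‖a + b‖ ^ 2 ≤ (‖a‖ + ‖b‖) ^ 2 := pow_le_pow_left₀ hab h1 2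
    nlinarith

theorem norm_sq_sum_le {ι F : Type*} [NormedAddCommGroup F] (s : Finset ι) (v : ι → F) :
    ‖∑ i ∈ s, v i‖ ^ 2 ≤ s.card * ∑ i ∈ s, ‖v i‖ ^ 2 := by
  have h1 : ‖∑ i ∈ s, v i‖ ≤ ∑ i ∈ s, ‖v i‖ := norm_sum_le s v
  have h2 : (∑ i ∈ s, ‖v i‖) ^ 2 ≤ s.card * ∑ i ∈ s, ‖v i‖ ^ 2 :=
    sq_sum_le_card_mul_sum_sq
  exact (pow_le_pow_left₀ (norm_nonneg _) h1 2).trans h2

/-- perturbation of weighted square integrals -/
theorem abs_integral_sub_le {α F : Type*} [MeasurableSpace α] {μ : Measure α}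
    [NormedAddCommGroup F] {w : α → ℝ} {f r : α → F} {t : ℝ} (ht : 0 < t)
    (hf : Integrable (fun x => w x * ‖f x‖ ^ 2) μ) (hr : Integrable (fun x => w x * ‖r x‖ ^ 2) μ)
    (hfr : Integrable (fun x => w x * ‖f x + r x‖ ^ 2) μ) :
    |(∫ x, w x * ‖f x + r x‖ ^ 2 ∂μ) - ∫ x, w x * ‖f x‖ ^ 2 ∂μ| ≤
      t * (∫ x, |w x| * ‖f x‖ ^ 2 ∂μ) + (1 + 1 / t) * ∫ x, |w x| * ‖r x‖ ^ 2 ∂μ := by
  have hf' : Integrable (fun x => |w x| * ‖f x‖ ^ 2) μ := by
    refine hf.norm.congr (Eventually.of_forall fun x => ?_)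
    simp
  have hr' : Integrable (fun x => |w x| * ‖r x‖ ^ 2) μ := by
    refine hr.norm.congr (Eventually.of_forall fun x => ?_)
    simp
  rw [← integral_sub hfr hf, ← integral_const_mul, ← integral_const_mul,
    ← integral_add (hf'.const_mul t) (hr'.const_mul _)]
  refine (abs_integral_le_integral_abs).trans ?_
  refine integral_mono (hfr.sub hf).abs ((hf'.const_mul t).add (hr'.const_mul _)) fun x => ?_
  have h := abs_sq_add_sub_le (f x) (r x) ht
  have e : w x * ‖f x + r x‖ ^ 2 - w x * ‖f x‖ ^ 2 = w x * (‖f x + r x‖ ^ 2 - ‖f x‖ ^ 2) := by ring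
  simp only [e, abs_mul]
  calc |w x| * |‖f x + r x‖ ^ 2 - ‖f x‖ ^ 2|
      ≤ |w x| * (t * ‖f x‖ ^ 2 + (1 + 1 / t) * ‖r x‖ ^ 2) :=
        mul_le_mul_of_nonneg_left h (abs_nonneg _)
    _ = t * (|w x| * ‖f x‖ ^ 2) + (1 + 1 / t) * (|w x| * ‖r x‖ ^ 2) := by ring

end Crest.Agent.R338.Dens
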