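import Crest.Agent.R338.Dens0

/-!
Row 338 (S0529), node H1DENSITY (helper490), part 1: `C_c^∞` is dense in `H¹(Config n; ℂ)`.
-/

set_option autoImplicit false
set_option linter.unusedSectionVars false

open MeasureTheory Filter Set Crest.MathPhysics.ElectronicCoulomb
open scoped ENNReal Topology ContDiff

noncomputable section
namespace Crest.Agent.R338.Dens
open Crest.Agent.R335 Crest.Agent.R335.HF

variable {ι : Type*} [Fintype ι] [DecidableEq ι]

/-- `∫ ‖u‖²` and the `L²` norm -/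
theorem integral_sq_eq {F : Type*} [NormedAddCommGroup F] {u : E ι → F}
    (hu : AEStronglyMeasurable u volume) :
    ∫ x, ‖u x‖ ^ 2 = ((eLpNorm u 2 volume) ^ 2).toReal := by
  have e := integral_eq_lintegral_of_nonneg_ae (f := fun x => ‖u x‖ ^ 2)
      (μ := (volume : Measure (E ι))) (Eventually.of_forall fun x => by positivity)
      (hu.norm.pow 2)
  rw [e]
  congr 1
  rw [eLpNorm_eq_lintegral_rpow_enorm_toReal (by norm_num) (by norm_num)]
  simp only [ENNReal.toReal_ofNat, ENNReal.rpow_ofNat]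
  rw [← ENNReal.rpow_natCast, ← ENNReal.rpow_mul]
  norm_num

theorem tendsto_integral_sq {F : Type*} [NormedAddCommGroup F] {u : ℕ → E ι → F}
    (hu : ∀ k, AEStronglyMeasurable (u k) volume)
    (h : Tendsto (fun k => eLpNorm (u k) 2 volume) atTop (𝓝 0)) :
    Tendsto (fun k => ∫ x, ‖u k x‖ ^ 2) atTop (𝓝 0) := by
  simp only [integral_sq_eq (hu _)]
  have h1 := (ENNReal.continuous_pow 2).tendsto (0 : ℝ≥0∞)
  have h2 := h1.comp h
  have h3 := (ENNReal.tendsto_toReal (a := (0 : ℝ≥0∞) ^ 2) (by simp)).comp h2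
  simpa [Function.comp_def] using h3

/-- `C_c^∞` functions are dense in `H¹` (complex valued) -/
theorem exists_approx_one {f : E ι → ℂ} {g : E ι → Gr ι ℂ} (h : IsH1 f g) {ε : ℝ} (hε : 0 < ε) :
    ∃ φ : E ι → ℂ, ContDiff ℝ ∞ φ ∧ HasCompactSupport φ ∧ IsH1 φ (cgrad φ) ∧
      ∫ x, ‖φ x - f x‖ ^ 2 ≤ ε ∧ ∫ x, ‖cgrad φ x - g x‖ ^ 2 ≤ ε := by
  obtain ⟨φ, hφ, hφ1, hφ2, -⟩ := H1.approx h.re_H1
  obtain ⟨ψ, hψ, hψ1, hψ2, -⟩ := H1.approx h.im_H1
  have hgr : ∀ {χ : E ι → ℝ}, Test univ χ → MemLp (gr χ) 2 volume := by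
    intro χ hχ
    have h1 := isH1_of_contDiff_compact (F := ℝ) (hχ.smooth.of_le (by simp)) hχ.cpt
    exact (isH1_iff_H1.1 h1).memg
  have t1 := tendsto_integral_sq (u := fun k x => φ k x - (f x).re)
    (fun k => ((hφ k).smooth.continuous.aestronglyMeasurable.sub h.re_H1.memf.1)) hφ1
  have t2 := tendsto_integral_sq (u := fun k x => ψ k x - (f x).im)
    (fun k => ((hψ k).smooth.continuous.aestronglyMeasurable.sub h.im_H1.memf.1)) hψ1
  have t3 := tendsto_integral_sq (u := fun k x => gr (φ k) x - gre g x)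
    (fun k => ((hgr (hφ k)).1.sub h.re_H1.memg.1)) hφ2
  have t4 := tendsto_integral_sq (u := fun k x => gr (ψ k) x - gim g x)
    (fun k => ((hgr (hψ k)).1.sub h.im_H1.memg.1)) hψ2
  have hε2 : 0 < ε / 2 := by positivity
  obtain ⟨k, ⟨hk1, hk2⟩, hk3, hk4⟩ := (((t1.eventually_le_const hε2).and
    (t2.eventually_le_const hε2)).and ((t3.eventually_le_const hε2).and
      (t4.eventually_le_const hε2))).exists
  set Φ : E ι → ℂ := fun x => (φ k x : ℂ) + Complex.I * (ψ k x : ℂ) with hΦ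
  have c1 : ContDiff ℝ ∞ Φ :=
    (Complex.ofRealCLM.contDiff.comp (hφ k).smooth).add
      (contDiff_const.mul (Complex.ofRealCLM.contDiff.comp (hψ k).smooth))
  have c2 : HasCompactSupport Φ := by
    refine HasCompactSupport.add ?_ ?_
    · exact (hφ k).cpt.comp_left (g := fun r : ℝ => (r : ℂ)) (by simp)
    · exact (hψ k).cpt.comp_left (g := fun r : ℝ => Complex.I * (r : ℂ)) (by simp)
  have c3 : IsH1 Φ (cgrad Φ) := isH1_of_contDiff_compact (c1.of_le (by simp)) c2
  refine ⟨Φ, c1, c2, c3, ?_, ?_⟩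
  · have e : ∀ x, ‖Φ x - f x‖ ^ 2 = ‖φ k x - (f x).re‖ ^ 2 + ‖ψ k x - (f x).im‖ ^ 2 := by
      intro x
      rw [← Complex.normSq_eq_norm_sq, Complex.normSq_apply]
      simp only [hΦ, Complex.sub_re, Complex.add_re, Complex.ofReal_re, Complex.mul_re,
        Complex.I_re, Complex.I_im, Complex.ofReal_im, Complex.sub_im, Complex.add_im,
        Complex.mul_im, Real.norm_eq_abs, sq_abs]
      ring
    simp only [e]
    rw [integral_add]
    · linarith
    · exact (((hφ k).smooth.continuous.memLp_of_hasCompactSupport (hφ k).cpt).sub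
        h.re_H1.memf).integrable_norm_pow (by norm_num)
    · exact (((hψ k).smooth.continuous.memLp_of_hasCompactSupport (hψ k).cpt).sub
        h.im_H1.memf).integrable_norm_pow (by norm_num)
  · have ed : ∀ x v, fderiv ℝ Φ x v = (fderiv ℝ (φ k) x v : ℂ) + Complex.I *
        (fderiv ℝ (ψ k) x v : ℂ) := by
      intro x v
      have a1 : HasFDerivAt (fun x => (φ k x : ℂ)) (Complex.ofRealCLM.comp (fderiv ℝ (φ k) x)) x :=
        (Complex.ofRealCLM.hasFDerivAt).comp x
          (((hφ k).smooth.differentiable (by simp)) x).hasFDerivAt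
      have a2 : HasFDerivAt (fun x => (ψ k x : ℂ)) (Complex.ofRealCLM.comp (fderiv ℝ (ψ k) x)) x :=
        (Complex.ofRealCLM.hasFDerivAt).comp x
          (((hψ k).smooth.differentiable (by simp)) x).hasFDerivAt
      have a3 := a1.add (a2.const_mul Complex.I)
      have a4 : fderiv ℝ Φ x = _ := a3.fderiv
      rw [a4]
      simp
    have e : ∀ x, ‖cgrad Φ x - g x‖ ^ 2 = ‖gr (φ k) x - gre g x‖ ^ 2 +
        ‖gr (ψ k) x - gim g x‖ ^ 2 := by
      intro x
      rw [PiLp.norm_sq_eq_of_L2, PiLp.norm_sq_eq_of_L2, PiLp.norm_sq_eq_of_L2,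
        ← Finset.sum_add_distrib]
      refine Finset.sum_congr rfl fun i _ => ?_
      rw [← Complex.normSq_eq_norm_sq, Complex.normSq_apply]
      simp only [PiLp.sub_apply, cgrad_apply, ed, Complex.sub_re, Complex.add_re,
        Complex.ofReal_re, Complex.mul_re, Complex.I_re, Complex.I_im, Complex.ofReal_im,
        Complex.sub_im, Complex.add_im, Complex.mul_im, Real.norm_eq_abs, sq_abs, gr_apply, pd,
        gre, gim]
      ring
    simp only [e]
    rw [integral_add]
    · linarith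
    · exact ((hgr (hφ k)).sub h.re_H1.memg).integrable_norm_pow (by norm_num)
    · exact ((hgr (hψ k)).sub h.im_H1.memg).integrable_norm_pow (by norm_num)

end Crest.Agent.R338.Dens
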