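import Crest.Agent.R338.Dens1

/-!
Row 338 (S0529), node H1DENSITY (helper490), part 2: the antisymmetrizer and antisymmetric
`C_c^∞` approximation of admissible waves; convergence of norm and energy.
-/

set_option autoImplicit false
set_option linter.unusedSectionVars false

open MeasureTheory Filter Set Crest.MathPhysics.ElectronicCoulomb
open scoped ENNReal Topology ContDiff

noncomputable section
namespace Crest.Agent.R338.Dens
open Crest.Agent.R335 Crest.Agent.R335.HF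

variable {n : ℕ}

/-- exact antisymmetry of a wave (the second part of `IsFermionic`) -/
def Anti (Ψ : Wave n) : Prop :=
  ∀ (σ : Equiv.Perm (Fin n)) (s : Spin n) (x : Config n),
    Ψ (fun i => s (σ i)) (permConfig σ x) = ((Equiv.Perm.sign σ : ℤ) : ℂ) * Ψ s x

/-- the antisymmetrizer -/
def anti (Φ : Wave n) : Wave n := fun s x =>
  ∑ σ : Equiv.Perm (Fin n), (((n.factorial : ℂ))⁻¹ * ((Equiv.Perm.sign σ : ℤ) : ℂ)) •
    Φ (fun i => s (σ i)) (permConfig σ x)

theorem sign_mul_self (σ : Equiv.Perm (Fin n)) :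
    ((Equiv.Perm.sign σ : ℤ) : ℂ) * ((Equiv.Perm.sign σ : ℤ) : ℂ) = 1 := by
  rw [← Int.cast_mul]
  have : (Equiv.Perm.sign σ : ℤ) * (Equiv.Perm.sign σ : ℤ) = 1 := by
    rcases Int.units_eq_one_or (Equiv.Perm.sign σ) with h | h <;> simp [h]
  rw [this]; simp

theorem norm_sign (σ : Equiv.Perm (Fin n)) : ‖((Equiv.Perm.sign σ : ℤ) : ℂ)‖ = 1 := by
  rcases Int.units_eq_one_or (Equiv.Perm.sign σ) with h | h <;> simp [h]

theorem anti_anti (Φ : Wave n) : Anti (anti Φ) := by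
  intro τ s x
  unfold anti
  rw [Finset.mul_sum]
  refine Fintype.sum_equiv (Equiv.mulLeft τ) _ _ fun σ => ?_
  simp only [Equiv.coe_mulLeft, permConfig_permConfig, smul_eq_mul]
  have e1 : (fun i => s (τ (σ i))) = fun i => s ((τ * σ) i) := rfl
  have e2 : (((Equiv.Perm.sign (τ * σ) : ℤˣ) : ℤ) : ℂ) =
      ((Equiv.Perm.sign τ : ℤ) : ℂ) * ((Equiv.Perm.sign σ : ℤ) : ℂ) := by
    rw [Equiv.Perm.sign_mul]; push_cast; rfl
  rw [e1, e2]
  have h := sign_mul_self τ
  generalize ((Equiv.Perm.sign τ : ℤ) : ℂ) = a at *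
  generalize ((Equiv.Perm.sign σ : ℤ) : ℂ) = b at *
  generalize Φ (fun i => s ((τ * σ) i)) (permConfig (τ * σ) x) = z at *
  linear_combination (((n.factorial : ℂ))⁻¹ * b * z) * (-h)

theorem anti_of_anti {Ψ : Wave n} (h : Anti Ψ) : anti Ψ = Ψ := by
  funext s x
  unfold anti
  have e : ∀ σ : Equiv.Perm (Fin n), (((n.factorial : ℂ))⁻¹ * ((Equiv.Perm.sign σ : ℤ) : ℂ)) •
      Ψ (fun i => s (σ i)) (permConfig σ x) = ((n.factorial : ℂ))⁻¹ * Ψ s x := by
    intro σ
    rw [h σ s x, smul_eq_mul]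
    have := sign_mul_self σ
    linear_combination (((n.factorial : ℂ))⁻¹ * Ψ s x) * this
  simp only [e]
  rw [Finset.sum_const, Finset.card_univ, Fintype.card_perm, Fintype.card_fin, nsmul_eq_mul,
    ← mul_assoc, mul_inv_cancel₀, one_mul]
  exact_mod_cast n.factorial_ne_zero

theorem anti_sub (Φ Ψ : Wave n) (s : Spin n) (x : Config n) :
    anti (fun s x => Φ s x - Ψ s x) s x = anti Φ s x - anti Ψ s x := by
  unfold anti
  rw [← Finset.sum_sub_distrib]
  refine Finset.sum_congr rfl fun σ _ => ?_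
  rw [smul_sub]

/-- gradient of the antisymmetrized wave -/
def antiGr (G : Spin n → Config n → Gr (Fin n × Fin 3) ℂ) (s : Spin n) (x : Config n) :
    Gr (Fin n × Fin 3) ℂ :=
  ∑ σ : Equiv.Perm (Fin n), (((n.factorial : ℂ))⁻¹ * ((Equiv.Perm.sign σ : ℤ) : ℂ)) •
    permGr σ (G (fun i => s (σ i)) (permConfig σ x))

theorem isH1_anti {Φ : Wave n} {G : Spin n → Config n → Gr (Fin n × Fin 3) ℂ}
    (h : ∀ s, IsH1 (Φ s) (G s)) (s : Spin n) : IsH1 (anti Φ s) (antiGr G s) :=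
  IsH1.finset_sum Finset.univ fun σ _ => (isH1_perm (h fun i => s (σ i)) σ).const_smul _

theorem norm_coef (σ : Equiv.Perm (Fin n)) :
    ‖((n.factorial : ℂ))⁻¹ * ((Equiv.Perm.sign σ : ℤ) : ℂ)‖ = ((n.factorial : ℝ))⁻¹ := by
  rw [norm_mul, norm_sign, mul_one, norm_inv, Complex.norm_natCast]

theorem norm_sum_coef_le {F : Type*} [NormedAddCommGroup F] [NormedSpace ℂ F]
    (v : Equiv.Perm (Fin n) → F) :
    ‖∑ σ : Equiv.Perm (Fin n), (((n.factorial : ℂ))⁻¹ * ((Equiv.Perm.sign σ : ℤ) : ℂ)) • v σ‖ ^ 2 ≤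
      ∑ σ : Equiv.Perm (Fin n), ((n.factorial : ℝ))⁻¹ * ‖v σ‖ ^ 2 := by
  refine (norm_sq_sum_le Finset.univ _).trans ?_
  rw [Finset.card_univ, Fintype.card_perm, Fintype.card_fin, Finset.mul_sum]
  refine (Finset.sum_congr rfl fun σ _ => ?_).le
  rw [norm_smul, norm_coef, mul_pow]
  have : (n.factorial : ℝ) ≠ 0 := by exact_mod_cast n.factorial_ne_zero
  field_simp

theorem integral_anti_le {Φ : Wave n} (h : ∀ s, MemLp (Φ s) 2 volume) {ε : ℝ}
    (hε : ∀ s, ∫ x, ‖Φ s x‖ ^ 2 ≤ ε) (s : Spin n) (hs : MemLp (anti Φ s) 2 volume) :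
    ∫ x, ‖anti Φ s x‖ ^ 2 ≤ ε := by
  have i1 : ∀ σ : Equiv.Perm (Fin n), Integrable
      (fun x => ((n.factorial : ℝ))⁻¹ * ‖Φ (fun i => s (σ i)) (permConfig σ x)‖ ^ 2) volume :=
    fun σ => ((memLp_perm (h _) σ).integrable_norm_pow (by norm_num)).const_mul _
  calc ∫ x, ‖anti Φ s x‖ ^ 2
      ≤ ∫ x, ∑ σ : Equiv.Perm (Fin n), ((n.factorial : ℝ))⁻¹ *
          ‖Φ (fun i => s (σ i)) (permConfig σ x)‖ ^ 2 :=
        integral_mono (hs.integrable_norm_pow (by norm_num)) (integrable_finsetSum _ fun σ _ => i1 σ)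
          fun x => norm_sum_coef_le (fun σ => Φ (fun i => s (σ i)) (permConfig σ x))
    _ = ∑ σ : Equiv.Perm (Fin n), ((n.factorial : ℝ))⁻¹ * ∫ x, ‖Φ (fun i => s (σ i)) x‖ ^ 2 := by
        rw [integral_finsetSum _ fun σ _ => i1 σ]
        refine Finset.sum_congr rfl fun σ _ => ?_
        rw [integral_const_mul, integral_perm σ (fun x => ‖Φ (fun i => s (σ i)) x‖ ^ 2)]
    _ ≤ ∑ σ : Equiv.Perm (Fin n), ((n.factorial : ℝ))⁻¹ * ε := by
        refine Finset.sum_le_sum fun σ _ => ?_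
        exact mul_le_mul_of_nonneg_left (hε _) (by positivity)
    _ = ε := by
        rw [Finset.sum_const, Finset.card_univ, Fintype.card_perm, Fintype.card_fin, nsmul_eq_mul,
          ← mul_assoc, mul_inv_cancel₀, one_mul]
        exact_mod_cast n.factorial_ne_zero

theorem integral_antiGr_le {G : Spin n → Config n → Gr (Fin n × Fin 3) ℂ}
    (h : ∀ s, MemLp (G s) 2 volume) {ε : ℝ}
    (hε : ∀ s, ∫ x, ‖G s x‖ ^ 2 ≤ ε) (s : Spin n) (hs : MemLp (antiGr G s) 2 volume) :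
    ∫ x, ‖antiGr G s x‖ ^ 2 ≤ ε := by
  have i1 : ∀ σ : Equiv.Perm (Fin n), Integrable
      (fun x => ((n.factorial : ℝ))⁻¹ * ‖G (fun i => s (σ i)) (permConfig σ x)‖ ^ 2) volume :=
    fun σ => ((memLp_perm (h _) σ).integrable_norm_pow (by norm_num)).const_mul _
  calc ∫ x, ‖antiGr G s x‖ ^ 2
      ≤ ∫ x, ∑ σ : Equiv.Perm (Fin n), ((n.factorial : ℝ))⁻¹ *
          ‖G (fun i => s (σ i)) (permConfig σ x)‖ ^ 2 :=
        integral_mono (hs.integrable_norm_pow (by norm_num)) (integrable_finsetSum _ fun σ _ => i1 σ)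
          fun x => by
            refine (norm_sum_coef_le
              (fun σ => permGr σ (G (fun i => s (σ i)) (permConfig σ x)))).trans ?_
            refine (Finset.sum_congr rfl fun σ _ => ?_).le
            rw [norm_permGr]
    _ = ∑ σ : Equiv.Perm (Fin n), ((n.factorial : ℝ))⁻¹ * ∫ x, ‖G (fun i => s (σ i)) x‖ ^ 2 := by
        rw [integral_finsetSum _ fun σ _ => i1 σ]
        refine Finset.sum_congr rfl fun σ _ => ?_
        rw [integral_const_mul, integral_perm σ (fun x => ‖G (fun i => s (σ i)) x‖ ^ 2)]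
    _ ≤ ∑ σ : Equiv.Perm (Fin n), ((n.factorial : ℝ))⁻¹ * ε := by
        refine Finset.sum_le_sum fun σ _ => ?_
        exact mul_le_mul_of_nonneg_left (hε _) (by positivity)
    _ = ε := by
        rw [Finset.sum_const, Finset.card_univ, Fintype.card_perm, Fintype.card_fin, nsmul_eq_mul,
          ← mul_assoc, mul_inv_cancel₀, one_mul]
        exact_mod_cast n.factorial_ne_zero

theorem contDiff_anti {Φ : Wave n} (h : ∀ s, ContDiff ℝ ∞ (Φ s)) (s : Spin n) :
    ContDiff ℝ ∞ (anti Φ s) := by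
  unfold anti
  refine ContDiff.sum fun σ _ => ?_
  have h1 : ContDiff ℝ ∞ (fun x : Config n => Φ (fun i => s (σ i)) (permConfig σ x)) :=
    (h _).comp (contDiff_perm σ)
  exact (contDiff_const (c := (((n.factorial : ℂ))⁻¹ * ((Equiv.Perm.sign σ : ℤ) : ℂ)))).mul h1

theorem hasCompactSupport_anti {Φ : Wave n} (h : ∀ s, HasCompactSupport (Φ s)) (s : Spin n) :
    HasCompactSupport (anti Φ s) := by
  have key : ∀ t : Finset (Equiv.Perm (Fin n)), HasCompactSupport (fun x =>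
      ∑ σ ∈ t, (((n.factorial : ℂ))⁻¹ * ((Equiv.Perm.sign σ : ℤ) : ℂ)) •
        Φ (fun i => s (σ i)) (permConfig σ x)) := by
    intro t
    classical
    induction t using Finset.induction_on with
    | empty =>
      simp only [Finset.sum_empty]
      exact (HasCompactSupport.zero : HasCompactSupport (0 : Config n → ℂ))
    | insert σ t hσ ih =>
      simp only [Finset.sum_insert hσ]
      refine HasCompactSupport.add ?_ ih
      have h1 : HasCompactSupport (fun x => Φ (fun i => s (σ i)) (permConfig σ x)) := by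
        have := (h fun i => s (σ i)).comp_homeomorph (permL σ).toHomeomorph
        have e : ((Φ fun i => s (σ i)) ∘ ⇑(permL σ).toHomeomorph) =
            fun x => Φ (fun i => s (σ i)) (permConfig σ x) := by
          funext x
          show Φ (fun i => s (σ i)) (permL σ x) = _
          rw [permL_apply]
        rwa [e] at this
      exact h1.comp_left (g := fun z : ℂ =>
        (((n.factorial : ℂ))⁻¹ * ((Equiv.Perm.sign σ : ℤ) : ℂ)) • z) (by simp)
  exact key Finset.univ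

/-- antisymmetric `C_c^∞` approximation in `H¹` -/
theorem exists_anti_approx {Ψ : Wave n} (hA : Anti Ψ)
    {G : Spin n → Config n → Gr (Fin n × Fin 3) ℂ} (hG : ∀ s, IsH1 (Ψ s) (G s)) {ε : ℝ}
    (hε : 0 < ε) :
    ∃ (Φ : Wave n) (L : Spin n → Config n → Gr (Fin n × Fin 3) ℂ), Anti Φ ∧
      (∀ s, ContDiff ℝ ∞ (Φ s)) ∧ (∀ s, HasCompactSupport (Φ s)) ∧
      (∀ s, IsH1 (fun x => Φ s x - Ψ s x) (L s)) ∧
      (∀ s, ∫ x, ‖Φ s x - Ψ s x‖ ^ 2 ≤ ε) ∧ (∀ s, ∫ x, ‖L s x‖ ^ 2 ≤ ε) := by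
  choose φ h1 h2 h3 h4 h5 using fun s => exists_approx_one (hG s) hε
  have hR : ∀ s, IsH1 (fun x => φ s x - Ψ s x) (fun x => cgrad (φ s) x - G s x) :=
    fun s => (h3 s).sub (hG s)
  have hAR := isH1_anti (Φ := fun s x => φ s x - Ψ s x) (G := fun s x => cgrad (φ s) x - G s x) hR
  have e : ∀ s, anti (fun s x => φ s x - Ψ s x) s = fun x => anti φ s x - Ψ s x := by
    intro s
    funext x
    rw [anti_sub, anti_of_anti hA]
  refine ⟨anti φ, antiGr fun s x => cgrad (φ s) x - G s x, anti_anti φ, contDiff_anti h1,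
    hasCompactSupport_anti h2, fun s => ?_, fun s => ?_, fun s => ?_⟩
  · rw [← e s]; exact hAR s
  · have := integral_anti_le (Φ := fun s x => φ s x - Ψ s x) (fun s => (hR s).memf) h4 s
      (hAR s).memf
    rwa [e s] at this
  · exact integral_antiGr_le (fun s => (hR s).memg) h5 s (hAR s).memg

end Crest.Agent.R338.Dens
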