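import Crest.Agent.R338.Dens2

/-!
Row 338 (S0529), node H1DENSITY (helper490), part 3: density of antisymmetric `C_c^∞` waves for the
energy form of a form bounded potential.

Main results: `exists_cc_approx`, `infEnergyGE_of_cc`.
-/

set_option autoImplicit false
set_option linter.unusedSectionVars false

open MeasureTheory Filter Set Crest.MathPhysics.ElectronicCoulomb
open scoped ENNReal Topology ContDiff

noncomputable section
namespace Crest.Agent.R338.Dens
open Crest.Agent.R335 Crest.Agent.R335.HF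

variable {n : ℕ}

/-- `W` is form bounded with respect to the `H¹` norm. -/
def FormBdd (W : Config n → ℝ) : Prop :=
  ∃ C : ℝ, 0 ≤ C ∧ ∀ (f : Config n → ℂ) (g : Config n → Gr (Fin n × Fin 3) ℂ), IsH1 f g →
    Integrable (fun x => W x * ‖f x‖ ^ 2) ∧
      ∫ x, |W x| * ‖f x‖ ^ 2 ≤ C * ((∫ x, ‖f x‖ ^ 2) + ∫ x, ‖g x‖ ^ 2)

theorem kineticOne_lt_top_iff {f : Config n → ℂ} : kineticOne f < ⊤ ↔ ∃ g, IsH1 f g := by
  rw [kineticOne_eq_kin]; exact kin_lt_top_iff

theorem kineticOne_toReal {f : Config n → ℂ} {g : Config n → Gr (Fin n × Fin 3) ℂ}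
    (h : IsH1 f g) : (kineticOne f).toReal = (1 / 2) * ∫ x, ‖g x‖ ^ 2 := by
  rw [kineticOne_eq_kin]; exact h.kin_toReal

theorem kinetic_lt_top_iff {Ψ : Wave n} : kinetic Ψ < ⊤ ↔ ∃ G : Spin n → Config n →
    Gr (Fin n × Fin 3) ℂ, ∀ s, IsH1 (Ψ s) (G s) := by
  unfold kinetic
  rw [ENNReal.sum_lt_top]
  constructor
  · intro h
    choose G hG using fun s => kineticOne_lt_top_iff.1 (h s (Finset.mem_univ s))
    exact ⟨G, hG⟩
  · rintro ⟨G, hG⟩ s -
    exact kineticOne_lt_top_iff.2 ⟨G s, hG s⟩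

theorem kinetic_toReal {Ψ : Wave n} {G : Spin n → Config n → Gr (Fin n × Fin 3) ℂ}
    (h : ∀ s, IsH1 (Ψ s) (G s)) : (kinetic Ψ).toReal = ∑ s, (1 / 2) * ∫ x, ‖G s x‖ ^ 2 := by
  unfold kinetic
  rw [ENNReal.toReal_sum]
  · exact Finset.sum_congr rfl fun s _ => kineticOne_toReal (h s)
  · intro s _
    exact (kineticOne_lt_top_iff.2 ⟨_, h s⟩).ne

theorem lint_sq_ne_top {F : Type*} [NormedAddCommGroup F] {f : Config n → F}
    (h : MemLp f 2 volume) : ∫⁻ x, ‖f x‖ₑ ^ 2 ≠ ⊤ := by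
  have h2 := h.eLpNorm_lt_top
  rw [eLpNorm_lt_top_iff_lintegral_rpow_enorm_lt_top (by norm_num) (by norm_num)] at h2
  simp only [ENNReal.toReal_ofNat, ENNReal.rpow_ofNat] at h2
  exact h2.ne

theorem lint_sq_toReal {F : Type*} [NormedAddCommGroup F] {f : Config n → F}
    (h : AEStronglyMeasurable f volume) : (∫⁻ x, ‖f x‖ₑ ^ 2).toReal = ∫ x, ‖f x‖ ^ 2 := by
  have e := integral_eq_lintegral_of_nonneg_ae (f := fun x => ‖f x‖ ^ 2)
    (μ := (volume : Measure (Config n))) (Eventually.of_forall fun x => by positivity)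
    (h.norm.pow 2)
  rw [e]
  congr 1
  refine lintegral_congr fun x => ?_
  rw [enorm_sq_eq_ofReal]

theorem normSq_ne_top {Ψ : Wave n} (h : ∀ s, MemLp (Ψ s) 2 volume) : normSq Ψ ≠ ⊤ := by
  unfold normSq
  rw [ENNReal.sum_ne_top]
  exact fun s _ => lint_sq_ne_top (h s)

theorem normSq_toReal {Ψ : Wave n} (h : ∀ s, MemLp (Ψ s) 2 volume) :
    (normSq Ψ).toReal = ∑ s, ∫ x, ‖Ψ s x‖ ^ 2 := by
  unfold normSq
  rw [ENNReal.toReal_sum fun s _ => lint_sq_ne_top (h s)]
  exact Finset.sum_congr rfl fun s _ => lint_sq_toReal (h s).1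

theorem isAdmissible_of {W : Config n → ℝ} (hW : FormBdd W) {Ψ : Wave n} (hA : Anti Ψ)
    {G : Spin n → Config n → Gr (Fin n × Fin 3) ℂ} (h : ∀ s, IsH1 (Ψ s) (G s)) :
    IsAdmissible W Ψ := by
  obtain ⟨C, -, hC⟩ := hW
  exact ⟨⟨fun s => (h s).memf, hA⟩, kinetic_lt_top_iff.2 ⟨G, h⟩, fun s => (hC _ _ (h s)).1⟩

/-- choice of the parameters -/
theorem exists_small (A : ℝ) {ε : ℝ} (hε : 0 < ε) :
    ∃ t > 0, ∃ r > 0, t * |A| + (1 + 1 / t) * r ≤ ε := by
  refine ⟨ε / (2 * (|A| + 1)), by positivity, ?_⟩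
  set t := ε / (2 * (|A| + 1)) with ht
  have ht0 : 0 < t := by positivity
  refine ⟨ε / (2 * (1 + 1 / t)), by positivity, ?_⟩
  have h1 : t * |A| ≤ ε / 2 := by
    rw [ht, div_mul_eq_mul_div, div_le_iff₀ (by positivity)]
    have := abs_nonneg A
    nlinarith
  have h2 : (1 + 1 / t) * (ε / (2 * (1 + 1 / t))) = ε / 2 := by
    have : (1 + 1 / t) ≠ 0 := by positivity
    field_simp
  linarith

/-- **Density**: an antisymmetric wave of finite kinetic energy is approximated in norm and energy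
by exactly antisymmetric waves with `C_c^∞` components. -/
theorem exists_cc_approx {W : Config n → ℝ} (hW : FormBdd W) {Ψ : Wave n} (hΨ : IsFermionic Ψ)
    (hk : kinetic Ψ < ⊤) {ε : ℝ} (hε : 0 < ε) :
    ∃ Φ : Wave n, (∀ s, ContDiff ℝ ∞ (Φ s)) ∧ (∀ s, HasCompactSupport (Φ s)) ∧
      IsAdmissible W Φ ∧ |(normSq Φ).toReal - (normSq Ψ).toReal| ≤ ε ∧
      |energy W Φ - energy W Ψ| ≤ ε := by
  obtain ⟨G, hG⟩ := kinetic_lt_top_iff.1 hk
  obtain ⟨C, hC0, hC⟩ := hW
  -- total size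
  set S : ℝ := (Fintype.card (Spin n) : ℝ) with hS
  have hSpos : 0 < S := by
    rw [hS]
    exact_mod_cast Fintype.card_pos
  set A : ℝ := ∑ s, ((∫ x, ‖Ψ s x‖ ^ 2) + (∫ x, ‖G s x‖ ^ 2)) with hA
  have hAs : ∀ s, (∫ x, ‖Ψ s x‖ ^ 2) + (∫ x, ‖G s x‖ ^ 2) ≤ A := by
    intro s
    refine Finset.single_le_sum (f := fun s => (∫ x, ‖Ψ s x‖ ^ 2) + (∫ x, ‖G s x‖ ^ 2))
      (fun s _ => ?_) (Finset.mem_univ s)
    exact add_nonneg (integral_nonneg fun x => by positivity)
      (integral_nonneg fun x => by positivity)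
  have hA0 : 0 ≤ A := Finset.sum_nonneg fun s _ =>
    add_nonneg (integral_nonneg fun x => by positivity) (integral_nonneg fun x => by positivity)
  -- parameters
  obtain ⟨t, ht, r, hr, htr⟩ := exists_small (((C + 1) * A)) (ε := ε / (2 * S)) (by positivity)
  set δ : ℝ := r / (2 * C + 2) with hδ
  have hδ0 : 0 < δ := by positivity
  obtain ⟨Φ, L, a1, a2, a3, a4, a5, a6⟩ := exists_anti_approx hΨ.2 hG hδ0
  have hΦ : ∀ s, IsH1 (Φ s) (fun x => G s x + L s x) := by
    intro s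
    refine ((hG s).add (a4 s)).congr (Eventually.of_forall fun x => ?_)
      (Eventually.of_forall fun x => rfl)
    simp
  have hδr : δ ≤ r := by
    rw [hδ, div_le_iff₀ (by positivity)]
    nlinarith
  have hCδ : C * (δ + δ) ≤ r := by
    have e : δ * (2 * C + 2) = r := by
      rw [hδ]; field_simp
    nlinarith
  -- the three estimates per spin component
  have k1 : ∀ s, |(∫ x, ‖Φ s x‖ ^ 2) - ∫ x, ‖Ψ s x‖ ^ 2| ≤ ε / (2 * S) := by
    intro s
    have h := abs_integral_sub_le (μ := (volume : Measure (Config n))) (w := fun _ => (1 : ℝ))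
      (f := Ψ s) (r := fun x => Φ s x - Ψ s x) ht
      (by simpa using (hG s).memf.integrable_norm_pow (by norm_num))
      (by simpa using (a4 s).memf.integrable_norm_pow (by norm_num))
      (by simpa using (hΦ s).memf.integrable_norm_pow (by norm_num))
    simp only [one_mul, add_sub_cancel, abs_one] at h
    refine h.trans ((add_le_add ?_ ?_).trans htr)
    · refine mul_le_mul_of_nonneg_left ?_ ht.le
      refine le_trans ?_ (le_abs_self _)
      have h1 := hAs s
      have h2 : 0 ≤ ∫ x, ‖G s x‖ ^ 2 := integral_nonneg fun x => by positivity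
      nlinarith
    · exact mul_le_mul_of_nonneg_left ((a5 s).trans hδr) (by positivity)
  have k2 : ∀ s, |(∫ x, ‖G s x + L s x‖ ^ 2) - ∫ x, ‖G s x‖ ^ 2| ≤ ε / (2 * S) := by
    intro s
    have h := abs_integral_sub_le (μ := (volume : Measure (Config n))) (w := fun _ => (1 : ℝ))
      (f := G s) (r := L s) ht
      (by simpa using (hG s).memg.integrable_norm_pow (by norm_num))
      (by simpa using (a4 s).memg.integrable_norm_pow (by norm_num))
      (by simpa using (hΦ s).memg.integrable_norm_pow (by norm_num))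
    simp only [one_mul, abs_one] at h
    refine h.trans ((add_le_add ?_ ?_).trans htr)
    · refine mul_le_mul_of_nonneg_left ?_ ht.le
      refine le_trans ?_ (le_abs_self _)
      have h1 := hAs s
      have h2 : 0 ≤ ∫ x, ‖Ψ s x‖ ^ 2 := integral_nonneg fun x => by positivity
      nlinarith
    · exact mul_le_mul_of_nonneg_left ((a6 s).trans hδr) (by positivity)
  have k3 : ∀ s, |(∫ x, W x * ‖Φ s x‖ ^ 2) - ∫ x, W x * ‖Ψ s x‖ ^ 2| ≤ ε / (2 * S) := by
    intro s
    have h := abs_integral_sub_le (μ := (volume : Measure (Config n))) (w := W)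
      (f := Ψ s) (r := fun x => Φ s x - Ψ s x) ht
      (hC _ _ (hG s)).1 (hC _ _ (a4 s)).1 (by simpa using (hC _ _ (hΦ s)).1)
    simp only [add_sub_cancel] at h
    refine h.trans ((add_le_add ?_ ?_).trans htr)
    · refine mul_le_mul_of_nonneg_left ?_ ht.le
      refine le_trans ?_ (le_abs_self _)
      have h1 := (hC _ _ (hG s)).2
      have h2 := mul_le_mul_of_nonneg_left (hAs s) hC0
      nlinarith
    · refine mul_le_mul_of_nonneg_left ?_ (by positivity)
      refine ((hC _ _ (a4 s)).2.trans ?_).trans hCδ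
      exact mul_le_mul_of_nonneg_left (add_le_add (a5 s) (a6 s)) hC0
  have hsum : ∑ _s : Spin n, ε / (2 * S) = ε / 2 := by
    rw [Finset.sum_const, Finset.card_univ, nsmul_eq_mul, ← hS]
    field_simp
  refine ⟨Φ, a2, a3, isAdmissible_of ⟨C, hC0, hC⟩ a1 hΦ, ?_, ?_⟩
  · rw [normSq_toReal fun s => (hΦ s).memf, normSq_toReal hΨ.1, ← Finset.sum_sub_distrib]
    refine (Finset.abs_sum_le_sum_abs _ _).trans ((Finset.sum_le_sum fun s _ => k1 s).trans ?_)
    rw [hsum]; linarith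
  · unfold energy potentialEnergy
    rw [kinetic_toReal hΦ, kinetic_toReal hG]
    have e1 : |(∑ s, (1 / 2) * ∫ x, ‖G s x + L s x‖ ^ 2) - ∑ s, (1 / 2) * ∫ x, ‖G s x‖ ^ 2| ≤
        ε / 2 := by
      rw [← Finset.sum_sub_distrib]
      refine (Finset.abs_sum_le_sum_abs _ _).trans ?_
      rw [← hsum]
      refine Finset.sum_le_sum fun s _ => ?_
      rw [← mul_sub, abs_mul]
      have h1 := k2 s
      have h2 := abs_nonneg ((∫ x, ‖G s x + L s x‖ ^ 2) - ∫ x, ‖G s x‖ ^ 2)
      rw [abs_of_pos (by norm_num : (0 : ℝ) < 1 / 2)]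
      linarith
    have e2 : |(∑ s, ∫ x, W x * ‖Φ s x‖ ^ 2) - ∑ s, ∫ x, W x * ‖Ψ s x‖ ^ 2| ≤ ε / 2 := by
      rw [← Finset.sum_sub_distrib]
      refine (Finset.abs_sum_le_sum_abs _ _).trans ?_
      rw [← hsum]
      exact Finset.sum_le_sum fun s _ => k3 s
    rw [abs_le] at e1 e2 ⊢
    constructor <;> linarith [e1.1, e1.2, e2.1, e2.2]

/-- It suffices to prove lower bounds for antisymmetric waves with `C_c^∞` components. -/
theorem infEnergyGE_of_cc {W : Config n → ℝ} (hW : FormBdd W) {b : ℝ}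
    (h : ∀ Φ : Wave n, Anti Φ → (∀ s, ContDiff ℝ ∞ (Φ s)) → (∀ s, HasCompactSupport (Φ s)) →
      b * (normSq Φ).toReal ≤ energy W Φ) : InfEnergyGE W b := by
  intro Ψ hΨ hn
  by_contra hlt
  push Not at hlt
  set η : ℝ := (b - energy W Ψ) / (2 * (|b| + 1)) with hη
  have hη0 : 0 < η := by
    have : 0 < b - energy W Ψ := by linarith
    positivity
  obtain ⟨Φ, c1, c2, c3, c4, c5⟩ := exists_cc_approx hW hΨ.1 hΨ.2.1 hη0
  have h1 := h Φ c3.1.2 c1 c2
  rw [hn, ENNReal.toReal_one] at c4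
  rw [abs_le] at c4 c5
  have h2 : b * (normSq Φ).toReal ≥ b - |b| * η := by
    have e : b * (normSq Φ).toReal = b + b * ((normSq Φ).toReal - 1) := by ring
    have h3 : |b * ((normSq Φ).toReal - 1)| ≤ |b| * η := by
      rw [abs_mul]
      exact mul_le_mul_of_nonneg_left (abs_le.2 c4) (abs_nonneg b)
    rw [abs_le] at h3
    linarith [h3.1]
  have h4 : (|b| + 1) * η = (b - energy W Ψ) / 2 := by
    rw [hη]
    have : |b| + 1 ≠ 0 := by positivity
    field_simp
  have h5 : b - |b| * η ≤ energy W Ψ + η := by linarith [c5.2]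
  linarith

end Crest.Agent.R338.Dens
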