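import Crest.Agent.R338.LatDefs

/-!
Row 338, node C.5 (displacements), part 1: elementary inequalities for Gaussians
(helper581).
-/

set_option autoImplicit false

noncomputable section
open Real
open scoped RealInnerProductSpace

namespace Crest.Agent.R338.Di

/-- master constant -/
def C0 : ℝ := Real.exp 23

theorem C0_pos : 0 < C0 := Real.exp_pos _

theorem one_le_C0 : 1 ≤ C0 := Real.one_le_exp (by norm_num)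

theorem abs_exp_sub_one (x : ℝ) : |Real.exp x - 1| ≤ |x| * Real.exp |x| := by
  have h := Complex.norm_exp_sub_sum_le_norm_mul_exp (x : ℂ) 1
  have e : Complex.exp (x : ℂ) - ∑ m ∈ Finset.range 1, (x : ℂ) ^ m / (m.factorial : ℂ)
      = ((Real.exp x - 1 : ℝ) : ℂ) := by
    simp
  rw [e, Complex.norm_real, Complex.norm_real, pow_one, Real.norm_eq_abs, Real.norm_eq_abs] at h
  exact h

theorem abs_exp_sub_one_sub (x : ℝ) : |Real.exp x - 1 - x| ≤ x ^ 2 * Real.exp |x| := by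
  have h := Complex.norm_exp_sub_sum_le_norm_mul_exp (x : ℂ) 2
  have e : Complex.exp (x : ℂ) - ∑ m ∈ Finset.range 2, (x : ℂ) ^ m / (m.factorial : ℂ)
      = ((Real.exp x - 1 - x : ℝ) : ℂ) := by
    simp [Finset.sum_range_succ]; ring
  rw [e, Complex.norm_real, Complex.norm_real, Real.norm_eq_abs, Real.norm_eq_abs, sq_abs] at h
  exact h

/-- master inequality -/
theorem master {r : ℝ} (hr : 0 ≤ r) :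
    (2 * r + 1) ^ 3 * Real.exp (2 * r + 1) * Real.exp (-r ^ 2) ≤ C0 * Real.exp (-r ^ 2 / 4) := by
  have h1 : (2 * r + 1) ^ 3 ≤ Real.exp (6 * r) := by
    have : 2 * r + 1 ≤ Real.exp (2 * r) := Real.add_one_le_exp _
    calc (2 * r + 1) ^ 3 ≤ Real.exp (2 * r) ^ 3 := by gcongr
      _ = Real.exp (6 * r) := by rw [← Real.exp_nat_mul]; congr 1; push_cast; ring
  calc (2 * r + 1) ^ 3 * Real.exp (2 * r + 1) * Real.exp (-r ^ 2)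
      ≤ Real.exp (6 * r) * Real.exp (2 * r + 1) * Real.exp (-r ^ 2) := by gcongr
    _ = Real.exp (8 * r + 1 - r ^ 2) := by rw [← Real.exp_add, ← Real.exp_add]; congr 1; ring
    _ ≤ Real.exp (23 + -r ^ 2 / 4) := by
      apply Real.exp_le_exp.mpr
      nlinarith [sq_nonneg (3 * r / 4 - 4)]
    _ = C0 * Real.exp (-r ^ 2 / 4) := by rw [Real.exp_add]; rfl

/-- weaker forms -/
theorem master' {r a : ℝ} (hr : 0 ≤ r) (ha : a ≤ (2 * r + 1) ^ 3 * Real.exp (2 * r + 1)) :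
    a * Real.exp (-r ^ 2) ≤ C0 * Real.exp (-r ^ 2 / 4) :=
  le_trans (by gcongr) (master hr)

variable {E : Type*} [NormedAddCommGroup E] [InnerProductSpace ℝ E]

theorem inner_bd {ζ θ : E} (hθ : ‖θ‖ ≤ 1) :
    |2 * ⟪ζ, θ⟫ + ‖θ‖ ^ 2| ≤ ‖θ‖ * (2 * ‖ζ‖ + 1) := by
  have h1 := abs_real_inner_le_norm ζ θ
  have h2 : |2 * ⟪ζ, θ⟫ + ‖θ‖ ^ 2| ≤ 2 * |⟪ζ, θ⟫| + ‖θ‖ ^ 2 := by
    refine (abs_add_le _ _).trans ?_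
    rw [abs_mul, abs_of_pos (by norm_num : (0:ℝ) < 2), abs_of_nonneg (sq_nonneg ‖θ‖)]
  nlinarith [norm_nonneg θ, norm_nonneg ζ]

theorem inner_bd' {ζ θ : E} (hθ : ‖θ‖ ≤ 1) :
    |2 * ⟪ζ, θ⟫ + ‖θ‖ ^ 2| ≤ 2 * ‖ζ‖ + 1 := by
  have := inner_bd (ζ := ζ) hθ
  nlinarith [norm_nonneg θ, norm_nonneg ζ]

/-- the bound for `|e^{-m} - 1|` -/
theorem em1 {ζ θ : E} (hθ : ‖θ‖ ≤ 1) :
    |Real.exp (-(2 * ⟪ζ, θ⟫ + ‖θ‖ ^ 2)) - 1| ≤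
      ‖θ‖ * ((2 * ‖ζ‖ + 1) * Real.exp (2 * ‖ζ‖ + 1)) := by
  refine (abs_exp_sub_one _).trans ?_
  rw [abs_neg]
  calc |2 * ⟪ζ, θ⟫ + ‖θ‖ ^ 2| * Real.exp |2 * ⟪ζ, θ⟫ + ‖θ‖ ^ 2|
      ≤ (‖θ‖ * (2 * ‖ζ‖ + 1)) * Real.exp (2 * ‖ζ‖ + 1) := by
        have h1 := inner_bd (ζ := ζ) hθ
        have h2 := inner_bd' (ζ := ζ) hθ
        gcongr
    _ = _ := by ring

/-- the bound for `|e^{-m} - 1 + m|` -/
theorem em2 {ζ θ : E} (hθ : ‖θ‖ ≤ 1) :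
    |Real.exp (-(2 * ⟪ζ, θ⟫ + ‖θ‖ ^ 2)) - 1 + (2 * ⟪ζ, θ⟫ + ‖θ‖ ^ 2)| ≤
      ‖θ‖ ^ 2 * ((2 * ‖ζ‖ + 1) ^ 2 * Real.exp (2 * ‖ζ‖ + 1)) := by
  have h := abs_exp_sub_one_sub (-(2 * ⟪ζ, θ⟫ + ‖θ‖ ^ 2))
  rw [abs_neg, neg_sq, sub_neg_eq_add] at h
  refine h.trans ?_
  rw [← sq_abs]
  calc |2 * ⟪ζ, θ⟫ + ‖θ‖ ^ 2| ^ 2 * Real.exp |2 * ⟪ζ, θ⟫ + ‖θ‖ ^ 2|
      ≤ (‖θ‖ * (2 * ‖ζ‖ + 1)) ^ 2 * Real.exp (2 * ‖ζ‖ + 1) := by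
        have h1 := inner_bd (ζ := ζ) hθ
        have h2 := inner_bd' (ζ := ζ) hθ
        gcongr
    _ = _ := by ring

theorem exp_norm_add (ζ θ : E) :
    Real.exp (-‖ζ + θ‖ ^ 2) = Real.exp (-(2 * ⟪ζ, θ⟫ + ‖θ‖ ^ 2)) * Real.exp (-‖ζ‖ ^ 2) := by
  rw [← Real.exp_add, norm_add_sq_real]; congr 1; ring

theorem exp_norm_sub (ζ θ : E) :
    Real.exp (-‖ζ - θ‖ ^ 2) = Real.exp (-(2 * ⟪ζ, -θ⟫ + ‖-θ‖ ^ 2)) * Real.exp (-‖ζ‖ ^ 2) := by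
  rw [sub_eq_add_neg, exp_norm_add]

theorem one_le_aux (r : ℝ) (hr : 0 ≤ r) : 1 ≤ (2 * r + 1) * Real.exp (2 * r + 1) := by
  have h1 : (1:ℝ) ≤ 2 * r + 1 := by linarith
  have h2 : (1:ℝ) ≤ Real.exp (2 * r + 1) := Real.one_le_exp (by linarith)
  nlinarith

/-- (g1) second order Taylor for the Gaussian -/
theorem g1 {ζ θ : E} (hθ : ‖θ‖ ≤ 1) :
    |Real.exp (-‖ζ + θ‖ ^ 2) - Real.exp (-‖ζ‖ ^ 2) + 2 * ⟪ζ, θ⟫ * Real.exp (-‖ζ‖ ^ 2)| ≤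
      2 * C0 * ‖θ‖ ^ 2 * Real.exp (-‖ζ‖ ^ 2 / 4) := by
  rw [exp_norm_add]
  set m := 2 * ⟪ζ, θ⟫ + ‖θ‖ ^ 2 with hm
  have e : Real.exp (-m) * Real.exp (-‖ζ‖ ^ 2) - Real.exp (-‖ζ‖ ^ 2) +
      2 * ⟪ζ, θ⟫ * Real.exp (-‖ζ‖ ^ 2) =
      ((Real.exp (-m) - 1 + m) - ‖θ‖ ^ 2) * Real.exp (-‖ζ‖ ^ 2) := by rw [hm]; ring
  rw [e, abs_mul, abs_of_pos (Real.exp_pos _)]
  have h2 := em2 (ζ := ζ) hθ
  rw [← hm] at h2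
  set r := ‖ζ‖
  have hr : 0 ≤ r := norm_nonneg _
  have h3 : |Real.exp (-m) - 1 + m - ‖θ‖ ^ 2| ≤
      ‖θ‖ ^ 2 * (2 * ((2 * r + 1) ^ 3 * Real.exp (2 * r + 1))) := by
    refine (abs_sub _ _).trans ?_
    rw [abs_of_nonneg (sq_nonneg ‖θ‖)]
    have h1 : (1:ℝ) ≤ 2 * r + 1 := by linarith
    have h4 : (2 * r + 1) ^ 2 * Real.exp (2 * r + 1) ≤ (2 * r + 1) ^ 3 * Real.exp (2 * r + 1) := by
      gcongr; norm_num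
    have h5 : 1 ≤ (2 * r + 1) ^ 3 * Real.exp (2 * r + 1) := by
      refine (one_le_aux r hr).trans ?_
      gcongr
      calc 2 * r + 1 = (2 * r + 1) ^ 1 := (pow_one _).symm
        _ ≤ (2 * r + 1) ^ 3 := by gcongr; norm_num
    nlinarith [sq_nonneg ‖θ‖]
  calc |Real.exp (-m) - 1 + m - ‖θ‖ ^ 2| * Real.exp (-r ^ 2)
      ≤ ‖θ‖ ^ 2 * (2 * ((2 * r + 1) ^ 3 * Real.exp (2 * r + 1))) * Real.exp (-r ^ 2) := by gcongr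
    _ = 2 * ‖θ‖ ^ 2 * ((2 * r + 1) ^ 3 * Real.exp (2 * r + 1) * Real.exp (-r ^ 2)) := by ring
    _ ≤ 2 * ‖θ‖ ^ 2 * (C0 * Real.exp (-r ^ 2 / 4)) := by
        gcongr 2 * ‖θ‖ ^ 2 * ?_
        exact master hr
    _ = _ := by ring

/-- (g2) -/
theorem g2 (ζ : E) : ‖ζ‖ * Real.exp (-‖ζ‖ ^ 2) ≤ C0 * Real.exp (-‖ζ‖ ^ 2 / 4) := by
  set r := ‖ζ‖
  have hr : 0 ≤ r := norm_nonneg _
  apply master' hr
  have h2 : (1:ℝ) ≤ Real.exp (2 * r + 1) := Real.one_le_exp (by linarith)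
  have h3 : r ≤ (2 * r + 1) ^ 3 := by nlinarith [pow_nonneg hr 2, pow_nonneg hr 3]
  nlinarith [pow_nonneg (by linarith : 0 ≤ 2 * r + 1) 3]

/-- (g2') -/
theorem g2' (ζ : E) : ‖Real.exp (-‖ζ‖ ^ 2) • ζ‖ ≤ C0 * Real.exp (-‖ζ‖ ^ 2 / 4) := by
  rw [norm_smul, Real.norm_eq_abs, abs_of_pos (Real.exp_pos _), mul_comm]
  exact g2 ζ

/-- (g3) first difference of `γ(ζ) = e^{-|ζ|²} ζ` -/
theorem g3 {ζ θ : E} (hθ : ‖θ‖ ≤ 1) :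
    ‖Real.exp (-‖ζ + θ‖ ^ 2) • (ζ + θ) - Real.exp (-‖ζ‖ ^ 2) • ζ‖ ≤
      2 * C0 * ‖θ‖ * Real.exp (-‖ζ‖ ^ 2 / 4) := by
  rw [exp_norm_add]
  set m := 2 * ⟪ζ, θ⟫ + ‖θ‖ ^ 2 with hm
  have e : (Real.exp (-m) * Real.exp (-‖ζ‖ ^ 2)) • (ζ + θ) - Real.exp (-‖ζ‖ ^ 2) • ζ =
      Real.exp (-‖ζ‖ ^ 2) • ((Real.exp (-m) - 1) • (ζ + θ) + θ) := by
    module
  rw [e, norm_smul, Real.norm_eq_abs, abs_of_pos (Real.exp_pos _)]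
  have h2 := em1 (ζ := ζ) hθ
  rw [← hm] at h2
  have h1 : ‖(Real.exp (-m) - 1) • (ζ + θ) + θ‖ ≤
      ‖θ‖ * ((2 * ‖ζ‖ + 1) * Real.exp (2 * ‖ζ‖ + 1)) * (‖ζ‖ + 1) + ‖θ‖ := by
    refine (norm_add_le _ _).trans ?_
    rw [norm_smul, Real.norm_eq_abs]
    have : ‖ζ + θ‖ ≤ ‖ζ‖ + 1 := (norm_add_le _ _).trans (by linarith)
    gcongr
  set r := ‖ζ‖
  have hr : 0 ≤ r := norm_nonneg _
  have h3 : ‖θ‖ * ((2 * r + 1) * Real.exp (2 * r + 1)) * (r + 1) + ‖θ‖ ≤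
      2 * ‖θ‖ * ((2 * r + 1) ^ 3 * Real.exp (2 * r + 1)) := by
    have h6 : (1:ℝ) ≤ 2 * r + 1 := by linarith
    have h4 : (2 * r + 1) * Real.exp (2 * r + 1) * (r + 1) ≤
        (2 * r + 1) ^ 3 * Real.exp (2 * r + 1) := by
      have : (2 * r + 1) * (r + 1) ≤ (2 * r + 1) ^ 3 := by
        nlinarith [pow_nonneg hr 2, pow_nonneg hr 3]
      nlinarith [Real.exp_pos (2 * r + 1)]
    have h5 : 1 ≤ (2 * r + 1) ^ 3 * Real.exp (2 * r + 1) := by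
      refine (one_le_aux r hr).trans ?_
      gcongr
      calc 2 * r + 1 = (2 * r + 1) ^ 1 := (pow_one _).symm
        _ ≤ (2 * r + 1) ^ 3 := by gcongr; norm_num
    nlinarith [norm_nonneg θ]
  calc Real.exp (-r ^ 2) * ‖(Real.exp (-m) - 1) • (ζ + θ) + θ‖
      ≤ Real.exp (-r ^ 2) * (2 * ‖θ‖ * ((2 * r + 1) ^ 3 * Real.exp (2 * r + 1))) := by
        gcongr; exact h1.trans h3
    _ = 2 * ‖θ‖ * ((2 * r + 1) ^ 3 * Real.exp (2 * r + 1) * Real.exp (-r ^ 2)) := by ring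
    _ ≤ 2 * ‖θ‖ * (C0 * Real.exp (-r ^ 2 / 4)) := by
        gcongr 2 * ‖θ‖ * ?_
        exact master hr
    _ = _ := by ring

/-- (g4) second difference of `γ(ζ) = e^{-|ζ|²} ζ` -/
theorem g4 {ζ θ : E} (hθ : ‖θ‖ ≤ 1) :
    ‖Real.exp (-‖ζ + θ‖ ^ 2) • (ζ + θ) + Real.exp (-‖ζ - θ‖ ^ 2) • (ζ - θ) -
        (2 * Real.exp (-‖ζ‖ ^ 2)) • ζ‖ ≤
      6 * C0 * ‖θ‖ ^ 2 * Real.exp (-‖ζ‖ ^ 2 / 4) := by
  have hθ' : ‖-θ‖ ≤ 1 := by rwa [norm_neg]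
  rw [exp_norm_add, exp_norm_sub]
  set m := 2 * ⟪ζ, θ⟫ + ‖θ‖ ^ 2 with hm
  set m' := 2 * ⟪ζ, -θ⟫ + ‖-θ‖ ^ 2 with hm'
  have hmm : m + m' = 2 * ‖θ‖ ^ 2 := by
    rw [hm, hm', norm_neg, inner_neg_right]; ring
  have e : (Real.exp (-m) * Real.exp (-‖ζ‖ ^ 2)) • (ζ + θ) +
      (Real.exp (-m') * Real.exp (-‖ζ‖ ^ 2)) • (ζ - θ) - (2 * Real.exp (-‖ζ‖ ^ 2)) • ζ =
      Real.exp (-‖ζ‖ ^ 2) • (((Real.exp (-m) - 1 + m) + (Real.exp (-m') - 1 + m') -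
        2 * ‖θ‖ ^ 2) • ζ + ((Real.exp (-m) - 1) - (Real.exp (-m') - 1)) • θ) := by
    rw [← hmm]; module
  rw [e, norm_smul, Real.norm_eq_abs, abs_of_pos (Real.exp_pos _)]
  have a2 := em2 (ζ := ζ) hθ
  have a2' := em2 (ζ := ζ) hθ'
  have a1 := em1 (ζ := ζ) hθ
  have a1' := em1 (ζ := ζ) hθ'
  rw [← hm] at a1 a2
  rw [← hm', norm_neg] at a1' a2'
  set r := ‖ζ‖ with hrdef
  have hr : 0 ≤ r := norm_nonneg _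
  set X := Real.exp (2 * r + 1)
  have hX : 0 < X := Real.exp_pos _
  have h1 : ‖((Real.exp (-m) - 1 + m) + (Real.exp (-m') - 1 + m') -
        2 * ‖θ‖ ^ 2) • ζ + ((Real.exp (-m) - 1) - (Real.exp (-m') - 1)) • θ‖ ≤
      (2 * (‖θ‖ ^ 2 * ((2 * r + 1) ^ 2 * X)) + 2 * ‖θ‖ ^ 2) * r +
        2 * (‖θ‖ * ((2 * r + 1) * X)) * ‖θ‖ := by
    refine (norm_add_le _ _).trans ?_
    rw [norm_smul, norm_smul, Real.norm_eq_abs, Real.norm_eq_abs, ← hrdef]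
    have b1 : |(Real.exp (-m) - 1 + m) + (Real.exp (-m') - 1 + m') - 2 * ‖θ‖ ^ 2| ≤
        2 * (‖θ‖ ^ 2 * ((2 * r + 1) ^ 2 * X)) + 2 * ‖θ‖ ^ 2 := by
      refine (abs_sub _ _).trans ?_
      rw [abs_of_nonneg (by positivity : 0 ≤ 2 * ‖θ‖ ^ 2)]
      gcongr
      refine (abs_add_le _ _).trans ?_
      linarith
    have b2 : |(Real.exp (-m) - 1) - (Real.exp (-m') - 1)| ≤
        2 * (‖θ‖ * ((2 * r + 1) * X)) := by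
      refine (abs_sub _ _).trans ?_
      linarith
    gcongr
  have h3 : (2 * (‖θ‖ ^ 2 * ((2 * r + 1) ^ 2 * X)) + 2 * ‖θ‖ ^ 2) * r +
        2 * (‖θ‖ * ((2 * r + 1) * X)) * ‖θ‖ ≤ 6 * ‖θ‖ ^ 2 * ((2 * r + 1) ^ 3 * X) := by
    have c1 : (2 * r + 1) ^ 2 * X * r ≤ (2 * r + 1) ^ 3 * X := by
      have : (2 * r + 1) ^ 2 * r ≤ (2 * r + 1) ^ 3 := by
        nlinarith [pow_nonneg hr 2, pow_nonneg hr 3]
      nlinarith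
    have c2 : r ≤ (2 * r + 1) ^ 3 * X := by
      have h2 : (1:ℝ) ≤ X := Real.one_le_exp (by linarith)
      have h3 : r ≤ (2 * r + 1) ^ 3 := by nlinarith [pow_nonneg hr 2, pow_nonneg hr 3]
      nlinarith [pow_nonneg (by linarith : 0 ≤ 2 * r + 1) 3]
    have c3 : (2 * r + 1) * X ≤ (2 * r + 1) ^ 3 * X := by
      have : (2 * r + 1) ≤ (2 * r + 1) ^ 3 := by
        nlinarith [pow_nonneg hr 2, pow_nonneg hr 3]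
      nlinarith
    nlinarith [sq_nonneg ‖θ‖]
  calc Real.exp (-r ^ 2) * _
      ≤ Real.exp (-r ^ 2) * (6 * ‖θ‖ ^ 2 * ((2 * r + 1) ^ 3 * X)) := by
        gcongr; exact h1.trans h3
    _ = 6 * ‖θ‖ ^ 2 * ((2 * r + 1) ^ 3 * X * Real.exp (-r ^ 2)) := by ring
    _ ≤ 6 * ‖θ‖ ^ 2 * (C0 * Real.exp (-r ^ 2 / 4)) := by
        gcongr 6 * ‖θ‖ ^ 2 * ?_
        exact master hr
    _ = _ := by ring

end Crest.Agent.R338.Di
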