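import Crest.Agent.R338.Di1

/-!
Row 338, node C.5 (displacements), part 2: scaled inequalities and lattice sums
(helper581).
-/

set_option autoImplicit false

noncomputable section
open Real
open scoped RealInnerProductSpace

namespace Crest.Agent.R338.Di
open Lat

/-- the vector field `e^{-τ²|z|²} z` -/
def vv (τ : ℝ) (z : P3) : P3 := gau τ z • z

theorem gau_eq (τ : ℝ) (z : P3) : gau τ z = Real.exp (-‖τ • z‖ ^ 2) := by
  unfold gau
  rw [norm_smul, mul_pow, Real.norm_eq_abs, sq_abs]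

theorem gau_half (τ : ℝ) (z : P3) : gau (τ / 2) z = Real.exp (-‖τ • z‖ ^ 2 / 4) := by
  unfold gau
  rw [norm_smul, mul_pow, Real.norm_eq_abs, sq_abs]
  congr 1; ring

theorem gau_pos (τ : ℝ) (z : P3) : 0 < gau τ z := Real.exp_pos _

theorem gau_le_one (τ : ℝ) (z : P3) : gau τ z ≤ 1 := by
  unfold gau
  rw [Real.exp_le_one_iff]
  nlinarith [mul_nonneg (sq_nonneg τ) (sq_nonneg ‖z‖)]

theorem gau_neg (τ : ℝ) (z : P3) : gau τ (-z) = gau τ z := by
  unfold gau; rw [norm_neg]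

/-- (s1) -/
theorem s1 {τ : ℝ} (hτ : 0 < τ) {z d : P3} (h : τ * ‖d‖ ≤ 1) :
    |gau τ (z + d) - gau τ z + 2 * τ ^ 2 * ⟪z, d⟫ * gau τ z| ≤
      2 * C0 * τ ^ 2 * ‖d‖ ^ 2 * gau (τ / 2) z := by
  have hn : ‖τ • d‖ = τ * ‖d‖ := by rw [norm_smul, Real.norm_eq_abs, abs_of_pos hτ]
  have := g1 (ζ := τ • z) (θ := τ • d) (by rw [hn]; exact h)
  rw [← smul_add, ← gau_eq, ← gau_eq, ← gau_half, real_inner_smul_left, real_inner_smul_right,
    hn] at this
  convert this using 2 <;> ring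

/-- (s2) -/
theorem s2 {τ : ℝ} (hτ : 0 < τ) (z : P3) : τ * ‖vv τ z‖ ≤ C0 * gau (τ / 2) z := by
  have := g2' (τ • z)
  rw [← gau_eq, ← gau_half, smul_comm, norm_smul, Real.norm_eq_abs, abs_of_pos hτ] at this
  exact this

/-- (s3) -/
theorem s3 {τ : ℝ} (hτ : 0 < τ) {z t : P3} (h : τ * ‖t‖ ≤ 1) :
    τ * ‖vv τ (z + t) - vv τ z‖ ≤ 2 * C0 * (τ * ‖t‖) * gau (τ / 2) z := by
  have hn : ‖τ • t‖ = τ * ‖t‖ := by rw [norm_smul, Real.norm_eq_abs, abs_of_pos hτ]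
  have := g3 (ζ := τ • z) (θ := τ • t) (by rw [hn]; exact h)
  rw [← smul_add, ← gau_eq, ← gau_eq, ← gau_half, hn, smul_comm, smul_comm (gau τ z),
    ← smul_sub, norm_smul, Real.norm_eq_abs, abs_of_pos hτ] at this
  exact this

/-- (s4) -/
theorem s4 {τ : ℝ} (hτ : 0 < τ) {z t : P3} (h : τ * ‖t‖ ≤ 1) :
    τ * ‖vv τ (z + t) + vv τ (z - t) - (2 : ℝ) • vv τ z‖ ≤
      6 * C0 * (τ * ‖t‖) ^ 2 * gau (τ / 2) z := by
  have hn : ‖τ • t‖ = τ * ‖t‖ := by rw [norm_smul, Real.norm_eq_abs, abs_of_pos hτ]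
  have := g4 (ζ := τ • z) (θ := τ • t) (by rw [hn]; exact h)
  rw [← smul_add, ← smul_sub, ← gau_eq, ← gau_eq, ← gau_eq, ← gau_half, hn] at this
  have e : τ • (vv τ (z + t) + vv τ (z - t) - (2 : ℝ) • vv τ z) =
      gau τ (z + t) • τ • (z + t) + gau τ (z - t) • τ • (z - t) - (2 * gau τ z) • τ • z := by
    unfold vv; module
  rw [← e, norm_smul, Real.norm_eq_abs, abs_of_pos hτ] at this
  exact this

/-- geometric sums over finite sets -/
theorem geo_le {q : ℝ} (h0 : 0 ≤ q) (h1 : q < 1) (S : Finset ℤ) (f : ℤ → ℕ)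
    (hf : Set.InjOn f S) : ∑ k ∈ S, q ^ (f k) ≤ (1 - q)⁻¹ := by
  rw [← Finset.sum_image (f := fun j => q ^ j) hf]
  exact sum_le_hasSum _ (fun _ _ => pow_nonneg h0 _) (hasSum_geometric_of_lt_one h0 h1)

theorem one_sub_exp {κ : ℝ} (h0 : 0 < κ) (h1 : κ ≤ 1) : κ / 2 ≤ 1 - Real.exp (-κ) := by
  have h2 : 1 + κ ≤ Real.exp κ := by linarith [Real.add_one_le_exp κ]
  have h3 : Real.exp (-κ) ≤ 1 / (1 + κ) := by
    rw [Real.exp_neg, ← one_div]
    exact one_div_le_one_div_of_le (by linarith) h2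
  have h4 : 1 - 1 / (1 + κ) = κ / (1 + κ) := by field_simp; ring
  have h5 : κ / 2 ≤ κ / (1 + κ) := by
    apply div_le_div_of_nonneg_left h0.le (by linarith) (by linarith)
  linarith

/-- the two sided exponential sum -/
theorem two_sided {κ : ℝ} (h0 : 0 < κ) (h1 : κ ≤ 1) (v : ℝ) (S : Finset ℤ) :
    ∑ k ∈ S, Real.exp (-(κ * |v - k|)) ≤ 4 / κ := by
  set q := Real.exp (-κ) with hq
  have hq0 : 0 ≤ q := (Real.exp_pos _).le
  have hq1 : q < 1 := by rw [hq, Real.exp_lt_one_iff]; linarith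
  have hinv : (1 - q)⁻¹ ≤ 2 / κ := by
    have := one_sub_exp h0 h1
    rw [inv_eq_one_div, div_le_div_iff₀ (by linarith) h0]
    linarith
  rw [← Finset.sum_filter_add_sum_filter_not S (fun k => k ≤ ⌊v⌋)]
  have hA : ∑ k ∈ S.filter (fun k => k ≤ ⌊v⌋), Real.exp (-(κ * |v - k|)) ≤ 2 / κ := by
    refine le_trans (Finset.sum_le_sum fun k hk => ?_)
      ((geo_le hq0 hq1 (S.filter (fun k => k ≤ ⌊v⌋)) (fun k => (⌊v⌋ - k).toNat) ?_).trans hinv)
    · rw [Finset.mem_filter] at hk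
      have hk2 := hk.2
      have h3 : (((⌊v⌋ - k).toNat : ℕ) : ℝ) = (⌊v⌋ : ℝ) - k := by
        have : (((⌊v⌋ - k).toNat : ℕ) : ℤ) = ⌊v⌋ - k := Int.toNat_of_nonneg (by omega)
        exact_mod_cast this
      show Real.exp (-(κ * |v - k|)) ≤ q ^ (⌊v⌋ - k).toNat
      rw [hq, ← Real.exp_nat_mul, h3]
      apply Real.exp_le_exp.mpr
      have h4 := Int.floor_le v
      have h5 : v - k ≤ |v - k| := le_abs_self _
      nlinarith
    · intro i hi j hj hij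
      have hi' := Finset.mem_filter.mp (Finset.mem_coe.mp hi)
      have hj' := Finset.mem_filter.mp (Finset.mem_coe.mp hj)
      have : (⌊v⌋ - i).toNat = (⌊v⌋ - j).toNat := hij
      have := hi'.2; have := hj'.2
      omega
  have hB : ∑ k ∈ S.filter (fun k => ¬ k ≤ ⌊v⌋), Real.exp (-(κ * |v - k|)) ≤ 2 / κ := by
    refine le_trans (Finset.sum_le_sum fun k hk => ?_)
      ((geo_le hq0 hq1 (S.filter (fun k => ¬ k ≤ ⌊v⌋)) (fun k => (k - ⌊v⌋ - 1).toNat) ?_).trans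
        hinv)
    · rw [Finset.mem_filter] at hk
      have hk2 := hk.2
      have h3 : (((k - ⌊v⌋ - 1).toNat : ℕ) : ℝ) = (k : ℝ) - ⌊v⌋ - 1 := by
        have : (((k - ⌊v⌋ - 1).toNat : ℕ) : ℤ) = k - ⌊v⌋ - 1 := Int.toNat_of_nonneg (by omega)
        exact_mod_cast this
      show Real.exp (-(κ * |v - k|)) ≤ q ^ (k - ⌊v⌋ - 1).toNat
      rw [hq, ← Real.exp_nat_mul, h3]
      apply Real.exp_le_exp.mpr
      have h4 := (Int.lt_floor_add_one v).le
      have h5 : -(v - k) ≤ |v - k| := neg_le_abs _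
      nlinarith
    · intro i hi j hj hij
      have hi' := Finset.mem_filter.mp (Finset.mem_coe.mp hi)
      have hj' := Finset.mem_filter.mp (Finset.mem_coe.mp hj)
      have : (i - ⌊v⌋ - 1).toNat = (j - ⌊v⌋ - 1).toNat := hij
      have := hi'.2; have := hj'.2
      omega
  have : 2 / κ + 2 / κ = 4 / κ := by ring
  linarith

theorem exp_quarter_le : Real.exp (1 / 4) ≤ 3 / 2 := by
  have h := Real.exp_one_lt_d9
  have h1 : Real.exp (1 / 4) ^ 4 = Real.exp 1 := by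
    rw [← Real.exp_nat_mul]; norm_num
  by_contra hc
  push Not at hc
  have : (3 / 2 : ℝ) ^ 4 < Real.exp (1 / 4) ^ 4 := by gcongr
  rw [h1] at this
  norm_num at this
  linarith

/-- 1D lattice sum, first bound -/
theorem Sx_le1 {s τ : ℝ} (hs : 0 < s) (hτ : 0 < τ) (h : τ * s ≤ 1) (M : ℕ) (y : ℝ) :
    Sx s M y τ ≤ 6 / (τ * s) := by
  unfold Sx
  have h0 : 0 < τ * s := mul_pos hτ hs
  calc ∑ k ∈ Finset.Icc (-(M : ℤ)) (M : ℤ), Real.exp (-(τ ^ 2 * (y - s * (k : ℝ)) ^ 2))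
      ≤ ∑ k ∈ Finset.Icc (-(M : ℤ)) (M : ℤ),
        Real.exp (1 / 4) * Real.exp (-((τ * s) * |y / s - k|)) := by
        apply Finset.sum_le_sum
        intro k _
        rw [← Real.exp_add]
        apply Real.exp_le_exp.mpr
        have e : y - s * (k : ℝ) = s * (y / s - k) := by field_simp
        rw [e, mul_pow, ← sq_abs (y / s - k)]
        nlinarith [sq_nonneg (τ * s * |y / s - k| - 1 / 2)]
    _ = Real.exp (1 / 4) * ∑ k ∈ Finset.Icc (-(M : ℤ)) (M : ℤ),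
        Real.exp (-((τ * s) * |y / s - k|)) := by rw [Finset.mul_sum]
    _ ≤ (3 / 2) * (4 / (τ * s)) := by
        apply mul_le_mul exp_quarter_le (two_sided h0 h _ _)
          (Finset.sum_nonneg fun _ _ => (Real.exp_pos _).le) (by norm_num)
    _ = 6 / (τ * s) := by ring

theorem Sx_le2 (s τ : ℝ) (M : ℕ) (y : ℝ) : Sx s M y τ ≤ 2 * M + 1 := by
  unfold Sx
  calc ∑ k ∈ Finset.Icc (-(M : ℤ)) (M : ℤ), Real.exp (-(τ ^ 2 * (y - s * (k : ℝ)) ^ 2))
      ≤ ∑ k ∈ Finset.Icc (-(M : ℤ)) (M : ℤ), (1 : ℝ) := by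
        apply Finset.sum_le_sum
        intro k _
        rw [Real.exp_le_one_iff]
        nlinarith [mul_nonneg (sq_nonneg τ) (sq_nonneg (y - s * (k : ℝ)))]
    _ = 2 * M + 1 := by
        rw [Finset.sum_const, Int.card_Icc, nsmul_eq_mul, mul_one]
        have : ((M : ℤ) + 1 - -(M : ℤ)).toNat = 2 * M + 1 := by omega
        rw [this]; push_cast; ring

theorem Sx_nonneg (s τ : ℝ) (M : ℕ) (y : ℝ) : 0 ≤ Sx s M y τ :=
  Finset.sum_nonneg fun _ _ => (Real.exp_pos _).le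

/-- 1D lattice sum, combined bound -/
theorem Sx_le {s τ L : ℝ} (hs : 0 < s) (hτ : 0 < τ) (h : τ * s ≤ 1) (hL : s ≤ L) {M : ℕ}
    (hM : (M : ℝ) ≤ L / s + 1) (y : ℝ) :
    Sx s M y (τ / 2) ≤ 20 * (L / s) / (1 + τ * L) := by
  have hL0 : 0 < L := lt_of_lt_of_le hs hL
  have h1 := Sx_le1 hs (half_pos hτ) (by nlinarith [mul_pos hτ hs]) M y
  have h2 := Sx_le2 s (τ / 2) M y
  have h3 : 1 ≤ L / s := (one_le_div hs).mpr hL
  have hpos : 0 < 1 + τ * L := by positivity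
  rw [le_div_iff₀ hpos]
  have h4 : Sx s M y (τ / 2) * (τ * L) ≤ 12 * (L / s) := by
    calc Sx s M y (τ / 2) * (τ * L) ≤ 6 / (τ / 2 * s) * (τ * L) := by gcongr
      _ = 12 * (L / s) := by field_simp; ring
  nlinarith

/-- 3D lattice sum -/
theorem sum3 {s τ L : ℝ} (hs : 0 < s) (hτ : 0 < τ) (h : τ * s ≤ 1) (hL : s ≤ L) {M : ℕ}
    (hM : (M : ℝ) ≤ L / s + 1) (x : P3) :
    ∑ α ∈ Box M, gau (τ / 2) (x - pt s α) ≤ 8000 / s ^ 3 * (L / (1 + τ * L)) ^ 3 := by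
  rw [sum_gau]
  have hL0 : 0 < L := lt_of_lt_of_le hs hL
  calc ∏ c : Fin 3, Sx s M (x c) (τ / 2) ≤ ∏ c : Fin 3, (20 * (L / s) / (1 + τ * L)) := by
        apply Finset.prod_le_prod
        · intro c _; exact Sx_nonneg _ _ _ _
        · intro c _; exact Sx_le hs hτ h hL hM _
    _ = 8000 / s ^ 3 * (L / (1 + τ * L)) ^ 3 := by
        rw [Finset.prod_const, Finset.card_univ, Fintype.card_fin]
        have hpos : 0 < 1 + τ * L := by positivity
        field_simp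
        norm_num

end Crest.Agent.R338.Di
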