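import Crest.Agent.R338.Di2

/-!
Row 338, node C.5 (displacements), part 3: the midpoint rule on the cubic lattice
(helper581).
-/

set_option autoImplicit false

noncomputable section
open Real MeasureTheory Set

namespace Crest.Agent.R338.Di

/-- the lattice point in `Fin 3 → ℝ` -/
def ptp (s : ℝ) (α : Fin 3 → ℤ) : Fin 3 → ℝ := fun c => s * (α c : ℝ)

/-- half open cell -/
def cell (s : ℝ) (α : Fin 3 → ℤ) : Set (Fin 3 → ℝ) :=
  Set.pi univ fun c => Ico (s * (α c : ℝ) - s / 2) (s * (α c : ℝ) + s / 2)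

/-- symmetric cube -/
def cube (s : ℝ) : Set (Fin 3 → ℝ) := Icc (fun _ => -(s / 2)) (fun _ => s / 2)

theorem measurableSet_cell (s : ℝ) (α : Fin 3 → ℤ) : MeasurableSet (cell s α) :=
  MeasurableSet.univ_pi fun _ => measurableSet_Ico

theorem cell_ae (s : ℝ) (α : Fin 3 → ℤ) :
    cell s α =ᵐ[volume] Icc (fun c => s * (α c : ℝ) - s / 2) (fun c => s * (α c : ℝ) + s / 2) :=
  Measure.univ_pi_Ico_ae_eq_Icc

theorem cell_integral (s : ℝ) (α : Fin 3 → ℤ) (h : (Fin 3 → ℝ) → ℝ) :
    ∫ y in cell s α, h y = ∫ t in cube s, h (ptp s α + t) := by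
  rw [setIntegral_congr_set (cell_ae s α)]
  have := (measurePreserving_add_left (volume : Measure (Fin 3 → ℝ))
    (ptp s α)).setIntegral_preimage_emb (measurableEmbedding_addLeft (ptp s α)) h
    (Icc (fun c => s * (α c : ℝ) - s / 2) (fun c => s * (α c : ℝ) + s / 2))
  rw [← this]
  congr 2
  rw [Set.preimage_const_add_Icc]
  unfold cube
  congr 1
  · funext c; simp [ptp]
  · funext c; simp [ptp]

theorem cube_neg_integral (s : ℝ) (f : (Fin 3 → ℝ) → ℝ) :
    ∫ t in cube s, f (-t) = ∫ t in cube s, f t := by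
  have := (Measure.measurePreserving_neg (volume : Measure (Fin 3 → ℝ))).setIntegral_preimage_emb
    (MeasurableEquiv.neg (Fin 3 → ℝ)).measurableEmbedding f (cube s)
  rw [← this]
  congr 2
  ext t
  simp only [cube, mem_Icc, mem_preimage, Pi.le_def, Pi.neg_apply]
  constructor
  · rintro ⟨h1, h2⟩
    exact ⟨fun c => by linarith [h2 c], fun c => by linarith [h1 c]⟩
  · rintro ⟨h1, h2⟩
    exact ⟨fun c => by linarith [h2 c], fun c => by linarith [h1 c]⟩

theorem cube_vol {s : ℝ} (hs : 0 < s) : volume.real (cube s) = s ^ 3 := by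
  unfold cube
  rw [measureReal_def, Real.volume_Icc_pi]
  simp only [sub_neg_eq_add, add_halves]
  rw [Finset.prod_const, Finset.card_univ, Fintype.card_fin, ENNReal.toReal_pow,
    ENNReal.toReal_ofReal hs.le]

theorem cube_vol_lt_top (s : ℝ) : volume (cube s) < ⊤ :=
  isCompact_Icc.measure_lt_top

theorem cell_disj {s : ℝ} (hs : 0 < s) {α β : Fin 3 → ℤ} (hne : α ≠ β) :
    Disjoint (cell s α) (cell s β) := by
  rw [Set.disjoint_left]
  intro y hy hy'
  apply hne
  funext c
  have h1 := hy c (mem_univ c)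
  have h2 := hy' c (mem_univ c)
  rw [mem_Ico] at h1 h2
  have h3 : s * (α c : ℝ) - s * (β c : ℝ) < s * 1 := by linarith
  have h4 : s * (β c : ℝ) - s * (α c : ℝ) < s * 1 := by linarith
  rw [← mul_sub] at h3 h4
  have h5 := lt_of_mul_lt_mul_left h3 hs.le
  have h6 := lt_of_mul_lt_mul_left h4 hs.le
  have h7 : (α c : ℤ) - β c < 1 := by exact_mod_cast h5
  have h8 : (β c : ℤ) - α c < 1 := by exact_mod_cast h6
  omega

theorem cell_cover {s : ℝ} (hs : 0 < s) {n : ℕ} {y : Fin 3 → ℝ} (hy : ∀ c, |y c| ≤ n * s) :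
    ∃ α ∈ Lat.Box n, y ∈ cell s α := by
  refine ⟨fun c => ⌊y c / s + 1 / 2⌋, ?_, ?_⟩
  · unfold Lat.Box
    rw [Fintype.mem_piFinset]
    intro c
    rw [Finset.mem_Icc]
    have h1 := abs_le.mp (hy c)
    have h2 : y c / s ≤ n := by rw [div_le_iff₀ hs]; exact h1.2
    have h3 : -(n : ℝ) ≤ y c / s := by rw [le_div_iff₀ hs]; linarith [h1.1]
    constructor
    · apply Int.le_floor.mpr; push_cast; linarith
    · apply Int.lt_add_one_iff.mp
      apply Int.floor_lt.mpr; push_cast; linarith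
  · intro c _
    show y c ∈ Ico (s * ((⌊y c / s + 1 / 2⌋ : ℤ) : ℝ) - s / 2)
      (s * ((⌊y c / s + 1 / 2⌋ : ℤ) : ℝ) + s / 2)
    have h1 := Int.floor_le (y c / s + 1 / 2)
    have h2 := Int.lt_floor_add_one (y c / s + 1 / 2)
    have h3 : y c = s * (y c / s) := by field_simp
    rw [mem_Ico]
    constructor
    · nlinarith
    · nlinarith

/-- decomposition of an integral into cells -/
theorem cell_decomp {s : ℝ} (hs : 0 < s) {n : ℕ} {h : (Fin 3 → ℝ) → ℝ} (hi : Integrable h)
    (supp : ∀ y, (∃ c, n * s < |y c|) → h y = 0) :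
    ∫ y, h y = ∑ α ∈ Lat.Box n, ∫ t in cube s, h (ptp s α + t) := by
  have h1 : ∫ y, h y = ∫ y in ⋃ α ∈ Lat.Box n, cell s α, h y := by
    symm
    apply setIntegral_eq_integral_of_forall_compl_eq_zero
    intro y hy
    apply supp
    by_contra hc
    push Not at hc
    obtain ⟨α, h1, h2⟩ := cell_cover hs hc
    exact hy (mem_biUnion (x := α) h1 h2)
  rw [h1, integral_biUnion_finset]
  · exact Finset.sum_congr rfl fun α _ => cell_integral s α h
  · intro α _; exact measurableSet_cell s α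
  · intro α _ β _ hne; exact cell_disj hs hne
  · intro α _; exact hi.integrableOn

/-- the midpoint rule -/
theorem midpoint {s : ℝ} (hs : 0 < s) {n : ℕ} {h : (Fin 3 → ℝ) → ℝ} (hc : Continuous h)
    (supp : ∀ y, (∃ c, n * s < |y c|) → h y = 0) (b : (Fin 3 → ℤ) → ℝ)
    (hb : ∀ α ∈ Lat.Box n, ∀ t : Fin 3 → ℝ, (∀ c, |t c| ≤ s / 2) →
      |h (ptp s α + t) + h (ptp s α - t) - 2 * h (ptp s α)| ≤ b α) :
    |s ^ 3 * ∑ α ∈ Lat.Box n, h (ptp s α) - ∫ y, h y| ≤ s ^ 3 / 2 * ∑ α ∈ Lat.Box n, b α := by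
  have hcomp : HasCompactSupport h := by
    apply HasCompactSupport.of_support_subset_isCompact
      (K := Icc (fun _ => -(n * s)) (fun _ => n * s)) isCompact_Icc
    intro y hy
    by_contra hcon
    apply hy
    apply supp
    by_contra hcc
    push Not at hcc
    apply hcon
    exact ⟨fun c => (abs_le.mp (hcc c)).1, fun c => (abs_le.mp (hcc c)).2⟩
  have hi : Integrable h := hc.integrable_of_hasCompactSupport hcomp
  rw [cell_decomp hs hi supp, Finset.mul_sum, ← Finset.sum_sub_distrib, Finset.mul_sum]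
  refine (Finset.abs_sum_le_sum_abs _ _).trans (Finset.sum_le_sum fun α hα => ?_)
  have hK : IsCompact (cube s) := isCompact_Icc
  have i1 : IntegrableOn (fun t => h (ptp s α + t)) (cube s) :=
    (hc.comp (continuous_const.add continuous_id)).continuousOn.integrableOn_compact hK
  have i2 : IntegrableOn (fun t => h (ptp s α - t)) (cube s) :=
    (hc.comp (continuous_const.sub continuous_id)).continuousOn.integrableOn_compact hK
  have i3 : IntegrableOn (fun _ : Fin 3 → ℝ => 2 * h (ptp s α)) (cube s) :=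
    continuous_const.continuousOn.integrableOn_compact hK
  have e1 : ∫ t in cube s, h (ptp s α - t) = ∫ t in cube s, h (ptp s α + t) := by
    rw [← cube_neg_integral s (fun t => h (ptp s α + t))]
    rfl
  have e2 : ∫ t in cube s, (h (ptp s α + t) + h (ptp s α - t) - 2 * h (ptp s α)) =
      2 * (∫ t in cube s, h (ptp s α + t)) - 2 * (s ^ 3 * h (ptp s α)) := by
    have i12 : Integrable (fun t => h (ptp s α + t) + h (ptp s α - t))
        (volume.restrict (cube s)) := i1.add i2
    rw [integral_sub i12 i3, integral_add i1 i2, e1, setIntegral_const, cube_vol hs,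
      smul_eq_mul]
    ring
  have e3 : |∫ t in cube s, (h (ptp s α + t) + h (ptp s α - t) - 2 * h (ptp s α))| ≤
      b α * s ^ 3 := by
    have := norm_setIntegral_le_of_norm_le_const (μ := volume) (s := cube s) (C := b α)
      (f := fun t => h (ptp s α + t) + h (ptp s α - t) - 2 * h (ptp s α))
      (cube_vol_lt_top s) ?_
    · rw [cube_vol hs] at this
      exact this
    · intro t ht
      apply hb α hα
      intro c
      rw [abs_le]
      exact ⟨ht.1 c, ht.2 c⟩
  rw [e2] at e3
  have e4 : |s ^ 3 * h (ptp s α) - ∫ t in cube s, h (ptp s α + t)| =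
      |2 * (∫ t in cube s, h (ptp s α + t)) - 2 * (s ^ 3 * h (ptp s α))| / 2 := by
    rw [← mul_sub, abs_mul, abs_of_pos (by norm_num : (0:ℝ) < 2), abs_sub_comm]
    ring
  rw [e4]
  linarith

end Crest.Agent.R338.Di
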