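import Crest.Agent.R338.Di3

/-!
Row 338, node C.5 (displacements), part 4: the main term (integration by parts and integration
in `τ`) (helper581).
-/

set_option autoImplicit false

noncomputable section
open Real MeasureTheory Set
open scoped RealInnerProductSpace

namespace Crest.Agent.R338.Di
open Crest.Agent.R338.Lat

/-- `d/dτ (τ³ e^{-τ²|z|²})` -/
def pp (τ : ℝ) (z : P3) : ℝ := (3 * τ ^ 2 - 2 * τ ^ 4 * ‖z‖ ^ 2) * gau τ z

theorem hasDerivAt_pp (τ : ℝ) (z : P3) : HasDerivAt (fun τ => τ ^ 3 * gau τ z) (pp τ z) τ := by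
  have h1 : HasDerivAt (fun τ : ℝ => -(τ ^ 2 * ‖z‖ ^ 2)) (-(((2 : ℕ) : ℝ) * τ ^ (2 - 1) * ‖z‖ ^ 2)) τ :=
    ((hasDerivAt_pow 2 τ).mul_const (‖z‖ ^ 2)).neg
  have h2 : HasDerivAt (fun τ : ℝ => τ ^ 3 * gau τ z)
      ((((3 : ℕ) : ℝ) * τ ^ (3 - 1)) * gau τ z +
        τ ^ 3 * (gau τ z * (-(((2 : ℕ) : ℝ) * τ ^ (2 - 1) * ‖z‖ ^ 2)))) τ :=
    (hasDerivAt_pow 3 τ).mul h1.exp
  refine h2.congr_deriv ?_
  unfold pp
  push_cast
  ring

theorem continuous_pp (z : P3) : Continuous fun τ : ℝ => pp τ z := by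
  unfold pp gau; fun_prop

theorem integral_pp (b : ℝ) (z : P3) : ∫ τ in (0 : ℝ)..b, pp τ z = b ^ 3 * gau b z := by
  rw [intervalIntegral.integral_eq_sub_of_hasDerivAt (f := fun τ => τ ^ 3 * gau τ z)
    (fun τ _ => hasDerivAt_pp τ z) ((continuous_pp z).intervalIntegrable _ _)]
  simp

theorem abs_pp_le {τ b : ℝ} (h0 : 0 ≤ τ) (h1 : τ ≤ b) (z : P3) : |pp τ z| ≤ 5 * b ^ 2 := by
  unfold pp
  rw [abs_mul, abs_of_pos (gau_pos τ z)]
  have h2 : |3 * τ ^ 2 - 2 * τ ^ 4 * ‖z‖ ^ 2| ≤ 3 * τ ^ 2 + 2 * τ ^ 4 * ‖z‖ ^ 2 := by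
    refine (abs_sub _ _).trans ?_
    rw [abs_of_nonneg (by positivity), abs_of_nonneg (by positivity)]
  have h3 : τ ^ 2 * ‖z‖ ^ 2 * gau τ z ≤ 1 := by
    unfold gau
    set q := τ ^ 2 * ‖z‖ ^ 2
    have hq : q ≤ Real.exp q := by linarith [Real.add_one_le_exp q]
    rw [Real.exp_neg]
    rw [← div_eq_mul_inv, div_le_one (Real.exp_pos _)]
    exact hq
  have h4 : τ ^ 2 ≤ b ^ 2 := by gcongr
  calc |3 * τ ^ 2 - 2 * τ ^ 4 * ‖z‖ ^ 2| * gau τ z
      ≤ (3 * τ ^ 2 + 2 * τ ^ 4 * ‖z‖ ^ 2) * gau τ z := by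
        gcongr; exact (gau_pos τ z).le
    _ = 3 * τ ^ 2 * gau τ z + 2 * τ ^ 2 * (τ ^ 2 * ‖z‖ ^ 2 * gau τ z) := by ring
    _ ≤ 3 * τ ^ 2 * 1 + 2 * τ ^ 2 * 1 := by
        gcongr; exact gau_le_one τ z
    _ ≤ 5 * b ^ 2 := by linarith

/-- the integrand of the first order term -/
def Hf (w : P3 → ℝ) (τ : ℝ) (x y : P3) : ℝ := -(2 * τ ^ 2) * fderiv ℝ w y (vv τ (x - y))

theorem continuous_vv (τ : ℝ) : Continuous (vv τ) := (continuous_gau τ).smul continuous_id

theorem continuous_Hf {w : P3 → ℝ} (hw : ContDiff ℝ 1 w) (τ : ℝ) (x : P3) :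
    Continuous (Hf w τ x) := by
  unfold Hf
  have h1 : Continuous (fderiv ℝ w) := hw.continuous_fderiv one_ne_zero
  exact continuous_const.mul (h1.clm_apply ((continuous_vv τ).comp (continuous_const.sub
    continuous_id)))

/-- basis vectors -/
def ee (c : Fin 3) : P3 := EuclideanSpace.single c (1 : ℝ)

theorem vec_eq (z : P3) : z = ∑ c, z c • ee c := by
  ext i
  simp [ee, Finset.sum_apply, Pi.single_apply]

/-- coordinate of the field -/
def gc (τ : ℝ) (x : P3) (c : Fin 3) (y : P3) : ℝ := gau τ (x - y) * (x - y) c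

theorem hasFDerivAt_gc (τ : ℝ) (x : P3) (c : Fin 3) (y : P3) :
    HasFDerivAt (gc τ x c)
      (gau τ (x - y) • (-(EuclideanSpace.proj c : P3 →L[ℝ] ℝ)) +
        ((x - y) c) • (gau τ (x - y) • ((2 * τ ^ 2) • (innerSL ℝ (x - y))))) y := by
  have h0 : HasFDerivAt (fun y : P3 => x - y) (-(ContinuousLinearMap.id ℝ P3)) y :=
    (hasFDerivAt_id y).const_sub x
  have h1 : HasFDerivAt (fun y : P3 => ‖x - y‖ ^ 2)
      (2 • (innerSL ℝ (x - y)).comp (-(ContinuousLinearMap.id ℝ P3))) y := h0.norm_sq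
  have h2 : HasFDerivAt (fun y : P3 => gau τ (x - y))
      (gau τ (x - y) • ((2 * τ ^ 2) • (innerSL ℝ (x - y)))) y := by
    have h3 : HasFDerivAt (fun y : P3 => gau τ (x - y))
      (gau τ (x - y) • -(τ ^ 2 • ((2 : ℕ) • (innerSL ℝ (x - y)).comp
        (-(ContinuousLinearMap.id ℝ P3)) : P3 →L[ℝ] ℝ))) y :=
          ((h1.const_mul (τ ^ 2)).neg).exp
    refine h3.congr_fderiv ?_
    ext v
    simp
    ring
  have h3 : HasFDerivAt (fun y : P3 => (x - y) c) (-(EuclideanSpace.proj c : P3 →L[ℝ] ℝ)) y := by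
    have h4 : HasFDerivAt (fun y : P3 => (x - y) c)
        ((EuclideanSpace.proj c : P3 →L[ℝ] ℝ).comp (-(ContinuousLinearMap.id ℝ P3))) y :=
      (EuclideanSpace.proj c : P3 →L[ℝ] ℝ).hasFDerivAt.comp y h0
    refine h4.congr_fderiv ?_
    ext v
    simp
  exact h2.mul h3

theorem fderiv_gc (τ : ℝ) (x : P3) (c : Fin 3) (y : P3) :
    fderiv ℝ (gc τ x c) y (ee c) = gau τ (x - y) * (2 * τ ^ 2 * (x - y) c ^ 2 - 1) := by
  rw [(hasFDerivAt_gc τ x c y).fderiv]
  have e2 : inner ℝ (x - y) (ee c) = (x - y) c := by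
    unfold ee
    rw [EuclideanSpace.inner_single_right]; simp
  simp only [add_apply, smul_apply, neg_apply, innerSL_apply_apply, e2]
  simp [ee]
  ring

theorem continuous_gc (τ : ℝ) (x : P3) (c : Fin 3) : Continuous (gc τ x c) :=
  continuous_iff_continuousAt.mpr fun y => (hasFDerivAt_gc τ x c y).continuousAt

/-- integration by parts -/
theorem ibp {w : P3 → ℝ} (hw : ContDiff ℝ 1 w) (hc : HasCompactSupport w) (τ : ℝ) (x : P3) :
    ∫ y, Hf w τ x y = -2 * ∫ y, w y * pp τ (x - y) := by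
  have hfd : Continuous (fderiv ℝ w) := hw.continuous_fderiv one_ne_zero
  have hcfd : HasCompactSupport (fderiv ℝ w) := hc.fderiv ℝ
  have hcgau : Continuous fun y : P3 => gau τ (x - y) :=
    (continuous_gau τ).comp (continuous_const.sub continuous_id)
  have hcoord : ∀ c : Fin 3, Continuous fun y : P3 => (x - y) c := fun c =>
    (EuclideanSpace.proj c : P3 →L[ℝ] ℝ).continuous.comp (continuous_const.sub continuous_id)
  -- the three integrability facts
  have i1 : ∀ c, Integrable fun y => fderiv ℝ w y (ee c) * gc τ x c y := by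
    intro c
    apply Continuous.integrable_of_hasCompactSupport
    · exact (hfd.clm_apply continuous_const).mul (continuous_gc τ x c)
    · have : HasCompactSupport fun y => fderiv ℝ w y (ee c) := by
        apply hcfd.mono
        intro y hy hcon
        apply hy
        show fderiv ℝ w y (ee c) = 0
        rw [show fderiv ℝ w y = 0 from hcon]; rfl
      exact this.mul_right
  have i2 : ∀ c, Integrable fun y => w y * fderiv ℝ (gc τ x c) y (ee c) := by
    intro c
    apply Continuous.integrable_of_hasCompactSupport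
    · apply hw.continuous.mul
      simp only [fderiv_gc]
      have := hcoord c
      fun_prop
    · exact hc.mul_right
  have i3 : ∀ c, Integrable fun y => w y * gc τ x c y := by
    intro c
    apply Continuous.integrable_of_hasCompactSupport
    · exact hw.continuous.mul (continuous_gc τ x c)
    · exact hc.mul_right
  have key : ∀ c, ∫ y, fderiv ℝ w y (ee c) * gc τ x c y =
      - ∫ y, w y * fderiv ℝ (gc τ x c) y (ee c) := by
    intro c
    have := integral_mul_fderiv_eq_neg_fderiv_mul_of_integrable (μ := (volume : Measure P3))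
      (f := w) (g := gc τ x c) (v := ee c) (i1 c) (i2 c) (i3 c)
      (fun y _ => (hw.differentiable one_ne_zero) y)
      (fun y _ => (hasFDerivAt_gc τ x c y).differentiableAt)
    rw [this, neg_neg]
  have e1 : ∀ y, Hf w τ x y = -(2 * τ ^ 2) * ∑ c, fderiv ℝ w y (ee c) * gc τ x c y := by
    intro y
    unfold Hf vv gc
    congr 1
    rw [map_smul]
    have e0 : fderiv ℝ w y (x - y) = ∑ c, (x - y) c * fderiv ℝ w y (ee c) := by
      conv_lhs => rw [vec_eq (x - y)]
      rw [map_sum]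
      apply Finset.sum_congr rfl
      intro c _
      rw [map_smul, smul_eq_mul]
    rw [e0, smul_eq_mul, Finset.mul_sum]
    apply Finset.sum_congr rfl
    intro c _
    ring
  simp_rw [e1]
  rw [integral_const_mul, integral_finsetSum _ (fun c _ => i1 c)]
  simp_rw [key]
  rw [Finset.sum_neg_distrib, ← integral_finsetSum _ (fun c _ => i2 c)]
  rw [← integral_const_mul, ← integral_neg, ← integral_const_mul]
  congr 1
  ext y
  simp_rw [fderiv_gc]
  rw [← Finset.mul_sum, ← Finset.mul_sum]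
  unfold pp
  rw [norm_sq_P3, Finset.sum_sub_distrib, ← Finset.mul_sum]
  simp
  ring

end Crest.Agent.R338.Di
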