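import Crest.Agent.R338.Di4

/-!
Row 338, node C.5 (displacements), part 5: evaluation of the main term
(helper581).
-/

set_option autoImplicit false

noncomputable section
open Real MeasureTheory Set
open scoped RealInnerProductSpace

namespace Crest.Agent.R338.Di
open Crest.Agent.R338.Lat

theorem integral_gau {b : ℝ} (hb : 0 < b) : ∫ z : P3, gau b z = (√π / b) ^ 3 := by
  have h := GaussianFourier.integral_rexp_neg_mul_sq_norm (V := P3) (b := b ^ 2) (by positivity)
  have e : ∀ z : P3, gau b z = rexp (-b ^ 2 * ‖z‖ ^ 2) := fun z => by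
    unfold gau; congr 1; ring
  simp_rw [e]
  rw [h]
  have h3 : (Module.finrank ℝ P3 : ℝ) = 3 := by simp [P3]
  rw [h3]
  have h4 : √π / b = (π / b ^ 2) ^ (1 / 2 : ℝ) := by
    rw [← Real.sqrt_eq_rpow, Real.sqrt_div pi_pos.le, Real.sqrt_sq hb.le]
  rw [h4, ← Real.rpow_natCast ((π / b ^ 2) ^ (1 / 2 : ℝ)) 3, ← Real.rpow_mul (by positivity)]
  norm_num

theorem integrable_gau {b : ℝ} (hb : 0 < b) : Integrable (gau b) := by
  by_contra hcon
  have h := integral_undef hcon
  rw [integral_gau hb] at h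
  have : 0 < (√π / b) ^ 3 := by positivity
  linarith

theorem integral_gau_sub {b : ℝ} (hb : 0 < b) (x : P3) :
    ∫ y : P3, gau b (x - y) = (√π / b) ^ 3 := by
  rw [integral_sub_left_eq_self (gau b) volume x, integral_gau hb]

theorem integrable_gau_sub {b : ℝ} (hb : 0 < b) (x : P3) :
    Integrable fun y : P3 => gau b (x - y) := (integrable_gau hb).comp_sub_left x

theorem lip {w : P3 → ℝ} (hw : ContDiff ℝ 1 w) {G : ℝ} (hG : ∀ x, ‖fderiv ℝ w x‖ ≤ G)
    (x y : P3) : |w y - w x| ≤ G * ‖x - y‖ := by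
  have := Convex.norm_image_sub_le_of_norm_fderiv_le (𝕜 := ℝ) (f := w) (s := univ) (C := G)
    (x := x) (y := y) (fun z _ => (hw.differentiable one_ne_zero) z) (fun z _ => hG z)
    convex_univ (mem_univ _) (mem_univ _)
  rw [Real.norm_eq_abs, norm_sub_rev] at this
  exact this

/-- the mollification error -/
theorem moll {w : P3 → ℝ} (hw : ContDiff ℝ 1 w) (hc : HasCompactSupport w) {G b : ℝ}
    (hG : ∀ x, ‖fderiv ℝ w x‖ ≤ G) (hb : 0 < b) (x : P3) :
    |(b / √π) ^ 3 * (∫ y, w y * gau b (x - y)) - w x| ≤ 8 * C0 * G / b := by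
  have hG0 : 0 ≤ G := (norm_nonneg _).trans (hG 0)
  have i1 : Integrable fun y : P3 => w y * gau b (x - y) := by
    apply Continuous.integrable_of_hasCompactSupport
    · exact hw.continuous.mul ((continuous_gau b).comp (continuous_const.sub continuous_id))
    · exact hc.mul_right
  have i2 : Integrable fun y : P3 => w x * gau b (x - y) :=
    (integrable_gau_sub hb x).const_mul _
  have e1 : ∫ y : P3, w x * gau b (x - y) = w x * (√π / b) ^ 3 := by
    rw [integral_const_mul, integral_gau_sub hb]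
  have i3 : Integrable fun y : P3 => G * (C0 / b) * gau (b / 2) (x - y) :=
    (integrable_gau_sub (half_pos hb) x).const_mul _
  have e3 : ∫ y : P3, G * (C0 / b) * gau (b / 2) (x - y) = G * (C0 / b) * (√π / (b / 2)) ^ 3 := by
    rw [integral_const_mul, integral_gau_sub (half_pos hb)]
  have hb' : |∫ y, (w y * gau b (x - y) - w x * gau b (x - y))| ≤
      G * (C0 / b) * (√π / (b / 2)) ^ 3 := by
    rw [← e3]
    refine (abs_integral_le_integral_abs).trans
      (integral_mono (i1.sub i2).abs i3 fun y => ?_)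
    show |w y * gau b (x - y) - w x * gau b (x - y)| ≤ G * (C0 / b) * gau (b / 2) (x - y)
    rw [← sub_mul, abs_mul, abs_of_pos (gau_pos _ _)]
    have h1 := lip hw hG x y
    have h2 := s2 hb (x - y)
    unfold vv at h2
    rw [norm_smul, Real.norm_eq_abs, abs_of_pos (gau_pos _ _)] at h2
    calc |w y - w x| * gau b (x - y) ≤ G * ‖x - y‖ * gau b (x - y) := by
          gcongr; exact (gau_pos _ _).le
      _ = G * (1 / b) * (b * (gau b (x - y) * ‖x - y‖)) := by field_simp
      _ ≤ G * (1 / b) * (C0 * gau (b / 2) (x - y)) := by gcongr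
      _ = G * (C0 / b) * gau (b / 2) (x - y) := by ring
  rw [integral_sub i1 i2, e1] at hb'
  have hsp : 0 < √π := Real.sqrt_pos.mpr pi_pos
  have e5 : (b / √π) ^ 3 * (∫ y, w y * gau b (x - y)) - w x =
      (b / √π) ^ 3 * ((∫ y, w y * gau b (x - y)) - w x * (√π / b) ^ 3) := by
    rw [mul_sub]
    congr 1
    field_simp
  rw [e5, abs_mul, abs_of_pos (by positivity : 0 < (b / √π) ^ 3)]
  calc (b / √π) ^ 3 * |(∫ y, w y * gau b (x - y)) - w x * (√π / b) ^ 3|
      ≤ (b / √π) ^ 3 * (G * (C0 / b) * (√π / (b / 2)) ^ 3) := by gcongr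
    _ = 8 * C0 * G / b := by field_simp; ring

/-- the end point term -/
theorem endpt {w : P3 → ℝ} {G b : ℝ}
    (hG : ∀ x, ‖fderiv ℝ w x‖ ≤ G) (hb : 0 < b) (x : P3) :
    |∫ y, Hf w b x y| ≤ 16 * √π ^ 3 * C0 * G / b ^ 2 := by
  have hG0 : 0 ≤ G := (norm_nonneg _).trans (hG 0)
  have i3 : Integrable fun y : P3 => 2 * b * G * C0 * gau (b / 2) (x - y) :=
    (integrable_gau_sub (half_pos hb) x).const_mul _
  have e3 : ∫ y : P3, 2 * b * G * C0 * gau (b / 2) (x - y) =
      2 * b * G * C0 * (√π / (b / 2)) ^ 3 := by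
    rw [integral_const_mul, integral_gau_sub (half_pos hb)]
  have h := norm_integral_le_of_norm_le (f := fun y => Hf w b x y) i3
    (Filter.Eventually.of_forall fun y => by
      show ‖-(2 * b ^ 2) * fderiv ℝ w y (vv b (x - y))‖ ≤ _
      rw [norm_mul, norm_neg, Real.norm_eq_abs (2 * b ^ 2), abs_of_pos (by positivity)]
      have h1 : ‖fderiv ℝ w y (vv b (x - y))‖ ≤ G * ‖vv b (x - y)‖ :=
        (ContinuousLinearMap.le_opNorm _ _).trans (by gcongr; exact hG y)
      have h2 := s2 hb (x - y)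
      calc 2 * b ^ 2 * ‖fderiv ℝ w y (vv b (x - y))‖ ≤ 2 * b ^ 2 * (G * ‖vv b (x - y)‖) := by
            gcongr
        _ = 2 * b * G * (b * ‖vv b (x - y)‖) := by ring
        _ ≤ 2 * b * G * (C0 * gau (b / 2) (x - y)) := by gcongr
        _ = _ := by ring)
  rw [e3, Real.norm_eq_abs] at h
  refine h.trans (le_of_eq ?_)
  field_simp
  ring

/-- Fubini for the main term -/
theorem int_tau {w : P3 → ℝ} (hw : ContDiff ℝ 1 w) (hc : HasCompactSupport w) {b : ℝ}
    (hb : 0 ≤ b) (x : P3) :
    IntervalIntegrable (fun τ => ∫ y, Hf w τ x y) volume 0 b ∧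
    ∫ τ in (0 : ℝ)..b, ∫ y, Hf w τ x y = -2 * (b ^ 3 * ∫ y, w y * gau b (x - y)) := by
  have hF : Integrable (Function.uncurry fun (τ : ℝ) (y : P3) => w y * pp τ (x - y))
      ((volume.restrict (Ioc 0 b)).prod volume) := by
    have hint : Integrable (fun y : P3 => 5 * b ^ 2 * ‖w y‖) :=
      ((hw.continuous.integrable_of_hasCompactSupport hc).norm).const_mul _
    have hint2 := hint.comp_snd (volume.restrict (Ioc (0 : ℝ) b))
    have hcont : Continuous (Function.uncurry fun (τ : ℝ) (y : P3) => w y * pp τ (x - y)) := by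
      unfold Function.uncurry pp gau
      have := hw.continuous
      fun_prop
    refine hint2.mono' hcont.aestronglyMeasurable ?_
    have hae : ∀ᵐ p ∂((volume.restrict (Ioc (0 : ℝ) b)).prod (volume : Measure P3)),
        p.1 ∈ Ioc (0 : ℝ) b := by
      have h1 : ∀ᵐ t ∂(volume.restrict (Ioc (0 : ℝ) b)), t ∈ Ioc (0 : ℝ) b :=
        ae_restrict_mem measurableSet_Ioc
      exact Measure.quasiMeasurePreserving_fst.ae h1
    filter_upwards [hae] with p hp
    show ‖w p.2 * pp p.1 (x - p.2)‖ ≤ 5 * b ^ 2 * ‖w p.2‖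
    rw [norm_mul, Real.norm_eq_abs (pp p.1 (x - p.2)), mul_comm]
    gcongr
    exact abs_pp_le hp.1.le hp.2 _
  have e1 : (fun τ => ∫ y, Hf w τ x y) = fun τ => -2 * ∫ y, w y * pp τ (x - y) := by
    funext τ; exact ibp hw hc τ x
  rw [e1]
  constructor
  · rw [intervalIntegrable_iff_integrableOn_Ioc_of_le hb]
    exact (hF.integral_prod_left).const_mul _
  · rw [intervalIntegral.integral_const_mul, intervalIntegral.integral_of_le hb,
      integral_integral_swap hF]
    congr 1
    rw [← integral_const_mul]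
    congr 1
    ext y
    rw [integral_const_mul, ← intervalIntegral.integral_of_le hb, integral_pp]
    ring

end Crest.Agent.R338.Di
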