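import Crest.Agent.R338.Di5

/-!
Row 338, node C.5 (displacements), part 6: the slice estimate
(helper581).
-/

set_option autoImplicit false

noncomputable section
open Real MeasureTheory Set
open scoped RealInnerProductSpace

namespace Crest.Agent.R338.Di
open Crest.Agent.R338.Lat

/-- second difference of the integrand -/
theorem Hf_diff2 {w : P3 → ℝ} {G s τ : ℝ} (hG : 0 ≤ G) (hs : 0 < s) (hτ : 0 < τ) (hτs : τ * s ≤ 1)
    (b0 : ∀ x, ‖fderiv ℝ w x‖ ≤ G)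
    (b1 : ∀ x v, ‖fderiv ℝ w (x + v) - fderiv ℝ w x‖ ≤ G * ‖v‖)
    (b2 : ∀ x v, ‖fderiv ℝ w (x + v) + fderiv ℝ w (x - v) - (2 : ℝ) • fderiv ℝ w x‖ ≤
      G * ‖v‖ ^ 2) (x c t : P3) (ht : ‖t‖ ≤ s) :
    |Hf w τ x (c + t) + Hf w τ x (c - t) - 2 * Hf w τ x c| ≤
      12 * C0 * G * s ^ 2 * (τ + τ ^ 2 + τ ^ 3) * gau (τ / 2) (x - c) := by
  have hC0 := C0_pos
  have htt : τ * ‖t‖ ≤ 1 := le_trans (by gcongr) hτs
  set z := x - c with hz
  set g := gau (τ / 2) z with hg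
  have hg0 : 0 < g := gau_pos _ _
  have e1 : x - (c + t) = z - t := by rw [hz]; abel
  have e2 : x - (c - t) = z + t := by rw [hz]; abel
  set A0 := fderiv ℝ w c
  set Ap := fderiv ℝ w (c + t)
  set Am := fderiv ℝ w (c - t)
  have key : Hf w τ x (c + t) + Hf w τ x (c - t) - 2 * Hf w τ x c =
      -(2 * τ ^ 2) * ((Ap + Am - (2 : ℝ) • A0) (vv τ z) +
        A0 (vv τ (z + t) + vv τ (z - t) - (2 : ℝ) • vv τ z) +
        (Ap - A0) (vv τ (z - t) - vv τ z) + (Am - A0) (vv τ (z + t) - vv τ z)) := by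
    unfold Hf
    rw [e1, e2]
    simp only [add_apply, sub_apply, smul_apply, map_add, map_sub, map_smul, smul_eq_mul]
    ring
  rw [key, abs_mul, abs_neg, abs_of_pos (by positivity : 0 < 2 * τ ^ 2)]
  have n1 : |(Ap + Am - (2 : ℝ) • A0) (vv τ z)| ≤ G * ‖t‖ ^ 2 * ‖vv τ z‖ := by
    rw [← Real.norm_eq_abs]
    exact (ContinuousLinearMap.le_opNorm _ _).trans (by gcongr; exact b2 c t)
  have n2 : |A0 (vv τ (z + t) + vv τ (z - t) - (2 : ℝ) • vv τ z)| ≤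
      G * ‖vv τ (z + t) + vv τ (z - t) - (2 : ℝ) • vv τ z‖ := by
    rw [← Real.norm_eq_abs]
    exact (ContinuousLinearMap.le_opNorm _ _).trans (by gcongr; exact b0 c)
  have n3 : |(Ap - A0) (vv τ (z - t) - vv τ z)| ≤ G * ‖t‖ * ‖vv τ (z - t) - vv τ z‖ := by
    rw [← Real.norm_eq_abs]
    exact (ContinuousLinearMap.le_opNorm _ _).trans (by gcongr; exact b1 c t)
  have n4 : |(Am - A0) (vv τ (z + t) - vv τ z)| ≤ G * ‖t‖ * ‖vv τ (z + t) - vv τ z‖ := by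
    rw [← Real.norm_eq_abs]
    refine (ContinuousLinearMap.le_opNorm _ _).trans ?_
    have := b1 c (-t)
    rw [← sub_eq_add_neg, norm_neg] at this
    gcongr
  have m1 := s2 hτ z
  have m2 := s4 hτ (z := z) htt
  have m3 := s3 hτ (z := z) (t := -t) (by rw [norm_neg]; exact htt)
  have m4 := s3 hτ (z := z) htt
  rw [← sub_eq_add_neg, norm_neg] at m3
  rw [← hg] at m1 m2 m3 m4
  set a1 := ‖vv τ z‖
  set a2 := ‖vv τ (z + t) + vv τ (z - t) - (2 : ℝ) • vv τ z‖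
  set a3 := ‖vv τ (z - t) - vv τ z‖
  set a4 := ‖vv τ (z + t) - vv τ z‖
  have hsum := (abs_add_le ((Ap + Am - (2 : ℝ) • A0) (vv τ z) +
        A0 (vv τ (z + t) + vv τ (z - t) - (2 : ℝ) • vv τ z) +
        (Ap - A0) (vv τ (z - t) - vv τ z)) ((Am - A0) (vv τ (z + t) - vv τ z)))
  have hsum2 := (abs_add_le ((Ap + Am - (2 : ℝ) • A0) (vv τ z) +
        A0 (vv τ (z + t) + vv τ (z - t) - (2 : ℝ) • vv τ z))
        ((Ap - A0) (vv τ (z - t) - vv τ z)))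
  have hsum3 := (abs_add_le ((Ap + Am - (2 : ℝ) • A0) (vv τ z))
        (A0 (vv τ (z + t) + vv τ (z - t) - (2 : ℝ) • vv τ z)))
  have hT0 : 0 ≤ ‖t‖ := norm_nonneg _
  set T := ‖t‖
  calc 2 * τ ^ 2 * |(Ap + Am - (2 : ℝ) • A0) (vv τ z) +
        A0 (vv τ (z + t) + vv τ (z - t) - (2 : ℝ) • vv τ z) +
        (Ap - A0) (vv τ (z - t) - vv τ z) + (Am - A0) (vv τ (z + t) - vv τ z)|
      ≤ 2 * τ ^ 2 * (G * T ^ 2 * a1 + G * a2 + G * T * a3 + G * T * a4) := by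
        gcongr; linarith
    _ = 2 * τ * (G * T ^ 2 * (τ * a1) + G * (τ * a2) + G * T * (τ * a3) + G * T * (τ * a4)) := by
        ring
    _ ≤ 2 * τ * (G * T ^ 2 * (C0 * g) + G * (6 * C0 * (τ * T) ^ 2 * g) +
        G * T * (2 * C0 * (τ * T) * g) + G * T * (2 * C0 * (τ * T) * g)) := by
        gcongr
    _ = 2 * C0 * G * T ^ 2 * (τ + 6 * τ ^ 3 + 4 * τ ^ 2) * g := by ring
    _ ≤ 2 * C0 * G * s ^ 2 * (τ + 6 * τ ^ 3 + 4 * τ ^ 2) * g := by gcongr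
    _ ≤ 2 * C0 * G * s ^ 2 * (6 * (τ + τ ^ 2 + τ ^ 3)) * g := by
        gcongr; nlinarith [pow_pos hτ 2, pow_pos hτ 3]
    _ = _ := by ring

/-- vanishing of the derivative outside of the support -/
theorem fderiv_zero {w : P3 → ℝ} {L : ℝ} (supp : ∀ x, (∃ c, L < |x c|) → w x = 0) {x : P3}
    (hx : ∃ c, L < |x c|) : fderiv ℝ w x = 0 := by
  obtain ⟨c, hc⟩ := hx
  have hopen : IsOpen {y : P3 | L < |y c|} :=
    isOpen_lt continuous_const ((EuclideanSpace.proj c : P3 →L[ℝ] ℝ).continuous.abs)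
  have heq : w =ᶠ[nhds x] fun _ => (0 : ℝ) := by
    filter_upwards [hopen.mem_nhds hc] with y hy
    exact supp y ⟨c, hy⟩
  rw [heq.fderiv_eq]
  simp

theorem norm_toLp_le {s : ℝ} (hs : 0 < s) {t : Fin 3 → ℝ} (ht : ∀ c, |t c| ≤ s / 2) :
    ‖(WithLp.toLp 2 t : P3)‖ ≤ s := by
  have h1 : ‖(WithLp.toLp 2 t : P3)‖ ^ 2 ≤ s ^ 2 := by
    rw [norm_sq_P3]
    calc ∑ c, (WithLp.toLp 2 t : P3) c ^ 2 ≤ ∑ _c : Fin 3, (s / 2) ^ 2 := by
          apply Finset.sum_le_sum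
          intro c _
          rw [← sq_abs]
          have := ht c
          have h0 := abs_nonneg (t c)
          show |t c| ^ 2 ≤ (s / 2) ^ 2
          gcongr
      _ ≤ s ^ 2 := by
          rw [Finset.sum_const, Finset.card_univ, Fintype.card_fin]
          simp only [nsmul_eq_mul]
          push_cast
          nlinarith [sq_nonneg s]
  exact le_of_sq_le_sq h1 hs.le |> id

/-- midpoint rule for the slice -/
theorem slice_mid {w : P3 → ℝ} {G s τ L : ℝ} (hw : ContDiff ℝ 1 w)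
    (supp : ∀ x, (∃ c, L < |x c|) → w x = 0) (hG : 0 ≤ G) (hs : 0 < s) (hτ : 0 < τ)
    (hτs : τ * s ≤ 1)
    (b0 : ∀ x, ‖fderiv ℝ w x‖ ≤ G)
    (b1 : ∀ x v, ‖fderiv ℝ w (x + v) - fderiv ℝ w x‖ ≤ G * ‖v‖)
    (b2 : ∀ x v, ‖fderiv ℝ w (x + v) + fderiv ℝ w (x - v) - (2 : ℝ) • fderiv ℝ w x‖ ≤
      G * ‖v‖ ^ 2) {M : ℕ} (hM : L ≤ M * s) (x : P3) :
    |s ^ 3 * ∑ α ∈ Box M, Hf w τ x (pt s α) - ∫ y, Hf w τ x y| ≤
      s ^ 3 / 2 * ∑ α ∈ Box M,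
        12 * C0 * G * s ^ 2 * (τ + τ ^ 2 + τ ^ 3) * gau (τ / 2) (x - pt s α) := by
  have hcont := continuous_Hf hw τ x
  have hmid := midpoint hs (n := M) (h := fun y => Hf w τ x (WithLp.toLp 2 y))
    (hcont.comp (PiLp.continuous_toLp 2 _)) ?_
    (fun α => 12 * C0 * G * s ^ 2 * (τ + τ ^ 2 + τ ^ 3) * gau (τ / 2) (x - pt s α)) ?_
  · have e1 : ∫ y : Fin 3 → ℝ, Hf w τ x (WithLp.toLp 2 y) = ∫ y : P3, Hf w τ x y :=
      (PiLp.volume_preserving_toLp (Fin 3)).integral_comp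
        (MeasurableEquiv.toLp 2 (Fin 3 → ℝ)).measurableEmbedding (Hf w τ x)
    rw [e1] at hmid
    exact hmid
  · rintro y ⟨c, hc⟩
    show Hf w τ x (WithLp.toLp 2 y) = 0
    unfold Hf
    rw [fderiv_zero supp (x := WithLp.toLp 2 y) ⟨c, lt_of_le_of_lt hM hc⟩]
    simp
  · intro α _ t ht
    have := Hf_diff2 hG hs hτ hτs b0 b1 b2 x (pt s α) (WithLp.toLp 2 t) (norm_toLp_le hs ht)
    exact this

/-- the slice -/
def Rs (s : ℝ) (nL : ℕ) (d : (Fin 3 → ℤ) → P3) (τ : ℝ) (x : P3) : ℝ :=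
  ∑ α ∈ Box nL, (gau τ (x - pt s α + d α) - gau τ (x - pt s α))

theorem d_sq {s : ℝ} {d : (Fin 3 → ℤ) → P3} {w : P3 → ℝ} {L G eps : ℝ} (hs : 0 < s)
    (heps : 0 ≤ eps) (H : Disp s d w L G eps) (α : Fin 3 → ℤ) :
    ‖d α‖ ^ 2 ≤ s ^ 6 * G ^ 2 + s * eps := by
  have h1 := H.dapp α
  have h2 := H.dsmall α
  have h3 : ‖gradient w (pt s α)‖ ≤ G := by
    have := H.b0 (pt s α)
    unfold gradient
    rwa [LinearIsometryEquiv.norm_map]
  have hG : 0 ≤ G := (norm_nonneg _).trans h3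
  have h4 : ‖d α‖ ≤ s ^ 3 * G + eps := by
    have e : d α = (s ^ 3 / (4 * π)) • gradient w (pt s α) +
        (d α - (s ^ 3 / (4 * π)) • gradient w (pt s α)) := by abel
    have h5 : ‖(s ^ 3 / (4 * π)) • gradient w (pt s α)‖ ≤ s ^ 3 * G := by
      rw [norm_smul, Real.norm_eq_abs, abs_of_pos (by positivity)]
      have : s ^ 3 / (4 * π) ≤ s ^ 3 := by
        apply div_le_self (by positivity)
        nlinarith [Real.pi_gt_three]
      gcongr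
    rw [e]
    exact (norm_add_le _ _).trans (add_le_add h5 h1)
  have h0 := norm_nonneg (d α)
  have hs3 : 0 ≤ s ^ 3 * G := by positivity
  have h6 : ‖d α‖ ^ 2 ≤ ‖d α‖ * (s ^ 3 * G) + s / 4 * eps := by
    have : ‖d α‖ * ‖d α‖ ≤ ‖d α‖ * (s ^ 3 * G + eps) := by gcongr
    nlinarith
  have h7 : ‖d α‖ * (s ^ 3 * G) ≤ ‖d α‖ ^ 2 / 2 + (s ^ 3 * G) ^ 2 / 2 := by
    nlinarith [sq_nonneg (‖d α‖ - s ^ 3 * G)]
  have h8 : (s ^ 3 * G) ^ 2 = s ^ 6 * G ^ 2 := by ring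
  nlinarith

/-- one term of the slice -/
theorem slice_term {s τ : ℝ} {d : (Fin 3 → ℤ) → P3} {w : P3 → ℝ} {L G eps : ℝ} (hs : 0 < s)
    (hτ : 0 < τ) (hτs : τ * s ≤ 1)
    (heps : 0 ≤ eps) (H : Disp s d w L G eps) (x : P3) (α : Fin 3 → ℤ) :
    |(gau τ (x - pt s α + d α) - gau τ (x - pt s α)) -
      1 / (4 * π) * (s ^ 3 * Hf w τ x (pt s α))| ≤
    (2 * C0 * τ ^ 2 * (s ^ 6 * G ^ 2) + 4 * C0 * τ * eps) * gau (τ / 2) (x - pt s α) := by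
  have hC0 := C0_pos
  set z := x - pt s α with hz
  set g := gau (τ / 2) z with hg
  have hg0 : 0 < g := gau_pos _ _
  have hd := H.dsmall α
  have htd : τ * ‖d α‖ ≤ 1 := by
    calc τ * ‖d α‖ ≤ τ * (s / 4) := by gcongr
      _ ≤ 1 := by nlinarith
  have h1 := s1 hτ (z := z) htd
  rw [← hg] at h1
  set e := d α - (s ^ 3 / (4 * π)) • gradient w (pt s α) with he
  have hde : d α = (s ^ 3 / (4 * π)) • gradient w (pt s α) + e := by rw [he]; abel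
  have h2 : fderiv ℝ w (pt s α) (vv τ z) = ⟪gradient w (pt s α), vv τ z⟫ := by
    unfold gradient
    rw [InnerProductSpace.toDual_symm_apply]
  have h3 : 2 * τ ^ 2 * ⟪z, d α⟫ * gau τ z =
      -(1 / (4 * π) * (s ^ 3 * Hf w τ x (pt s α))) + 2 * τ ^ 2 * ⟪vv τ z, e⟫ := by
    unfold Hf
    rw [← hz, h2, real_inner_comm (vv τ z) (gradient w (pt s α))]
    have h4 : gau τ z * ⟪z, d α⟫ = ⟪vv τ z, d α⟫ := by
      unfold vv; rw [real_inner_smul_left]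
    have h5 : ⟪vv τ z, d α⟫ = s ^ 3 / (4 * π) * ⟪vv τ z, gradient w (pt s α)⟫ + ⟪vv τ z, e⟫ := by
      conv_lhs => rw [hde]
      rw [inner_add_right, real_inner_smul_right]
    calc 2 * τ ^ 2 * ⟪z, d α⟫ * gau τ z = 2 * τ ^ 2 * (gau τ z * ⟪z, d α⟫) := by ring
      _ = 2 * τ ^ 2 * (s ^ 3 / (4 * π) * ⟪vv τ z, gradient w (pt s α)⟫ + ⟪vv τ z, e⟫) := by
          rw [h4, h5]
      _ = _ := by ring
  have h6 : |2 * τ ^ 2 * ⟪vv τ z, e⟫| ≤ 2 * C0 * τ * eps * g := by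
    rw [abs_mul, abs_of_pos (by positivity : 0 < 2 * τ ^ 2)]
    have h7 := abs_real_inner_le_norm (vv τ z) e
    have h8 := s2 hτ z
    rw [← hg] at h8
    have h9 : ‖e‖ ≤ eps := H.dapp α
    calc 2 * τ ^ 2 * |⟪vv τ z, e⟫| ≤ 2 * τ ^ 2 * (‖vv τ z‖ * eps) := by
          gcongr; exact h7.trans (by gcongr)
      _ = 2 * τ * (τ * ‖vv τ z‖) * eps := by ring
      _ ≤ 2 * τ * (C0 * g) * eps := by gcongr
      _ = _ := by ring
  have h10 := d_sq hs heps H α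
  have h11 : |(gau τ (z + d α) - gau τ z) - 1 / (4 * π) * (s ^ 3 * Hf w τ x (pt s α))| ≤
      2 * C0 * τ ^ 2 * ‖d α‖ ^ 2 * g + 2 * C0 * τ * eps * g := by
    have e1 : (gau τ (z + d α) - gau τ z) - 1 / (4 * π) * (s ^ 3 * Hf w τ x (pt s α)) =
        (gau τ (z + d α) - gau τ z + 2 * τ ^ 2 * ⟪z, d α⟫ * gau τ z) -
          2 * τ ^ 2 * ⟪vv τ z, e⟫ := by rw [h3]; ring
    rw [e1]
    exact (abs_sub _ _).trans (add_le_add h1 h6)
  refine h11.trans ?_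
  have h12 : 2 * C0 * τ ^ 2 * ‖d α‖ ^ 2 ≤ 2 * C0 * τ ^ 2 * (s ^ 6 * G ^ 2) + 2 * C0 * τ * eps := by
    calc 2 * C0 * τ ^ 2 * ‖d α‖ ^ 2 ≤ 2 * C0 * τ ^ 2 * (s ^ 6 * G ^ 2 + s * eps) := by gcongr
      _ = 2 * C0 * τ ^ 2 * (s ^ 6 * G ^ 2) + 2 * C0 * τ * eps * (τ * s) := by ring
      _ ≤ 2 * C0 * τ ^ 2 * (s ^ 6 * G ^ 2) + 2 * C0 * τ * eps * 1 := by gcongr
      _ = _ := by ring
  nlinarith

end Crest.Agent.R338.Di
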