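import Crest.Agent.R338.Di6

/-!
Row 338, node C.5 (displacements), part 7: conclusion, `Lat.C5Stmt`
(helper581).
-/

set_option autoImplicit false

noncomputable section
open Real MeasureTheory Set
open scoped RealInnerProductSpace

namespace Crest.Agent.R338.Di
open Crest.Agent.R338.Lat

theorem compactSupp {w : P3 → ℝ} {L : ℝ} (supp : ∀ x, (∃ c, L < |x c|) → w x = 0) :
    HasCompactSupport w := by
  apply HasCompactSupport.of_support_subset_isCompact (K := Metric.closedBall 0 (3 * |L|))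
    (isCompact_closedBall _ _)
  intro x hx
  rw [mem_closedBall_zero_iff]
  have h : ∀ c, |x c| ≤ |L| := by
    intro c
    by_contra hcon
    push Not at hcon
    exact hx (supp x ⟨c, lt_of_le_of_lt (le_abs_self L) hcon⟩)
  have h2 : ‖x‖ ^ 2 ≤ (3 * |L|) ^ 2 := by
    rw [norm_sq_P3]
    calc ∑ c, x c ^ 2 ≤ ∑ _c : Fin 3, |L| ^ 2 := by
          apply Finset.sum_le_sum
          intro c _
          rw [← sq_abs (x c)]
          have := h c
          gcongr
      _ ≤ (3 * |L|) ^ 2 := by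
          rw [Finset.sum_const, Finset.card_univ, Fintype.card_fin]
          simp only [nsmul_eq_mul]
          push_cast
          nlinarith [sq_nonneg |L|]
  exact le_of_sq_le_sq h2 (by positivity) |> id

/-- weight -/
def qq (L τ : ℝ) : ℝ := L / (1 + τ * L)

theorem qq_nonneg {L τ : ℝ} (hL : 0 < L) (hτ : 0 ≤ τ) : 0 ≤ qq L τ := by
  unfold qq; positivity

theorem qq_le {L τ : ℝ} (hL : 0 < L) (hτ : 0 ≤ τ) : qq L τ ≤ L := by
  unfold qq
  apply div_le_self hL.le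
  nlinarith [mul_nonneg hτ hL.le]

theorem qq_mul_le {L τ : ℝ} (hL : 0 < L) (hτ : 0 ≤ τ) : τ * qq L τ ≤ 1 := by
  unfold qq
  rw [← mul_div_assoc, div_le_one (by positivity)]
  linarith

/-- the slice estimate -/
theorem slice {s τ : ℝ} {d : (Fin 3 → ℤ) → P3} {w : P3 → ℝ} {L G eps : ℝ} {nL : ℕ}
    (hs : 0 < s) (hs1 : s ≤ 1) (hτ : 0 < τ) (hτs : τ * s ≤ 1) (hL : 1 ≤ L)
    (hn : L + s ≤ nL * s) (hG : 1 ≤ G)
    (heps : 0 ≤ eps) (H : Disp s d w L G eps) (x : P3) :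
    |Rs s nL d τ x - 1 / (4 * π) * ∫ y, Hf w τ x y| ≤
      8000 * C0 / s ^ 3 * (2 * τ ^ 2 * (s ^ 6 * G ^ 2) + 4 * τ * eps +
        s ^ 5 * G * (τ + τ ^ 2 + τ ^ 3)) * qq L τ ^ 3 := by
  have hC0 := C0_pos
  have hG0 : 0 ≤ G := by linarith
  have hL0 : 0 < L := by linarith
  set M := ⌊L / s⌋₊ + 1 with hM
  have hM1 : (M : ℝ) ≤ L / s + 1 := by
    rw [hM]; push_cast
    have := Nat.floor_le (div_nonneg hL0.le hs.le)
    linarith
  have hM2 : L ≤ M * s := by
    have := Nat.lt_floor_add_one (L / s)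
    rw [div_lt_iff₀ hs] at this
    rw [hM]; push_cast
    linarith
  have hM3 : M ≤ nL := by
    have : (M : ℝ) ≤ nL := by
      refine hM1.trans ?_
      rw [← sub_nonneg]
      have e : (nL : ℝ) - (L / s + 1) = (nL * s - (L + s)) / s := by field_simp
      rw [e]
      apply div_nonneg (by linarith) hs.le
    exact_mod_cast this
  have hsub : Box M ⊆ Box nL := by
    unfold Box
    apply Fintype.piFinset_subset
    intro c
    apply Finset.Icc_subset_Icc <;> omega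
  have e1 : Rs s nL d τ x = ∑ α ∈ Box M, (gau τ (x - pt s α + d α) - gau τ (x - pt s α)) := by
    unfold Rs
    symm
    apply Finset.sum_subset hsub
    intro α _ hα
    have : d α = 0 := by
      apply H.dsupp
      by_contra hcon
      push Not at hcon
      apply hα
      unfold Box
      rw [Fintype.mem_piFinset]
      intro c
      have h1 := hcon c
      rw [abs_mul, abs_of_pos hs] at h1
      have h2 : |(α c : ℝ)| * s < (M + 1) * s := by nlinarith
      have h3 : |(α c : ℝ)| < M + 1 := lt_of_mul_lt_mul_right h2 hs.le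
      have h4 : |α c| < (M : ℤ) + 1 := by exact_mod_cast h3
      rw [Finset.mem_Icc]
      have h5 := abs_lt.mp h4
      omega
    rw [this, add_zero, sub_self]
  set S := ∑ α ∈ Box M, gau (τ / 2) (x - pt s α) with hS
  have hS1 : S ≤ 8000 / s ^ 3 * qq L τ ^ 3 := sum3 hs hτ hτs (by linarith) hM1 x
  have hS0 : 0 ≤ S := Finset.sum_nonneg fun _ _ => (gau_pos _ _).le
  have h1 : |Rs s nL d τ x - 1 / (4 * π) * (s ^ 3 * ∑ α ∈ Box M, Hf w τ x (pt s α))| ≤
      (2 * C0 * τ ^ 2 * (s ^ 6 * G ^ 2) + 4 * C0 * τ * eps) * S := by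
    rw [e1, Finset.mul_sum, Finset.mul_sum, ← Finset.sum_sub_distrib, hS, Finset.mul_sum]
    refine (Finset.abs_sum_le_sum_abs _ _).trans (Finset.sum_le_sum fun α _ => ?_)
    exact slice_term hs hτ hτs heps H x α
  have h2 := slice_mid H.smooth H.supp hG0 hs hτ hτs H.b0 H.b1 H.b2 hM2 x
  rw [← Finset.mul_sum, ← hS] at h2
  have h3 : |1 / (4 * π) * (s ^ 3 * ∑ α ∈ Box M, Hf w τ x (pt s α)) -
      1 / (4 * π) * ∫ y, Hf w τ x y| ≤ C0 * (s ^ 5 * G * (τ + τ ^ 2 + τ ^ 3)) * S := by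
    rw [← mul_sub, abs_mul, abs_of_pos (by positivity : 0 < 1 / (4 * π))]
    calc 1 / (4 * π) * |s ^ 3 * ∑ α ∈ Box M, Hf w τ x (pt s α) - ∫ y, Hf w τ x y|
        ≤ 1 / (4 * 3) * (s ^ 3 / 2 * (12 * C0 * G * s ^ 2 * (τ + τ ^ 2 + τ ^ 3) * S)) := by
          have := Real.pi_gt_three
          gcongr
      _ = (1 / 2) * (C0 * (s ^ 5 * G * (τ + τ ^ 2 + τ ^ 3)) * S) := by ring
      _ ≤ C0 * (s ^ 5 * G * (τ + τ ^ 2 + τ ^ 3)) * S := by
          have : 0 ≤ C0 * (s ^ 5 * G * (τ + τ ^ 2 + τ ^ 3)) * S := by positivity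
          linarith
  have h4 : |Rs s nL d τ x - 1 / (4 * π) * ∫ y, Hf w τ x y| ≤
      (2 * C0 * τ ^ 2 * (s ^ 6 * G ^ 2) + 4 * C0 * τ * eps) * S +
        C0 * (s ^ 5 * G * (τ + τ ^ 2 + τ ^ 3)) * S := by
    refine le_trans ?_ (add_le_add h1 h3)
    exact abs_sub_le _ _ _
  refine h4.trans ?_
  calc (2 * C0 * τ ^ 2 * (s ^ 6 * G ^ 2) + 4 * C0 * τ * eps) * S +
        C0 * (s ^ 5 * G * (τ + τ ^ 2 + τ ^ 3)) * S
      = C0 * (2 * τ ^ 2 * (s ^ 6 * G ^ 2) + 4 * τ * eps + s ^ 5 * G * (τ + τ ^ 2 + τ ^ 3)) * S := by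
        ring
    _ ≤ C0 * (2 * τ ^ 2 * (s ^ 6 * G ^ 2) + 4 * τ * eps + s ^ 5 * G * (τ + τ ^ 2 + τ ^ 3)) *
        (8000 / s ^ 3 * qq L τ ^ 3) := by gcongr
    _ = _ := by ring

/-- pointwise majorant of the slice error -/
theorem maj {s τ L G eps : ℝ} (hs : 0 < s) (hs1 : s ≤ 1) (hτ : 0 < τ) (hL : 1 ≤ L) (hG : 1 ≤ G)
    (heps : 0 ≤ eps) :
    8000 * C0 / s ^ 3 * (2 * τ ^ 2 * (s ^ 6 * G ^ 2) + 4 * τ * eps +
        s ^ 5 * G * (τ + τ ^ 2 + τ ^ 3)) * qq L τ ^ 3 ≤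
      32000 * C0 * (s ^ 2 * G ^ 2 * (1 + qq L τ ^ 2) + eps / s ^ 3 * qq L τ ^ 2) := by
  have hC0 := C0_pos
  have hL0 : 0 < L := by linarith
  have hG0 : 0 ≤ G := by linarith
  have q0 := qq_nonneg hL0 hτ.le
  have q1 := qq_mul_le hL0 hτ.le
  set q := qq L τ
  have hτq0 : 0 ≤ τ * q := by positivity
  have r1 : τ * q ^ 3 ≤ q ^ 2 := by
    calc τ * q ^ 3 = (τ * q) * q ^ 2 := by ring
      _ ≤ 1 * q ^ 2 := by gcongr
      _ = q ^ 2 := one_mul _
  have r2 : τ ^ 2 * q ^ 3 ≤ 1 + q ^ 2 := by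
    calc τ ^ 2 * q ^ 3 = (τ * q) ^ 2 * q := by ring
      _ ≤ 1 ^ 2 * q := by gcongr
      _ ≤ 1 + q ^ 2 := by nlinarith [sq_nonneg (q - 1)]
  have r3 : τ ^ 3 * q ^ 3 ≤ 1 := by
    calc τ ^ 3 * q ^ 3 = (τ * q) ^ 3 := by ring
      _ ≤ 1 ^ 3 := by gcongr
      _ = 1 := one_pow _
  have hs6 : s ^ 6 * G ^ 2 ≤ s ^ 5 * G ^ 2 := by
    have : s ^ 6 ≤ s ^ 5 := pow_le_pow_of_le_one hs.le hs1 (by norm_num)
    gcongr
  have hs5 : s ^ 5 * G ≤ s ^ 5 * G ^ 2 := by
    have : G ≤ G ^ 2 := by nlinarith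
    gcongr
  calc 8000 * C0 / s ^ 3 * (2 * τ ^ 2 * (s ^ 6 * G ^ 2) + 4 * τ * eps +
        s ^ 5 * G * (τ + τ ^ 2 + τ ^ 3)) * q ^ 3
      = 8000 * C0 / s ^ 3 * (2 * (s ^ 6 * G ^ 2) * (τ ^ 2 * q ^ 3) + 4 * eps * (τ * q ^ 3) +
        s ^ 5 * G * (τ * q ^ 3 + τ ^ 2 * q ^ 3 + τ ^ 3 * q ^ 3)) := by ring
    _ ≤ 8000 * C0 / s ^ 3 * (2 * (s ^ 5 * G ^ 2) * (1 + q ^ 2) + 4 * eps * q ^ 2 +
        s ^ 5 * G ^ 2 * (q ^ 2 + (1 + q ^ 2) + 1)) := by gcongr
    _ = 32000 * C0 * (s ^ 2 * G ^ 2 * (1 + q ^ 2) + eps / s ^ 3 * q ^ 2) := by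
        field_simp
        ring

/-- the end point version -/
theorem maj_end {s b L G eps : ℝ} (hs : 0 < s) (hs1 : s ≤ 1) (hb : 0 < b) (hbs : b * s ≤ 1)
    (hL : 1 ≤ L) (hG : 1 ≤ G) (heps : 0 ≤ eps) :
    b * (8000 * C0 / s ^ 3 * (2 * b ^ 2 * (s ^ 6 * G ^ 2) + 4 * b * eps +
        s ^ 5 * G * (b + b ^ 2 + b ^ 3)) * qq L b ^ 3) ≤
      32000 * C0 * (G ^ 2 * (s ^ 2 * L + s) + eps * L / s ^ 3) := by
  have hC0 := C0_pos
  have hL0 : 0 < L := by linarith
  have hG0 : 0 ≤ G := by linarith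
  have q0 := qq_nonneg hL0 hb.le
  have q1 := qq_mul_le hL0 hb.le
  have q2 := qq_le hL0 hb.le
  set q := qq L b
  have hτq0 : 0 ≤ b * q := by positivity
  have r2 : b ^ 2 * q ^ 3 ≤ L := by
    calc b ^ 2 * q ^ 3 = (b * q) ^ 2 * q := by ring
      _ ≤ 1 ^ 2 * L := by gcongr
      _ = L := by ring
  have r3 : b ^ 3 * q ^ 3 ≤ 1 := by
    calc b ^ 3 * q ^ 3 = (b * q) ^ 3 := by ring
      _ ≤ 1 ^ 3 := by gcongr
      _ = 1 := one_pow _
  have r4 : s * (b ^ 4 * q ^ 3) ≤ 1 := by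
    calc s * (b ^ 4 * q ^ 3) = (b * s) * (b ^ 3 * q ^ 3) := by ring
      _ ≤ 1 * 1 := by gcongr
      _ = 1 := one_mul _
  have e0 : b * (8000 * C0 / s ^ 3 * (2 * b ^ 2 * (s ^ 6 * G ^ 2) + 4 * b * eps +
        s ^ 5 * G * (b + b ^ 2 + b ^ 3)) * q ^ 3) =
      8000 * C0 * (2 * (s ^ 3 * G ^ 2) * (b ^ 3 * q ^ 3) + 4 * (eps / s ^ 3) * (b ^ 2 * q ^ 3) +
        (s ^ 2 * G * (b ^ 2 * q ^ 3) + s ^ 2 * G * (b ^ 3 * q ^ 3) +
          s * G * (s * (b ^ 4 * q ^ 3)))) := by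
    field_simp
  rw [e0]
  have hs3 : s ^ 3 * G ^ 2 ≤ s * G ^ 2 := by
    have : s ^ 3 ≤ s := by nlinarith [sq_nonneg s, mul_pos hs hs]
    gcongr
  have hGG : G ≤ G ^ 2 := by nlinarith
  calc 8000 * C0 * (2 * (s ^ 3 * G ^ 2) * (b ^ 3 * q ^ 3) + 4 * (eps / s ^ 3) * (b ^ 2 * q ^ 3) +
        (s ^ 2 * G * (b ^ 2 * q ^ 3) + s ^ 2 * G * (b ^ 3 * q ^ 3) +
          s * G * (s * (b ^ 4 * q ^ 3))))
      ≤ 8000 * C0 * (2 * (s * G ^ 2) * 1 + 4 * (eps / s ^ 3) * L +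
        (s ^ 2 * G ^ 2 * L + s ^ 2 * G ^ 2 * L + s * G ^ 2 * 1)) := by
        gcongr
        linarith
    _ ≤ 32000 * C0 * (G ^ 2 * (s ^ 2 * L + s) + eps * L / s ^ 3) := by
        have : 0 ≤ C0 * (s * G ^ 2) := by positivity
        have : 0 ≤ C0 * (s ^ 2 * G ^ 2 * L) := by positivity
        have e : 8000 * C0 * (2 * (s * G ^ 2) * 1 + 4 * (eps / s ^ 3) * L +
            (s ^ 2 * G ^ 2 * L + s ^ 2 * G ^ 2 * L + s * G ^ 2 * 1)) =
            32000 * C0 * (eps * L / s ^ 3) + 24000 * (C0 * (s * G ^ 2)) +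
              16000 * (C0 * (s ^ 2 * G ^ 2 * L)) := by ring
        rw [e]
        have e' : 32000 * C0 * (G ^ 2 * (s ^ 2 * L + s) + eps * L / s ^ 3) =
            32000 * C0 * (eps * L / s ^ 3) + 32000 * (C0 * (s * G ^ 2)) +
              32000 * (C0 * (s ^ 2 * G ^ 2 * L)) := by ring
        rw [e']
        linarith

theorem integral_qq_sq {L b : ℝ} (hL : 0 < L) (hb : 0 ≤ b) :
    IntervalIntegrable (fun τ => qq L τ ^ 2) volume 0 b ∧
    ∫ τ in (0 : ℝ)..b, qq L τ ^ 2 ≤ L := by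
  have hpos : ∀ τ ∈ Set.uIcc (0 : ℝ) b, 0 < 1 + τ * L := by
    intro τ hτ
    rw [Set.uIcc_of_le hb] at hτ
    nlinarith [hτ.1]
  have hcont : ContinuousOn (fun τ => qq L τ ^ 2) (Set.uIcc 0 b) := by
    unfold qq
    apply ContinuousOn.pow
    apply ContinuousOn.div continuousOn_const (by fun_prop)
    intro τ hτ
    exact (hpos τ hτ).ne'
  refine ⟨hcont.intervalIntegrable, ?_⟩
  have hder : ∀ τ ∈ Set.uIcc (0 : ℝ) b, HasDerivAt (fun τ => -(L / (1 + τ * L))) (qq L τ ^ 2) τ := by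
    intro τ hτ
    have h1 : HasDerivAt (fun τ : ℝ => 1 + τ * L) (1 * L) τ :=
      ((hasDerivAt_id τ).mul_const L).const_add 1
    have h2 := ((hasDerivAt_const τ L).div h1 (hpos τ hτ).ne').neg
    refine h2.congr_deriv ?_
    unfold qq
    have := (hpos τ hτ).ne'
    field_simp
    ring
  rw [intervalIntegral.integral_eq_sub_of_hasDerivAt hder hcont.intervalIntegrable]
  have : 0 ≤ L / (1 + b * L) := by positivity
  simp
  linarith

theorem continuous_Rs (s : ℝ) (nL : ℕ) (d : (Fin 3 → ℤ) → P3) (x : P3) :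
    Continuous fun τ => Rs s nL d τ x := by
  unfold Rs
  apply continuous_finsetSum
  intro α _
  exact (continuous_gau_param _).sub (continuous_gau_param _)

/-- `Vs - V0` through slices -/
theorem Vs_sub {lam s a : ℝ} {nL : ℕ} {d : (Fin 3 → ℤ) → P3} (x : P3) :
    Vs lam s a nL d x - V0 lam s a nL x =
      -(lam * (2 / √π)) * (∫ τ in (0 : ℝ)..√a, Rs s nL d τ x) -
        lam * √(a / π) * Rs s nL d (√a) x := by
  rw [← Vs_zero]
  unfold Vs
  rw [← Finset.sum_sub_distrib]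
  have e : ∫ τ in (0 : ℝ)..√a, Rs s nL d τ x =
      ∑ α ∈ Box nL, ((∫ τ in (0 : ℝ)..√a, gau τ (x - pt s α + d α)) -
        ∫ τ in (0 : ℝ)..√a, gau τ (x - pt s α)) := by
    unfold Rs
    rw [intervalIntegral.integral_finsetSum]
    · apply Finset.sum_congr rfl
      intro α _
      rw [intervalIntegral.integral_sub ((continuous_gau_param _).intervalIntegrable _ _)
        ((continuous_gau_param _).intervalIntegrable _ _)]
    · intro α _
      exact ((continuous_gau_param _).sub (continuous_gau_param _)).intervalIntegrable _ _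
  rw [e]
  unfold Rs
  rw [Finset.mul_sum, Finset.mul_sum, ← Finset.sum_sub_distrib]
  apply Finset.sum_congr rfl
  intro α _
  unfold Psi LR nuc
  have e1 : x - (pt s α - d α) = x - pt s α + d α := by abel
  rw [e1, sub_zero]
  ring

set_option maxHeartbeats 1000000 in
/-- node C.5 -/
theorem c5 : C5Stmt := by
  refine ⟨100000 * C0, ?_⟩
  intro lam s K a nL d w L G eps hlam hs hs1 hK ha hL hn hG heps H x
  have hC0 := C0_pos
  have hL0 : 0 < L := by linarith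
  have hG0 : 0 ≤ G := by linarith
  have hK0 : 0 < K := by linarith
  set b := 1 / (K * s) with hb
  have hb0 : 0 < b := by rw [hb]; positivity
  have hab : √a = b := by
    rw [ha, hb, Real.sqrt_div zero_le_one, Real.sqrt_one, Real.sqrt_sq (by positivity)]
  have hab2 : √(a / π) = b / √π := by
    rw [Real.sqrt_div (by rw [ha]; positivity), hab]
  have hbs : b * s ≤ 1 := by
    rw [hb]
    have : 1 / (K * s) * s = 1 / K := by field_simp
    rw [this, div_le_one hK0]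
    exact hK
  have hbinv : 1 / b = K * s := by rw [hb]; simp
  have hcs : HasCompactSupport w := compactSupp H.supp
  have hπ := Real.pi_pos
  have hsp : 0 < √π := Real.sqrt_pos.mpr hπ
  have hsp2 : √π * √π = π := Real.mul_self_sqrt hπ.le
  set E := G ^ 2 * (s ^ 2 * L + s) + eps * L / s ^ 3 with hE
  have hE0 : 0 ≤ E := by rw [hE]; positivity
  -- the integral term
  obtain ⟨hi1, hi2⟩ := int_tau H.smooth hcs hb0.le x
  have hiR : IntervalIntegrable (fun τ => Rs s nL d τ x) volume 0 b :=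
    (continuous_Rs s nL d x).intervalIntegrable _ _
  obtain ⟨hq1, hq2⟩ := integral_qq_sq hL0 hb0.le
  have hI : |(∫ τ in (0 : ℝ)..b, Rs s nL d τ x) -
      1 / (4 * π) * ∫ τ in (0 : ℝ)..b, ∫ y, Hf w τ x y| ≤ 32000 * C0 * E := by
    rw [← intervalIntegral.integral_const_mul, ← intervalIntegral.integral_sub hiR
      (hi1.const_mul _)]
    have hgi : IntervalIntegrable (fun τ => 32000 * C0 *
        (s ^ 2 * G ^ 2 * (1 + qq L τ ^ 2) + eps / s ^ 3 * qq L τ ^ 2)) volume 0 b := by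
      apply IntervalIntegrable.const_mul
      apply IntervalIntegrable.add
      · apply IntervalIntegrable.const_mul
        exact (intervalIntegrable_const).add hq1
      · exact hq1.const_mul _
    have hle := intervalIntegral.norm_integral_le_of_norm_le (μ := volume) hb0.le
      (f := fun τ => Rs s nL d τ x - 1 / (4 * π) * ∫ y, Hf w τ x y)
      (g := fun τ => 32000 * C0 *
        (s ^ 2 * G ^ 2 * (1 + qq L τ ^ 2) + eps / s ^ 3 * qq L τ ^ 2)) ?_ hgi
    · rw [Real.norm_eq_abs] at hle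
      refine hle.trans ?_
      have e1 : ∫ τ in (0 : ℝ)..b, 32000 * C0 *
          (s ^ 2 * G ^ 2 * (1 + qq L τ ^ 2) + eps / s ^ 3 * qq L τ ^ 2) =
          32000 * C0 * (s ^ 2 * G ^ 2 * (b + ∫ τ in (0 : ℝ)..b, qq L τ ^ 2) +
            eps / s ^ 3 * ∫ τ in (0 : ℝ)..b, qq L τ ^ 2) := by
        rw [intervalIntegral.integral_const_mul, intervalIntegral.integral_add,
          intervalIntegral.integral_const_mul, intervalIntegral.integral_const_mul,
          intervalIntegral.integral_add intervalIntegrable_const hq1]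
        · simp
        · exact (intervalIntegrable_const.add hq1).const_mul _
        · exact hq1.const_mul _
      rw [e1]
      have h5 : s ^ 2 * b ≤ s := by nlinarith
      calc 32000 * C0 * (s ^ 2 * G ^ 2 * (b + ∫ τ in (0 : ℝ)..b, qq L τ ^ 2) +
            eps / s ^ 3 * ∫ τ in (0 : ℝ)..b, qq L τ ^ 2)
          ≤ 32000 * C0 * (s ^ 2 * G ^ 2 * (b + L) + eps / s ^ 3 * L) := by gcongr
        _ = 32000 * C0 * (G ^ 2 * (s ^ 2 * L + s ^ 2 * b) + eps * L / s ^ 3) := by ring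
        _ ≤ 32000 * C0 * E := by rw [hE]; gcongr
    · refine Filter.Eventually.of_forall fun τ hτ => ?_
      have hτs : τ * s ≤ 1 := le_trans (by have := hτ.2; gcongr) hbs
      exact (slice hs hs1 hτ.1 hτs hL hn hG heps H x).trans (maj hs hs1 hτ.1 hL hG heps)
  -- the end point term
  have hEnd : b * |Rs s nL d b x - 1 / (4 * π) * ∫ y, Hf w b x y| ≤ 32000 * C0 * E := by
    refine le_trans ?_ (maj_end hs hs1 hb0 hbs hL hG heps)
    gcongr
    exact slice hs hs1 hb0 hbs hL hn hG heps H x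
  have hEnd2 := endpt H.b0 hb0 x
  have hMoll := moll H.smooth hcs H.b0 hb0 x
  rw [hi2] at hI
  -- assemble
  set A := ∫ τ in (0 : ℝ)..b, Rs s nL d τ x
  set B := ∫ y, w y * gau b (x - y)
  set D := ∫ y, Hf w b x y
  have key : Vs lam s a nL d x - V0 lam s a nL x - lam * w x =
      -(lam * (2 / √π)) * (A - 1 / (4 * π) * (-2 * (b ^ 3 * B))) +
      (-(lam * (1 / √π)) * (b * (Rs s nL d b x - 1 / (4 * π) * D)) +
      (-(lam * (b / √π) * (1 / (4 * π)) * D) +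
      lam * ((b / √π) ^ 3 * B - w x))) := by
    rw [Vs_sub, hab, hab2]
    have e3 : (b / √π) ^ 3 = b ^ 3 / (π * √π) := by
      rw [div_pow, pow_succ (√π) 2, pow_two (√π), hsp2]
    rw [e3]
    field_simp
    ring
  rw [key]
  have hsq1 : 1 / √π ≤ 1 := by
    rw [div_le_one hsp]
    have : (1 : ℝ) = √1 := by simp
    rw [this]
    exact Real.sqrt_le_sqrt (by linarith [Real.pi_gt_three])
  have hsq2 : 2 / √π ≤ 2 := by
    calc 2 / √π = 2 * (1 / √π) := by ring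
      _ ≤ 2 * 1 := by gcongr
      _ = 2 := by norm_num
  have t1 : |-(lam * (2 / √π)) * (A - 1 / (4 * π) * (-2 * (b ^ 3 * B)))| ≤
      lam * (64000 * C0 * E) := by
    rw [abs_mul, abs_neg, abs_of_nonneg (by positivity : 0 ≤ lam * (2 / √π))]
    calc lam * (2 / √π) * |A - 1 / (4 * π) * (-2 * (b ^ 3 * B))|
        ≤ lam * 2 * (32000 * C0 * E) := by gcongr
      _ = lam * (64000 * C0 * E) := by ring
  have t2 : |-(lam * (1 / √π)) * (b * (Rs s nL d b x - 1 / (4 * π) * D))| ≤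
      lam * (32000 * C0 * E) := by
    rw [abs_mul, abs_neg, abs_of_nonneg (by positivity : 0 ≤ lam * (1 / √π)), abs_mul,
      abs_of_pos hb0]
    calc lam * (1 / √π) * (b * |Rs s nL d b x - 1 / (4 * π) * D|)
        ≤ lam * 1 * (32000 * C0 * E) := by gcongr
      _ = lam * (32000 * C0 * E) := by ring
  have t3 : |-(lam * (b / √π) * (1 / (4 * π)) * D)| ≤ lam * (4 * C0 * G * (K * s)) := by
    rw [abs_neg, abs_mul, abs_of_nonneg (by positivity : 0 ≤ lam * (b / √π) * (1 / (4 * π)))]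
    calc lam * (b / √π) * (1 / (4 * π)) * |D|
        ≤ lam * (b / √π) * (1 / (4 * π)) * (16 * √π ^ 3 * C0 * G / b ^ 2) := by gcongr
      _ = lam * (4 * C0 * G * ((√π * √π) / π) * (1 / b)) := by field_simp; ring
      _ = lam * (4 * C0 * G * (K * s)) := by rw [hsp2, div_self hπ.ne', hbinv]; ring
  have t4 : |lam * ((b / √π) ^ 3 * B - w x)| ≤ lam * (8 * C0 * G * (K * s)) := by
    rw [abs_mul, abs_of_nonneg hlam]
    calc lam * |(b / √π) ^ 3 * B - w x| ≤ lam * (8 * C0 * G / b) := by gcongr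
      _ = lam * (8 * C0 * G * (1 / b)) := by ring
      _ = _ := by rw [hbinv]
  have hGG : G ≤ G ^ 2 := by nlinarith
  have hsK : s ≤ K * s := by nlinarith
  refine (abs_add_le _ _).trans ?_
  refine (add_le_add t1 ((abs_add_le _ _).trans (add_le_add t2 ((abs_add_le _ _).trans
    (add_le_add t3 t4))))).trans ?_
  have f1 : E ≤ G ^ 2 * (s ^ 2 * L + K * s) + eps * L / s ^ 3 := by
    rw [hE]; gcongr
  have f2 : G * (K * s) ≤ G ^ 2 * (s ^ 2 * L + K * s) + eps * L / s ^ 3 := by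
    have h1 : G * (K * s) ≤ G ^ 2 * (K * s) := by gcongr
    have h2 : 0 ≤ G ^ 2 * (s ^ 2 * L) := by positivity
    have h3 : 0 ≤ eps * L / s ^ 3 := by positivity
    have h4 : G ^ 2 * (s ^ 2 * L + K * s) = G ^ 2 * (s ^ 2 * L) + G ^ 2 * (K * s) := by ring
    linarith
  set F := G ^ 2 * (s ^ 2 * L + K * s) + eps * L / s ^ 3
  calc lam * (64000 * C0 * E) + (lam * (32000 * C0 * E) +
        (lam * (4 * C0 * G * (K * s)) + lam * (8 * C0 * G * (K * s))))
      = lam * C0 * (96000 * E + 12 * (G * (K * s))) := by ring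
    _ ≤ lam * C0 * (96000 * F + 12 * F) := by gcongr
    _ ≤ 100000 * C0 * lam * F := by
        have h1 : 0 ≤ F := hE0.trans f1
        have h2 : 0 ≤ lam * C0 * F := by positivity
        have h3 : lam * C0 * (96000 * F + 12 * F) = 96012 * (lam * C0 * F) := by ring
        have h4 : 100000 * C0 * lam * F = 100000 * (lam * C0 * F) := by ring
        rw [h3, h4]
        linarith

end Crest.Agent.R338.Di
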