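import Crest.Agent.R338.EX3
import Crest.Agent.R338.Iface

/-!
# Row 338, NODE EX, file EX4 (helper439): matrix elements of the hopping potentials

Bridge `hf_eq_HO : R338.hf = HO.hf` (frozen interface vs. 789's library), the product formula
`integral_prod3`, and for ALL multi-indices
`w1_vhop : w1 (vhop n k i j) a b = I4 (mi i) (mi j) (a 0) (b 0) * I4 (m'i) (m'j) (a 1) (b 1) * [a 2 = b 2]`,
`Mhop_eq` (closed form of the calibration matrix).
-/

set_option autoImplicit false

open MeasureTheory Polynomial Real Finset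

noncomputable section

namespace Crest.Agent.R338.EX

open Crest.MathPhysics.ElectronicCoulomb

theorem hpoly_eval (n : ℕ) (s : ℝ) : (hpoly n).eval s = (HO.hP n).eval s := by
  induction n using Nat.twoStepInduction with
  | zero => simp [hpoly, HO.hP_zero]
  | one =>
    have h := HO.x_mul_hP_zero s
    simp only [hpoly, eval_mul, eval_C, eval_X]
    rw [HO.hP_zero, eval_C] at h
    have e : √2 * √(1 / 2 : ℝ) = 1 := by
      rw [← Real.sqrt_mul (by norm_num)]; norm_num
    calc √2 * s * π ^ (-(1 / 4) : ℝ) = √2 * (s * π ^ (-(1 / 4) : ℝ)) := by ring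
      _ = (√2 * √(1 / 2 : ℝ)) * (HO.hP 1).eval s := by rw [h]; ring
      _ = _ := by rw [e, one_mul]
  | more n ih1 ih2 =>
    have h := HO.x_mul_hP n s
    simp only [hpoly, eval_mul, eval_C, eval_X, eval_sub]
    rw [ih1, ih2]
    have h1 : √(2 / ((n : ℝ) + 2)) * √(((n : ℝ) + 1 + 1) / 2) = 1 := by
      rw [← Real.sqrt_mul (by positivity)]
      rw [show (2 / ((n : ℝ) + 2)) * (((n : ℝ) + 1 + 1) / 2) = 1 by field_simp; ring]
      exact Real.sqrt_one
    have h2 : √(2 / ((n : ℝ) + 2)) * √(((n : ℝ) + 1) / 2) = √(((n : ℝ) + 1) / ((n : ℝ) + 2)) := by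
      rw [← Real.sqrt_mul (by positivity)]
      congr 1
      field_simp
    calc √(2 / ((n : ℝ) + 2)) * s * (HO.hP (n + 1)).eval s -
          √(((n : ℝ) + 1) / ((n : ℝ) + 2)) * (HO.hP n).eval s
        = √(2 / ((n : ℝ) + 2)) * (s * (HO.hP (n + 1)).eval s) -
          (√(2 / ((n : ℝ) + 2)) * √(((n : ℝ) + 1) / 2)) * (HO.hP n).eval s := by rw [h2]; ring
      _ = (√(2 / ((n : ℝ) + 2)) * √(((n : ℝ) + 1 + 1) / 2)) * (HO.hP (n + 2)).eval s := by
          rw [h]; ring
      _ = _ := by rw [h1, one_mul]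

/-- the Hermite functions of the frozen interface are those of `HO` -/
theorem hf_eq_HO (n : ℕ) (s : ℝ) : Crest.Agent.R338.hf n s = HO.hf n s := by
  unfold Crest.Agent.R338.hf HO.hf
  rw [hpoly_eval]

theorem hf_eq_HO' : Crest.Agent.R338.hf = HO.hf := by
  funext n s; exact hf_eq_HO n s

/-- the interface orbitals are the product Hermite functions of `HO` -/
theorem orb_eq_Phi (m : Idx) (x : Pos3) : orb m x = ∏ c, HO.hf (m c) (x c) := by
  unfold orb; rw [hf_eq_HO']

/-- integral of a product function over `ℝ³` -/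
theorem integral_prod3 (f : Fin 3 → ℝ → ℝ) :
    ∫ x : Pos3, ∏ c, f c (x c) = ∏ c, ∫ y, f c y := by
  have e : ∫ x : Pos3, ∏ c, f c (x c) = ∫ y : Fin 3 → ℝ, ∏ i, f i (y i) := by
    rw [← (EuclideanSpace.volume_preserving_symm_measurableEquiv_toLp (Fin 3)).integral_comp'
      (g := fun y : Fin 3 → ℝ => ∏ i, f i (y i))]
    rfl
  rw [e, integral_fintype_prod_volume_eq_prod]

/-- one-electron integral of a product potential -/
theorem w1_prod (g : Fin 3 → ℝ → ℝ) (a b : Idx) :
    w1 (fun x => ∏ c, g c (x c)) a b = ∏ c, ∫ y, g c y * (HO.hf (a c) y * HO.hf (b c) y) := by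
  unfold w1
  rw [← integral_prod3]
  congr 1
  funext x
  rw [orb_eq_Phi, orb_eq_Phi, ← Finset.prod_mul_distrib, ← Finset.prod_mul_distrib]

theorem w1_vhop (n k i j : ℕ) (a b : Idx) :
    w1 (vhop n k i j) a b =
      I4 (mi n k i) (mi n k j) (a 0) (b 0) *
      I4 (n0' n k - mi n k i) (n0' n k - mi n k j) (a 1) (b 1) *
      (if a 2 = b 2 then 1 else 0) := by
  have e : vhop n k i j = fun x : Pos3 => ∏ c, (![
      fun y : ℝ => Real.exp (-2 * y ^ 2) * (HO.hf (mi n k i) y * HO.hf (mi n k j) y),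
      fun y : ℝ => Real.exp (-2 * y ^ 2) *
        (HO.hf (n0' n k - mi n k i) y * HO.hf (n0' n k - mi n k j) y),
      fun _ : ℝ => (1 : ℝ)] : Fin 3 → ℝ → ℝ) c (x c) := by
    funext x
    rw [Fin.prod_univ_three]
    simp [vhop, hf_eq_HO']
  rw [e, w1_prod, Fin.prod_univ_three]
  congr 1
  · congr 1
    · unfold I4
      congr 1; funext s
      simp only [Matrix.cons_val_zero]
      rw [neg_mul]; ring
    · unfold I4
      congr 1; funext s
      simp only [Matrix.cons_val_one, Matrix.cons_val_zero]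
      rw [neg_mul]; ring
  · have := HO.integral_hf_mul_hf (a 2) (b 2)
    simpa using this

/-- the calibration matrix, closed form -/
theorem Mhop_eq (n k i j i' j' : ℕ) :
    Mhop n k i j i' j' =
      I4 (mi n k i) (mi n k j) (mi n k i') (mi n k j') *
      I4 (n0' n k - mi n k i) (n0' n k - mi n k j) (n0' n k - mi n k i') (n0' n k - mi n k j') := by
  unfold Mhop
  rw [w1_vhop]
  simp [site]

end Crest.Agent.R338.EX
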