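import Mathlib
import Crest.Prelude.Def_CoulombHamiltonian
import Crest.Agent.R335.H1Fourier
import Crest.Agent.R335.HFourier

/-!
# Row 338, node II.0 (F1): the frozen kinetic energy and weak gradients (helper271)

`kineticOne` of `ElectronicCoulomb` is one half of the Dirichlet integral of the weak gradient.
-/

set_option autoImplicit false

open MeasureTheory Filter Topology
open scoped ContDiff ENNReal
open Crest.MathPhysics.ElectronicCoulomb
open Crest.Agent.R335.HF (IsH1 Gr E kin cgrad)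

noncomputable section

namespace Crest.Agent.R338.Fm

variable {n : ℕ}

/-- values of gradients on configuration space -/
abbrev CG (n : ℕ) := Gr (Fin n × Fin 3) ℂ

theorem kineticOne_eq_kin (f : Config n → ℂ) : kineticOne f = kin f := rfl

theorem kineticOne_lt_top_iff {f : Config n → ℂ} : kineticOne f < ⊤ ↔ ∃ g, IsH1 f g := by
  rw [kineticOne_eq_kin]; exact Crest.Agent.R335.HF.kin_lt_top_iff

theorem kineticOne_lt_top {f : Config n → ℂ} {g : Config n → CG n} (h : IsH1 f g) :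
    kineticOne f < ⊤ := kineticOne_lt_top_iff.2 ⟨g, h⟩

theorem kineticOne_eq {f : Config n → ℂ} {g : Config n → CG n} (h : IsH1 f g) :
    kineticOne f = (1 / 2) * ∫⁻ x, ‖g x‖ₑ ^ 2 := by
  rw [kineticOne_eq_kin]; exact h.kin_eq

theorem kineticOne_toReal {f : Config n → ℂ} {g : Config n → CG n} (h : IsH1 f g) :
    (kineticOne f).toReal = (1 / 2) * ∫ x, ‖g x‖ ^ 2 := by
  rw [kineticOne_eq_kin]; exact h.kin_toReal

theorem memLp_of_kineticOne {f : Config n → ℂ} (h : kineticOne f < ⊤) : MemLp f 2 volume := by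
  obtain ⟨g, hg⟩ := kineticOne_lt_top_iff.1 h
  exact hg.memf

/-! ### waves -/

/-- `Γ` is a weak gradient of the wave `Ψ` -/
def WaveH1 (Ψ : Wave n) (Γ : Spin n → Config n → CG n) : Prop := ∀ s, IsH1 (Ψ s) (Γ s)

/-- real squared norm of a wave -/
def nsq (Ψ : Wave n) : ℝ := ∑ s : Spin n, ∫ x, ‖Ψ s x‖ ^ 2

/-- Dirichlet integral -/
def dir (Γ : Spin n → Config n → CG n) : ℝ := ∑ s : Spin n, ∫ x, ‖Γ s x‖ ^ 2

theorem nsq_nonneg (Ψ : Wave n) : 0 ≤ nsq Ψ :=
  Finset.sum_nonneg fun _ _ => integral_nonneg fun _ => by positivity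

theorem dir_nonneg (Γ : Spin n → Config n → CG n) : 0 ≤ dir Γ :=
  Finset.sum_nonneg fun _ _ => integral_nonneg fun _ => by positivity

theorem kinetic_lt_top_iff {Ψ : Wave n} : kinetic Ψ < ⊤ ↔ ∃ Γ, WaveH1 Ψ Γ := by
  unfold kinetic
  rw [ENNReal.sum_lt_top]
  constructor
  · intro h
    choose Γ hΓ using fun s => kineticOne_lt_top_iff.1 (h s (Finset.mem_univ s))
    exact ⟨Γ, hΓ⟩
  · rintro ⟨Γ, hΓ⟩ s -
    exact kineticOne_lt_top (hΓ s)

theorem WaveH1.kinetic_lt_top {Ψ : Wave n} {Γ : Spin n → Config n → CG n} (h : WaveH1 Ψ Γ) :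
    kinetic Ψ < ⊤ := kinetic_lt_top_iff.2 ⟨Γ, h⟩

theorem WaveH1.kinetic_toReal {Ψ : Wave n} {Γ : Spin n → Config n → CG n} (h : WaveH1 Ψ Γ) :
    (kinetic Ψ).toReal = (1 / 2) * dir Γ := by
  unfold kinetic dir
  rw [ENNReal.toReal_sum fun s _ => (kineticOne_lt_top (h s)).ne, Finset.mul_sum]
  exact Finset.sum_congr rfl fun s _ => kineticOne_toReal (h s)

theorem WaveH1.kinetic_eq_ofReal {Ψ : Wave n} {Γ : Spin n → Config n → CG n} (h : WaveH1 Ψ Γ) :
    kinetic Ψ = ENNReal.ofReal ((1 / 2) * dir Γ) := by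
  rw [← h.kinetic_toReal, ENNReal.ofReal_toReal h.kinetic_lt_top.ne]

theorem lintegral_sq_eq {α F : Type*} [MeasurableSpace α] [NormedAddCommGroup F]
    {μ : Measure α} {g : α → F} (hg : MemLp g 2 μ) :
    ∫⁻ x, ‖g x‖ₑ ^ 2 ∂μ = ENNReal.ofReal (∫ x, ‖g x‖ ^ 2 ∂μ) := by
  have hi : Integrable (fun x => ‖g x‖ ^ 2) μ := hg.integrable_norm_pow (by norm_num)
  rw [ofReal_integral_eq_lintegral_ofReal hi (Eventually.of_forall fun x => by positivity)]
  refine lintegral_congr fun x => ?_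
  rw [Crest.Agent.R335.HF.enorm_sq_eq_ofReal]

theorem normSq_eq_ofReal {Ψ : Wave n} (h : ∀ s, MemLp (Ψ s) 2 volume) :
    normSq Ψ = ENNReal.ofReal (nsq Ψ) := by
  unfold normSq nsq
  rw [ENNReal.ofReal_sum_of_nonneg fun s _ => integral_nonneg fun x => by positivity]
  exact Finset.sum_congr rfl fun s _ => lintegral_sq_eq (h s)

theorem normSq_eq_one_iff {Ψ : Wave n} (h : ∀ s, MemLp (Ψ s) 2 volume) :
    normSq Ψ = 1 ↔ nsq Ψ = 1 := by
  rw [normSq_eq_ofReal h]
  constructor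
  · intro h1
    have := congrArg ENNReal.toReal h1
    rwa [ENNReal.toReal_ofReal (nsq_nonneg Ψ), ENNReal.toReal_one] at this
  · intro h1; rw [h1, ENNReal.ofReal_one]

theorem IsAdmissible.memLp {W : Config n → ℝ} {Ψ : Wave n} (h : IsAdmissible W Ψ) (s : Spin n) :
    MemLp (Ψ s) 2 volume := h.1.1 s

theorem IsAdmissible.exists_grad {W : Config n → ℝ} {Ψ : Wave n} (h : IsAdmissible W Ψ) :
    ∃ Γ, WaveH1 Ψ Γ := kinetic_lt_top_iff.1 h.2.1

/-- energy of a wave with weak gradient `Γ` -/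
theorem WaveH1.energy_eq {W : Config n → ℝ} {Ψ : Wave n} {Γ : Spin n → Config n → CG n}
    (h : WaveH1 Ψ Γ) :
    energy W Ψ = (1 / 2) * dir Γ + ∑ s : Spin n, ∫ x, W x * ‖Ψ s x‖ ^ 2 := by
  unfold energy potentialEnergy
  rw [h.kinetic_toReal]

/-! ### `InfEnergyGE` and `InfEnergyLE` in homogeneous form -/

theorem IsFermionic.const_smul {Ψ : Wave n} (h : IsFermionic Ψ) (c : ℂ) :
    IsFermionic (fun s x => c * Ψ s x) := by
  refine ⟨fun s => (h.1 s).const_mul c, fun σ s x => ?_⟩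
  change c * Ψ (fun i => s (σ i)) (permConfig σ x) = _
  rw [h.2 σ s x]; ring

theorem WaveH1.const_mul {Ψ : Wave n} {Γ : Spin n → Config n → CG n} (h : WaveH1 Ψ Γ) (c : ℂ) :
    WaveH1 (fun s x => c * Ψ s x) (fun s x => c • Γ s x) := fun s => (h s).const_smul c

theorem IsAdmissible.const_smul {W : Config n → ℝ} {Ψ : Wave n} (h : IsAdmissible W Ψ) (c : ℂ) :
    IsAdmissible W (fun s x => c * Ψ s x) := by
  obtain ⟨Γ, hΓ⟩ := IsAdmissible.exists_grad h
  refine ⟨IsFermionic.const_smul h.1 c, (hΓ.const_mul c).kinetic_lt_top, fun s => ?_⟩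
  have := (h.2.2 s).const_mul (‖c‖ ^ 2)
  refine this.congr (Eventually.of_forall fun x => ?_)
  simp only [norm_mul]; ring

theorem nsq_const_mul (Ψ : Wave n) (c : ℂ) : nsq (fun s x => c * Ψ s x) = ‖c‖ ^ 2 * nsq Ψ := by
  unfold nsq
  rw [Finset.mul_sum]
  refine Finset.sum_congr rfl fun s _ => ?_
  rw [← integral_const_mul]
  refine integral_congr_ae (Eventually.of_forall fun x => ?_)
  simp only [norm_mul]; ring

theorem energy_const_mul {W : Config n → ℝ} {Ψ : Wave n} (h : IsAdmissible W Ψ) (c : ℂ) :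
    energy W (fun s x => c * Ψ s x) = ‖c‖ ^ 2 * energy W Ψ := by
  obtain ⟨Γ, hΓ⟩ := IsAdmissible.exists_grad h
  rw [(hΓ.const_mul c).energy_eq, hΓ.energy_eq, mul_add, Finset.mul_sum]
  congr 1
  · unfold dir
    rw [Finset.mul_sum, Finset.mul_sum, Finset.mul_sum]
    refine Finset.sum_congr rfl fun s _ => ?_
    rw [← integral_const_mul, ← integral_const_mul, ← integral_const_mul]
    refine integral_congr_ae (Eventually.of_forall fun x => ?_)
    simp only [norm_smul]; ring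
  · refine Finset.sum_congr rfl fun s _ => ?_
    rw [← integral_const_mul]
    refine integral_congr_ae (Eventually.of_forall fun x => ?_)
    simp only [norm_mul]; ring

theorem infEnergyGE_iff {W : Config n → ℝ} {b : ℝ} :
    InfEnergyGE W b ↔ ∀ Ψ : Wave n, IsAdmissible W Ψ → b * nsq Ψ ≤ energy W Ψ := by
  constructor
  · intro h Ψ hΨ
    rcases (nsq_nonneg Ψ).eq_or_lt with h0 | h0
    · -- zero norm
      have hz : ∀ s, Ψ s =ᵐ[volume] 0 := by
        intro s
        have h1 : ∫ x, ‖Ψ s x‖ ^ 2 = 0 := by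
          have := (Finset.sum_eq_zero_iff_of_nonneg (s := Finset.univ)
            (f := fun s : Spin n => ∫ x, ‖Ψ s x‖ ^ 2)
            (fun s _ => integral_nonneg fun x => by positivity)).1 h0.symm s (Finset.mem_univ s)
          exact this
        have h2 := (integral_eq_zero_iff_of_nonneg (fun x => by positivity)
          ((IsAdmissible.memLp hΨ s).integrable_norm_pow (by norm_num))).1 h1
        filter_upwards [h2] with x hx
        simpa using hx
      obtain ⟨Γ, hΓ⟩ := IsAdmissible.exists_grad hΨ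
      have e : energy W Ψ = (kinetic Ψ).toReal := by
        unfold energy potentialEnergy
        rw [Finset.sum_eq_zero, add_zero]
        intro s _
        rw [integral_eq_zero_of_ae]
        filter_upwards [hz s] with x hx
        simp [hx]
      rw [← h0, e, mul_zero]
      exact ENNReal.toReal_nonneg
    · set c : ℂ := (((Real.sqrt (nsq Ψ))⁻¹ : ℝ) : ℂ) with hc
      have hcn : ‖c‖ ^ 2 = (nsq Ψ)⁻¹ := by
        rw [hc, Complex.norm_real, Real.norm_eq_abs, sq_abs, inv_pow, Real.sq_sqrt h0.le]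
      have hadm := IsAdmissible.const_smul hΨ c
      have h1 := h _ hadm ((normSq_eq_one_iff (IsAdmissible.memLp hadm)).2 (by
        rw [nsq_const_mul, hcn, inv_mul_cancel₀ h0.ne']))
      rw [energy_const_mul hΨ, hcn, inv_mul_eq_div, le_div_iff₀ h0] at h1
      exact h1
  · intro h Ψ hΨ h1
    have := h Ψ hΨ
    rwa [(normSq_eq_one_iff (IsAdmissible.memLp hΨ)).1 h1, mul_one] at this

theorem infEnergyLE_of {W : Config n → ℝ} {a : ℝ} {Ψ : Wave n} (hΨ : IsAdmissible W Ψ)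
    (h0 : 0 < nsq Ψ) (h : energy W Ψ ≤ a * nsq Ψ) : InfEnergyLE W a := by
  intro ε hε
  set c : ℂ := (((Real.sqrt (nsq Ψ))⁻¹ : ℝ) : ℂ) with hc
  have hcn : ‖c‖ ^ 2 = (nsq Ψ)⁻¹ := by
    rw [hc, Complex.norm_real, Real.norm_eq_abs, sq_abs, inv_pow, Real.sq_sqrt h0.le]
  have hadm := IsAdmissible.const_smul hΨ c
  refine ⟨_, hadm, (normSq_eq_one_iff (IsAdmissible.memLp hadm)).2 (by
        rw [nsq_const_mul, hcn, inv_mul_cancel₀ h0.ne']), ?_⟩
  rw [energy_const_mul hΨ, hcn, inv_mul_eq_div, div_le_iff₀ h0]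
  nlinarith

end Crest.Agent.R338.Fm
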