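import Mathlib
import Crest.Agent.R335.HMoll
import Crest.Agent.R335.HGlob
import Crest.Agent.R335.HFourier

/-!
# Row 338, node II.0 (F2): the Coulomb inequality (helper271)

For `f ∈ H¹`, `L : E →L ℝ³` with `L e_{κ c} = e_c`:
`∫ |f|²/‖L x - a‖ ≤ (t/2) ∫ Σ_c |∂_{κ c} f|² + 1/(2t) ∫ |f|²`.
-/

set_option autoImplicit false
set_option linter.unusedSectionVars false

open MeasureTheory Filter Topology
open scoped ContDiff ENNReal

noncomputable section

namespace Crest.Agent.R338.Fm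

open Crest.Agent.R335
open Crest.Agent.R335.HF (IsH1 Gr E integral_ibp_smul gre gim)

variable {ι : Type*} [Fintype ι] [DecidableEq ι]

local notation "E3" => EuclideanSpace ℝ (Fin 3)

/-- regularised distance -/
def sreg (L : E ι →L[ℝ] E3) (a : E3) (ε : ℝ) (x : E ι) : ℝ :=
  Real.sqrt ((∑ d : Fin 3, (L x d - a d) ^ 2) + ε ^ 2)

theorem sreg_arg_pos (L : E ι →L[ℝ] E3) (a : E3) {ε : ℝ} (hε : 0 < ε) (x : E ι) :
    0 < (∑ d : Fin 3, (L x d - a d) ^ 2) + ε ^ 2 := by
  have : 0 ≤ ∑ d : Fin 3, (L x d - a d) ^ 2 := Finset.sum_nonneg fun _ _ => sq_nonneg _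
  positivity

theorem sreg_pos (L : E ι →L[ℝ] E3) (a : E3) {ε : ℝ} (hε : 0 < ε) (x : E ι) :
    0 < sreg L a ε x := Real.sqrt_pos.2 (sreg_arg_pos L a hε x)

theorem sreg_sq (L : E ι →L[ℝ] E3) (a : E3) (ε : ℝ) (x : E ι) :
    sreg L a ε x ^ 2 = (∑ d : Fin 3, (L x d - a d) ^ 2) + ε ^ 2 := by
  unfold sreg
  rw [Real.sq_sqrt]
  have : 0 ≤ ∑ d : Fin 3, (L x d - a d) ^ 2 := Finset.sum_nonneg fun _ _ => sq_nonneg _
  positivity

theorem norm_sub_sq_eq (L : E ι →L[ℝ] E3) (a : E3) (x : E ι) :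
    ‖L x - a‖ ^ 2 = ∑ d : Fin 3, (L x d - a d) ^ 2 := by
  rw [EuclideanSpace.norm_sq_eq]
  exact Finset.sum_congr rfl fun d _ => by simp [sq_abs]

theorem hasFDerivAt_comp_coord (L : E ι →L[ℝ] E3) (a : E3) (d : Fin 3) (x : E ι) :
    HasFDerivAt (fun y => L y d - a d) ((EuclideanSpace.proj d : E3 →L[ℝ] ℝ).comp L) x :=
  (((EuclideanSpace.proj d : E3 →L[ℝ] ℝ).comp L).hasFDerivAt (x := x)).sub_const (a d)

theorem hasFDerivAt_sreg (L : E ι →L[ℝ] E3) (a : E3) {ε : ℝ} (hε : 0 < ε) (x : E ι) :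
    HasFDerivAt (sreg L a ε)
      ((1 / (2 * sreg L a ε x)) • (∑ d : Fin 3, (2 * (L x d - a d)) •
        ((EuclideanSpace.proj d : E3 →L[ℝ] ℝ).comp L))) x := by
  have h1 : HasFDerivAt (fun y => (∑ d : Fin 3, (L y d - a d) ^ 2) + ε ^ 2)
      (∑ d : Fin 3, (2 * (L x d - a d)) • ((EuclideanSpace.proj d : E3 →L[ℝ] ℝ).comp L)) x := by
    refine HasFDerivAt.add_const _ ?_
    refine HasFDerivAt.fun_sum fun d _ => ?_
    have := (hasFDerivAt_comp_coord L a d x).pow 2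
    simpa using this
  exact h1.sqrt (sreg_arg_pos L a hε x).ne'

theorem contDiff_sreg (L : E ι →L[ℝ] E3) (a : E3) {ε : ℝ} (hε : 0 < ε) :
    ContDiff ℝ ∞ (sreg L a ε) := by
  refine ContDiff.sqrt ?_ (fun x => (sreg_arg_pos L a hε x).ne')
  refine ContDiff.add (ContDiff.sum fun d _ => ?_) contDiff_const
  exact ((((EuclideanSpace.proj d : E3 →L[ℝ] ℝ).comp L).contDiff).sub contDiff_const).pow 2

/-- the vector field -/
def Gf (L : E ι →L[ℝ] E3) (a : E3) (ε : ℝ) (c : Fin 3) (x : E ι) : ℝ :=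
  (L x c - a c) / sreg L a ε x

theorem contDiff_Gf (L : E ι →L[ℝ] E3) (a : E3) {ε : ℝ} (hε : 0 < ε) (c : Fin 3) :
    ContDiff ℝ ∞ (Gf L a ε c) :=
  ((((EuclideanSpace.proj c : E3 →L[ℝ] ℝ).comp L).contDiff).sub contDiff_const).div
    (contDiff_sreg L a hε) fun x => (sreg_pos L a hε x).ne'

theorem fderiv_Gf (L : E ι →L[ℝ] E3) (a : E3) {ε : ℝ} (hε : 0 < ε) (c : Fin 3) (v : E ι)
    (hv : L v = EuclideanSpace.single c (1 : ℝ)) (x : E ι) :
    fderiv ℝ (Gf L a ε c) x v =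
      1 / sreg L a ε x - (L x c - a c) ^ 2 / sreg L a ε x ^ 3 := by
  have hs := (sreg_pos L a hε x)
  have h0 : HasFDerivAt (fun y => (sreg L a ε y)⁻¹) (-(sreg L a ε x ^ 2)⁻¹ •
      ((1 / (2 * sreg L a ε x)) • (∑ d : Fin 3, (2 * (L x d - a d)) •
        ((EuclideanSpace.proj d : E3 →L[ℝ] ℝ).comp L)))) x :=
    (hasDerivAt_inv hs.ne').comp_hasFDerivAt x (hasFDerivAt_sreg L a hε x)
  have h1 : HasFDerivAt (fun y => (L y c - a c) * (sreg L a ε y)⁻¹)
      ((L x c - a c) • (-(sreg L a ε x ^ 2)⁻¹ •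
      ((1 / (2 * sreg L a ε x)) • (∑ d : Fin 3, (2 * (L x d - a d)) •
        ((EuclideanSpace.proj d : E3 →L[ℝ] ℝ).comp L)))) +
        (sreg L a ε x)⁻¹ • ((EuclideanSpace.proj c : E3 →L[ℝ] ℝ).comp L)) x :=
    HasFDerivAt.fun_mul (hasFDerivAt_comp_coord L a c x) h0
  have h2 := h1.congr_of_eventuallyEq (f₁ := Gf L a ε c)
    (Eventually.of_forall fun y => div_eq_mul_inv _ _)
  rw [h2.fderiv]
  have hLv : ∀ d, L v d = if d = c then 1 else 0 := fun d => by
    rw [hv, PiLp.single_apply]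
  simp only [ContinuousLinearMap.add_apply, ContinuousLinearMap.smul_apply,
    ContinuousLinearMap.comp_apply, ContinuousLinearMap.sum_apply, smul_eq_mul,
    EuclideanSpace.coe_proj, hLv, if_true, mul_ite, mul_one, mul_zero, Finset.sum_ite_eq',
    Finset.mem_univ, Function.comp_apply]
  field_simp
  ring

theorem Gf_sq_sum_le (L : E ι →L[ℝ] E3) (a : E3) {ε : ℝ} (hε : 0 < ε) (x : E ι) :
    ∑ c : Fin 3, Gf L a ε c x ^ 2 ≤ 1 := by
  have hs := (sreg_pos L a hε x)
  have : ∑ c : Fin 3, Gf L a ε c x ^ 2 = (∑ c : Fin 3, (L x c - a c) ^ 2) / sreg L a ε x ^ 2 := by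
    rw [Finset.sum_div]
    exact Finset.sum_congr rfl fun c _ => by unfold Gf; rw [div_pow]
  rw [this, div_le_one (by positivity), sreg_sq]
  nlinarith [sq_nonneg ε]

theorem div_Gf_ge (L : E ι →L[ℝ] E3) (a : E3) {ε : ℝ} (hε : 0 < ε) (x : E ι) :
    2 / sreg L a ε x ≤
      ∑ c : Fin 3, (1 / sreg L a ε x - (L x c - a c) ^ 2 / sreg L a ε x ^ 3) := by
  have hs := (sreg_pos L a hε x)
  have h1 : (∑ c : Fin 3, (L x c - a c) ^ 2) / sreg L a ε x ^ 3 ≤ 1 / sreg L a ε x := by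
    rw [div_le_div_iff₀ (by positivity) hs]
    have : (∑ c : Fin 3, (L x c - a c) ^ 2) ≤ sreg L a ε x ^ 2 := by
      rw [sreg_sq]; nlinarith [sq_nonneg ε]
    nlinarith
  have e : ∑ c : Fin 3, (1 / sreg L a ε x - (L x c - a c) ^ 2 / sreg L a ε x ^ 3) =
      3 * (1 / sreg L a ε x) - (∑ c : Fin 3, (L x c - a c) ^ 2) / sreg L a ε x ^ 3 := by
    rw [Finset.sum_div, Fin.sum_univ_three, Fin.sum_univ_three]; ring
  rw [e]
  have : (2 : ℝ) / sreg L a ε x = 3 * (1 / sreg L a ε x) - 1 / sreg L a ε x := by ring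
  rw [this]
  linarith

/-- Coulomb inequality for test functions, regularised -/
theorem coulomb_test_reg (L : E ι →L[ℝ] E3) (κ : Fin 3 → ι)
    (hL : ∀ c, L (EuclideanSpace.single (κ c) (1 : ℝ)) = EuclideanSpace.single c (1 : ℝ))
    (a : E3) {ε : ℝ} (hε : 0 < ε) {φ : E ι → ℝ} (hφ : Test Set.univ φ) {t : ℝ} (ht : 0 < t) :
    ∫ x, φ x ^ 2 / sreg L a ε x ≤
      (t / 2) * (∫ x, ∑ c, (gr φ x (κ c)) ^ 2) + 1 / (2 * t) * ∫ x, φ x ^ 2 := by
  have hφ1 : ContDiff ℝ 1 φ := hφ.smooth.of_le (by simp)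
  have hsm : ContDiff ℝ 1 (fun x => φ x ^ 2) := hφ1.pow 2
  have hcs : HasCompactSupport (fun x => φ x ^ 2) := hφ.cpt.comp_left (g := fun y : ℝ => y ^ 2) (by simp)
  have hcont : Continuous φ := hφ1.continuous
  have hscont : Continuous (sreg L a ε) := (contDiff_sreg L a hε).continuous
  have hpd : ∀ i, Continuous (pd i φ) := fun i =>
    (hφ1.continuous_fderiv one_ne_zero).clm_apply continuous_const
  have hpdc : ∀ i, HasCompactSupport (pd i φ) := fun i => hφ.cpt.fderiv_apply ℝ _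
  have hfd : ∀ c x, fderiv ℝ (fun y => φ y ^ 2) x (EuclideanSpace.single (κ c) (1 : ℝ)) =
      2 * φ x * pd (κ c) φ x := by
    intro c x
    have := ((hφ1.differentiable one_ne_zero) x).hasFDerivAt.pow 2
    have h2 : HasFDerivAt (fun y => φ y ^ 2) _ x := this
    rw [h2.fderiv]
    simp [pd]
  have key : ∀ c, ∫ x, φ x ^ 2 * (1 / sreg L a ε x - (L x c - a c) ^ 2 / sreg L a ε x ^ 3) =
      - ∫ x, (2 * φ x * pd (κ c) φ x) * Gf L a ε c x := by
    intro c
    have := integral_ibp_smul hsm ((contDiff_Gf L a hε c).of_le (by simp)) hcs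
      (EuclideanSpace.single (κ c) (1 : ℝ))
    simp only [smul_eq_mul, hfd, fderiv_Gf L a hε c _ (hL c)] at this
    rw [this, neg_neg]
  have i1 : ∀ c, Integrable (fun x => φ x ^ 2 * (1 / sreg L a ε x -
      (L x c - a c) ^ 2 / sreg L a ε x ^ 3)) := by
    intro c
    refine Continuous.integrable_of_hasCompactSupport ?_ hcs.mul_right
    refine (hcont.pow 2).mul ((continuous_const.div hscont fun x => (sreg_pos L a hε x).ne').sub
      (Continuous.div ?_ (hscont.pow 3) fun x => (pow_pos (sreg_pos L a hε x) 3).ne'))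
    exact ((((EuclideanSpace.proj c : E3 →L[ℝ] ℝ).comp L).continuous).sub continuous_const).pow 2
  have i2 : ∀ c, Integrable (fun x => (2 * φ x * pd (κ c) φ x) * Gf L a ε c x) := by
    intro c
    refine Continuous.integrable_of_hasCompactSupport ?_ ?_
    · exact ((continuous_const.mul hcont).mul (hpd _)).mul (contDiff_Gf L a hε c).continuous
    · exact ((hpdc (κ c)).mul_left (f := fun x => 2 * φ x)).mul_right
  have i3 : Integrable (fun x => φ x ^ 2 / sreg L a ε x) := by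
    refine Continuous.integrable_of_hasCompactSupport
      ((hcont.pow 2).div hscont fun x => (sreg_pos L a hε x).ne') ?_
    have : (fun x => φ x ^ 2 / sreg L a ε x) = fun x => φ x ^ 2 * (sreg L a ε x)⁻¹ := by
      funext x; rw [div_eq_mul_inv]
    rw [this]; exact hcs.mul_right
  have i4 : Integrable (fun x => φ x ^ 2) := (hcont.pow 2).integrable_of_hasCompactSupport hcs
  have i5 : Integrable (fun x => ∑ c, (gr φ x (κ c)) ^ 2) := by
    simp only [gr_apply]
    refine integrable_finsetSum _ fun c _ => ?_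
    have hc1 : Continuous (fun x => pd (κ c) φ x ^ 2) := (hpd (κ c)).pow 2
    have hc2 : HasCompactSupport (fun x => pd (κ c) φ x ^ 2) :=
      (hpdc (κ c)).comp_left (g := fun y : ℝ => y ^ 2) (by simp)
    exact hc1.integrable_of_hasCompactSupport hc2
  have j3 : Integrable (fun x => 2 * (φ x ^ 2 / sreg L a ε x)) := i3.const_mul 2
  have j1 : Integrable (fun x => ∑ c, φ x ^ 2 * (1 / sreg L a ε x -
      (L x c - a c) ^ 2 / sreg L a ε x ^ 3)) := integrable_finsetSum _ fun c _ => i1 c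
  have p1 : ∀ x, 2 * (φ x ^ 2 / sreg L a ε x) ≤
      ∑ c, φ x ^ 2 * (1 / sreg L a ε x - (L x c - a c) ^ 2 / sreg L a ε x ^ 3) := by
    intro x
    rw [← Finset.mul_sum]
    have := mul_le_mul_of_nonneg_left (div_Gf_ge L a hε x) (sq_nonneg (φ x))
    refine le_trans (le_of_eq ?_) this
    ring
  have e1 : ∫ x, 2 * (φ x ^ 2 / sreg L a ε x) ≤
      ∫ x, ∑ c, φ x ^ 2 * (1 / sreg L a ε x - (L x c - a c) ^ 2 / sreg L a ε x ^ 3) :=
    integral_mono j3 j1 p1
  have i2' : ∀ c, Integrable (fun x => -((2 * φ x * pd (κ c) φ x) * Gf L a ε c x)) :=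
    fun c => (i2 c).neg
  have e2 : ∫ x, ∑ c, φ x ^ 2 * (1 / sreg L a ε x - (L x c - a c) ^ 2 / sreg L a ε x ^ 3) =
      ∫ x, ∑ c, -((2 * φ x * pd (κ c) φ x) * Gf L a ε c x) := by
    rw [integral_finsetSum _ fun c _ => i1 c, integral_finsetSum _ fun c _ => i2' c]
    exact Finset.sum_congr rfl fun c _ => by rw [key c, integral_neg]
  have j2 : Integrable (fun x => ∑ c, -((2 * φ x * pd (κ c) φ x) * Gf L a ε c x)) :=
    integrable_finsetSum _ fun c _ => i2' c
  have j4 : Integrable (fun x => t * (∑ c, (gr φ x (κ c)) ^ 2) + 1 / t * φ x ^ 2) :=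
    (i5.const_mul t).add (i4.const_mul (1 / t))
  have p3 : ∀ x, ∑ c, -((2 * φ x * pd (κ c) φ x) * Gf L a ε c x) ≤
      t * (∑ c, (gr φ x (κ c)) ^ 2) + 1 / t * φ x ^ 2 := by
    intro x
    have hG := Gf_sq_sum_le L a hε x
    have hpt : ∀ c : Fin 3, -((2 * φ x * pd (κ c) φ x) * Gf L a ε c x) ≤
        t * (pd (κ c) φ x) ^ 2 + 1 / t * φ x ^ 2 * Gf L a ε c x ^ 2 := by
      intro c
      have h0 : 0 ≤ (t * pd (κ c) φ x + φ x * Gf L a ε c x) ^ 2 / t := by positivity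
      have h1 : (t * pd (κ c) φ x + φ x * Gf L a ε c x) ^ 2 / t =
        t * (pd (κ c) φ x) ^ 2 + 2 * φ x * pd (κ c) φ x * Gf L a ε c x +
          1 / t * φ x ^ 2 * Gf L a ε c x ^ 2 := by
        field_simp; ring
      linarith
    calc ∑ c, -((2 * φ x * pd (κ c) φ x) * Gf L a ε c x) ≤
        ∑ c, (t * (pd (κ c) φ x) ^ 2 + 1 / t * φ x ^ 2 * Gf L a ε c x ^ 2) :=
          Finset.sum_le_sum fun c _ => hpt c
      _ = t * (∑ c, (gr φ x (κ c)) ^ 2) + 1 / t * φ x ^ 2 * ∑ c, Gf L a ε c x ^ 2 := by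
          rw [Finset.sum_add_distrib, Finset.mul_sum, Finset.mul_sum]
          simp only [gr_apply]
      _ ≤ t * (∑ c, (gr φ x (κ c)) ^ 2) + 1 / t * φ x ^ 2 * 1 := by
          gcongr
      _ = _ := by ring
  have e3 : ∫ x, ∑ c, -((2 * φ x * pd (κ c) φ x) * Gf L a ε c x) ≤
      ∫ x, (t * (∑ c, (gr φ x (κ c)) ^ 2) + 1 / t * φ x ^ 2) := integral_mono j2 j4 p3
  rw [integral_const_mul] at e1
  rw [integral_add (i5.const_mul t) (i4.const_mul (1 / t)), integral_const_mul,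
    integral_const_mul] at e3
  have e4 := e1.trans (e2.le.trans e3)
  have : (1 : ℝ) / (2 * t) = (1 / t) / 2 := by field_simp
  rw [this]
  linarith

/-- convergence of `L²` norms -/
theorem tendsto_integral_sq {F : Type*} [NormedAddCommGroup F] [InnerProductSpace ℝ F] {α : Type*}
    [MeasurableSpace α] {μ : Measure α} {l : α → F} {ln : ℕ → α → F}
    (hn : ∀ n, MemLp (ln n) 2 μ) (hl : MemLp l 2 μ)
    (h : Tendsto (fun n => eLpNorm (fun x => ln n x - l x) 2 μ) atTop (𝓝 0)) :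
    Tendsto (fun n => ∫ x, ‖ln n x‖ ^ 2 ∂μ) atTop (𝓝 (∫ x, ‖l x‖ ^ 2 ∂μ)) := by
  have h1 : Tendsto (fun n => (hn n).toLp (ln n)) atTop (𝓝 (hl.toLp l)) :=
    (Lp.tendsto_Lp_iff_tendsto_eLpNorm'' ln hn l hl).2 h
  have h2 := h1.inner (𝕜 := ℝ) h1
  have h3 : ∀ {u : α → F} (hu : MemLp u 2 μ), inner ℝ (hu.toLp u) (hu.toLp u) = ∫ x, ‖u x‖ ^ 2 ∂μ := by
    intro u hu
    rw [L2.inner_def]
    refine integral_congr_ae ?_
    filter_upwards [hu.coeFn_toLp] with x hx
    rw [hx, real_inner_self_eq_norm_sq]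
  simp only [h3] at h2
  exact h2

/-- projection of gradients to three coordinates -/
def prk (κ : Fin 3 → ι) : E ι →L[ℝ] E3 :=
  LinearMap.toContinuousLinearMap
    { toFun := fun x => WithLp.toLp 2 fun c => x (κ c)
      map_add' := fun x y => by ext c; simp
      map_smul' := fun r x => by ext c; simp }

@[simp] theorem prk_apply (κ : Fin 3 → ι) (x : E ι) (c : Fin 3) : prk κ x c = x (κ c) := rfl

theorem norm_prk_sq (κ : Fin 3 → ι) (x : E ι) : ‖prk κ x‖ ^ 2 = ∑ c, (x (κ c)) ^ 2 := by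
  rw [EuclideanSpace.norm_sq_eq]
  exact Finset.sum_congr rfl fun c _ => by simp [sq_abs]

/-- Coulomb inequality for real `H¹` functions -/
theorem coulomb_real {f : E ι → ℝ} {g : E ι → E ι} (h : H1 f g) (L : E ι →L[ℝ] E3) (κ : Fin 3 → ι)
    (hL : ∀ c, L (EuclideanSpace.single (κ c) (1 : ℝ)) = EuclideanSpace.single c (1 : ℝ))
    (a : E3) {t : ℝ} (ht : 0 < t) :
    ∫⁻ x, ENNReal.ofReal (f x ^ 2 / ‖L x - a‖) ≤
      ENNReal.ofReal ((t / 2) * (∫ x, ∑ c, (g x (κ c)) ^ 2) + 1 / (2 * t) * ∫ x, f x ^ 2) := by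
  obtain ⟨φ, hφ, h1, h2, -⟩ := H1.approx h
  have hφH : ∀ n, H1 (φ n) (gr (φ n)) := fun n => H1.of_test (hφ n)
  have hfm := h.memf
  have hgm := h.memg
  -- limits of the right hand sides
  have t1 : Tendsto (fun n => ∫ x, φ n x ^ 2) atTop (𝓝 (∫ x, f x ^ 2)) := by
    have := tendsto_integral_sq (fun n => (hφH n).memf) hfm h1
    simpa [Real.norm_eq_abs, sq_abs] using this
  have t2 : Tendsto (fun n => ∫ x, ∑ c, (gr (φ n) x (κ c)) ^ 2) atTop
      (𝓝 (∫ x, ∑ c, (g x (κ c)) ^ 2)) := by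
    have m1 : ∀ n, MemLp (fun x => prk κ (gr (φ n) x)) 2 volume := fun n =>
      (prk κ).comp_memLp' (hφH n).memg
    have m2 : MemLp (fun x => prk κ (g x)) 2 volume := (prk κ).comp_memLp' hgm
    have h3 : Tendsto (fun n => eLpNorm (fun x => prk κ (gr (φ n) x) - prk κ (g x)) 2 volume)
        atTop (𝓝 0) := by
      have hb : ∀ n, eLpNorm (fun x => prk κ (gr (φ n) x) - prk κ (g x)) 2 volume ≤
          ENNReal.ofReal ‖prk κ‖ * eLpNorm (fun x => gr (φ n) x - g x) 2 volume := by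
        intro n
        refine eLpNorm_le_mul_eLpNorm_of_ae_le_mul (Eventually.of_forall fun x => ?_) 2
        rw [← map_sub]
        exact (prk κ).le_opNorm _
      have h4 : Tendsto (fun n => ENNReal.ofReal ‖prk κ‖ *
          eLpNorm (fun x => gr (φ n) x - g x) 2 volume) atTop (𝓝 0) := by
        have := ENNReal.Tendsto.const_mul (a := ENNReal.ofReal ‖prk κ‖) h2
          (Or.inr ENNReal.ofReal_ne_top)
        simpa using this
      exact tendsto_of_tendsto_of_tendsto_of_le_of_le tendsto_const_nhds h4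
        (fun _ => bot_le) hb
    have := tendsto_integral_sq m1 m2 h3
    simpa only [norm_prk_sq] using this
  -- subsequence
  have hφm : ∀ n, AEStronglyMeasurable (φ n) volume := fun n => (hφH n).memf.1
  obtain ⟨ns, hns, hae⟩ := (tendstoInMeasure_of_tendsto_eLpNorm (by norm_num) hφm hfm.1
    h1).exists_seq_tendsto_ae
  set εn : ℕ → ℝ := fun k => 1 / ((k : ℝ) + 1) with hεn
  have hε0 : ∀ k, 0 < εn k := fun k => Nat.one_div_pos_of_nat
  have hεt : Tendsto εn atTop (𝓝 0) := tendsto_one_div_add_atTop_nhds_zero_nat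
  have t3 : Tendsto (fun k => ENNReal.ofReal ((t / 2) * (∫ x, ∑ c, (gr (φ (ns k)) x (κ c)) ^ 2) +
      1 / (2 * t) * ∫ x, φ (ns k) x ^ 2)) atTop
      (𝓝 (ENNReal.ofReal ((t / 2) * (∫ x, ∑ c, (g x (κ c)) ^ 2) + 1 / (2 * t) * ∫ x, f x ^ 2))) := by
    refine ENNReal.tendsto_ofReal ?_
    exact ((t2.comp hns.tendsto_atTop).const_mul _).add ((t1.comp hns.tendsto_atTop).const_mul _)
  have hle : ∀ k, ∫⁻ x, ENNReal.ofReal (φ (ns k) x ^ 2 / sreg L a (εn k) x) ≤
      ENNReal.ofReal ((t / 2) * (∫ x, ∑ c, (gr (φ (ns k)) x (κ c)) ^ 2) +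
      1 / (2 * t) * ∫ x, φ (ns k) x ^ 2) := by
    intro k
    have hcont : Continuous (φ (ns k)) := (hφ _).smooth.continuous
    have hscont : Continuous (sreg L a (εn k)) := (contDiff_sreg L a (hε0 k)).continuous
    have i3 : Integrable (fun x => φ (ns k) x ^ 2 / sreg L a (εn k) x) := by
      refine Continuous.integrable_of_hasCompactSupport
        ((hcont.pow 2).div hscont fun x => (sreg_pos L a (hε0 k) x).ne') ?_
      have e : (fun x => φ (ns k) x ^ 2 / sreg L a (εn k) x) =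
          fun x => φ (ns k) x ^ 2 * (sreg L a (εn k) x)⁻¹ := by
        funext x; rw [div_eq_mul_inv]
      rw [e]
      exact ((hφ _).cpt.comp_left (g := fun y : ℝ => y ^ 2) (by simp)).mul_right
    rw [← ofReal_integral_eq_lintegral_ofReal i3 (Eventually.of_forall fun x => by
      have := sreg_pos L a (hε0 k) x
      positivity)]
    exact ENNReal.ofReal_le_ofReal (coulomb_test_reg L κ hL a (hε0 k) (hφ _) ht)
  have hfat : ∫⁻ x, ENNReal.ofReal (f x ^ 2 / ‖L x - a‖) ≤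
      ∫⁻ x, liminf (fun k => ENNReal.ofReal (φ (ns k) x ^ 2 / sreg L a (εn k) x)) atTop := by
    refine lintegral_mono_ae ?_
    filter_upwards [hae] with x hx
    rcases eq_or_ne (L x - a) 0 with h0 | h0
    · rw [h0, norm_zero, div_zero, ENNReal.ofReal_zero]; exact bot_le
    · have hpos : 0 < ‖L x - a‖ := norm_pos_iff.2 h0
      have ts : Tendsto (fun k => sreg L a (εn k) x) atTop (𝓝 ‖L x - a‖) := by
        unfold sreg
        have h5 : Tendsto (fun k => (∑ d : Fin 3, (L x d - a d) ^ 2) + εn k ^ 2) atTop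
            (𝓝 ((∑ d : Fin 3, (L x d - a d) ^ 2) + 0 ^ 2)) :=
          tendsto_const_nhds.add (hεt.pow 2)
        have h6 := (Real.continuous_sqrt.tendsto _).comp h5
        have h7 : Real.sqrt ((∑ d : Fin 3, (L x d - a d) ^ 2) + 0 ^ 2) = ‖L x - a‖ := by
          rw [← norm_sub_sq_eq, zero_pow two_ne_zero, add_zero, Real.sqrt_sq hpos.le]
        rw [h7] at h6
        exact h6
      have t4 : Tendsto (fun k => ENNReal.ofReal (φ (ns k) x ^ 2 / sreg L a (εn k) x)) atTop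
          (𝓝 (ENNReal.ofReal (f x ^ 2 / ‖L x - a‖))) :=
        ENNReal.tendsto_ofReal ((hx.pow 2).div ts hpos.ne')
      exact t4.liminf_eq.ge
  refine hfat.trans ?_
  refine (lintegral_liminf_le' fun k => ?_).trans ?_
  · refine AEMeasurable.ennreal_ofReal ?_
    have hcont : Continuous (φ (ns k)) := (hφ _).smooth.continuous
    have hscont : Continuous (sreg L a (εn k)) := (contDiff_sreg L a (hε0 k)).continuous
    exact ((hcont.pow 2).div hscont fun x => (sreg_pos L a (hε0 k) x).ne').aemeasurable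
  · rw [← t3.liminf_eq]
    exact liminf_le_liminf (Eventually.of_forall hle)

/-- Coulomb inequality for complex `H¹` functions -/
theorem coulomb_le {f : E ι → ℂ} {g : E ι → Gr ι ℂ} (h : IsH1 f g) (L : E ι →L[ℝ] E3)
    (κ : Fin 3 → ι)
    (hL : ∀ c, L (EuclideanSpace.single (κ c) (1 : ℝ)) = EuclideanSpace.single c (1 : ℝ))
    (a : E3) {t : ℝ} (ht : 0 < t) :
    Integrable (fun x => ‖f x‖ ^ 2 / ‖L x - a‖) ∧
      ∫ x, ‖f x‖ ^ 2 / ‖L x - a‖ ≤
        (t / 2) * (∫ x, ∑ c, ‖g x (κ c)‖ ^ 2) + 1 / (2 * t) * ∫ x, ‖f x‖ ^ 2 := by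
  have hr := coulomb_real h.re_H1 L κ hL a ht
  have hi := coulomb_real h.im_H1 L κ hL a ht
  have hfr : MemLp (fun x => (f x).re) 2 volume := h.re_H1.memf
  have hfi : MemLp (fun x => (f x).im) 2 volume := h.im_H1.memf
  have n1 : ∀ z : ℂ, ‖z‖ ^ 2 = z.re ^ 2 + z.im ^ 2 := fun z => by
    rw [← Complex.normSq_eq_norm_sq, Complex.normSq_apply]; ring
  have eF : ∫ x, ‖f x‖ ^ 2 = (∫ x, (f x).re ^ 2) + ∫ x, (f x).im ^ 2 := by
    rw [← integral_add hfr.integrable_sq hfi.integrable_sq]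
    exact integral_congr_ae (Eventually.of_forall fun x => n1 _)
  have hgc : ∀ i, MemLp (fun x => g x i) 2 volume := fun i => Crest.Agent.R335.HF.memLp_comp h.memg i
  have hgr : ∀ i, Integrable (fun x => (g x i).re ^ 2) := fun i => (hgc i).re.integrable_sq
  have hgi : ∀ i, Integrable (fun x => (g x i).im ^ 2) := fun i => (hgc i).im.integrable_sq
  have eG : ∫ x, ∑ c, ‖g x (κ c)‖ ^ 2 = (∫ x, ∑ c, (gre g x (κ c)) ^ 2) +
      ∫ x, ∑ c, (gim g x (κ c)) ^ 2 := by
    have j1 : Integrable (fun x => ∑ c, (gre g x (κ c)) ^ 2) :=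
      integrable_finsetSum _ fun c _ => hgr (κ c)
    have j2 : Integrable (fun x => ∑ c, (gim g x (κ c)) ^ 2) :=
      integrable_finsetSum _ fun c _ => hgi (κ c)
    rw [← integral_add j1 j2]
    refine integral_congr_ae (Eventually.of_forall fun x => ?_)
    show ∑ c, ‖g x (κ c)‖ ^ 2 = (∑ c, (g x (κ c)).re ^ 2) + ∑ c, (g x (κ c)).im ^ 2
    rw [← Finset.sum_add_distrib]
    exact Finset.sum_congr rfl fun c _ => n1 _
  set A := (t / 2) * (∫ x, ∑ c, (gre g x (κ c)) ^ 2) + 1 / (2 * t) * ∫ x, (f x).re ^ 2 with hA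
  set B := (t / 2) * (∫ x, ∑ c, (gim g x (κ c)) ^ 2) + 1 / (2 * t) * ∫ x, (f x).im ^ 2 with hB
  have hA0 : 0 ≤ A := by
    refine add_nonneg (mul_nonneg (by positivity) (integral_nonneg fun x =>
      Finset.sum_nonneg fun _ _ => sq_nonneg _)) (mul_nonneg (by positivity)
      (integral_nonneg fun x => sq_nonneg _))
  have hB0 : 0 ≤ B := by
    refine add_nonneg (mul_nonneg (by positivity) (integral_nonneg fun x =>
      Finset.sum_nonneg fun _ _ => sq_nonneg _)) (mul_nonneg (by positivity)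
      (integral_nonneg fun x => sq_nonneg _))
  have hmeas : AEStronglyMeasurable (fun x => ‖f x‖ ^ 2 / ‖L x - a‖) volume := by
    have h1 : AEStronglyMeasurable (fun x => ‖f x‖ ^ 2) volume := h.memf.1.norm.pow 2
    have h2 : Measurable (fun x => ‖L x - a‖) := by fun_prop
    exact (h1.aemeasurable.div h2.aemeasurable).aestronglyMeasurable
  have hsum : ∫⁻ x, ENNReal.ofReal (‖f x‖ ^ 2 / ‖L x - a‖) ≤ ENNReal.ofReal (A + B) := by
    rw [ENNReal.ofReal_add hA0 hB0]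
    refine le_trans (le_of_eq ?_) (add_le_add hr hi)
    have h2 : Measurable (fun x => ‖L x - a‖) := by fun_prop
    have m1 : AEMeasurable (fun x => ENNReal.ofReal ((f x).re ^ 2 / ‖L x - a‖)) volume :=
      ((hfr.1.aemeasurable.pow_const 2).div h2.aemeasurable).ennreal_ofReal
    rw [← lintegral_add_left' m1]
    refine lintegral_congr fun x => ?_
    rw [← ENNReal.ofReal_add (by positivity) (by positivity), n1, add_div]
  have hint : Integrable (fun x => ‖f x‖ ^ 2 / ‖L x - a‖) := by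
    refine ⟨hmeas, ?_⟩
    rw [hasFiniteIntegral_iff_ofReal (Eventually.of_forall fun x => by positivity)]
    exact hsum.trans_lt ENNReal.ofReal_lt_top
  refine ⟨hint, ?_⟩
  rw [← ofReal_integral_eq_lintegral_ofReal hint (Eventually.of_forall fun x => by positivity)]
    at hsum
  have h3 := (ENNReal.ofReal_le_ofReal_iff (add_nonneg hA0 hB0)).1 hsum
  refine h3.trans (le_of_eq ?_)
  rw [eF, eG, hA, hB]; ring

/-- optimisation of the parameter -/
theorem le_sqrt_mul_sqrt_of_param {X A B : ℝ} (hA : 0 ≤ A) (hB : 0 ≤ B)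
    (h : ∀ t : ℝ, 0 < t → X ≤ (t / 2) * B + 1 / (2 * t) * A) : X ≤ Real.sqrt A * Real.sqrt B := by
  rcases hA.eq_or_lt with rfl | hA'
  · rw [Real.sqrt_zero, zero_mul]
    refine le_of_forall_pos_le_add fun ε hε => ?_
    have := h (2 * ε / (B + 1)) (by positivity)
    rw [mul_zero, add_zero] at this
    refine this.trans ?_
    rw [zero_add]
    have : 2 * ε / (B + 1) / 2 * B = ε * (B / (B + 1)) := by field_simp
    rw [this]
    have h1 : B / (B + 1) ≤ 1 := by rw [div_le_one (by positivity)]; linarith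
    nlinarith
  rcases hB.eq_or_lt with rfl | hB'
  · rw [Real.sqrt_zero, mul_zero]
    refine le_of_forall_pos_le_add fun ε hε => ?_
    have := h ((A + 1) / (2 * ε)) (by positivity)
    rw [mul_zero, zero_add] at this
    refine this.trans ?_
    rw [zero_add]
    have : 1 / (2 * ((A + 1) / (2 * ε))) * A = ε * (A / (A + 1)) := by field_simp
    rw [this]
    have h1 : A / (A + 1) ≤ 1 := by rw [div_le_one (by positivity)]; linarith
    nlinarith
  · have hsA := Real.sqrt_pos.2 hA'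
    have hsB := Real.sqrt_pos.2 hB'
    have := h (Real.sqrt A / Real.sqrt B) (by positivity)
    refine this.trans (le_of_eq ?_)
    have eA : Real.sqrt A * Real.sqrt A = A := Real.mul_self_sqrt hA
    have eB : Real.sqrt B * Real.sqrt B = B := Real.mul_self_sqrt hB
    field_simp
    nlinarith

theorem coulomb_le_sqrt {f : E ι → ℂ} {g : E ι → Gr ι ℂ} (h : IsH1 f g) (L : E ι →L[ℝ] E3)
    (κ : Fin 3 → ι)
    (hL : ∀ c, L (EuclideanSpace.single (κ c) (1 : ℝ)) = EuclideanSpace.single c (1 : ℝ))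
    (a : E3) :
    ∫ x, ‖f x‖ ^ 2 / ‖L x - a‖ ≤
      Real.sqrt (∫ x, ‖f x‖ ^ 2) * Real.sqrt (∫ x, ∑ c, ‖g x (κ c)‖ ^ 2) :=
  le_sqrt_mul_sqrt_of_param (integral_nonneg fun x => by positivity)
    (integral_nonneg fun x => Finset.sum_nonneg fun _ _ => by positivity)
    fun _ ht => (coulomb_le h L κ hL a ht).2

end Crest.Agent.R338.Fm
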