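import Mathlib
import Crest.Agent.R338.Fm1

/-!
# Row 338, node II.0 (F3): dilations (helper271)

`InfEnergyGE W b ↔ InfEnergyGE (fun x => c² W(c x)) (c² b)`, and the same for `InfEnergyLE`;
specialisation to Coulomb potentials of unit nuclei.
-/

set_option autoImplicit false
set_option linter.unusedSectionVars false

open MeasureTheory Filter Topology
open scoped ContDiff ENNReal
open Crest.MathPhysics.ElectronicCoulomb
open Crest.Agent.R335.HF (IsH1 Gr E kin cgrad)

noncomputable section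

namespace Crest.Agent.R338.Fm

section general

variable {ι : Type*} [Fintype ι] [DecidableEq ι]

theorem scal_emb {c : ℝ} (hc : c ≠ 0) : MeasurableEmbedding (fun x : E ι => c • x) :=
  (Homeomorph.smulOfNeZero c hc).measurableEmbedding

theorem scal_map {c : ℝ} (hc : c ≠ 0) : Measure.map (fun x : E ι => c • x) volume =
    ENNReal.ofReal |(c ^ Fintype.card ι)⁻¹| • (volume : Measure (E ι)) := by
  have := Measure.map_addHaar_smul (volume : Measure (E ι)) hc
  rw [finrank_euclideanSpace] at this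
  exact this

theorem scal_memLp {F : Type*} [NormedAddCommGroup F] {f : E ι → F} {p : ℝ≥0∞}
    (hf : MemLp f p volume) {c : ℝ} (hc : c ≠ 0) : MemLp (fun x => f (c • x)) p volume := by
  have h1 : MemLp f p (Measure.map (fun x : E ι => c • x) volume) := by
    rw [scal_map hc]
    exact hf.smul_measure ENNReal.ofReal_ne_top
  exact ((scal_emb hc).memLp_map_measure_iff).1 h1

theorem scal_integral {F : Type*} [NormedAddCommGroup F] [NormedSpace ℝ F] (f : E ι → F) (c : ℝ) :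
    ∫ x, f (c • x) = |(c ^ Fintype.card ι)⁻¹| • ∫ x, f x := by
  have := Measure.integral_comp_smul (volume : Measure (E ι)) f c
  rw [finrank_euclideanSpace] at this
  exact this

theorem scal_integrable {F : Type*} [NormedAddCommGroup F] {f : E ι → F} (hf : Integrable f)
    {c : ℝ} (hc : c ≠ 0) : Integrable (fun x => f (c • x)) := by
  rw [← memLp_one_iff_integrable] at hf ⊢
  exact scal_memLp hf hc

theorem scal_fderiv {φ : E ι → ℝ} (h : ContDiff ℝ ∞ φ) (c : ℝ) (x v : E ι) :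
    fderiv ℝ (fun x => φ (c • x)) x v = c * fderiv ℝ φ (c • x) v := by
  have h3 : HasFDerivAt (fun x : E ι => φ (c • x))
      ((fderiv ℝ φ (c • x)).comp (c • ContinuousLinearMap.id ℝ (E ι))) x := by
    have h4 : HasFDerivAt (fun x : E ι => c • x) (c • ContinuousLinearMap.id ℝ (E ι)) x :=
      (hasFDerivAt_id x).const_smul c
    exact ((h.differentiable (by simp)) (c • x)).hasFDerivAt.comp x h4
  rw [h3.fderiv]
  simp

theorem IsH1.scale {F : Type*} [NormedAddCommGroup F] [NormedSpace ℝ F] {f : E ι → F}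
    {g : E ι → Gr ι F} (h : IsH1 f g) {c : ℝ} (hc : 0 < c) :
    IsH1 (fun x => f (c • x)) (fun x => c • g (c • x)) := by
  have hc' : c ≠ 0 := hc.ne'
  refine ⟨scal_memLp h.memf hc', (scal_memLp h.memg hc').const_smul c, fun φ h1 h2 i => ?_⟩
  have hψ1 : ContDiff ℝ ∞ (fun x : E ι => φ (c⁻¹ • x)) := h1.comp (contDiff_const_smul _)
  have hψ2 : HasCompactSupport (fun x : E ι => φ (c⁻¹ • x)) :=
    h2.comp_homeomorph (Homeomorph.smulOfNeZero c⁻¹ (inv_ne_zero hc'))
  have e0 : ∀ x : E ι, c⁻¹ • c • x = x := fun x => by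
    rw [smul_smul, inv_mul_cancel₀ hc', one_smul]
  have key := h.ibp _ hψ1 hψ2 i
  have e1 : ∫ x, fderiv ℝ φ x (EuclideanSpace.single i (1 : ℝ)) • f (c • x) =
      c • (|(c ^ Fintype.card ι)⁻¹| • ∫ x, fderiv ℝ (fun x : E ι => φ (c⁻¹ • x)) x
        (EuclideanSpace.single i (1 : ℝ)) • f x) := by
    rw [← scal_integral (fun x => fderiv ℝ (fun x : E ι => φ (c⁻¹ • x)) x
        (EuclideanSpace.single i (1 : ℝ)) • f x) c, ← integral_smul]
    refine integral_congr_ae (Eventually.of_forall fun x => ?_)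
    simp only
    rw [scal_fderiv h1, e0, smul_smul, ← mul_assoc, mul_inv_cancel₀ hc', one_mul]
  have e2 : ∫ x, φ x • (c • g (c • x)) i =
      c • (|(c ^ Fintype.card ι)⁻¹| • ∫ x, φ (c⁻¹ • x) • g x i) := by
    rw [← scal_integral (fun x => φ (c⁻¹ • x) • g x i) c, ← integral_smul]
    refine integral_congr_ae (Eventually.of_forall fun x => ?_)
    simp only [e0, PiLp.smul_apply]
    rw [smul_comm]
  rw [e1, e2, key, smul_neg, smul_neg]

end general

variable {n : ℕ}

/-- dilation of a wave -/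
def dilW (c : ℝ) (Ψ : Wave n) : Wave n := fun s x => Ψ s (c • x)

/-- Jacobian factor -/
def jac (n : ℕ) (c : ℝ) : ℝ := |(c ^ Fintype.card (Fin n × Fin 3))⁻¹|

theorem jac_pos (n : ℕ) {c : ℝ} (hc : 0 < c) : 0 < jac n c :=
  abs_pos.2 (inv_ne_zero (pow_ne_zero _ hc.ne'))

theorem permConfig_smul (σ : Equiv.Perm (Fin n)) (c : ℝ) (x : Config n) :
    permConfig σ (c • x) = c • permConfig σ x := by
  ext i; simp [permConfig]

theorem dilW_fermionic {Ψ : Wave n} (h : IsFermionic Ψ) {c : ℝ} (hc : 0 < c) :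
    IsFermionic (dilW c Ψ) := by
  refine ⟨fun s => scal_memLp (h.1 s) hc.ne', fun σ s x => ?_⟩
  change Ψ (fun i => s (σ i)) (c • permConfig σ x) = _
  rw [← permConfig_smul, h.2 σ s (c • x)]
  rfl

theorem dilW_H1 {Ψ : Wave n} {Γ : Spin n → Config n → CG n} (h : WaveH1 Ψ Γ) {c : ℝ} (hc : 0 < c) :
    WaveH1 (dilW c Ψ) (fun s x => c • Γ s (c • x)) := fun s => IsH1.scale (h s) hc

theorem nsq_dilW (Ψ : Wave n) (c : ℝ) : nsq (dilW c Ψ) = jac n c * nsq Ψ := by
  unfold nsq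
  rw [Finset.mul_sum]
  refine Finset.sum_congr rfl fun s _ => ?_
  exact scal_integral (fun x => ‖Ψ s x‖ ^ 2) c

/-- the dilated potential -/
def dilP (c : ℝ) (W : Config n → ℝ) : Config n → ℝ := fun x => c ^ 2 * W (c • x)

theorem dilW_admissible {W : Config n → ℝ} {Ψ : Wave n} (h : IsAdmissible W Ψ) {c : ℝ}
    (hc : 0 < c) : IsAdmissible (dilP c W) (dilW c Ψ) := by
  obtain ⟨Γ, hΓ⟩ := IsAdmissible.exists_grad h
  refine ⟨dilW_fermionic h.1 hc, (dilW_H1 hΓ hc).kinetic_lt_top, fun s => ?_⟩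
  have := (scal_integrable (h.2.2 s) hc.ne').const_mul (c ^ 2)
  refine this.congr (Eventually.of_forall fun x => ?_)
  simp only [dilP, dilW]; ring

theorem energy_dilW {W : Config n → ℝ} {Ψ : Wave n} (h : kinetic Ψ < ⊤) {c : ℝ}
    (hc : 0 < c) : energy (dilP c W) (dilW c Ψ) = jac n c * (c ^ 2 * energy W Ψ) := by
  obtain ⟨Γ, hΓ⟩ := kinetic_lt_top_iff.1 h
  rw [(dilW_H1 hΓ hc).energy_eq, hΓ.energy_eq, mul_add, mul_add]
  congr 1
  · unfold dir
    have : ∀ s : Spin n, ∫ x, ‖c • Γ s (c • x)‖ ^ 2 = jac n c * (c ^ 2 * ∫ x, ‖Γ s x‖ ^ 2) := by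
      intro s
      have e : ∫ x, c ^ 2 * ‖Γ s (c • x)‖ ^ 2 = jac n c * ∫ x, c ^ 2 * ‖Γ s x‖ ^ 2 :=
        scal_integral (fun x => c ^ 2 * ‖Γ s x‖ ^ 2) c
      rw [← integral_const_mul, ← e]
      refine integral_congr_ae (Eventually.of_forall fun x => ?_)
      simp only [norm_smul, mul_pow, Real.norm_eq_abs, sq_abs]
    simp only [this]
    rw [← Finset.mul_sum, ← Finset.mul_sum]
    ring
  · rw [Finset.mul_sum, Finset.mul_sum]
    refine Finset.sum_congr rfl fun s _ => ?_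
    have e : ∫ x, c ^ 2 * (W (c • x) * ‖Ψ s (c • x)‖ ^ 2) =
        jac n c * ∫ x, c ^ 2 * (W x * ‖Ψ s x‖ ^ 2) :=
      scal_integral (fun x => c ^ 2 * (W x * ‖Ψ s x‖ ^ 2)) c
    rw [← integral_const_mul, ← e]
    refine integral_congr_ae (Eventually.of_forall fun x => ?_)
    simp only [dilP, dilW]; ring

theorem infEnergyLE_iff {W : Config n → ℝ} {a : ℝ} :
    InfEnergyLE W a ↔ ∀ ε > 0, ∃ Ψ : Wave n, IsAdmissible W Ψ ∧ 0 < nsq Ψ ∧
      energy W Ψ ≤ (a + ε) * nsq Ψ := by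
  constructor
  · intro h ε hε
    obtain ⟨Ψ, h1, h2, h3⟩ := h ε hε
    have h4 := (normSq_eq_one_iff (IsAdmissible.memLp h1)).1 h2
    exact ⟨Ψ, h1, by rw [h4]; exact one_pos, by rw [h4, mul_one]; exact h3⟩
  · intro h ε hε
    obtain ⟨Ψ, h1, h2, h3⟩ := h (ε / 2) (by positivity)
    obtain ⟨Φ, h4, h5, h6⟩ := infEnergyLE_of h1 h2 h3 (ε / 2) (by positivity)
    exact ⟨Φ, h4, h5, by linarith⟩

theorem infEnergyGE_dil_imp {W : Config n → ℝ} {b c : ℝ} (hc : 0 < c)
    (h : InfEnergyGE (dilP c W) (c ^ 2 * b)) : InfEnergyGE W b := by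
  rw [infEnergyGE_iff] at h ⊢
  intro Ψ hΨ
  have h1 := h _ (dilW_admissible hΨ hc)
  rw [nsq_dilW, energy_dilW hΨ.2.1 hc] at h1
  have hj := jac_pos n hc
  have hc2 : 0 < c ^ 2 := by positivity
  have e1 : c ^ 2 * b * (jac n c * nsq Ψ) = jac n c * (c ^ 2 * (b * nsq Ψ)) := by ring
  rw [e1] at h1
  exact le_of_mul_le_mul_left (le_of_mul_le_mul_left h1 hj) hc2

theorem infEnergyLE_dil_imp {W : Config n → ℝ} {a c : ℝ} (hc : 0 < c)
    (h : InfEnergyLE W a) : InfEnergyLE (dilP c W) (c ^ 2 * a) := by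
  rw [infEnergyLE_iff] at h ⊢
  intro ε hε
  obtain ⟨Ψ, h1, h2, h3⟩ := h (ε / c ^ 2) (by positivity)
  refine ⟨_, dilW_admissible h1 hc, ?_, ?_⟩
  · rw [nsq_dilW]; exact mul_pos (jac_pos n hc) h2
  · rw [nsq_dilW, energy_dilW h1.2.1 hc]
    have hc2 : 0 < c ^ 2 := by positivity
    have hj := jac_pos n hc
    calc jac n c * (c ^ 2 * energy W Ψ) ≤ jac n c * (c ^ 2 * ((a + ε / c ^ 2) * nsq Ψ)) := by
          gcongr
      _ = (c ^ 2 * a + ε) * (jac n c * nsq Ψ) := by field_simp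

theorem dilP_dilP {W : Config n → ℝ} {c : ℝ} (hc : 0 < c) : dilP c⁻¹ (dilP c W) = W := by
  funext x
  simp only [dilP, smul_smul, mul_inv_cancel₀ hc.ne', one_smul]
  field_simp

theorem infEnergyGE_dil {W : Config n → ℝ} {b c : ℝ} (hc : 0 < c) :
    InfEnergyGE W b ↔ InfEnergyGE (dilP c W) (c ^ 2 * b) := by
  refine ⟨fun h => ?_, infEnergyGE_dil_imp hc⟩
  refine infEnergyGE_dil_imp (c := c⁻¹) (inv_pos.2 hc) ?_
  rw [dilP_dilP hc]
  have : c⁻¹ ^ 2 * (c ^ 2 * b) = b := by field_simp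
  rw [this]
  exact h

theorem infEnergyLE_dil {W : Config n → ℝ} {a c : ℝ} (hc : 0 < c) :
    InfEnergyLE W a ↔ InfEnergyLE (dilP c W) (c ^ 2 * a) := by
  refine ⟨infEnergyLE_dil_imp hc, fun h => ?_⟩
  have := infEnergyLE_dil_imp (c := c⁻¹) (inv_pos.2 hc) h
  rw [dilP_dilP hc] at this
  have e : c⁻¹ ^ 2 * (c ^ 2 * a) = a := by field_simp
  rwa [e] at this

/-! ### Coulomb potentials -/

theorem elPos_smul (c : ℝ) (i : Fin n) (x : Config n) : elPos i (c • x) = c • elPos i x := by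
  ext k; simp [elPos]

/-- scaled problem: `-λ Σ 1/|x_i - X_α| + λ Σ 1/|x_i - x_j|` -/
def scaledPot {K : ℕ} (lam : ℝ) (X : Fin K → Pos3) (x : Config n) : ℝ :=
  (∑ i : Fin n, ∑ α : Fin K, -(lam / ‖elPos i x - X α‖)) +
  ∑ i : Fin n, ∑ j : Fin n, if i < j then lam / ‖elPos i x - elPos j x‖ else 0

theorem scaledPot_eq {K : ℕ} (lam : ℝ) (X : Fin K → Pos3) (x : Config n) :
    scaledPot lam X x = lam * unitNucleiPotential X x := by
  unfold scaledPot unitNucleiPotential
  rw [mul_add]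
  simp only [Finset.mul_sum]
  congr 1
  · refine Finset.sum_congr rfl fun i _ => Finset.sum_congr rfl fun α _ => ?_
    ring
  · refine Finset.sum_congr rfl fun i _ => Finset.sum_congr rfl fun j _ => ?_
    split_ifs
    · ring
    · simp

theorem dilP_unitNuclei {K : ℕ} {lam : ℝ} (hl : 0 < lam) (R : Fin K → Pos3) :
    dilP lam (unitNucleiPotential (n := n) R) = scaledPot lam (fun α => lam⁻¹ • R α) := by
  funext x
  have h1 : ∀ (i : Fin n) (α : Fin K), ‖elPos i (lam • x) - R α‖ =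
      lam * ‖elPos i x - lam⁻¹ • R α‖ := by
    intro i α
    rw [elPos_smul]
    have : lam • elPos i x - R α = lam • (elPos i x - lam⁻¹ • R α) := by
      rw [smul_sub, smul_smul, mul_inv_cancel₀ hl.ne', one_smul]
    rw [this, norm_smul, Real.norm_of_nonneg hl.le]
  have h2 : ∀ (i j : Fin n), ‖elPos i (lam • x) - elPos j (lam • x)‖ =
      lam * ‖elPos i x - elPos j x‖ := by
    intro i j
    rw [elPos_smul, elPos_smul, ← smul_sub, norm_smul, Real.norm_of_nonneg hl.le]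
  have h3 : ∀ r : ℝ, lam ^ 2 * (1 / (lam * r)) = lam / r := by
    intro r
    rcases eq_or_ne r 0 with rfl | hr
    · simp
    · field_simp
  simp only [dilP, scaledPot, unitNucleiPotential, mul_add, Finset.mul_sum, h1, h2]
  congr 1
  · refine Finset.sum_congr rfl fun i _ => Finset.sum_congr rfl fun α _ => ?_
    rw [mul_neg, h3]
  · refine Finset.sum_congr rfl fun i _ => Finset.sum_congr rfl fun j _ => ?_
    split_ifs
    · rw [h3]
    · simp

/-- physical problem ↔ scaled problem, lower bounds -/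
theorem infEnergyGE_scaled {K : ℕ} {lam : ℝ} (hl : 0 < lam) (R : Fin K → Pos3) (b : ℝ) :
    InfEnergyGE (unitNucleiPotential (n := n) R) b ↔
      InfEnergyGE (scaledPot (n := n) lam (fun α => lam⁻¹ • R α)) (lam ^ 2 * b) := by
  rw [infEnergyGE_dil hl, dilP_unitNuclei hl]

/-- physical problem ↔ scaled problem, upper bounds -/
theorem infEnergyLE_scaled {K : ℕ} {lam : ℝ} (hl : 0 < lam) (R : Fin K → Pos3) (a : ℝ) :
    InfEnergyLE (unitNucleiPotential (n := n) R) a ↔
      InfEnergyLE (scaledPot (n := n) lam (fun α => lam⁻¹ • R α)) (lam ^ 2 * a) := by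
  rw [infEnergyLE_dil hl, dilP_unitNuclei hl]

end Crest.Agent.R338.Fm
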