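import Mathlib
import Crest.Agent.R338.Fm2a
import Crest.Agent.R338.Fm1
import Crest.Agent.R338.Fm3
import Crest.Agent.R338.Dens3

/-!
# Row 338, node II.0 (F2): Coulomb terms on configuration space (helper271)

Coulomb inequality for `1/|x_i - a|` and `1/|x_i - x_j|`, form boundedness of the potentials of
unit nuclei, admissible waves = fermionic waves of finite kinetic energy.
-/

set_option autoImplicit false
set_option linter.unusedSectionVars false

open MeasureTheory Filter Topology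
open scoped ContDiff ENNReal
open Crest.MathPhysics.ElectronicCoulomb
open Crest.Agent.R335.HF (IsH1 Gr E kin cgrad)

noncomputable section

namespace Crest.Agent.R338.Fm

variable {n : ℕ}

/-- position of electron `i` as a continuous linear map -/
def elPosL (i : Fin n) : Config n →L[ℝ] Pos3 :=
  LinearMap.toContinuousLinearMap
    { toFun := fun x => elPos i x
      map_add' := fun x y => by ext c; simp [elPos]
      map_smul' := fun r x => by ext c; simp [elPos] }

@[simp] theorem elPosL_apply (i : Fin n) (x : Config n) : elPosL i x = elPos i x := rfl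

@[simp] theorem elPos_apply (i : Fin n) (x : Config n) (c : Fin 3) : elPos i x c = x (i, c) := rfl

theorem continuous_elPos (i : Fin n) : Continuous (elPos i) := (elPosL i).continuous

theorem measurable_elPos (i : Fin n) : Measurable (elPos i) := (continuous_elPos i).measurable

theorem elPosL_single (i : Fin n) (c : Fin 3) :
    elPosL i (EuclideanSpace.single (i, c) (1 : ℝ)) = EuclideanSpace.single c (1 : ℝ) := by
  ext d
  simp [elPos, Pi.single_apply]

theorem elPosL_single_ne {i j : Fin n} (h : j ≠ i) (c : Fin 3) :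
    elPosL j (EuclideanSpace.single (i, c) (1 : ℝ)) = 0 := by
  ext d
  simp [elPos, Pi.single_apply, h]

theorem sum_coord_le (i : Fin n) (y : CG n) : ∑ c, ‖y (i, c)‖ ^ 2 ≤ ‖y‖ ^ 2 := by
  rw [PiLp.norm_sq_eq_of_L2, Fintype.sum_prod_type]
  exact Finset.single_le_sum (f := fun j => ∑ c, ‖y (j, c)‖ ^ 2)
    (fun j _ => Finset.sum_nonneg fun _ _ => by positivity) (Finset.mem_univ i)

theorem norm_sq_eq_sum (y : CG n) : ‖y‖ ^ 2 = ∑ i, ∑ c, ‖y (i, c)‖ ^ 2 := by
  rw [PiLp.norm_sq_eq_of_L2, Fintype.sum_prod_type]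

theorem integrable_sum_coord {f : Config n → ℂ} {g : Config n → CG n} (h : IsH1 f g) (i : Fin n) :
    Integrable (fun x => ∑ c, ‖g x (i, c)‖ ^ 2) :=
  integrable_finsetSum _ fun c _ =>
    (Crest.Agent.R335.HF.memLp_comp h.memg (i, c)).integrable_norm_pow (by norm_num)

theorem integral_sum_coord_le {f : Config n → ℂ} {g : Config n → CG n} (h : IsH1 f g) (i : Fin n) :
    ∫ x, ∑ c, ‖g x (i, c)‖ ^ 2 ≤ ∫ x, ‖g x‖ ^ 2 :=
  integral_mono (integrable_sum_coord h i) (h.memg.integrable_norm_pow (by norm_num))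
    fun x => sum_coord_le i (g x)

/-- Coulomb inequality, electron–nucleus, with the gradient of electron `i` only -/
theorem coulomb_nuc_i {f : Config n → ℂ} {g : Config n → CG n} (h : IsH1 f g) (i : Fin n)
    (a : Pos3) : Integrable (fun x => ‖f x‖ ^ 2 / ‖elPos i x - a‖) ∧
      ∫ x, ‖f x‖ ^ 2 / ‖elPos i x - a‖ ≤
        Real.sqrt (∫ x, ‖f x‖ ^ 2) * Real.sqrt (∫ x, ∑ c, ‖g x (i, c)‖ ^ 2) :=
  ⟨(coulomb_le h (elPosL i) (fun c => (i, c)) (elPosL_single i) a one_pos).1,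
    coulomb_le_sqrt h (elPosL i) (fun c => (i, c)) (elPosL_single i) a⟩

/-- Coulomb inequality, electron–electron -/
theorem coulomb_pair_i {f : Config n → ℂ} {g : Config n → CG n} (h : IsH1 f g) {i j : Fin n}
    (hij : i ≠ j) : Integrable (fun x => ‖f x‖ ^ 2 / ‖elPos i x - elPos j x‖) ∧
      ∫ x, ‖f x‖ ^ 2 / ‖elPos i x - elPos j x‖ ≤
        Real.sqrt (∫ x, ‖f x‖ ^ 2) * Real.sqrt (∫ x, ∑ c, ‖g x (i, c)‖ ^ 2) := by
  have hL : ∀ c, (elPosL i - elPosL j : Config n →L[ℝ] Pos3)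
      (EuclideanSpace.single (i, c) (1 : ℝ)) = EuclideanSpace.single c (1 : ℝ) := fun c => by
    rw [ContinuousLinearMap.sub_apply, elPosL_single, elPosL_single_ne hij.symm, sub_zero]
  have e : ∀ x, (elPosL i - elPosL j : Config n →L[ℝ] Pos3) x - 0 = elPos i x - elPos j x :=
    fun x => by rw [sub_zero]; rfl
  have h1 := (coulomb_le h (elPosL i - elPosL j) (fun c => (i, c)) hL 0 one_pos).1
  have h2 := coulomb_le_sqrt h (elPosL i - elPosL j) (fun c => (i, c)) hL 0
  simp only [e] at h1 h2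
  exact ⟨h1, h2⟩

theorem coulomb_nuc {f : Config n → ℂ} {g : Config n → CG n} (h : IsH1 f g) (i : Fin n)
    (a : Pos3) : ∫ x, ‖f x‖ ^ 2 / ‖elPos i x - a‖ ≤
        Real.sqrt (∫ x, ‖f x‖ ^ 2) * Real.sqrt (∫ x, ‖g x‖ ^ 2) :=
  (coulomb_nuc_i h i a).2.trans (mul_le_mul_of_nonneg_left
    (Real.sqrt_le_sqrt (integral_sum_coord_le h i)) (Real.sqrt_nonneg _))

theorem coulomb_pair {f : Config n → ℂ} {g : Config n → CG n} (h : IsH1 f g) {i j : Fin n}
    (hij : i ≠ j) : ∫ x, ‖f x‖ ^ 2 / ‖elPos i x - elPos j x‖ ≤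
        Real.sqrt (∫ x, ‖f x‖ ^ 2) * Real.sqrt (∫ x, ‖g x‖ ^ 2) :=
  (coulomb_pair_i h hij).2.trans (mul_le_mul_of_nonneg_left
    (Real.sqrt_le_sqrt (integral_sum_coord_le h i)) (Real.sqrt_nonneg _))

theorem sqrt_mul_sqrt_le_half (A B : ℝ) (hA : 0 ≤ A) (hB : 0 ≤ B) :
    Real.sqrt A * Real.sqrt B ≤ (A + B) / 2 := by
  have := sq_nonneg (Real.sqrt A - Real.sqrt B)
  have e1 := Real.sq_sqrt hA
  have e2 := Real.sq_sqrt hB
  nlinarith

/-! ### form bounded potentials -/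

open Crest.Agent.R338.Dens (FormBdd)

theorem FormBdd.neg {W : Config n → ℝ} (h : FormBdd W) : FormBdd (fun x => -W x) := by
  obtain ⟨C, hC, h⟩ := h
  refine ⟨C, hC, fun f g hf => ?_⟩
  obtain ⟨h1, h2⟩ := h f g hf
  have h3 : Integrable (fun x => -(W x * ‖f x‖ ^ 2)) := h1.neg
  refine ⟨by simpa only [neg_mul] using h3, by simpa only [abs_neg] using h2⟩

theorem FormBdd.integrable_abs {W : Config n → ℝ} {f : Config n → ℂ}
    (h : Integrable (fun x => W x * ‖f x‖ ^ 2)) : Integrable (fun x => |W x| * ‖f x‖ ^ 2) := by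
  refine h.norm.congr (Eventually.of_forall fun x => ?_)
  simp only [Real.norm_eq_abs, abs_mul, abs_of_nonneg (sq_nonneg ‖f x‖)]

theorem FormBdd.add {W W' : Config n → ℝ} (h : FormBdd W) (h' : FormBdd W') :
    FormBdd (fun x => W x + W' x) := by
  obtain ⟨C, hC, h⟩ := h
  obtain ⟨C', hC', h'⟩ := h'
  refine ⟨C + C', add_nonneg hC hC', fun f g hf => ?_⟩
  obtain ⟨h1, h2⟩ := h f g hf
  obtain ⟨h3, h4⟩ := h' f g hf
  have h5' : Integrable (fun x => W x * ‖f x‖ ^ 2 + W' x * ‖f x‖ ^ 2) := h1.add h3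
  have h5 : Integrable (fun x => (W x + W' x) * ‖f x‖ ^ 2) := by
    simpa only [add_mul] using h5'
  refine ⟨h5, ?_⟩
  have h6 : ∫ x, |W x + W' x| * ‖f x‖ ^ 2 ≤
      ∫ x, (|W x| * ‖f x‖ ^ 2 + |W' x| * ‖f x‖ ^ 2) := by
    refine integral_mono (FormBdd.integrable_abs h5)
      ((FormBdd.integrable_abs h1).add (FormBdd.integrable_abs h3)) fun x => ?_
    show |W x + W' x| * ‖f x‖ ^ 2 ≤ |W x| * ‖f x‖ ^ 2 + |W' x| * ‖f x‖ ^ 2
    rw [← add_mul]
    exact mul_le_mul_of_nonneg_right (abs_add_le _ _) (by positivity)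
  rw [integral_add (FormBdd.integrable_abs h1) (FormBdd.integrable_abs h3)] at h6
  rw [add_mul]
  linarith

theorem FormBdd.const_mul {W : Config n → ℝ} (h : FormBdd W) (c : ℝ) :
    FormBdd (fun x => c * W x) := by
  obtain ⟨C, hC, h⟩ := h
  refine ⟨|c| * C, by positivity, fun f g hf => ?_⟩
  obtain ⟨h1, h2⟩ := h f g hf
  refine ⟨by simpa only [mul_assoc] using h1.const_mul c, ?_⟩
  have e : ∫ x, |c * W x| * ‖f x‖ ^ 2 = |c| * ∫ x, |W x| * ‖f x‖ ^ 2 := by
    rw [← integral_const_mul]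
    refine integral_congr_ae (Eventually.of_forall fun x => ?_)
    simp only [abs_mul]; ring
  rw [e, mul_assoc]
  exact mul_le_mul_of_nonneg_left h2 (abs_nonneg c)

theorem FormBdd.zero : FormBdd (fun _ : Config n => (0 : ℝ)) :=
  ⟨0, le_rfl, fun f g _ => by simp⟩

theorem FormBdd.sum {α : Type*} (s : Finset α) {W : α → Config n → ℝ}
    (h : ∀ a ∈ s, FormBdd (W a)) : FormBdd (fun x => ∑ a ∈ s, W a x) := by
  classical
  induction s using Finset.induction_on with
  | empty => simpa using FormBdd.zero (n := n)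
  | insert a s ha ih =>
    have h1 := FormBdd.add (h a (Finset.mem_insert_self a s))
      (ih fun b hb => h b (Finset.mem_insert_of_mem hb))
    simpa only [Finset.sum_insert ha] using h1

/-- bounded measurable potentials -/
theorem FormBdd.of_bdd {W : Config n → ℝ} (hW : AEStronglyMeasurable W volume) {B : ℝ}
    (hB : ∀ x, |W x| ≤ B) : FormBdd W := by
  have hB0 : 0 ≤ B := (abs_nonneg _).trans (hB 0)
  refine ⟨B, hB0, fun f g hf => ?_⟩
  have hi : Integrable (fun x => ‖f x‖ ^ 2) := hf.memf.integrable_norm_pow (by norm_num)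
  have h1 : Integrable (fun x => W x * ‖f x‖ ^ 2) :=
    hi.bdd_mul hW (Eventually.of_forall fun x => hB x)
  refine ⟨h1, ?_⟩
  have h2 : ∫ x, |W x| * ‖f x‖ ^ 2 ≤ ∫ x, B * ‖f x‖ ^ 2 :=
    integral_mono (FormBdd.integrable_abs h1) (hi.const_mul B) fun x =>
      mul_le_mul_of_nonneg_right (hB x) (by positivity)
  rw [integral_const_mul] at h2
  refine h2.trans (mul_le_mul_of_nonneg_left ?_ hB0)
  have : 0 ≤ ∫ x, ‖g x‖ ^ 2 := integral_nonneg fun x => by positivity
  linarith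

theorem FormBdd.nuc (i : Fin n) (a : Pos3) : FormBdd (fun x => 1 / ‖elPos i x - a‖) := by
  refine ⟨1, zero_le_one, fun f g hf => ?_⟩
  have h1 := coulomb_nuc_i hf i a
  have e : (fun x => 1 / ‖elPos i x - a‖ * ‖f x‖ ^ 2) = fun x => ‖f x‖ ^ 2 / ‖elPos i x - a‖ := by
    funext x; ring
  have e' : (fun x => |1 / ‖elPos i x - a‖| * ‖f x‖ ^ 2) =
      fun x => ‖f x‖ ^ 2 / ‖elPos i x - a‖ := by
    funext x; rw [abs_of_nonneg (by positivity)]; ring
  rw [e, e']
  refine ⟨h1.1, (coulomb_nuc hf i a).trans ?_⟩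
  have hA : 0 ≤ ∫ x, ‖f x‖ ^ 2 := integral_nonneg fun x => by positivity
  have hB : 0 ≤ ∫ x, ‖g x‖ ^ 2 := integral_nonneg fun x => by positivity
  have := sqrt_mul_sqrt_le_half _ _ hA hB
  linarith

theorem FormBdd.pair {i j : Fin n} (hij : i ≠ j) :
    FormBdd (fun x => 1 / ‖elPos i x - elPos j x‖) := by
  refine ⟨1, zero_le_one, fun f g hf => ?_⟩
  have h1 := coulomb_pair_i hf hij
  have e : (fun x => 1 / ‖elPos i x - elPos j x‖ * ‖f x‖ ^ 2) =
      fun x => ‖f x‖ ^ 2 / ‖elPos i x - elPos j x‖ := by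
    funext x; ring
  have e' : (fun x => |1 / ‖elPos i x - elPos j x‖| * ‖f x‖ ^ 2) =
      fun x => ‖f x‖ ^ 2 / ‖elPos i x - elPos j x‖ := by
    funext x; rw [abs_of_nonneg (by positivity)]; ring
  rw [e, e']
  refine ⟨h1.1, (coulomb_pair hf hij).trans ?_⟩
  have hA : 0 ≤ ∫ x, ‖f x‖ ^ 2 := integral_nonneg fun x => by positivity
  have hB : 0 ≤ ∫ x, ‖g x‖ ^ 2 := integral_nonneg fun x => by positivity
  have := sqrt_mul_sqrt_le_half _ _ hA hB
  linarith

theorem formBdd_unitNuclei {K : ℕ} (R : Fin K → Pos3) :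
    FormBdd (unitNucleiPotential (n := n) R) := by
  refine FormBdd.add (W := fun x => ∑ i : Fin n, ∑ α : Fin K, -(1 / ‖elPos i x - R α‖))
    (W' := fun x => ∑ i : Fin n, ∑ j : Fin n,
      if i < j then 1 / ‖elPos i x - elPos j x‖ else 0) ?_ ?_
  · exact FormBdd.sum _ fun i _ => FormBdd.sum _ fun α _ => FormBdd.neg (FormBdd.nuc i (R α))
  · refine FormBdd.sum _ fun i _ => FormBdd.sum _ fun j _ => ?_
    by_cases hij : i < j
    · simp only [hij, if_true]; exact FormBdd.pair hij.ne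
    · simp only [hij, if_false]; exact FormBdd.zero

theorem formBdd_scaled {K : ℕ} (lam : ℝ) (R : Fin K → Pos3) :
    FormBdd (fun x : Config n => lam * unitNucleiPotential R x) :=
  FormBdd.const_mul (formBdd_unitNuclei R) lam

/-- for form bounded potentials: admissible ↔ fermionic with finite kinetic energy -/
theorem isAdmissible_iff {W : Config n → ℝ} (hW : FormBdd W) {Ψ : Wave n} :
    IsAdmissible W Ψ ↔ IsFermionic Ψ ∧ kinetic Ψ < ⊤ := by
  refine ⟨fun h => ⟨h.1, h.2.1⟩, fun h => ⟨h.1, h.2, fun s => ?_⟩⟩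
  obtain ⟨Γ, hΓ⟩ := kinetic_lt_top_iff.1 h.2
  obtain ⟨C, -, hC⟩ := hW
  exact (hC _ _ (hΓ s)).1

theorem isAdmissible_unitNuclei_iff {K : ℕ} (R : Fin K → Pos3) {Ψ : Wave n} :
    IsAdmissible (unitNucleiPotential R) Ψ ↔ IsFermionic Ψ ∧ kinetic Ψ < ⊤ :=
  isAdmissible_iff (formBdd_unitNuclei R)

theorem isAdmissible_scaled_iff {K : ℕ} (lam : ℝ) (R : Fin K → Pos3) {Ψ : Wave n} :
    IsAdmissible (fun x => lam * unitNucleiPotential R x) Ψ ↔ IsFermionic Ψ ∧ kinetic Ψ < ⊤ :=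
  isAdmissible_iff (formBdd_scaled lam R)

end Crest.Agent.R338.Fm
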