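import Crest.Agent.R338.TA1

/-!
# Row 338, node TA (helper64): Cauchy-Schwarz estimates for overlap densities
-/

set_option autoImplicit false

open MeasureTheory SchwartzMap
open scoped ContDiff ENNReal ComplexConjugate

noncomputable section

namespace Crest.Agent.R338.TA

open Crest.MathPhysics.ElectronicCoulomb
open Crest.Agent.R338.HO Crest.Agent.R338.Fm
open Crest.Agent.R335.HF (IsH1 Gr E kin cgrad)

variable {N : ℕ}

/-- weighted Cauchy-Schwarz -/
theorem cs_weight {α : Type*} [MeasurableSpace α] {μ : Measure α} {g a b c : α → ℝ}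
    (hg : ∀ x, 0 ≤ g x) (ha : ∀ x, 0 ≤ a x) (hb : ∀ x, 0 ≤ b x)
    (hc : ∀ x, |c x| ≤ √(a x) * √(b x))
    (hga : Integrable (fun x => g x * a x) μ) (hgb : Integrable (fun x => g x * b x) μ) :
    |∫ x, g x * c x ∂μ| ≤ √(∫ x, g x * a x ∂μ) * √(∫ x, g x * b x ∂μ) := by
  have hA : MemLp (fun x => √(g x * a x)) (ENNReal.ofReal 2) μ := by
    rw [show ENNReal.ofReal 2 = (2 : ℝ≥0∞) by simp]
    refine (memLp_two_iff_integrable_sq (Real.continuous_sqrt.comp_aestronglyMeasurable
      hga.aestronglyMeasurable)).2 (hga.congr (Filter.Eventually.of_forall fun x => ?_))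
    exact (Real.sq_sqrt (mul_nonneg (hg x) (ha x))).symm
  have hB : MemLp (fun x => √(g x * b x)) (ENNReal.ofReal 2) μ := by
    rw [show ENNReal.ofReal 2 = (2 : ℝ≥0∞) by simp]
    refine (memLp_two_iff_integrable_sq (Real.continuous_sqrt.comp_aestronglyMeasurable
      hgb.aestronglyMeasurable)).2 (hgb.congr (Filter.Eventually.of_forall fun x => ?_))
    exact (Real.sq_sqrt (mul_nonneg (hg x) (hb x))).symm
  have hpq : (2 : ℝ).HolderConjugate 2 := Real.HolderConjugate.two_two
  have h1 := integral_mul_le_Lp_mul_Lq_of_nonneg hpq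
    (Filter.Eventually.of_forall fun x => Real.sqrt_nonneg (g x * a x))
    (Filter.Eventually.of_forall fun x => Real.sqrt_nonneg (g x * b x)) hA hB
  have e1 : ∀ x, √(g x * a x) ^ (2 : ℝ) = g x * a x := fun x => by
    rw [Real.rpow_two, Real.sq_sqrt (mul_nonneg (hg x) (ha x))]
  have e2 : ∀ x, √(g x * b x) ^ (2 : ℝ) = g x * b x := fun x => by
    rw [Real.rpow_two, Real.sq_sqrt (mul_nonneg (hg x) (hb x))]
  simp only [e1, e2] at h1
  rw [← Real.sqrt_eq_rpow, ← Real.sqrt_eq_rpow] at h1
  refine le_trans ?_ h1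
  have hint : Integrable (fun x => √(g x * a x) * √(g x * b x)) μ := by
    have hA' : MemLp (fun x => √(g x * a x)) 2 μ := by
      rwa [show ENNReal.ofReal 2 = (2 : ℝ≥0∞) by simp] at hA
    have hB' : MemLp (fun x => √(g x * b x)) 2 μ := by
      rwa [show ENNReal.ofReal 2 = (2 : ℝ≥0∞) by simp] at hB
    exact hA'.integrable_mul hB'
  refine (abs_integral_le_integral_abs).trans
    (integral_mono_of_nonneg (Filter.Eventually.of_forall fun x => abs_nonneg _) hint
      (Filter.Eventually.of_forall fun x => ?_))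
  simp only [abs_mul, abs_of_nonneg (hg x)]
  rw [Real.sqrt_mul (hg x), Real.sqrt_mul (hg x)]
  calc g x * |c x| ≤ g x * (√(a x) * √(b x)) := mul_le_mul_of_nonneg_left (hc x) (hg x)
    _ = √(g x) * √(a x) * (√(g x) * √(b x)) := by
      have := Real.mul_self_sqrt (hg x)
      nth_rewrite 1 [← this]; ring

theorem abs_int_rho_le (u v : SW N) : |∫ x, rho u v x| ≤ √(nq u) * √(nq v) := by
  have h := cs_weight (μ := (volume : Measure (Config N))) (g := fun _ => 1) (a := rho u u)
    (b := rho v v) (c := rho u v) (fun _ => zero_le_one) (rho_self_nonneg u) (rho_self_nonneg v)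
    (abs_rho_le_sqrt u v) (by simpa using integrable_rho u u) (by simpa using integrable_rho v v)
  simpa only [one_mul, ← nq_eq] using h

/-- bounded weights -/
theorem abs_int_bdd_le {G : Config N → ℝ} {B : ℝ} (hB : ∀ x, |G x| ≤ B) (u v : SW N) :
    |∫ x, G x * rho u v x| ≤ B * (√(nq u) * √(nq v)) := by
  have hB0 : 0 ≤ B := (abs_nonneg _).trans (hB 0)
  have hc : ∀ x, |G x * rho u v x| ≤ √(B * rho u u x) * √(B * rho v v x) := by
    intro x
    rw [abs_mul, Real.sqrt_mul hB0, Real.sqrt_mul hB0]
    calc |G x| * |rho u v x| ≤ B * (√(rho u u x) * √(rho v v x)) :=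
          mul_le_mul (hB x) (abs_rho_le_sqrt u v x) (abs_nonneg _) hB0
      _ = √B * √(rho u u x) * (√B * √(rho v v x)) := by
        have := Real.mul_self_sqrt hB0
        nth_rewrite 1 [← this]; ring
  have h := cs_weight (μ := (volume : Measure (Config N))) (g := fun _ => 1)
    (a := fun x => B * rho u u x) (b := fun x => B * rho v v x) (c := fun x => G x * rho u v x)
    (fun _ => zero_le_one) (fun x => mul_nonneg hB0 (rho_self_nonneg u x))
    (fun x => mul_nonneg hB0 (rho_self_nonneg v x)) hc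
    (by simpa using (integrable_rho u u).const_mul B)
    (by simpa using (integrable_rho v v).const_mul B)
  simp only [one_mul, integral_const_mul, ← nq_eq] at h
  refine h.trans_eq ?_
  rw [Real.sqrt_mul hB0, Real.sqrt_mul hB0]
  have := Real.mul_self_sqrt hB0
  nth_rewrite 3 [← this]; ring

theorem integrable_bdd_rho {G : Config N → ℝ} {B : ℝ} (hB : ∀ x, |G x| ≤ B)
    (hG : AEStronglyMeasurable G volume) (u v : SW N) :
    Integrable (fun x => G x * rho u v x) :=
  (integrable_rho u v).bdd_mul hG (Filter.Eventually.of_forall fun x => hB x)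

/-- cross gradient density -/
def xden (u v : SW N) (x : Config N) : ℝ := ∑ s, ‖cgrad (u s) x‖ * ‖v s x‖

theorem xden_nonneg (u v : SW N) (x : Config N) : 0 ≤ xden u v x := by unfold xden; positivity

theorem xden_le (u v : SW N) (x : Config N) : xden u v x ≤ √(gden u x) * √(rho v v x) := by
  unfold xden gden
  rw [rho_self]
  exact Real.sum_mul_le_sqrt_mul_sqrt _ _ _

theorem integrable_xden (u v : SW N) : Integrable (xden u v) := by
  refine integrable_finsetSum _ fun s _ => ?_
  have h1 : MemLp (fun x => ‖cgrad (u s) x‖) 2 (volume : Measure (Config N)) :=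
    (memLp_cgrad (u s) 2).norm
  have h2 : MemLp (fun x => ‖v s x‖) 2 (volume : Measure (Config N)) := ((v s).memLp 2 volume).norm
  exact h1.integrable_mul h2

theorem int_xden_le (u v : SW N) : ∫ x, xden u v x ≤ √(dq u) * √(nq v) := by
  have h := cs_weight (μ := (volume : Measure (Config N))) (g := fun _ => 1) (a := gden u)
    (b := rho v v) (c := xden u v) (fun _ => zero_le_one) (gden_nonneg u) (rho_self_nonneg v)
    (fun x => by rw [abs_of_nonneg (xden_nonneg u v x)]; exact xden_le u v x)
    (by simpa using integrable_gden u) (by simpa using integrable_rho v v)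
  simp only [one_mul, ← nq_eq, ← dq_eq] at h
  exact (le_abs_self _).trans h

/-- embedding of one electron coordinate -/
def emb (i : Fin N) (y : Pos3) : Config N :=
  WithLp.toLp 2 (fun jc : Fin N × Fin 3 => if jc.1 = i then y jc.2 else 0)

theorem norm_emb (i : Fin N) (y : Pos3) : ‖emb i y‖ = ‖y‖ := by
  have h : ‖emb i y‖ ^ 2 = ‖y‖ ^ 2 := by
    rw [EuclideanSpace.norm_sq_eq, EuclideanSpace.norm_sq_eq, Fintype.sum_prod_type]
    rw [Finset.sum_eq_single i]
    · simp [emb]
    · intro j _ hj
      simp [emb, hj]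
    · simp
  exact (sq_eq_sq₀ (norm_nonneg _) (norm_nonneg _)).1 h

/-- operator norm of the derivative is bounded by the norm of the gradient vector -/
theorem norm_fderiv_apply_le (f : 𝓢(Config N, ℂ)) (x y : Config N) :
    ‖fderiv ℝ f x y‖ ≤ ‖cgrad (f : Config N → ℂ) x‖ * ‖y‖ := by
  have e : y = ∑ i, y i • EuclideanSpace.single i (1 : ℝ) := by
    ext j
    simp [Finset.sum_apply, Pi.single_apply]
  have e2 : fderiv ℝ f x y = ∑ i, y i • cgrad (f : Config N → ℂ) x i := by
    conv_lhs => rw [e]
    rw [map_sum]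
    refine Finset.sum_congr rfl fun i _ => ?_
    rw [map_smul]; rfl
  rw [e2]
  calc ‖∑ i, y i • cgrad (f : Config N → ℂ) x i‖ ≤ ∑ i, ‖cgrad (f : Config N → ℂ) x i‖ * |y i| := by
        refine (norm_sum_le _ _).trans (Finset.sum_le_sum fun i _ => ?_)
        rw [norm_smul, Real.norm_eq_abs, mul_comm]
    _ ≤ √(∑ i, ‖cgrad (f : Config N → ℂ) x i‖ ^ 2) * √(∑ i, |y i| ^ 2) :=
        Real.sum_mul_le_sqrt_mul_sqrt _ _ _
    _ = _ := by
      rw [EuclideanSpace.norm_eq y, PiLp.norm_eq_of_L2]
      simp only [Real.norm_eq_abs]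

theorem hasFDerivAt_rho (u v : SW N) (x y : Config N) :
    fderiv ℝ (rhoS u v) x y =
      ∑ s, ((conj (fderiv ℝ (u s) x y) * v s x).re + (conj (u s x) * fderiv ℝ (v s) x y).re) := by
  have h : ∀ s, HasFDerivAt (fun x => (conj (u s x) * v s x).re)
      (reB.precompR (Config N) (u s x) (fderiv ℝ (v s) x) +
        reB.precompL (Config N) (fderiv ℝ (u s) x) (v s x)) x := by
    intro s
    have h1 := (u s).hasFDerivAt x
    have h2 := (v s).hasFDerivAt x
    exact reB.hasFDerivAt_of_bilinear h1 h2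
  have h2 : HasFDerivAt (rhoS u v : Config N → ℝ)
      (∑ s, (reB.precompR (Config N) (u s x) (fderiv ℝ (v s) x) +
        reB.precompL (Config N) (fderiv ℝ (u s) x) (v s x))) x := by
    rw [rhoS_coe]
    have := HasFDerivAt.fun_sum (u := Finset.univ) fun s _ => h s
    exact this
  rw [h2.fderiv]
  simp only [sum_apply, add_apply,
    ContinuousLinearMap.precompR_apply, ContinuousLinearMap.precompL_apply, reB_apply]
  refine Finset.sum_congr rfl fun s _ => ?_
  rw [add_comm]; rfl

theorem abs_fderiv_rho_le (u v : SW N) (x y : Config N) :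
    |fderiv ℝ (rhoS u v) x y| ≤ (xden u v x + xden v u x) * ‖y‖ := by
  rw [hasFDerivAt_rho]
  unfold xden
  rw [← Finset.sum_add_distrib, Finset.sum_mul]
  refine (Finset.abs_sum_le_sum_abs _ _).trans (Finset.sum_le_sum fun s _ => ?_)
  refine (abs_add_le _ _).trans ?_
  have h1 := (abs_reB_le (fderiv ℝ (u s) x y) (v s x)).trans
    (mul_le_mul_of_nonneg_right (norm_fderiv_apply_le (u s) x y) (norm_nonneg _))
  have h2 := (abs_reB_le (u s x) (fderiv ℝ (v s) x y)).trans
    (mul_le_mul_of_nonneg_left (norm_fderiv_apply_le (v s) x y) (norm_nonneg _))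
  calc _ ≤ _ := add_le_add h1 h2
    _ = _ := by ring

/-- the `div F` form bound on `N` bodies -/
theorem abs_int_divF_le {F : Pos3 → Pos3} {kF : ℝ} (hk : 0 ≤ kF) (hF : ∀ x, ‖F x‖ ≤ kF)
    (i : Fin N) (u v : SW N) :
    |∫ x, fderiv ℝ (rhoS u v) x (emb i (F (elPos i x)))| ≤
      kF * (√(dq u) * √(nq v) + √(nq u) * √(dq v)) := by
  have hb : ∀ x, |fderiv ℝ (rhoS u v) x (emb i (F (elPos i x)))| ≤
      kF * (xden u v x + xden v u x) := by
    intro x
    refine (abs_fderiv_rho_le u v x _).trans ?_
    rw [norm_emb, mul_comm]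
    exact mul_le_mul_of_nonneg_right (hF _)
      (add_nonneg (xden_nonneg _ _ _) (xden_nonneg _ _ _))
  have hi : Integrable (fun x => kF * (xden u v x + xden v u x)) :=
    ((integrable_xden u v).add (integrable_xden v u)).const_mul _
  refine (abs_integral_le_integral_abs).trans ?_
  refine (integral_mono_of_nonneg (Filter.Eventually.of_forall fun x => abs_nonneg _) hi
    (Filter.Eventually.of_forall hb)).trans ?_
  rw [integral_const_mul, integral_add (integrable_xden u v) (integrable_xden v u)]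
  refine mul_le_mul_of_nonneg_left (add_le_add (int_xden_le u v) ?_) hk
  rw [mul_comm]; exact int_xden_le v u

end Crest.Agent.R338.TA
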