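import Mathlib
import Crest.Agent.R338.Fm2b
import Crest.Agent.R335.HSliceB
import Crest.Agent.R338.TA2

/-!
# Row 338, node II.0: the `n`-body form of (N0) (helper271)

For `f` Schwartz on configuration space and electron `i`,
`∫ (Vnuc - Vs)(x_i) f = - ∫ df(emb_i F(x_i))`.
-/

set_option autoImplicit false
set_option linter.unusedSectionVars false

open MeasureTheory Filter Topology
open scoped ContDiff ENNReal SchwartzMap
open Crest.MathPhysics.ElectronicCoulomb
open Crest.Agent.R335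
open Crest.Agent.R335.HF (IsH1 Gr E kin cgrad)

noncomputable section

namespace Crest.Agent.R338.Fm

section general

variable {ι : Type*} [Fintype ι] [DecidableEq ι]

/-- Japanese bracket `(1 + |x|²)^{-k}` -/
def jap (k : ℕ) (x : E ι) : ℝ := ((1 + ‖x‖ ^ 2) ^ k)⁻¹

theorem jap_pos (k : ℕ) (x : E ι) : 0 < jap k x := by unfold jap; positivity

theorem jap_mul (k l : ℕ) (x : E ι) : jap k x * jap l x = jap (k + l) x := by
  unfold jap; rw [pow_add, mul_inv]

theorem jap_le_one (k : ℕ) (x : E ι) : jap k x ≤ 1 := by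
  unfold jap
  exact inv_le_one_of_one_le₀ (one_le_pow₀ (by nlinarith [sq_nonneg ‖x‖]))

theorem contDiff_jap (k : ℕ) : ContDiff ℝ ∞ (jap k : E ι → ℝ) := by
  unfold jap
  refine ContDiff.inv (ContDiff.pow (contDiff_const.add (contDiff_norm_sq ℝ)) k) fun x => ?_
  positivity

theorem continuous_jap (k : ℕ) : Continuous (jap k : E ι → ℝ) := (contDiff_jap k).continuous

theorem integrable_jap {k : ℕ} (hk : Fintype.card ι < 2 * k) : Integrable (jap k : E ι → ℝ) := by
  have h := integrable_rpow_neg_one_add_norm_sq (μ := (volume : Measure (E ι)))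
    (r := ((2 * k : ℕ) : ℝ)) (by
      rw [finrank_euclideanSpace]; exact_mod_cast hk)
  refine h.congr (Eventually.of_forall fun x => ?_)
  have e : -(((2 * k : ℕ) : ℝ)) / 2 = -(k : ℝ) := by push_cast; ring
  simp only [e, jap]
  rw [Real.rpow_neg (by positivity), Real.rpow_natCast]

theorem memLp_jap {k : ℕ} (hk : Fintype.card ι < 4 * k) : MemLp (jap k : E ι → ℝ) 2 volume := by
  rw [memLp_two_iff_integrable_sq (continuous_jap k).aestronglyMeasurable]
  have := integrable_jap (ι := ι) (k := k + k) (by omega)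
  refine this.congr (Eventually.of_forall fun x => ?_)
  show jap (k + k) x = jap k x ^ 2
  rw [← jap_mul]; ring

theorem hasFDerivAt_jap (k : ℕ) (x : E ι) :
    HasFDerivAt (jap k : E ι → ℝ)
      (-(((1 + ‖x‖ ^ 2) ^ k) ^ 2)⁻¹ • (((k : ℝ) * (1 + ‖x‖ ^ 2) ^ (k - 1)) •
        ((2 : ℝ) • (innerSL ℝ x)))) x := by
  have h1 : HasFDerivAt (fun y : E ι => 1 + ‖y‖ ^ 2) ((2 : ℝ) • (innerSL ℝ x)) x := by
    have := (hasStrictFDerivAt_norm_sq x).hasFDerivAt.const_add 1
    refine this.congr_fderiv ?_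
    ext v; simp
  have h2 : HasFDerivAt (fun y : E ι => (1 + ‖y‖ ^ 2) ^ k)
      (((k : ℝ) * (1 + ‖x‖ ^ 2) ^ (k - 1)) • ((2 : ℝ) • (innerSL ℝ x))) x := by
    have := h1.pow k
    refine this.congr_fderiv ?_
    ext v; simp
  exact (hasDerivAt_inv (by positivity : (1 + ‖x‖ ^ 2) ^ k ≠ 0)).comp_hasFDerivAt x h2

theorem abs_fderiv_jap_le (k : ℕ) (x v : E ι) :
    |fderiv ℝ (jap k : E ι → ℝ) x v| ≤ k * jap k x * ‖v‖ := by
  rw [(hasFDerivAt_jap k x).fderiv]
  simp only [ContinuousLinearMap.smul_apply, smul_eq_mul, innerSL_apply_apply]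
  have hq : 0 < 1 + ‖x‖ ^ 2 := by positivity
  have hin : |inner ℝ x v| ≤ ‖x‖ * ‖v‖ := abs_real_inner_le_norm x v
  rcases Nat.eq_zero_or_pos k with rfl | hk
  · simp
  have e : (1 + ‖x‖ ^ 2) ^ (k - 1) = (1 + ‖x‖ ^ 2) ^ k / (1 + ‖x‖ ^ 2) := by
    rw [eq_div_iff hq.ne', ← pow_succ, Nat.sub_add_cancel hk]
  have e2 : |-(((1 + ‖x‖ ^ 2) ^ k) ^ 2)⁻¹ * ((k : ℝ) * (1 + ‖x‖ ^ 2) ^ (k - 1) *
      (2 * inner ℝ x v))| = (k * jap k x) * (2 * |inner ℝ x v| / (1 + ‖x‖ ^ 2)) := by
    rw [e, abs_mul, abs_mul, abs_mul, abs_mul, abs_neg, abs_inv, abs_two,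
      abs_of_pos (by positivity : 0 < ((1 + ‖x‖ ^ 2) ^ k) ^ 2), Nat.abs_cast,
      abs_of_pos (by positivity : 0 < (1 + ‖x‖ ^ 2) ^ k / (1 + ‖x‖ ^ 2))]
    unfold jap
    field_simp
  rw [e2]
  refine mul_le_mul_of_nonneg_left ?_ (by have := jap_pos k x; positivity)
  rw [div_le_iff₀ hq]
  nlinarith [sq_nonneg (‖x‖ - 1), norm_nonneg v, norm_nonneg x, mul_nonneg (norm_nonneg v) (sq_nonneg (‖x‖ - 1))]

theorem isH1_jap {k : ℕ} (hk : Fintype.card ι < 4 * k) :
    IsH1 (fun x : E ι => ((jap k x : ℝ) : ℂ)) (cgrad (fun x : E ι => ((jap k x : ℝ) : ℂ))) := by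
  have hc : ContDiff ℝ ∞ (fun x : E ι => ((jap k x : ℝ) : ℂ)) :=
    Complex.ofRealCLM.contDiff.comp (contDiff_jap k)
  have m1 : MemLp (fun x : E ι => ((jap k x : ℝ) : ℂ)) 2 volume := (memLp_jap hk).ofReal
  refine Crest.Agent.R335.HF.isH1_of_contDiff (hc.of_le (by simp)) m1 ?_
  refine Crest.Agent.R335.HF.memLp_of_comp fun i => ?_
  have hfd : ∀ x : E ι, cgrad (fun x : E ι => ((jap k x : ℝ) : ℂ)) x i =
      ((fderiv ℝ (jap k : E ι → ℝ) x (EuclideanSpace.single i (1 : ℝ)) : ℝ) : ℂ) := by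
    intro x
    have h1 : HasFDerivAt (fun x : E ι => ((jap k x : ℝ) : ℂ))
        (Complex.ofRealCLM.comp (fderiv ℝ (jap k : E ι → ℝ) x)) x :=
      Complex.ofRealCLM.hasFDerivAt.comp x
        (((contDiff_jap k).differentiable (by simp)) x).hasFDerivAt
    rw [Crest.Agent.R335.HF.cgrad_apply, h1.fderiv]
    rfl
  refine MemLp.of_le_mul (c := (k : ℝ)) m1 ?_ (Eventually.of_forall fun x => ?_)
  · have : Continuous (cgrad (fun x : E ι => ((jap k x : ℝ) : ℂ))) :=
      Crest.Agent.R335.HF.continuous_cgrad (hc.of_le (by simp))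
    exact ((EuclideanSpace.proj (𝕜 := ℂ) i).continuous.comp this).aestronglyMeasurable
  · rw [hfd, Complex.norm_real, Complex.norm_real, Real.norm_eq_abs, Real.norm_eq_abs,
      abs_of_pos (jap_pos k x)]
    have := abs_fderiv_jap_le k x (EuclideanSpace.single i (1 : ℝ))
    simpa using this

theorem one_add_sq_pow_le (k : ℕ) (t : ℝ) :
    (1 + t ^ 2) ^ k ≤ 2 ^ k * (1 + t ^ (2 * k)) := by
  have h := add_pow_le (zero_le_one' ℝ) (sq_nonneg t) k
  rw [one_pow, ← pow_mul] at h
  refine h.trans (mul_le_mul_of_nonneg_right ?_ ?_)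
  · exact pow_le_pow_right₀ (by norm_num) (Nat.sub_le k 1)
  · have := (even_two_mul k).pow_nonneg t
    linarith

/-- Schwartz functions decay faster than any Japanese bracket -/
theorem schwartz_decay {F : Type*} [NormedAddCommGroup F] [NormedSpace ℝ F] (f : 𝓢(E ι, F))
    (k : ℕ) : ∃ C : ℝ, 0 ≤ C ∧ (∀ x, ‖f x‖ ≤ C * jap k x) ∧ ∀ x, ‖fderiv ℝ f x‖ ≤ C * jap k x := by
  have key : ∀ m : ℕ, ∃ C : ℝ, 0 ≤ C ∧ ∀ x, ‖iteratedFDeriv ℝ m f x‖ ≤ C * jap k x := by
    intro m
    obtain ⟨C0, hC0, h0⟩ := f.decay 0 m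
    obtain ⟨C1, hC1, h1⟩ := f.decay (2 * k) m
    refine ⟨2 ^ k * (C0 + C1), by positivity, fun x => ?_⟩
    unfold jap
    rw [← div_eq_mul_inv, le_div_iff₀ (by positivity)]
    have h2 := h0 x
    have h3 := h1 x
    rw [pow_zero, one_mul] at h2
    have h4 := one_add_sq_pow_le k ‖x‖
    have h5 : 0 ≤ ‖iteratedFDeriv ℝ m f x‖ := norm_nonneg _
    calc ‖iteratedFDeriv ℝ m f x‖ * (1 + ‖x‖ ^ 2) ^ k ≤
        ‖iteratedFDeriv ℝ m f x‖ * (2 ^ k * (1 + ‖x‖ ^ (2 * k))) :=
          mul_le_mul_of_nonneg_left h4 h5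
      _ = 2 ^ k * (‖iteratedFDeriv ℝ m f x‖ + ‖x‖ ^ (2 * k) * ‖iteratedFDeriv ℝ m f x‖) := by ring
      _ ≤ 2 ^ k * (C0 + C1) := by gcongr
  obtain ⟨C0, hC0, h0⟩ := key 0
  obtain ⟨C1, hC1, h1⟩ := key 1
  refine ⟨C0 + C1, by positivity, fun x => ?_, fun x => ?_⟩
  · have := h0 x
    rw [norm_iteratedFDeriv_zero] at this
    have hj := jap_pos k x
    nlinarith
  · have := h1 x
    rw [norm_iteratedFDeriv_one] at this
    have hj := jap_pos k x
    nlinarith

/-- Coulomb singularities are integrable against rapidly decaying functions -/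
theorem integrable_coulomb_decay {f : E ι → ℝ} (hf : AEStronglyMeasurable f volume) {C : ℝ}
    {k : ℕ} (hk : Fintype.card ι < 4 * k) (hC : ∀ x, |f x| ≤ C * jap (k + k) x)
    (L : E ι →L[ℝ] EuclideanSpace ℝ (Fin 3)) (κ : Fin 3 → ι)
    (hL : ∀ c, L (EuclideanSpace.single (κ c) (1 : ℝ)) = EuclideanSpace.single c (1 : ℝ))
    (a : EuclideanSpace ℝ (Fin 3)) : Integrable (fun x => 1 / ‖L x - a‖ * f x) := by
  have h1 := (coulomb_le (isH1_jap (ι := ι) hk) L κ hL a one_pos).1
  have hm : Measurable (fun x => 1 / ‖L x - a‖) := by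
    have : Measurable (fun x => ‖L x - a‖) := by fun_prop
    exact this.const_div 1
  refine (h1.const_mul C).mono' (hm.aestronglyMeasurable.mul hf) (Eventually.of_forall fun x => ?_)
  rw [Real.norm_eq_abs, abs_mul, abs_of_nonneg (by positivity : 0 ≤ 1 / ‖L x - a‖),
    Complex.norm_real, Real.norm_eq_abs, abs_of_pos (jap_pos k x)]
  have h2 := mul_le_mul_of_nonneg_left (hC x) (by positivity : 0 ≤ 1 / ‖L x - a‖)
  refine h2.trans (le_of_eq ?_)
  rw [← jap_mul]; ring

theorem integrable_coulomb_schwartz (f : 𝓢(E ι, ℝ)) (L : E ι →L[ℝ] EuclideanSpace ℝ (Fin 3))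
    (κ : Fin 3 → ι)
    (hL : ∀ c, L (EuclideanSpace.single (κ c) (1 : ℝ)) = EuclideanSpace.single c (1 : ℝ))
    (a : EuclideanSpace ℝ (Fin 3)) : Integrable (fun x => 1 / ‖L x - a‖ * f x) := by
  set k := Fintype.card ι + 1 with hk
  obtain ⟨C, -, hC, -⟩ := schwartz_decay f (k + k)
  exact integrable_coulomb_decay f.continuous.aestronglyMeasurable (C := C) (k := k)
    (by omega) hC L κ hL a

end general

/-! ### splitting off electron `i` -/

variable {n : ℕ}

/-- coordinates of electron `i` and of the others -/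
def spl (i : Fin n) : Fin n × Fin 3 ≃ Fin 3 ⊕ ({j : Fin n // j ≠ i} × Fin 3) where
  toFun jc := if h : jc.1 = i then Sum.inl jc.2 else Sum.inr (⟨jc.1, h⟩, jc.2)
  invFun := Sum.elim (fun c => (i, c)) (fun jc => (jc.1.1, jc.2))
  left_inv := by
    rintro ⟨j, c⟩
    by_cases h : j = i
    · subst h; simp
    · simp [h]
  right_inv := by
    rintro (c | ⟨⟨j, hj⟩, c⟩)
    · simp
    · simp [hj]

theorem pr1_spl (i : Fin n) (x : Config n) : pr1 (spl i) x = elPos i x := by
  ext c; rfl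

theorem in1L_spl (i : Fin n) (v : Pos3) : in1L (spl i) v = TA.emb i v := by
  rw [in1L_apply]
  ext ⟨j, c⟩
  by_cases h : j = i
  · subst h
    simp [jn, spl, TA.emb]
  · simp [jn, spl, TA.emb, h]

/-- the `n`-body form of a weak divergence identity -/
theorem nbody_div {V : Pos3 → ℝ} {F : Pos3 → Pos3} {kF : ℝ}
    (hFm : Measurable F) (hF : ∀ x, ‖F x‖ ≤ kF)
    (hV : ∀ f : Pos3 → ℝ, ContDiff ℝ 1 f → (∃ B, ∀ x, |f x| ≤ B) → Integrable f →
      Integrable (fun x => fderiv ℝ f x) → ∫ x, V x * f x = - ∫ x, fderiv ℝ f x (F x))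
    (i : Fin n) (f : 𝓢(Config n, ℝ)) (hi : Integrable (fun x => V (elPos i x) * f x)) :
    Integrable (fun x => fderiv ℝ f x (TA.emb i (F (elPos i x)))) ∧
      ∫ x, V (elPos i x) * f x = - ∫ x, fderiv ℝ f x (TA.emb i (F (elPos i x))) := by
  have hfd : Continuous (fderiv ℝ f) := (f.smooth 1).continuous_fderiv one_ne_zero
  have hdI : Integrable (fun x => ‖fderiv ℝ f x‖) := by
    obtain ⟨C, -, -, hC⟩ := schwartz_decay f (Fintype.card (Fin n × Fin 3) + 1)
    refine ((integrable_jap (ι := Fin n × Fin 3) (k := Fintype.card (Fin n × Fin 3) + 1)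
      (by omega)).const_mul C).mono' hfd.norm.aestronglyMeasurable
      (Eventually.of_forall fun x => ?_)
    rw [norm_norm]
    exact hC x
  have hembm : Measurable (fun x : Config n => TA.emb i (F (elPos i x))) := by
    have h1 : Continuous (fun v : Pos3 => TA.emb i v) := by
      have : (fun v : Pos3 => TA.emb i v) = fun v => in1L (spl i) v := by
        funext v; rw [in1L_spl]
      rw [this]; exact (in1L (spl i)).continuous
    exact h1.measurable.comp (hFm.comp (measurable_elPos i))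
  have hi2 : Integrable (fun x => fderiv ℝ f x (TA.emb i (F (elPos i x)))) := by
    refine (hdI.mul_const kF).mono' ?_ (Eventually.of_forall fun x => ?_)
    · have : AEStronglyMeasurable (fun x => fderiv ℝ f x) volume := hfd.aestronglyMeasurable
      exact isBoundedBilinearMap_apply.continuous.comp_aestronglyMeasurable
        (this.prodMk hembm.aestronglyMeasurable)
    · refine (ContinuousLinearMap.le_opNorm _ _).trans ?_
      rw [TA.norm_emb]
      exact mul_le_mul_of_nonneg_left (hF _) (norm_nonneg _)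
  refine ⟨hi2, ?_⟩
  rw [integral_jn' (spl i) hi, integral_jn' (spl i) hi2, ← integral_neg]
  refine integral_congr_ae (Eventually.of_forall fun y => ?_)
  simp only
  have e1 : ∀ x, elPos i (jn (spl i) x y) = x := fun x => by rw [← pr1_spl, pr1_jn]
  simp only [e1]
  have hdiff : Differentiable ℝ f := f.differentiable
  have hder : ∀ x : Pos3, fderiv ℝ (fun x => f (jn (spl i) x y)) x =
      (fderiv ℝ f (jn (spl i) x y)).comp (in1L (spl i)) := fun x =>
    (hasFDerivAt_jn_left (spl i) hdiff x y).fderiv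
  have hjn : (fun x : Pos3 => jn (spl i) x y) = fun x => in1L (spl i) x + jn (spl i) 0 y := by
    funext x; rw [jn_eq_add]
  have hcd : ContDiff ℝ 1 (fun x : Pos3 => f (jn (spl i) x y)) := by
    have h1 : ContDiff ℝ 1 (fun x : Pos3 => jn (spl i) x y) := by
      rw [hjn]; exact (in1L (spl i)).contDiff.add contDiff_const
    exact (f.smooth 1).comp h1
  have hcont : Continuous (fun x : Pos3 => jn (spl i) x y) := by
    rw [hjn]; exact (in1L (spl i)).continuous.add continuous_const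
  have hjap : ∀ (k : ℕ) (x : Pos3), jap k (jn (spl i) x y) ≤ jap k x := by
    intro k x
    unfold jap
    rw [norm_sq_jn']
    refine inv_anti₀ (by positivity) (pow_le_pow_left₀ (by positivity) ?_ k)
    nlinarith [sq_nonneg ‖y‖]
  obtain ⟨C, hC0, hC1, hC2⟩ := schwartz_decay f 2
  have hI1 : Integrable (fun x : Pos3 => f (jn (spl i) x y)) := by
    refine ((integrable_jap (ι := Fin 3) (k := 2) (by simp)).const_mul C).mono'
      (f.continuous.comp hcont).aestronglyMeasurable (Eventually.of_forall fun x => ?_)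
    exact (hC1 _).trans (mul_le_mul_of_nonneg_left (hjap 2 x) hC0)
  have hI2 : Integrable (fun x : Pos3 => fderiv ℝ (fun x => f (jn (spl i) x y)) x) := by
    refine (((integrable_jap (ι := Fin 3) (k := 2) (by simp)).const_mul C).mul_const
      ‖in1L (spl i)‖).mono' (hcd.continuous_fderiv one_ne_zero).aestronglyMeasurable
      (Eventually.of_forall fun x => ?_)
    rw [hder]
    refine (ContinuousLinearMap.opNorm_comp_le _ _).trans
      (mul_le_mul_of_nonneg_right ?_ (norm_nonneg _))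
    exact (hC2 _).trans (mul_le_mul_of_nonneg_left (hjap 2 x) hC0)
  have hB : ∃ B, ∀ x, |(fun x : Pos3 => f (jn (spl i) x y)) x| ≤ B := by
    refine ⟨C, fun x => (hC1 _).trans ?_⟩
    exact mul_le_of_le_one_right hC0 (jap_le_one 2 _)
  have := hV _ hcd hB hI1 hI2
  rw [this]
  congr 1
  refine integral_congr_ae (Eventually.of_forall fun x => ?_)
  simp only [hder, ContinuousLinearMap.comp_apply, in1L_spl]

/-- integrability of bounded continuous one-electron potentials times Schwartz functions -/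
theorem integrable_bdd_schwartz {Vs : Pos3 → ℝ} (hc : Continuous Vs) (hb : ∃ B, ∀ x, |Vs x| ≤ B)
    (i : Fin n) (f : 𝓢(Config n, ℝ)) : Integrable (fun x => Vs (elPos i x) * f x) := by
  obtain ⟨B, hB⟩ := hb
  exact f.integrable.bdd_mul (hc.comp (continuous_elPos i)).aestronglyMeasurable
    (Eventually.of_forall fun x => hB _)

theorem integrable_Vnuc_schwartz (lam : ℝ) {K : ℕ} (P : Fin K → Pos3) (i : Fin n)
    (f : 𝓢(Config n, ℝ)) : Integrable (fun x => TA.Vnuc lam P (elPos i x) * f x) := by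
  unfold TA.Vnuc
  simp only [Finset.sum_mul]
  refine integrable_finsetSum _ fun α _ => ?_
  have := (integrable_coulomb_schwartz f (elPosL i) (fun c => (i, c)) (elPosL_single i)
    (P α)).const_mul (-lam)
  refine this.congr (Eventually.of_forall fun x => ?_)
  simp only [elPosL_apply]
  ring

/-- pair repulsion times Schwartz functions -/
theorem integrable_pair_schwartz {i j : Fin n} (hij : i ≠ j) (f : 𝓢(Config n, ℝ)) :
    Integrable (fun x => 1 / ‖elPos i x - elPos j x‖ * f x) := by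
  have hL : ∀ c, (elPosL i - elPosL j : Config n →L[ℝ] Pos3)
      (EuclideanSpace.single (i, c) (1 : ℝ)) = EuclideanSpace.single c (1 : ℝ) := fun c => by
    rw [ContinuousLinearMap.sub_apply, elPosL_single, elPosL_single_ne hij.symm, sub_zero]
  have := integrable_coulomb_schwartz f (elPosL i - elPosL j) (fun c => (i, c)) hL 0
  refine this.congr (Eventually.of_forall fun x => ?_)
  simp only [sub_zero]
  rfl

section N0

variable {lam : ℝ} {K : ℕ} {P : Fin K → Pos3} {n0 : ℕ} {Vs w : Pos3 → ℝ} {F : Pos3 → Pos3}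
  {C0 R eps1 eps2 kF W : ℝ}

theorem integrable_k_schwartz (h : TA.NucOK lam P n0 Vs w F C0 R eps1 eps2 kF W) (i : Fin n)
    (f : 𝓢(Config n, ℝ)) :
    Integrable (fun x => (TA.Vnuc lam P (elPos i x) - Vs (elPos i x)) * f x) := by
  have h1 := (integrable_Vnuc_schwartz lam P i f).sub
    (integrable_bdd_schwartz h.Vs_cont h.Vs_bdd i f)
  refine h1.congr (Eventually.of_forall fun x => ?_)
  simp only [Pi.sub_apply]; ring

theorem integrable_divF_schwartz (h : TA.NucOK lam P n0 Vs w F C0 R eps1 eps2 kF W) (i : Fin n)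
    (f : 𝓢(Config n, ℝ)) :
    Integrable (fun x => fderiv ℝ f x (TA.emb i (F (elPos i x)))) :=
  (nbody_div h.F_meas h.F_le h.N0 i f (integrable_k_schwartz h i f)).1

/-- (N0) for `n` electrons -/
theorem nbody_N0 (h : TA.NucOK lam P n0 Vs w F C0 R eps1 eps2 kF W) (i : Fin n)
    (f : 𝓢(Config n, ℝ)) :
    ∫ x, (TA.Vnuc lam P (elPos i x) - Vs (elPos i x)) * f x =
      - ∫ x, fderiv ℝ f x (TA.emb i (F (elPos i x))) :=
  (nbody_div h.F_meas h.F_le h.N0 i f (integrable_k_schwartz h i f)).2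

end N0

end Crest.Agent.R338.Fm
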