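import Mathlib
import Crest.Agent.R338.Fm3
import Crest.Agent.R338.P2Defs

/-!
# Row 338: `ScaleStmt` of P2Defs (helper271)
-/

set_option autoImplicit false

open Crest.MathPhysics.ElectronicCoulomb

noncomputable section

namespace Crest.Agent.R338.Fm

theorem scaleStmt : Crest.Agent.R338.P2.ScaleStmt := by
  intro n K nuc lam hl a
  have e1 : (fun α => lam⁻¹ • lam • nuc α) = nuc := by
    funext α
    rw [smul_smul, inv_mul_cancel₀ hl.ne', one_smul]
  have e2 : lam ^ 2 * (a / lam ^ 2) = a := by field_simp
  have e3 : scaledPot (n := n) lam nuc = fun x => lam * unitNucleiPotential nuc x := by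
    funext x; exact scaledPot_eq lam nuc x
  constructor
  · intro h
    rw [infEnergyLE_scaled hl, e1, e2, e3]
    exact h
  · intro h
    rw [infEnergyGE_scaled hl, e1, e2, e3]
    exact h

end Crest.Agent.R338.Fm
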