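import Mathlib

/-!
Row 338, node II.C.3/II.C.4, file 1: one dimensional Gaussian lattice sums (scaled, lattice constant 1).
`g u z = exp (-(u^2 z^2))`, `TZ u y = ∑' k : ℤ, g u (y - k)`; Poisson bound
`|TZ u y - √π / u| ≤ (√π / u) * (3 * exp (-(π^2 / u^2)))` for `0 < u ≤ 1`.
-/

set_option autoImplicit false
open Real Finset
open scoped BigOperators

namespace Crest.Agent.R338.GS

noncomputable section

/-- Gaussian. -/
def g (u z : ℝ) : ℝ := Real.exp (-(u ^ 2 * z ^ 2))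

lemma g_pos (u z : ℝ) : 0 < g u z := Real.exp_pos _
lemma g_nonneg (u z : ℝ) : 0 ≤ g u z := (g_pos u z).le
lemma g_le_one (u z : ℝ) : g u z ≤ 1 := by
  unfold g; rw [Real.exp_le_one_iff]; nlinarith [mul_nonneg (sq_nonneg u) (sq_nonneg z)]
lemma g_neg (u z : ℝ) : g u (-z) = g u z := by unfold g; congr 2; ring
lemma g_zero (u : ℝ) : g u 0 = 1 := by unfold g; simp

/-- full one-dimensional lattice sum -/
def TZ (u y : ℝ) : ℝ := ∑' k : ℤ, g u (y - k)

lemma summable_g_cexp {u : ℝ} (hu : 0 < u) (y : ℝ) : Summable fun k : ℤ => g u (y - k) := by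
  have h1 : Summable fun k : ℤ => Complex.exp (Real.pi * Complex.I * (k:ℂ) ^ 2 * (Complex.I * (u^2 / Real.pi : ℝ)) +
      2 * Real.pi * Complex.I * k * (Complex.I * (-(u^2 * y / Real.pi) : ℝ))) := by
    have him : (Complex.I * ((u^2 / Real.pi : ℝ) : ℂ)).im = u^2 / Real.pi := by
      rw [Complex.mul_im, Complex.I_re, Complex.I_im, Complex.ofReal_re, Complex.ofReal_im]; ring
    have := (summable_jacobiTheta₂_term_iff (Complex.I * (-(u^2 * y / Real.pi) : ℝ)) (Complex.I * (u^2 / Real.pi : ℝ))).mpr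
      (by rw [him]; positivity)
    unfold jacobiTheta₂_term at this
    refine this.congr (fun k => ?_)
    congr 1; ring
  have h2 := h1.norm.mul_left (Real.exp (-(u^2*y^2)))
  refine h2.congr (fun k => ?_)
  rw [Complex.norm_exp, ← Real.exp_add]
  unfold g
  congr 1
  have hpi : (Real.pi : ℝ) ≠ 0 := Real.pi_ne_zero
  have e : (Real.pi * Complex.I * (k:ℂ) ^ 2 * (Complex.I * (u^2 / Real.pi : ℝ)) +
      2 * Real.pi * Complex.I * k * (Complex.I * (-(u^2 * y / Real.pi) : ℝ))) =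
      ((-(u^2*k^2) + 2*u^2*k*y : ℝ) : ℂ) := by
    push_cast
    have hpc : (Real.pi : ℂ) ≠ 0 := by exact_mod_cast hpi
    field_simp
    ring_nf
    rw [Complex.I_sq]
    ring
  rw [e, Complex.ofReal_re]
  ring

/-- Poisson summation for the shifted Gaussian sum. -/
lemma TZ_poisson {u : ℝ} (hu : 0 < u) (y : ℝ) :
    ((TZ u y : ℝ) : ℂ) = ((Real.sqrt Real.pi / u : ℝ) : ℂ) *
      ∑' j : ℤ, Complex.exp (-Real.pi * (Real.pi / u^2 : ℝ) * (j:ℂ)^2 + 2 * Real.pi * (Complex.I * y) * j) := by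
  have ha : 0 < ((Real.pi / u^2 : ℝ) : ℂ).re := by
    rw [Complex.ofReal_re]; positivity
  have h := Complex.tsum_exp_neg_quadratic ha (Complex.I * y)
  rw [h]
  have hpos : 0 < Real.pi / u^2 := by positivity
  have hsq : ((Real.pi / u^2 : ℝ) : ℂ) ^ (1/2 : ℂ) = ((Real.sqrt Real.pi / u : ℝ) : ℂ) := by
    have h1 : ((Real.pi / u^2 : ℝ) : ℂ) ^ (1/2 : ℂ) = (((Real.pi / u^2) ^ (1/2 : ℝ) : ℝ) : ℂ) := by
      rw [Complex.ofReal_cpow hpos.le]; norm_num
    rw [h1, ← Real.sqrt_eq_rpow, Real.sqrt_div Real.pi_pos.le, Real.sqrt_sq hu.le]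
  rw [hsq]
  have hne : ((Real.sqrt Real.pi / u : ℝ) : ℂ) ≠ 0 := by
    have : Real.sqrt Real.pi / u ≠ 0 := by
      have := Real.sqrt_pos.mpr Real.pi_pos
      positivity
    exact_mod_cast this
  rw [← mul_assoc, mul_one_div_cancel hne, one_mul]
  unfold TZ
  rw [Complex.ofReal_tsum]
  congr 1
  ext k
  unfold g
  rw [Complex.ofReal_exp]
  congr 1
  have hpc : (Real.pi : ℂ) ≠ 0 := by exact_mod_cast Real.pi_ne_zero
  have huc : (u : ℂ) ≠ 0 := by exact_mod_cast hu.ne'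
  push_cast
  have : (k : ℂ) + Complex.I * (Complex.I * y) = k - y := by
    rw [← mul_assoc, Complex.I_mul_I]; ring
  rw [this]
  field_simp
  ring

/-- abstract bound for a sum over `ℤ` dominated by a geometric series -/
lemma norm_tsum_int_sub_le {F : ℤ → ℂ} {r : ℝ} (hr0 : 0 ≤ r) (hr1 : r < 1)
    (hF : ∀ j : ℤ, ‖F j‖ ≤ r ^ j.natAbs) : ‖(∑' j : ℤ, F j) - F 0‖ ≤ 2 * (r / (1 - r)) := by
  have hg : Summable fun m : ℕ => r ^ (m + 1) := by
    have := (summable_geometric_of_lt_one hr0 hr1).mul_left r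
    refine this.congr (fun m => ?_); ring
  have hgs : ∑' m : ℕ, r ^ (m+1) = r / (1 - r) := by
    have : ∑' m : ℕ, r ^ (m+1) = r * ∑' m : ℕ, r ^ m := by
      rw [← tsum_mul_left]; congr 1; ext m; ring
    rw [this, tsum_geometric_of_lt_one hr0 hr1]; ring
  have hb1 : ∀ m : ℕ, ‖F ((m:ℤ) + 1)‖ ≤ r ^ (m+1) := fun m => by
    have := hF ((m:ℤ)+1)
    have e : ((m:ℤ)+1).natAbs = m + 1 := by omega
    rwa [e] at this
  have hb2 : ∀ m : ℕ, ‖F (-((m:ℤ) + 1))‖ ≤ r ^ (m+1) := fun m => by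
    have := hF (-((m:ℤ)+1))
    have e : (-((m:ℤ)+1)).natAbs = m + 1 := by omega
    rwa [e] at this
  have s1 : Summable fun m : ℕ => F ((m:ℤ)+1) := Summable.of_norm_bounded hg hb1
  have s2 : Summable fun m : ℕ => F (-((m:ℤ)+1)) := Summable.of_norm_bounded hg hb2
  have s1' : Summable fun m : ℕ => F (m:ℤ) := by
    rw [← summable_nat_add_iff 1]
    simpa using s1
  rw [tsum_of_nat_of_neg_add_one s1' s2, s1'.tsum_eq_zero_add]
  have e : (F ((0:ℕ):ℤ) + ∑' b : ℕ, F ((b+1:ℕ):ℤ)) + ∑' b : ℕ, F (-((b:ℤ)+1)) - F 0 =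
      (∑' b : ℕ, F ((b:ℤ)+1)) + ∑' b : ℕ, F (-((b:ℤ)+1)) := by
    simp only [Nat.cast_zero, Nat.cast_add, Nat.cast_one]; ring
  rw [e]
  have n1 : ‖∑' b : ℕ, F ((b:ℤ)+1)‖ ≤ r/(1-r) := by
    rw [← hgs]; exact tsum_of_norm_bounded hg.hasSum hb1
  have n2 : ‖∑' b : ℕ, F (-((b:ℤ)+1))‖ ≤ r/(1-r) := by
    rw [← hgs]; exact tsum_of_norm_bounded hg.hasSum hb2
  calc _ ≤ _ := norm_add_le _ _
    _ ≤ r/(1-r) + r/(1-r) := add_le_add n1 n2
    _ = _ := by ring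

lemma exp_neg_nine : Real.exp (-9) ≤ 1/3 := by
  have h : (1:ℝ) + 9 ≤ Real.exp 9 := by linarith [Real.add_one_le_exp (9:ℝ)]
  rw [Real.exp_neg]
  rw [inv_eq_one_div]
  exact one_div_le_one_div_of_le (by norm_num) (by linarith)

lemma nine_le_pi_sq : (9:ℝ) ≤ Real.pi ^ 2 := by
  nlinarith [Real.pi_gt_three]

/-- Poisson bound: oscillation of the full Gaussian sum. -/
lemma TZ_osc {u : ℝ} (hu : 0 < u) (hu1 : u ≤ 1) (y : ℝ) :
    |TZ u y - Real.sqrt Real.pi / u| ≤ (Real.sqrt Real.pi / u) * (3 * Real.exp (-(9 / u^2))) := by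
  set r : ℝ := Real.exp (-(Real.pi^2 / u^2)) with hr
  have hr0 : 0 ≤ r := (Real.exp_pos _).le
  have hu2 : u^2 ≤ 1 := by nlinarith
  have hle : r ≤ Real.exp (-(9/u^2)) := by
    rw [hr]; apply Real.exp_le_exp.mpr
    have : 9 / u^2 ≤ Real.pi^2/u^2 := div_le_div_of_nonneg_right nine_le_pi_sq (by positivity)
    linarith
  have hle9 : Real.exp (-(9/u^2)) ≤ 1/3 := by
    refine le_trans (Real.exp_le_exp.mpr ?_) exp_neg_nine
    have : (9:ℝ) ≤ 9/u^2 := by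
      rw [le_div_iff₀ (by positivity)]; nlinarith
    linarith
  have hr3 : r ≤ 1/3 := hle.trans hle9
  have hbd : ∀ j : ℤ, ‖Complex.exp (-Real.pi * (Real.pi / u^2 : ℝ) * (j:ℂ)^2 + 2 * Real.pi * (Complex.I * y) * j)‖ ≤ r ^ j.natAbs := by
    intro j
    rw [Complex.norm_exp, hr, ← Real.exp_nat_mul]
    apply Real.exp_le_exp.mpr
    have e : (-(Real.pi:ℂ) * (Real.pi / u^2 : ℝ) * (j:ℂ)^2 + 2 * Real.pi * (Complex.I * y) * j) =
        ((-(Real.pi^2/u^2 * (j:ℝ)^2) : ℝ) : ℂ) + ((2 * Real.pi * y * j : ℝ) : ℂ) * Complex.I := by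
      push_cast; ring
    rw [e]
    simp only [Complex.add_re, Complex.ofReal_re, Complex.mul_re, Complex.I_re, mul_zero, Complex.ofReal_im, Complex.I_im, mul_one, sub_self, add_zero]
    have hj : ((j.natAbs : ℕ) : ℝ) ≤ (j:ℝ)^2 := by
      have h1 : j.natAbs ≤ j.natAbs ^ 2 := Nat.le_self_pow (by norm_num) _
      have h2 : ((j.natAbs : ℕ) : ℝ) ≤ ((j.natAbs ^ 2 : ℕ) : ℝ) := by exact_mod_cast h1
      have h3 : (((j.natAbs ^ 2 : ℕ)) : ℝ) = (j:ℝ)^2 := by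
        push_cast
        rw [Nat.cast_natAbs, Int.cast_abs, sq_abs]
      linarith
    have hp : 0 ≤ Real.pi^2/u^2 := by positivity
    nlinarith
  have h0 : Complex.exp (-Real.pi * (Real.pi / u^2 : ℝ) * ((0:ℤ):ℂ)^2 + 2 * Real.pi * (Complex.I * y) * ((0:ℤ):ℂ)) = 1 := by
    simp
  have key := norm_tsum_int_sub_le hr0 (lt_of_le_of_lt hr3 (by norm_num)) hbd
  rw [h0] at key
  have hb : 2 * (r/(1-r)) ≤ 3 * r := by
    have : r/(1-r) ≤ (3/2) * r := by
      rw [div_le_iff₀ (by linarith)]; nlinarith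
    linarith
  have hpos : 0 ≤ Real.sqrt Real.pi / u := by positivity
  have : ((TZ u y - Real.sqrt Real.pi / u : ℝ) : ℂ) = ((Real.sqrt Real.pi / u : ℝ) : ℂ) *
      ((∑' j : ℤ, Complex.exp (-Real.pi * (Real.pi / u^2 : ℝ) * (j:ℂ)^2 + 2 * Real.pi * (Complex.I * y) * j)) - 1) := by
    rw [Complex.ofReal_sub, TZ_poisson hu y]; ring
  rw [← Real.norm_eq_abs, ← Complex.norm_real, this, norm_mul, Complex.norm_real, Real.norm_of_nonneg hpos]
  refine mul_le_mul_of_nonneg_left ?_ hpos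
  calc _ ≤ 2 * (r/(1-r)) := key
    _ ≤ 3 * r := hb
    _ ≤ _ := by linarith

end

end Crest.Agent.R338.GS
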