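import Crest.Agent.R338.GS1

/-!
Row 338, node II.C.3/II.C.4, file 2: finite Gaussian sums, tails, second differences.
-/

set_option autoImplicit false
open Real Finset
open scoped BigOperators

namespace Crest.Agent.R338.GS

noncomputable section

lemma exp_neg_nine' : Real.exp (-9) ≤ 1/50 := by
  have h : (50:ℝ) ≤ Real.exp 9 := by
    have := Real.quadratic_le_exp_of_nonneg (show (0:ℝ) ≤ 9 by norm_num)
    linarith
  rw [Real.exp_neg, inv_eq_one_div]
  exact one_div_le_one_div_of_le (by norm_num) h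

lemma sqrt_pi_le : Real.sqrt Real.pi ≤ 1.78 := by
  rw [show (1.78:ℝ) = Real.sqrt (1.78^2) by rw [Real.sqrt_sq (by norm_num)]]
  apply Real.sqrt_le_sqrt
  linarith [Real.pi_lt_d2]

lemma sqrt_pi_ge : 1.77 ≤ Real.sqrt Real.pi := by
  rw [show (1.77:ℝ) = Real.sqrt (1.77^2) by rw [Real.sqrt_sq (by norm_num)]]
  apply Real.sqrt_le_sqrt
  linarith [Real.pi_gt_d2]

lemma exp_neg_nine_div {u : ℝ} (hu : 0 < u) (hu1 : u ≤ 1) : Real.exp (-(9/u^2)) ≤ 1/50 := by
  refine le_trans (Real.exp_le_exp.mpr ?_) exp_neg_nine'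
  have : (9:ℝ) ≤ 9/u^2 := by
    rw [le_div_iff₀ (by positivity)]; nlinarith
  linarith

lemma TZ_le {u : ℝ} (hu : 0 < u) (hu1 : u ≤ 1) (y : ℝ) : TZ u y ≤ 2 / u := by
  have h := TZ_osc hu hu1 y
  have h2 := exp_neg_nine_div hu hu1
  have h3 := sqrt_pi_le
  have h4 : Real.sqrt Real.pi / u * (3 * Real.exp (-(9/u^2))) ≤ Real.sqrt Real.pi / u * (3 * (1/50)) := by
    apply mul_le_mul_of_nonneg_left _ (by positivity); linarith
  have h5 := (abs_le.mp h).2
  have h6 : Real.sqrt Real.pi / u ≤ 1.78 / u := div_le_div_of_nonneg_right h3 hu.le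
  calc TZ u y ≤ Real.sqrt Real.pi / u + Real.sqrt Real.pi / u * (3 * (1/50)) := by linarith
    _ = (Real.sqrt Real.pi / u) * (53/50) := by ring
    _ ≤ (1.78/u) * (53/50) := by apply mul_le_mul_of_nonneg_right h6 (by norm_num)
    _ ≤ 2 / u := by
      rw [div_mul_eq_mul_div]; apply div_le_div_of_nonneg_right (by norm_num) hu.le

lemma TZ_osc' {u : ℝ} (hu : 0 < u) (hu1 : u ≤ 1) (y : ℝ) :
    |TZ u y - Real.sqrt Real.pi / u| ≤ 6 / u * Real.exp (-(9/u^2)) := by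
  refine (TZ_osc hu hu1 y).trans ?_
  have h3 := sqrt_pi_le
  have h6 : Real.sqrt Real.pi / u ≤ 2 / u := div_le_div_of_nonneg_right (by linarith) hu.le
  have : Real.sqrt Real.pi / u * (3 * Real.exp (-(9/u^2))) ≤ 2/u * (3 * Real.exp (-(9/u^2))) := by
    apply mul_le_mul_of_nonneg_right h6; positivity
  refine this.trans (le_of_eq ?_); ring

/-- finite sum over `|k| ≤ n` -/
def T (n : ℕ) (u y : ℝ) : ℝ := ∑ k ∈ range (n+1), g u (y - k) + ∑ k ∈ range n, g u (y + (k+1))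

/-- tail `|k| > n` -/
def tl (n : ℕ) (u y : ℝ) : ℝ := ∑' m : ℕ, (g u (y - (n+1+m)) + g u (y + (n+1+m)))

lemma T_nonneg (n : ℕ) (u y : ℝ) : 0 ≤ T n u y :=
  add_nonneg (sum_nonneg fun _ _ => g_nonneg _ _) (sum_nonneg fun _ _ => g_nonneg _ _)

lemma summable_nat_sub {u : ℝ} (hu : 0 < u) (y : ℝ) : Summable fun m : ℕ => g u (y - m) := by
  have := (summable_g_cexp hu y).comp_injective (f := fun k : ℤ => g u (y - k)) (i := fun m : ℕ => (m:ℤ)) Nat.cast_injective
  simpa [Function.comp_def] using this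

lemma summable_nat_add' {u : ℝ} (hu : 0 < u) (y : ℝ) : Summable fun m : ℕ => g u (y + m) := by
  have h := summable_nat_sub hu (-y)
  refine h.congr (fun m => ?_)
  rw [← g_neg]; congr 1; ring

lemma summable_g_nat {u : ℝ} (hu : 0 < u) : Summable fun m : ℕ => g u m := by
  simpa using summable_nat_add' hu 0

lemma summable_tail_sub {u : ℝ} (hu : 0 < u) (n : ℕ) (y : ℝ) : Summable fun m : ℕ => g u (y - (n+1+m)) := by
  have h := (summable_nat_add_iff (n+1)).mpr (summable_nat_sub hu y)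
  refine h.congr (fun m => ?_)
  congr 1; push_cast; ring

lemma summable_tail_add {u : ℝ} (hu : 0 < u) (n : ℕ) (y : ℝ) : Summable fun m : ℕ => g u (y + (n+1+m)) := by
  have h := (summable_nat_add_iff (n+1)).mpr (summable_nat_add' hu y)
  refine h.congr (fun m => ?_)
  congr 1; push_cast; ring

lemma TZ_eq {u : ℝ} (hu : 0 < u) (n : ℕ) (y : ℝ) : TZ u y = T n u y + tl n u y := by
  unfold TZ T tl
  have s1 : Summable fun m : ℕ => g u (y - ((m:ℤ):ℝ)) := by simpa using summable_nat_sub hu y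
  have s2 : Summable fun m : ℕ => g u (y - ((-((m:ℤ)+1) : ℤ):ℝ)) := by
    have h := (summable_nat_add_iff 1).mpr (summable_nat_add' hu y)
    refine h.congr (fun m => ?_)
    congr 1; push_cast; ring
  rw [tsum_of_nat_of_neg_add_one (f := fun k : ℤ => g u (y - k)) s1 s2]
  have e1 : ∑' m : ℕ, g u (y - ((m:ℤ):ℝ)) = ∑ k ∈ range (n+1), g u (y - k) + ∑' m : ℕ, g u (y - (n+1+m)) := by
    rw [← Summable.sum_add_tsum_nat_add (n+1) s1]
    congr 1
    apply tsum_congr; intro m; congr 1; push_cast; ring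
  have e2 : ∑' m : ℕ, g u (y - ((-((m:ℤ)+1) : ℤ):ℝ)) = ∑ k ∈ range n, g u (y + (k+1)) + ∑' m : ℕ, g u (y + (n+1+m)) := by
    rw [← Summable.sum_add_tsum_nat_add n s2]
    congr 1
    · apply sum_congr rfl; intro k _; congr 1; push_cast; ring
    · apply tsum_congr; intro m; congr 1; push_cast; ring
  rw [e1, e2, (summable_tail_sub hu n y).tsum_add (summable_tail_add hu n y)]
  ring

lemma tl_nonneg (n : ℕ) (u y : ℝ) : 0 ≤ tl n u y :=
  tsum_nonneg fun _ => add_nonneg (g_nonneg _ _) (g_nonneg _ _)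

lemma T_le {u : ℝ} (hu : 0 < u) (hu1 : u ≤ 1) (n : ℕ) (y : ℝ) : T n u y ≤ 2 / u := by
  have := TZ_le hu hu1 y
  rw [TZ_eq hu n y] at this
  linarith [tl_nonneg n u y]

lemma tsum_g_nat_le {u : ℝ} (hu : 0 < u) (hu1 : u ≤ 1) : ∑' m : ℕ, g u m ≤ 2 / u := by
  refine le_trans ?_ (TZ_le hu hu1 0)
  unfold TZ
  have s1 : Summable fun m : ℕ => g u (0 - ((m:ℤ):ℝ)) := by simpa using summable_nat_sub hu 0
  have s2 : Summable fun m : ℕ => g u (0 - ((-((m:ℤ)+1) : ℤ):ℝ)) := by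
    have h := (summable_nat_add_iff 1).mpr (summable_nat_add' hu 0)
    refine h.congr (fun m => ?_)
    congr 1; push_cast; ring
  rw [tsum_of_nat_of_neg_add_one (f := fun k : ℤ => g u (0 - k)) s1 s2]
  have e1 : ∑' m : ℕ, g u (0 - ((m:ℤ):ℝ)) = ∑' m : ℕ, g u m := by
    apply tsum_congr; intro m; rw [← g_neg]; congr 1; push_cast; ring
  rw [e1]
  have : 0 ≤ ∑' m : ℕ, g u (0 - ((-((m:ℤ)+1) : ℤ):ℝ)) := tsum_nonneg fun _ => g_nonneg _ _
  linarith

/-- the basic tail sum, `∑_{k>n} exp(-u²k²/4)` -/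
def tau (n : ℕ) (u : ℝ) : ℝ := ∑' m : ℕ, g (u/2) (n+1+m)

lemma summable_tau {u : ℝ} (hu : 0 < u) (n : ℕ) : Summable fun m : ℕ => g (u/2) (n+1+m) := by
  have := summable_tail_add (half_pos hu) n 0
  simpa using this

lemma tau_nonneg (n : ℕ) (u : ℝ) : 0 ≤ tau n u := tsum_nonneg fun _ => g_nonneg _ _

lemma tau_le {u : ℝ} (hu : 0 < u) (hu1 : u ≤ 1) (n : ℕ) : tau n u ≤ 8 / u * Real.exp (-(3/16 * (u^2 * n^2))) := by
  have hb : ∀ m : ℕ, g (u/2) (n+1+m) ≤ Real.exp (-(3/16 * (u^2 * n^2))) * g (u/4) ((n+1+m : ℕ)) := by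
    intro m
    unfold g
    rw [← Real.exp_add]
    apply Real.exp_le_exp.mpr
    push_cast
    have hnm : (n:ℝ)^2 ≤ ((n:ℝ)+1+m)^2 := by
      apply pow_le_pow_left₀ (by positivity); linarith [Nat.cast_nonneg (α := ℝ) m]
    nlinarith [mul_le_mul_of_nonneg_left hnm (sq_nonneg u)]
  have hs : Summable fun m : ℕ => g (u/4) ((n+1+m : ℕ)) := by
    have := (summable_nat_add_iff (n+1)).mpr (summable_g_nat (show 0 < u/4 by linarith))
    refine this.congr (fun m => ?_); congr 1; push_cast; ring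
  have h1 : tau n u ≤ Real.exp (-(3/16 * (u^2 * n^2))) * ∑' m : ℕ, g (u/4) ((n+1+m : ℕ)) := by
    unfold tau
    rw [← tsum_mul_left]
    exact (summable_tau hu n).tsum_le_tsum hb (hs.mul_left _)
  have h2 : ∑' m : ℕ, g (u/4) ((n+1+m : ℕ)) ≤ ∑' m : ℕ, g (u/4) m := by
    have := (summable_g_nat (show 0 < u/4 by linarith)).sum_add_tsum_nat_add (n+1)
    rw [← this]
    have e : ∑' m : ℕ, g (u/4) ((n+1+m : ℕ)) = ∑' m : ℕ, g (u/4) ((m + (n+1) : ℕ)) := by
      apply tsum_congr; intro m; congr 1; push_cast; ring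
    rw [e]
    have : 0 ≤ ∑ i ∈ range (n+1), g (u/4) i := sum_nonneg fun _ _ => g_nonneg _ _
    linarith
  have h3 := tsum_g_nat_le (show 0 < u/4 by linarith) (show u/4 ≤ 1 by linarith)
  have h4 : (2:ℝ) / (u/4) = 8 / u := by field_simp; norm_num
  rw [h4] at h3
  calc tau n u ≤ _ := h1
    _ ≤ Real.exp (-(3/16 * (u^2 * n^2))) * (8/u) := by
      apply mul_le_mul_of_nonneg_left (h2.trans h3) (Real.exp_pos _).le
    _ = _ := by ring

/-- second derivative of `g` -/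
def g2 (u z : ℝ) : ℝ := (4 * u^4 * z^2 - 2 * u^2) * g u z

lemma abs_g2_le (u z : ℝ) : |g2 u z| ≤ 8 * u^2 * g (u/2) z := by
  unfold g2
  rw [abs_mul, abs_of_pos (g_pos u z)]
  set v := u^2 * z^2 with hv
  have hv0 : 0 ≤ v := by positivity
  have h1 : |4 * u^4 * z^2 - 2 * u^2| ≤ u^2 * (4 * v + 2) := by
    rw [abs_le]; constructor <;> nlinarith [mul_nonneg (sq_nonneg u) hv0]
  have h2 : g u z = Real.exp (-(v/4)) * Real.exp (-(3/4*v)) := by
    unfold g; rw [← Real.exp_add]; congr 1; rw [hv]; ring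
  have h3 : g (u/2) z = Real.exp (-(v/4)) := by
    unfold g; congr 1; rw [hv]; ring
  have h4 : (4 * v + 2) * Real.exp (-(3/4*v)) ≤ 8 := by
    have : 1 + 3/4*v ≤ Real.exp (3/4*v) := by linarith [Real.add_one_le_exp (3/4*v)]
    rw [Real.exp_neg, ← div_eq_mul_inv, div_le_iff₀ (Real.exp_pos _)]
    nlinarith
  rw [h2, h3]
  calc |4 * u^4 * z^2 - 2 * u^2| * (Real.exp (-(v/4)) * Real.exp (-(3/4*v)))
      ≤ (u^2 * (4*v+2)) * (Real.exp (-(v/4)) * Real.exp (-(3/4*v))) := by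
        apply mul_le_mul_of_nonneg_right h1; positivity
    _ = (u^2 * Real.exp (-(v/4))) * ((4*v+2) * Real.exp (-(3/4*v))) := by ring
    _ ≤ (u^2 * Real.exp (-(v/4))) * 8 := by
        apply mul_le_mul_of_nonneg_left h4; positivity
    _ = _ := by ring

/-- `|e^q + e^{-q} - 2 - q²| ≤ 2 q⁴ e^{|q|}` -/
lemma cosh_aux (q : ℝ) : |Real.exp q + Real.exp (-q) - 2 - q^2| ≤ 2 * q^4 * Real.exp |q| := by
  by_cases hq : |q| ≤ 1
  · have h1 := Real.exp_bound hq (n := 4) (by norm_num)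
    have h2 := Real.exp_bound (show |-q| ≤ 1 by rwa [abs_neg]) (n := 4) (by norm_num)
    simp only [Finset.sum_range_succ, Finset.sum_range_zero, Nat.factorial] at h1 h2
    norm_num at h1 h2
    have e1 := abs_le.mp h1
    have e2 := abs_le.mp h2
    have h3 : |q|^4 = q^4 := by rw [← abs_pow, abs_of_nonneg (by positivity)]
    rw [h3] at e1 e2
    have h4 : q^4 * 1 ≤ q^4 * Real.exp |q| :=
      mul_le_mul_of_nonneg_left (Real.one_le_exp (abs_nonneg q)) (by positivity)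
    rw [abs_le]; constructor <;> nlinarith [e1.1, e1.2, e2.1, e2.2]
  · push Not at hq
    have h1 : Real.exp q ≤ Real.exp |q| := Real.exp_le_exp.mpr (le_abs_self q)
    have h2 : Real.exp (-q) ≤ Real.exp |q| := Real.exp_le_exp.mpr (neg_le_abs q)
    have h3 : 1 ≤ q^2 := by rw [← sq_abs]; nlinarith
    have h4 : 1 ≤ q^4 := by nlinarith
    have h5 : q^4 * Real.exp |q| ≥ Real.exp |q| := by nlinarith [Real.exp_pos |q|]
    have h6 : 2 ≤ Real.exp |q| := by linarith [Real.add_one_le_exp |q|]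
    have h7 : q^2 ≤ q^4 := by nlinarith
    have h8 : 2 * q^4 ≤ q^4 * Real.exp |q| := by nlinarith
    have e1 := Real.exp_pos q
    have e2 := Real.exp_pos (-q)
    rw [abs_le]; constructor
    · nlinarith
    · nlinarith

lemma exp_neg_aux {p : ℝ} (hp : 0 ≤ p) : 0 ≤ Real.exp (-p) - 1 + p ∧ Real.exp (-p) - 1 + p ≤ p^2/2 := by
  constructor
  · linarith [Real.add_one_le_exp (-p)]
  · -- `1 ≤ (1 - p + p²/2) e^p`
    have h1 := Real.quadratic_le_exp_of_nonneg hp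
    have h2 : 0 ≤ 1 - p + p^2/2 := by nlinarith [sq_nonneg (p-1)]
    have h3 : 1 ≤ (1 - p + p^2/2) * Real.exp p := by
      have : (1 - p + p^2/2) * (1 + p + p^2/2) ≤ (1 - p + p^2/2) * Real.exp p :=
        mul_le_mul_of_nonneg_left h1 h2
      nlinarith [sq_nonneg (p^2)]
    have h4 : Real.exp (-p) = 1 / Real.exp p := by rw [Real.exp_neg, inv_eq_one_div]
    rw [h4]
    have : 1 / Real.exp p ≤ 1 - p + p^2/2 := by
      rw [div_le_iff₀ (Real.exp_pos p)]; exact h3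
    linarith

lemma scalar_aux {p q v w : ℝ} (hp0 : 0 ≤ p) (hv0 : 0 ≤ v) (hw0 : 0 ≤ w) (hqv : |q| ≤ v / 2)
    (hq4 : q^4 = 16 * w * v^2) (hq2p : q^2 * p = 4 * w * v) (hpp : p^2 = w) :
    |Real.exp (-p) * (Real.exp q + Real.exp (-q) - 2 - q^2) + 2 * (Real.exp (-p) - 1 + p)
        + q^2 * (Real.exp (-p) - 1)| ≤ w * (1024 * Real.exp (v/4)) * Real.exp (v/2) := by
  have hexq : Real.exp |q| ≤ Real.exp (v/2) := Real.exp_le_exp.mpr hqv
  have hc := cosh_aux q
  have hx := exp_neg_aux hp0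
  have hep : Real.exp (-p) ≤ 1 := by rw [Real.exp_le_one_iff]; linarith
  have hep0 := Real.exp_pos (-p)
  have b1 : |Real.exp (-p) * (Real.exp q + Real.exp (-q) - 2 - q^2)| ≤ 2 * q^4 * Real.exp (v/2) := by
    rw [abs_mul, abs_of_pos hep0]
    have h0 : 0 ≤ |Real.exp q + Real.exp (-q) - 2 - q^2| := abs_nonneg _
    have hh : 2 * q^4 * Real.exp |q| ≤ 2 * q^4 * Real.exp (v/2) :=
      mul_le_mul_of_nonneg_left hexq (by positivity)
    calc Real.exp (-p) * |Real.exp q + Real.exp (-q) - 2 - q^2|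
        ≤ 1 * |Real.exp q + Real.exp (-q) - 2 - q^2| := mul_le_mul_of_nonneg_right hep h0
      _ ≤ _ := by rw [one_mul]; exact hc.trans hh
  have b2 : |2 * (Real.exp (-p) - 1 + p)| ≤ p^2 := by
    rw [abs_of_nonneg (by linarith [hx.1])]; linarith [hx.2]
  have b3 : |q^2 * (Real.exp (-p) - 1)| ≤ q^2 * p := by
    rw [abs_mul, abs_of_nonneg (sq_nonneg q)]
    apply mul_le_mul_of_nonneg_left _ (sq_nonneg q)
    rw [abs_le]; constructor <;> linarith [hx.1]
  have b4 : |Real.exp (-p) * (Real.exp q + Real.exp (-q) - 2 - q^2) + 2 * (Real.exp (-p) - 1 + p)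
        + q^2 * (Real.exp (-p) - 1)| ≤ 2 * q^4 * Real.exp (v/2) + p^2 + q^2 * p := by
    refine (abs_add_le _ _).trans ?_
    refine add_le_add ((abs_add_le _ _).trans (add_le_add b1 b2)) b3
  have hev : 1 ≤ Real.exp (v/2) := Real.one_le_exp (by linarith)
  have c1 : w * 1 ≤ w * Real.exp (v/2) := mul_le_mul_of_nonneg_left hev hw0
  have c2 : (w * v) * 1 ≤ (w * v) * Real.exp (v/2) := mul_le_mul_of_nonneg_left hev (mul_nonneg hw0 hv0)
  have b5 : 2 * q^4 * Real.exp (v/2) + p^2 + q^2 * p ≤ w * (1 + 4 * v + 32 * v^2) * Real.exp (v/2) := by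
    rw [hq4, hq2p, hpp]
    have : w * (1 + 4 * v + 32 * v^2) * Real.exp (v/2) = w * Real.exp (v/2) + 4 * ((w * v) * Real.exp (v/2)) + 2 * (16 * w * v^2) * Real.exp (v/2) := by ring
    rw [this]; linarith
  have b6 : 1 + 4 * v + 32 * v^2 ≤ 1024 * Real.exp (v/4) := by
    have := Real.quadratic_le_exp_of_nonneg (show 0 ≤ v/4 by linarith)
    nlinarith
  refine b4.trans (b5.trans ?_)
  apply mul_le_mul_of_nonneg_right _ (Real.exp_pos _).le
  exact mul_le_mul_of_nonneg_left b6 hw0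

/-- second difference of the Gaussian -/
lemma second_diff {u y k : ℝ} (hk : 0 ≤ k) (hyk : 4 * |y| ≤ k) :
    |g u (y - k) + g u (y + k) - 2 * g u k - y^2 * g2 u k| ≤ 1024 * u^4 * y^4 * g (u/2) k := by
  have hqv : |2 * u^2 * k * y| ≤ (u^2 * k^2) / 2 := by
    rw [abs_mul, abs_of_nonneg (by positivity : (0:ℝ) ≤ 2 * u^2 * k)]
    have h := mul_le_mul_of_nonneg_left hyk (mul_nonneg (sq_nonneg u) hk)
    linarith [h, (by ring : u^2 * k * (4 * |y|) = 2 * (2 * u^2 * k * |y|)), (by ring : u^2 * k * k = u^2 * k^2)]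
  have key := scalar_aux (p := u^2*y^2) (q := 2 * u^2 * k * y) (v := u^2 * k^2) (w := u^4 * y^4)
    (by positivity) (by positivity) (by positivity) hqv (by ring) (by ring) (by ring)
  have e4 : g u (y - k) + g u (y + k) - 2 * g u k - y^2 * g2 u k =
      Real.exp (-(u^2*k^2)) * (Real.exp (-(u^2*y^2)) * (Real.exp (2 * u^2 * k * y) + Real.exp (-(2 * u^2 * k * y)) - 2 - (2 * u^2 * k * y)^2) + 2 * (Real.exp (-(u^2*y^2)) - 1 + u^2*y^2)
        + (2 * u^2 * k * y)^2 * (Real.exp (-(u^2*y^2)) - 1)) := by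
    have e1 : g u (y - k) = Real.exp (-(u^2*k^2)) * (Real.exp (-(u^2*y^2)) * Real.exp (2 * u^2 * k * y)) := by
      unfold g; rw [← Real.exp_add, ← Real.exp_add]; congr 1; ring
    have e2 : g u (y + k) = Real.exp (-(u^2*k^2)) * (Real.exp (-(u^2*y^2)) * Real.exp (-(2 * u^2 * k * y))) := by
      unfold g; rw [← Real.exp_add, ← Real.exp_add]; congr 1; ring
    have e0 : g u k = Real.exp (-(u^2*k^2)) := rfl
    unfold g2
    rw [e1, e2, e0]; ring
  have e5 : g (u/2) k = Real.exp (-(u^2*k^2)) * (Real.exp ((u^2*k^2)/4) * Real.exp ((u^2*k^2)/2)) := by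
    unfold g; rw [← Real.exp_add, ← Real.exp_add]; congr 1; ring
  rw [e4, abs_mul, abs_of_pos (Real.exp_pos _), e5]
  refine (mul_le_mul_of_nonneg_left key (Real.exp_pos _).le).trans (le_of_eq ?_)
  ring

end

end Crest.Agent.R338.GS
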