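import Crest.Agent.R338.GS2

/-!
Row 338, node II.C.3/II.C.4, file 3: quadratic expansion of the finite sums `T n u y`.
-/

set_option autoImplicit false
open Real Finset
open scoped BigOperators

namespace Crest.Agent.R338.GS

noncomputable section

/-- second derivative at 0 of the finite sum -/
def T2 (n : ℕ) (u : ℝ) : ℝ := g2 u 0 + 2 * ∑ k ∈ range n, g2 u (k+1)

/-- second derivative at 0 of the full sum -/
def Z2 (u : ℝ) : ℝ := g2 u 0 + 2 * ∑' m : ℕ, g2 u (m+1)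

/-- tail of the second derivatives -/
def G2 (n : ℕ) (u : ℝ) : ℝ := ∑' m : ℕ, g2 u (n+1+m)

lemma summable_g2_tail {u : ℝ} (hu : 0 < u) (n : ℕ) : Summable fun m : ℕ => g2 u (n+1+m) := by
  refine Summable.of_norm_bounded ((summable_tau hu n).mul_left (8 * u^2)) (fun m => ?_)
  rw [Real.norm_eq_abs]; exact abs_g2_le u _

lemma Z2_eq {u : ℝ} (hu : 0 < u) (n : ℕ) : Z2 u = T2 n u + 2 * G2 n u := by
  unfold Z2 T2 G2
  have s : Summable fun m : ℕ => g2 u (m+1) := by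
    have := summable_g2_tail hu 0
    refine this.congr (fun m => ?_); congr 1; push_cast; ring
  rw [← Summable.sum_add_tsum_nat_add n s]
  have e : ∑' i : ℕ, g2 u (((i + n : ℕ) : ℝ) + 1) = ∑' m : ℕ, g2 u (n+1+m) := by
    apply tsum_congr; intro m; congr 1; push_cast; ring
  rw [e]; ring

lemma abs_G2_le {u : ℝ} (hu : 0 < u) (n : ℕ) : |G2 n u| ≤ 8 * u^2 * tau n u := by
  unfold G2 tau
  rw [← tsum_mul_left, ← Real.norm_eq_abs]
  refine tsum_of_norm_bounded ((summable_tau hu n).mul_left (8 * u^2)).hasSum (fun m => ?_)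
  rw [Real.norm_eq_abs]; exact abs_g2_le u _

lemma tl_diff {u : ℝ} (hu : 0 < u) (n : ℕ) {y : ℝ} (hy : 4 * |y| ≤ n + 1) :
    |tl n u y - tl n u 0 - y^2 * G2 n u| ≤ 1024 * u^4 * y^4 * tau n u := by
  have hs1 : Summable fun m : ℕ => (g u (y - (n+1+m)) + g u (y + (n+1+m))) :=
    (summable_tail_sub hu n y).add (summable_tail_add hu n y)
  have hs0 : Summable fun m : ℕ => (g u (0 - (n+1+m)) + g u (0 + (n+1+m))) :=
    (summable_tail_sub hu n 0).add (summable_tail_add hu n 0)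
  have hs2 := (summable_g2_tail hu n).mul_left (y^2)
  have e : tl n u y - tl n u 0 - y^2 * G2 n u =
      ∑' m : ℕ, ((g u (y - (n+1+m)) + g u (y + (n+1+m))) - (g u (0 - (n+1+m)) + g u (0 + (n+1+m))) - y^2 * g2 u (n+1+m)) := by
    unfold tl G2
    rw [(hs1.sub hs0).tsum_sub hs2, hs1.tsum_sub hs0, tsum_mul_left]
  rw [e, tau, ← tsum_mul_left, ← Real.norm_eq_abs]
  refine tsum_of_norm_bounded ((summable_tau hu n).mul_left _).hasSum (fun m => ?_)
  have hk0 : (0:ℝ) ≤ n + 1 + m := by positivity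
  have hk : 4 * |y| ≤ (n:ℝ) + 1 + m := by
    have : (0:ℝ) ≤ m := Nat.cast_nonneg m
    linarith
  have := second_diff (u := u) (y := y) hk0 hk
  rw [Real.norm_eq_abs]
  have e0 : g u (0 - (n+1+m)) + g u (0 + (n+1+m)) = 2 * g u ((n:ℝ)+1+m) := by
    have : (0:ℝ) - (n+1+m) = -(n+1+m) := by ring
    rw [this, g_neg, zero_add]; ring
  rw [e0]
  exact this

lemma T_expand {u : ℝ} (hu : 0 < u) (n : ℕ) {y : ℝ} (hy : 4 * |y| ≤ n + 1) :
    |T n u y - T n u 0 - y^2/2 * T2 n u| ≤ |TZ u y - TZ u 0| + y^2/2 * |Z2 u| + 1024 * u^4 * y^4 * tau n u := by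
  have h1 := TZ_eq hu n y
  have h0 := TZ_eq hu n 0
  have h2 := Z2_eq hu n
  have h3 := tl_diff hu n hy
  have e : T n u y - T n u 0 - y^2/2 * T2 n u = (TZ u y - TZ u 0) - (y^2/2) * Z2 u - (tl n u y - tl n u 0 - y^2 * G2 n u) := by
    rw [h1, h0, h2]; ring
  rw [e]
  have a1 : |(TZ u y - TZ u 0) - (y^2/2) * Z2 u - (tl n u y - tl n u 0 - y^2 * G2 n u)| ≤
      |TZ u y - TZ u 0| + |(y^2/2) * Z2 u| + |tl n u y - tl n u 0 - y^2 * G2 n u| := by
    refine (abs_sub _ _).trans ?_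
    exact add_le_add ((abs_sub _ _).trans le_rfl) le_rfl
  refine a1.trans ?_
  rw [abs_mul, abs_of_nonneg (by positivity : 0 ≤ y^2/2)]
  linarith

lemma T_zero_sum (u y : ℝ) : T 0 u y = g u y := by unfold T; simp
lemma T2_zero (u : ℝ) : T2 0 u = -(2 * u^2) := by unfold T2 g2; simp [g_zero]

lemma TZ_diff {u : ℝ} (hu : 0 < u) (hu1 : u ≤ 1) (y y' : ℝ) :
    |TZ u y - TZ u y'| ≤ 12 / u * Real.exp (-(9/u^2)) := by
  have h1 := TZ_osc' hu hu1 y
  have h2 := TZ_osc' hu hu1 y'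
  have : TZ u y - TZ u y' = (TZ u y - Real.sqrt Real.pi / u) - (TZ u y' - Real.sqrt Real.pi / u) := by ring
  rw [this]
  refine (abs_sub _ _).trans ((add_le_add h1 h2).trans (le_of_eq ?_))
  ring

lemma Z2_bound {u : ℝ} (hu : 0 < u) (hu1 : u ≤ 1) : |Z2 u| ≤ 16410 / u * Real.exp (-(9/(2*u^2))) := by
  set h : ℝ := Real.exp (-(9/(4*u^2))) with hh
  have hpos : 0 < h := Real.exp_pos _
  have hu2 : u^2 ≤ 1 := by nlinarith
  have hsmall : h ≤ 1/4 := by
    have h1 : (3:ℝ)/2 ≤ 9/(4*u^2) := by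
      rw [le_div_iff₀ (by positivity)]; nlinarith
    have h2 : (4:ℝ) ≤ Real.exp (9/4) := by
      have := Real.quadratic_le_exp_of_nonneg (show (0:ℝ) ≤ 9/4 by norm_num)
      have h3 : (1:ℝ) + 9/4 + (9/4)^2/2 = 185/32 := by norm_num
      linarith
    have h4 : (9:ℝ)/4 ≤ 9/(4*u^2) := by
      rw [le_div_iff₀ (by positivity)]; nlinarith
    rw [hh, Real.exp_neg, inv_eq_one_div]
    exact one_div_le_one_div_of_le (by norm_num) (h2.trans (Real.exp_le_exp.mpr h4))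
  have hsq : h^2 = Real.exp (-(9/(2*u^2))) := by
    rw [hh, ← Real.exp_nat_mul]; congr 1; push_cast; field_simp; ring
  have hsq4 : Real.exp (-(9/u^2)) = h^2 * h^2 := by
    rw [hsq, ← Real.exp_add]; congr 1; field_simp; ring
  have hE := Z2_eq hu 0
  have h3 := tl_diff hu 0 (y := h) (by rw [abs_of_pos hpos]; norm_num; linarith)
  have h1 := TZ_eq hu 0 h
  have h0 := TZ_eq hu 0 0
  rw [T_zero_sum] at h1 h0
  rw [g_zero] at h0
  rw [T2_zero] at hE
  have hd := TZ_diff hu hu1 h 0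
  have hp := exp_neg_aux (show 0 ≤ u^2*h^2 by positivity)
  have htau := tau_le hu hu1 0
  have htau' : tau 0 u ≤ 8/u := by
    refine htau.trans (le_of_eq ?_); simp
  -- (h²/2) Z2 = (TZ h - TZ 0) - (g h - 1 + u²h²) - R
  have e : h^2/2 * Z2 u = (TZ u h - TZ u 0) - (g u h - 1 + u^2*h^2) - (tl 0 u h - tl 0 u 0 - h^2 * G2 0 u) := by
    rw [h1, h0, hE]; ring
  have a1 : |h^2/2 * Z2 u| ≤ 12 / u * Real.exp (-(9/u^2)) + (u^2*h^2)^2/2 + 1024 * u^4 * h^4 * (8/u) := by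
    rw [e]
    refine (abs_sub _ _).trans (add_le_add ((abs_sub _ _).trans (add_le_add hd ?_)) ?_)
    · unfold g; rw [abs_of_nonneg hp.1]; exact hp.2
    · refine h3.trans ?_
      exact mul_le_mul_of_nonneg_left htau' (by positivity)
  rw [abs_mul, abs_of_nonneg (by positivity : 0 ≤ h^2/2), hsq4] at a1
  -- divide by h²/2
  have e2 : 12 / u * (h^2*h^2) + (u^2*h^2)^2/2 + 1024 * u^4 * h^4 * (8/u) = (h^2/2) * ((24/u + u^4 + 16384 * u^3) * h^2) := by
    field_simp; ring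
  rw [e2] at a1
  have a2 : |Z2 u| ≤ (24/u + u^4 + 16384*u^3) * h^2 := le_of_mul_le_mul_left a1 (by positivity)
  refine a2.trans ?_
  rw [hsq]
  apply mul_le_mul_of_nonneg_right _ (Real.exp_pos _).le
  have hu3 : u^4 ≤ 1/u := by
    rw [le_div_iff₀ hu]; have : u^5 ≤ 1 := pow_le_one₀ hu.le hu1
    calc u^4*u = u^5 := by ring
      _ ≤ 1 := this
  have hu4 : u^3 ≤ 1/u := by
    rw [le_div_iff₀ hu]; have : u^4 ≤ 1 := pow_le_one₀ hu.le hu1
    calc u^3*u = u^4 := by ring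
      _ ≤ 1 := this
  have : (24:ℝ)/u + 1/u + 16384 * (1/u) = 16409/u := by ring
  have h16 : (16409:ℝ)/u ≤ 16410/u := div_le_div_of_nonneg_right (by norm_num) hu.le
  linarith

end

end Crest.Agent.R338.GS
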