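import Crest.Agent.R338.GS3

/-!
Row 338, node II.C.3/II.C.4, file 4: bounds for `u ≤ 1/K` and the product expansion.
-/

set_option autoImplicit false
open Real Finset
open scoped BigOperators

namespace Crest.Agent.R338.GS

noncomputable section

/-- `exp (-2K²)` -/
def EE (K : ℝ) : ℝ := Real.exp (-(2*K^2))

/-- `exp (-(3/32) u² n²)` -/
def XX (n : ℕ) (u : ℝ) : ℝ := Real.exp (-(3/32 * (u^2 * n^2)))

lemma EE_pos (K : ℝ) : 0 < EE K := Real.exp_pos _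
lemma EE_le_one (K : ℝ) : EE K ≤ 1 := by
  unfold EE; rw [Real.exp_le_one_iff]; nlinarith [sq_nonneg K]
lemma XX_pos (n : ℕ) (u : ℝ) : 0 < XX n u := Real.exp_pos _
lemma XX_le_one (n : ℕ) (u : ℝ) : XX n u ≤ 1 := by
  unfold XX; rw [Real.exp_le_one_iff]
  have : 0 ≤ u^2 * (n:ℝ)^2 := by positivity
  linarith
lemma XX_sq (n : ℕ) (u : ℝ) : XX n u ^ 2 = Real.exp (-(3/16 * (u^2 * n^2))) := by
  unfold XX; rw [← Real.exp_nat_mul]; congr 1; push_cast; ring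
lemma x_mul_XX (n : ℕ) (u : ℝ) : (u^2 * n^2) * XX n u ≤ 11 := by
  unfold XX
  set x : ℝ := u^2 * n^2
  have hx : 0 ≤ x := by positivity
  have h := Real.add_one_le_exp (3/32 * x)
  rw [Real.exp_neg, ← div_eq_mul_inv, div_le_iff₀ (Real.exp_pos _)]
  nlinarith

lemma small_exp {u K : ℝ} (hu : 0 < u) (hK : 1 ≤ K) (huK : u * K ≤ 1) :
    Real.exp (-(9/(2*u^2))) ≤ u^6 * EE K := by
  have hK0 : 0 < K := by linarith
  have h1 : K^2 ≤ 1/u^2 := by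
    rw [le_div_iff₀ (by positivity)]
    have : (u*K)^2 ≤ 1 := pow_le_one₀ (by positivity) huK
    nlinarith
  have e : Real.exp (-(9/(2*u^2))) = Real.exp (-(2*(1/u^2))) * Real.exp (-(5/(2*u^2))) := by
    rw [← Real.exp_add]; congr 1; field_simp; ring
  rw [e, mul_comm]
  have h2 : Real.exp (-(2*(1/u^2))) ≤ EE K := by
    unfold EE; apply Real.exp_le_exp.mpr; linarith
  have h3 : Real.exp (-(5/(2*u^2))) ≤ u^6 := by
    have hx : 0 ≤ 5/(2*u^2) := by positivity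
    have := Real.pow_div_factorial_le_exp (5/(2*u^2)) hx 3
    have h4 : (5/(2*u^2))^3/(Nat.factorial 3 : ℝ) = (125/48) * (1/u^6) := by
      simp only [Nat.factorial]; push_cast; field_simp; norm_num
    rw [h4] at this
    have h5 : 1/u^6 ≤ Real.exp (5/(2*u^2)) := by
      have : (0:ℝ) < 1/u^6 := by positivity
      linarith
    rw [Real.exp_neg, inv_eq_one_div]
    rw [div_le_iff₀ (Real.exp_pos _)]
    have h6 : u^6 * (1/u^6) = 1 := by field_simp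
    calc (1:ℝ) = u^6 * (1/u^6) := h6.symm
      _ ≤ u^6 * Real.exp (5/(2*u^2)) := mul_le_mul_of_nonneg_left h5 (by positivity)
  exact mul_le_mul h3 h2 (Real.exp_pos _).le (by positivity)

lemma u_le_one {u K : ℝ} (hu : 0 < u) (hK : 1 ≤ K) (huK : u * K ≤ 1) : u ≤ 1 := by nlinarith

lemma Z2_bound' {u K : ℝ} (hu : 0 < u) (hK : 1 ≤ K) (huK : u * K ≤ 1) : |Z2 u| ≤ 16410 * u^5 * EE K := by
  refine (Z2_bound hu (u_le_one hu hK huK)).trans ?_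
  refine (mul_le_mul_of_nonneg_left (small_exp hu hK huK) (by positivity)).trans (le_of_eq ?_)
  field_simp

lemma TZ_diff' {u K : ℝ} (hu : 0 < u) (hK : 1 ≤ K) (huK : u * K ≤ 1) (y y' : ℝ) :
    |TZ u y - TZ u y'| ≤ 12 * u^5 * EE K := by
  refine (TZ_diff hu (u_le_one hu hK huK) y y').trans ?_
  have h : Real.exp (-(9/u^2)) ≤ Real.exp (-(9/(2*u^2))) := by
    apply Real.exp_le_exp.mpr
    have : 9/(2*u^2) ≤ 9/u^2 := div_le_div_of_nonneg_left (by norm_num) (by positivity) (by nlinarith [sq_nonneg u])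
    linarith
  refine (mul_le_mul_of_nonneg_left (h.trans (small_exp hu hK huK)) (by positivity)).trans (le_of_eq ?_)
  field_simp

lemma TZ_osc'' {u K : ℝ} (hu : 0 < u) (hK : 1 ≤ K) (huK : u * K ≤ 1) (y : ℝ) :
    |TZ u y - Real.sqrt Real.pi / u| ≤ 6 * u^5 * EE K := by
  refine (TZ_osc' hu (u_le_one hu hK huK) y).trans ?_
  have h : Real.exp (-(9/u^2)) ≤ Real.exp (-(9/(2*u^2))) := by
    apply Real.exp_le_exp.mpr
    have : 9/(2*u^2) ≤ 9/u^2 := div_le_div_of_nonneg_left (by norm_num) (by positivity) (by nlinarith [sq_nonneg u])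
    linarith
  refine (mul_le_mul_of_nonneg_left (h.trans (small_exp hu hK huK)) (by positivity)).trans (le_of_eq ?_)
  field_simp

lemma tau_le' {u : ℝ} (hu : 0 < u) (hu1 : u ≤ 1) (n : ℕ) : tau n u ≤ 8 / u * XX n u ^ 2 := by
  rw [XX_sq]; exact tau_le hu hu1 n

section
variable {u K ρ y : ℝ} {n : ℕ}

lemma T2_bound (hu : 0 < u) (hK : 1 ≤ K) (huK : u * K ≤ 1) :
    |T2 n u| ≤ 16410 * u^5 * EE K + 128 * u * XX n u ^ 2 := by
  have h1 := Z2_eq hu n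
  have e : T2 n u = Z2 u - 2 * G2 n u := by rw [h1]; ring
  have h2 := Z2_bound' hu hK huK
  have h3 := abs_G2_le hu n
  have h4 := tau_le' hu (u_le_one hu hK huK) n
  have h5 : 8 * u^2 * tau n u ≤ 64 * u * XX n u ^ 2 := by
    refine (mul_le_mul_of_nonneg_left h4 (by positivity)).trans (le_of_eq ?_)
    field_simp; ring
  rw [e]
  refine (abs_sub _ _).trans ?_
  rw [abs_mul, abs_of_nonneg (by norm_num : (0:ℝ) ≤ 2)]
  linarith

lemma D_minus_Q (hu : 0 < u) (hK : 1 ≤ K) (huK : u * K ≤ 1) (hρ : 1 ≤ ρ) (hn : 4 * ρ ≤ n) (hy : |y| ≤ ρ) :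
    |T n u y - T n u 0 - y^2/2 * T2 n u| ≤ 8217 * ρ^2 * u^5 * EE K + 8192 * u^3 * ρ^4 * XX n u ^ 2 := by
  have h := T_expand hu n (y := y) (by linarith)
  have h1 := TZ_diff' hu hK huK y 0
  have h2 := Z2_bound' hu hK huK
  have h4 := tau_le' hu (u_le_one hu hK huK) n
  have hy2 : y^2 ≤ ρ^2 := by rw [← sq_abs]; exact pow_le_pow_left₀ (abs_nonneg _) hy 2
  have hy4 : y^4 ≤ ρ^4 := by
    calc y^4 = (y^2)^2 := by ring
      _ ≤ (ρ^2)^2 := pow_le_pow_left₀ (sq_nonneg _) hy2 2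
      _ = ρ^4 := by ring
  have hρ2 : 1 ≤ ρ^2 := one_le_pow₀ hρ
  have hE : 0 ≤ u^5 * EE K := by have := EE_pos K; positivity
  have b1 : 12 * u^5 * EE K ≤ 12 * ρ^2 * (u^5 * EE K) := by nlinarith
  have b2 : y^2/2 * |Z2 u| ≤ 8205 * ρ^2 * (u^5 * EE K) := by
    calc y^2/2 * |Z2 u| ≤ ρ^2/2 * (16410 * u^5 * EE K) := by
          apply mul_le_mul _ h2 (abs_nonneg _) (by positivity); linarith
      _ = _ := by ring
  have b3 : 1024 * u^4 * y^4 * tau n u ≤ 8192 * u^3 * ρ^4 * XX n u ^ 2 := by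
    calc 1024 * u^4 * y^4 * tau n u ≤ 1024 * u^4 * ρ^4 * (8 / u * XX n u ^ 2) := by
          apply mul_le_mul _ h4 (tau_nonneg _ _) (by positivity)
          exact mul_le_mul_of_nonneg_left hy4 (by positivity)
      _ = _ := by field_simp; ring
  calc _ ≤ _ := h
    _ ≤ 12 * ρ^2 * (u^5 * EE K) + 8205 * ρ^2 * (u^5 * EE K) + 8192 * u^3 * ρ^4 * XX n u ^ 2 := by
      linarith
    _ = _ := by ring

lemma rho_u_XX (hρ : 1 ≤ ρ) (hn : 4 * ρ ≤ n) : (ρ^2 * u^2) * XX n u ≤ 1 := by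
  have h := x_mul_XX n u
  have hX := XX_pos n u
  have h1 : ρ^2 ≤ (n:ℝ)^2 / 16 := by nlinarith
  have h2 : ρ^2 * u^2 ≤ (u^2 * n^2)/16 := by
    have := mul_le_mul_of_nonneg_right h1 (sq_nonneg u)
    linarith
  have h3 := mul_le_mul_of_nonneg_right h2 hX.le
  linarith

lemma D_bound (hu : 0 < u) (hK : 1 ≤ K) (huK : u * K ≤ 1) (hρ : 1 ≤ ρ) (hn : 4 * ρ ≤ n) (hy : |y| ≤ ρ) :
    |T n u y - T n u 0| ≤ 20000 * (ρ^2 * u * XX n u + ρ^2 * u^5 * EE K) := by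
  have h1 := D_minus_Q hu hK huK hρ hn hy
  have h2 := T2_bound (n := n) hu hK huK
  have hX := XX_pos n u
  have hX1 := XX_le_one n u
  have hE := EE_pos K
  have hy2 : y^2 ≤ ρ^2 := by rw [← sq_abs]; exact pow_le_pow_left₀ (abs_nonneg _) hy 2
  have e : T n u y - T n u 0 = (T n u y - T n u 0 - y^2/2 * T2 n u) + y^2/2 * T2 n u := by ring
  rw [e]
  refine (abs_add_le _ _).trans ?_
  rw [abs_mul, abs_of_nonneg (by positivity : 0 ≤ y^2/2)]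
  have b1 : y^2/2 * |T2 n u| ≤ ρ^2/2 * (16410 * u^5 * EE K + 128 * u * XX n u ^ 2) := by
    apply mul_le_mul _ h2 (abs_nonneg _) (by positivity); linarith
  have hXX : XX n u ^2 ≤ XX n u := by nlinarith
  have b2 : ρ^2 * u * XX n u ^2 ≤ ρ^2 * u * XX n u := mul_le_mul_of_nonneg_left hXX (by positivity)
  have b3 : u^3 * ρ^4 * XX n u ^2 ≤ ρ^2 * u * XX n u := by
    have := rho_u_XX (u := u) hρ hn
    calc u^3 * ρ^4 * XX n u ^2 = (ρ^2 * u * XX n u) * ((ρ^2 * u^2) * XX n u) := by ring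
      _ ≤ (ρ^2 * u * XX n u) * 1 := mul_le_mul_of_nonneg_left this (by positivity)
      _ = _ := by ring
  have hb : 0 ≤ ρ^2 * u^5 * EE K := by positivity
  have ha : 0 ≤ ρ^2 * u * XX n u := by positivity
  nlinarith

/-- algebraic expansion of a product of three factors around `t` -/
lemma prod3 (t d1 d2 d3 q1 q2 q3 : ℝ) :
    (t + d1) * (t + d2) * (t + d3) - t^3 - t^2 * (q1 + q2 + q3) =
      t^2 * ((d1 - q1) + (d2 - q2) + (d3 - q3)) + t * (d1*d2 + d1*d3 + d2*d3) + d1*d2*d3 := by ring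

lemma prod3_bound {t d1 d2 d3 q1 q2 q3 τ δ ε : ℝ} (ht : |t| ≤ τ) (h1 : |d1| ≤ δ) (h2 : |d2| ≤ δ) (h3 : |d3| ≤ δ)
    (e1 : |d1 - q1| ≤ ε) (e2 : |d2 - q2| ≤ ε) (e3 : |d3 - q3| ≤ ε) :
    |(t + d1) * (t + d2) * (t + d3) - t^3 - t^2 * (q1 + q2 + q3)| ≤ 3 * τ^2 * ε + 3 * τ * δ^2 + δ^3 := by
  rw [prod3]
  have hδ : 0 ≤ δ := (abs_nonneg _).trans h1
  have hτ : 0 ≤ τ := (abs_nonneg _).trans ht
  have hε : 0 ≤ ε := (abs_nonneg _).trans e1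
  have m12 : |d1*d2| ≤ δ^2 := by rw [abs_mul, sq]; exact mul_le_mul h1 h2 (abs_nonneg _) hδ
  have m13 : |d1*d3| ≤ δ^2 := by rw [abs_mul, sq]; exact mul_le_mul h1 h3 (abs_nonneg _) hδ
  have m23 : |d2*d3| ≤ δ^2 := by rw [abs_mul, sq]; exact mul_le_mul h2 h3 (abs_nonneg _) hδ
  have m123 : |d1*d2*d3| ≤ δ^3 := by
    rw [abs_mul, pow_succ]; exact mul_le_mul m12 h3 (abs_nonneg _) (by positivity)
  have s1 : |(d1 - q1) + (d2 - q2) + (d3 - q3)| ≤ 3 * ε := by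
    refine (abs_add_le _ _).trans ?_
    have := abs_add_le (d1 - q1) (d2 - q2)
    linarith
  have s2 : |d1*d2 + d1*d3 + d2*d3| ≤ 3 * δ^2 := by
    refine (abs_add_le _ _).trans ?_
    have := abs_add_le (d1*d2) (d1*d3)
    linarith
  have t2 : |t^2| ≤ τ^2 := by rw [abs_pow]; exact pow_le_pow_left₀ (abs_nonneg _) ht 2
  have p1 : |t^2 * ((d1 - q1) + (d2 - q2) + (d3 - q3))| ≤ τ^2 * (3*ε) := by
    rw [abs_mul]; exact mul_le_mul t2 s1 (abs_nonneg _) (by positivity)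
  have p2 : |t * (d1*d2 + d1*d3 + d2*d3)| ≤ τ * (3*δ^2) := by
    rw [abs_mul]; exact mul_le_mul ht s2 (abs_nonneg _) hτ
  refine (abs_add_le _ _).trans ?_
  have := abs_add_le (t^2 * ((d1 - q1) + (d2 - q2) + (d3 - q3))) (t * (d1*d2 + d1*d3 + d2*d3))
  linarith

end

/-- product of the three one-dimensional sums -/
def P3 (n : ℕ) (u : ℝ) (y : Fin 3 → ℝ) : ℝ := T n u (y 0) * T n u (y 1) * T n u (y 2)

/-- first term of the error -/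
lemma err1 {u X E ρ : ℝ} (hu : 0 < u) (hu1 : u ≤ 1) (hE : 0 ≤ E) (hρ : 1 ≤ ρ) :
    3 * (2/u)^2 * (8217 * ρ^2 * u^5 * E + 8192 * u^3 * ρ^4 * X ^ 2) ≤
      98604 * (ρ^6 * E) + 98304 * (ρ^4 * (u * X^2)) := by
  have hρ4 : 1 ≤ ρ^4 := one_le_pow₀ hρ
  have e1 : 3 * (2/u)^2 * (8217 * ρ^2 * u^5 * E + 8192 * u^3 * ρ^4 * X ^ 2) =
      98604 * (ρ^2 * u^3 * E) + 98304 * (ρ^4 * (u * X^2)) := by
    field_simp; ring
  rw [e1]
  have : ρ^2 * u^3 * E ≤ ρ^6 * E := by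
    apply mul_le_mul_of_nonneg_right _ hE
    calc ρ^2 * u^3 ≤ ρ^2 * 1 := mul_le_mul_of_nonneg_left (pow_le_one₀ hu.le hu1) (by positivity)
      _ ≤ ρ^2 * ρ^4 := mul_le_mul_of_nonneg_left hρ4 (by positivity)
      _ = ρ^6 := by ring
  linarith

/-- squares -/
lemma err2 {u X E ρ : ℝ} (hu : 0 < u) (hu1 : u ≤ 1) (hE : 0 ≤ E) (hE1 : E ≤ 1) (hρ : 1 ≤ ρ) :
    (ρ^2 * u * X + ρ^2 * u^5 * E)^2 / u ≤ 2 * (ρ^4 * (u * X^2)) + 2 * (ρ^6 * E) := by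
  have hρ2 : 1 ≤ ρ^2 := one_le_pow₀ hρ
  have h9 : u^9 * E ≤ 1 := by
    have := pow_le_one₀ hu.le hu1 (n := 9)
    exact mul_le_one₀ this hE hE1
  have b2 : (ρ^2 * u^5 * E)^2 / u ≤ ρ^6 * E := by
    have e : (ρ^2 * u^5 * E)^2 / u = (ρ^4 * E) * (u^9 * E) := by field_simp
    rw [e]
    calc (ρ^4 * E) * (u^9 * E) ≤ (ρ^4 * E) * 1 := mul_le_mul_of_nonneg_left h9 (by positivity)
      _ ≤ (ρ^4 * E) * ρ^2 := mul_le_mul_of_nonneg_left hρ2 (by positivity)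
      _ = ρ^6 * E := by ring
  have a2 : (ρ^2 * u * X)^2 / u = ρ^4 * (u * X^2) := by field_simp
  have h : (ρ^2 * u * X + ρ^2 * u^5 * E)^2 ≤ 2*(ρ^2 * u * X)^2 + 2*(ρ^2 * u^5 * E)^2 := by
    have := sq_nonneg (ρ^2 * u * X - ρ^2 * u^5 * E)
    have e : 2*(ρ^2 * u * X)^2 + 2*(ρ^2 * u^5 * E)^2 - (ρ^2 * u * X + ρ^2 * u^5 * E)^2 =
      (ρ^2 * u * X - ρ^2 * u^5 * E)^2 := by ring
    linarith
  calc (ρ^2 * u * X + ρ^2 * u^5 * E)^2 / u ≤ (2*(ρ^2 * u * X)^2 + 2*(ρ^2 * u^5 * E)^2) / u :=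
        div_le_div_of_nonneg_right h hu.le
    _ = 2*((ρ^2 * u * X)^2/u) + 2*((ρ^2 * u^5 * E)^2/u) := by ring
    _ ≤ _ := by rw [a2]; linarith

/-- cubes -/
lemma err3 {u X E ρ : ℝ} (hu : 0 < u) (hu1 : u ≤ 1) (hX : 0 ≤ X) (hE : 0 ≤ E) (hE1 : E ≤ 1) (hρ : 1 ≤ ρ)
    (h : (ρ^2 * u^2) * X ≤ 1) :
    (ρ^2 * u * X + ρ^2 * u^5 * E)^3 ≤ 4 * (ρ^4 * (u * X^2)) + 4 * (ρ^6 * E) := by
  have a3 : (ρ^2 * u * X)^3 ≤ ρ^4 * (u * X^2) := by
    have e : (ρ^2 * u * X)^3 = (ρ^4 * (u * X^2)) * ((ρ^2 * u^2) * X) := by ring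
    rw [e]
    calc _ ≤ (ρ^4 * (u * X^2)) * 1 := mul_le_mul_of_nonneg_left h (by positivity)
      _ = _ := by ring
  have b3 : (ρ^2 * u^5 * E)^3 ≤ ρ^6 * E := by
    have h15 : u^15 * E^2 ≤ 1 :=
      mul_le_one₀ (pow_le_one₀ hu.le hu1) (by positivity) (pow_le_one₀ hE hE1)
    have e : (ρ^2 * u^5 * E)^3 = (ρ^6 * E) * (u^15 * E^2) := by ring
    rw [e]
    calc _ ≤ (ρ^6 * E) * 1 := mul_le_mul_of_nonneg_left h15 (by positivity)
      _ = _ := by ring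
  have cube : ∀ a b : ℝ, 0 ≤ a → 0 ≤ b → (a+b)^3 ≤ 4*a^3 + 4*b^3 := by
    intro a b ha hb
    nlinarith [mul_nonneg (add_nonneg ha hb) (sq_nonneg (a-b))]
  have := cube (ρ^2 * u * X) (ρ^2 * u^5 * E) (by positivity) (by positivity)
  linarith

lemma err_all {u X E ρ : ℝ} (hu : 0 < u) (hu1 : u ≤ 1) (hX : 0 ≤ X) (hE : 0 ≤ E) (hE1 : E ≤ 1) (hρ : 1 ≤ ρ)
    (h : (ρ^2 * u^2) * X ≤ 1) :
    3 * (2/u)^2 * (8217 * ρ^2 * u^5 * E + 8192 * u^3 * ρ^4 * X ^ 2) +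
      3 * (2/u) * (20000 * (ρ^2 * u * X + ρ^2 * u^5 * E))^2 + (20000 * (ρ^2 * u * X + ρ^2 * u^5 * E))^3 ≤
    40000000000000 * (ρ^4 * (u * X^2) + ρ^6 * E) := by
  have h1 := err1 (X := X) hu hu1 hE hρ
  have h2 := err2 (X := X) hu hu1 hE hE1 hρ
  have h3 := err3 hu hu1 hX hE hE1 hρ h
  generalize hs : ρ^2 * u * X + ρ^2 * u^5 * E = S at h2 h3 ⊢
  have hA0 : 0 ≤ ρ^4 * (u * X^2) := by positivity
  have hB0 : 0 ≤ ρ^6 * E := by positivity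
  generalize hA : ρ^4 * (u * X^2) = A at *
  generalize hB : ρ^6 * E = B at *
  generalize 3 * (2/u)^2 * (8217 * ρ^2 * u^5 * E + 8192 * u^3 * ρ^4 * X ^ 2) = Z at *
  have e2 : 3 * (2/u) * (20000 * S)^2 = 2400000000 * (S^2/u) := by ring
  have e3 : (20000 * S)^3 = 8000000000000 * S^3 := by ring
  rw [e2, e3]
  generalize S^2/u = p at *
  generalize S^3 = q at *
  linarith

lemma E1_bound {u K ρ : ℝ} {n : ℕ} {y : Fin 3 → ℝ} (hu : 0 < u) (hK : 1 ≤ K) (huK : u * K ≤ 1) (hρ : 1 ≤ ρ)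
    (hn : 4 * ρ ≤ n) (hy : ∀ c, |y c| ≤ ρ) :
    |P3 n u y - T n u 0 ^ 3 - T n u 0 ^ 2 * T2 n u * ((y 0^2 + y 1^2 + y 2^2)/2)| ≤
      40000000000000 * (ρ^4 * (u * XX n u ^ 2) + ρ^6 * EE K) := by
  have hu1 := u_le_one hu hK huK
  have e : P3 n u y - T n u 0 ^ 3 - T n u 0 ^ 2 * T2 n u * ((y 0^2 + y 1^2 + y 2^2)/2) =
      (T n u 0 + (T n u (y 0) - T n u 0)) * (T n u 0 + (T n u (y 1) - T n u 0)) * (T n u 0 + (T n u (y 2) - T n u 0)) - T n u 0 ^ 3 -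
      T n u 0 ^ 2 * ((y 0)^2/2 * T2 n u + (y 1)^2/2 * T2 n u + (y 2)^2/2 * T2 n u) := by
    unfold P3; ring
  rw [e]
  refine (prod3_bound (τ := 2/u) (δ := 20000 * (ρ^2 * u * XX n u + ρ^2 * u^5 * EE K))
    (ε := 8217 * ρ^2 * u^5 * EE K + 8192 * u^3 * ρ^4 * XX n u ^ 2)
    (by rw [abs_of_nonneg (T_nonneg _ _ _)]; exact T_le hu hu1 n 0)
    (D_bound hu hK huK hρ hn (hy 0)) (D_bound hu hK huK hρ hn (hy 1)) (D_bound hu hK huK hρ hn (hy 2))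
    (D_minus_Q hu hK huK hρ hn (hy 0)) (D_minus_Q hu hK huK hρ hn (hy 1)) (D_minus_Q hu hK huK hρ hn (hy 2))).trans ?_
  exact err_all hu hu1 (XX_pos n u).le (EE_pos K).le (EE_le_one K) hρ (rho_u_XX hρ hn)

end

end Crest.Agent.R338.GS
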