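import Crest.Agent.R338.GS4

/-!
Row 338, node II.C.3/II.C.4, file 5: the near theorem (quadratic approximation of the
potential of the undisplaced lattice in scaled units).
-/

set_option autoImplicit false
open Real Finset
open scoped BigOperators

namespace Crest.Agent.R338.GS

noncomputable section

lemma g_le_half (u z : ℝ) : g u z ≤ g (u/2) z := by
  unfold g; apply Real.exp_le_exp.mpr; nlinarith [sq_nonneg (u*z)]

lemma tl_zero_le {u : ℝ} (hu : 0 < u) (n : ℕ) : tl n u 0 ≤ 2 * tau n u := by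
  unfold tl tau
  rw [← tsum_mul_left]
  refine Summable.tsum_le_tsum (fun m => ?_)
    ((summable_tail_sub hu n 0).add (summable_tail_add hu n 0)) ((summable_tau hu n).mul_left 2)
  have e : (0:ℝ) - (n+1+m) = -(n+1+m) := by ring
  rw [e, g_neg, zero_add]
  linarith [g_le_half u ((n:ℝ)+1+m)]

lemma T_zero_close {u K : ℝ} (hu : 0 < u) (hK : 1 ≤ K) (huK : u * K ≤ 1) (n : ℕ) :
    |u * T n u 0 - Real.sqrt Real.pi| ≤ 6 * EE K + 16 * XX n u ^ 2 := by
  have hu1 := u_le_one hu hK huK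
  have h1 := TZ_osc'' hu hK huK 0
  have h2 := tl_zero_le hu n
  have h3 := tau_le' hu hu1 n
  have h4 := tl_nonneg n u 0
  have h5 := TZ_eq hu n 0
  have e : u * T n u 0 - Real.sqrt Real.pi = u * (TZ u 0 - Real.sqrt Real.pi / u) - u * tl n u 0 := by
    rw [h5]; field_simp; ring
  rw [e]
  refine (abs_sub _ _).trans ?_
  rw [abs_mul, abs_mul, abs_of_pos hu, abs_of_nonneg h4]
  have a1 : u * |TZ u 0 - Real.sqrt Real.pi / u| ≤ 6 * EE K := by
    calc u * |TZ u 0 - Real.sqrt Real.pi / u| ≤ u * (6 * u^5 * EE K) := mul_le_mul_of_nonneg_left h1 hu.le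
      _ = u^6 * (6 * EE K) := by ring
      _ ≤ 1 * (6 * EE K) := mul_le_mul_of_nonneg_right (pow_le_one₀ hu.le hu1) (by have := EE_pos K; positivity)
      _ = _ := by ring
  have a2 : u * tl n u 0 ≤ 16 * XX n u ^ 2 := by
    calc u * tl n u 0 ≤ u * (2 * (8/u * XX n u ^ 2)) := by
          apply mul_le_mul_of_nonneg_left _ hu.le; linarith
      _ = _ := by field_simp; ring
  linarith

lemma T_zero_eq (n : ℕ) (u : ℝ) : T n u 0 = 1 + 2 * ∑ k ∈ range n, g u (k+1) := by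
  unfold T
  rw [Finset.sum_range_succ']
  have e1 : ∀ k : ℕ, g u (0 - ((k+1 : ℕ) : ℝ)) = g u ((k:ℝ)+1) := by
    intro k; rw [show (0:ℝ) - ((k+1 : ℕ) : ℝ) = -((k:ℝ)+1) by push_cast; ring, g_neg]
  have e2 : ∀ k : ℕ, g u (0 + ((k:ℝ)+1)) = g u ((k:ℝ)+1) := by intro k; rw [zero_add]
  simp only [e1, e2]
  have : g u (0 - ((0:ℕ):ℝ)) = 1 := by simp [g_zero]
  rw [this]; ring

/-- derivative of `u * T n u 0` -/
def W' (n : ℕ) (u : ℝ) : ℝ := 1 + 2 * ∑ k ∈ range n, (1 - 2 * u^2 * (k+1)^2) * g u (k+1)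

lemma hasDerivAt_g (u z : ℝ) : HasDerivAt (fun u => g u z) (-(2 * u * z^2) * g u z) u := by
  unfold g
  have h : HasDerivAt (fun u : ℝ => -(u^2*z^2)) (-(2*u*z^2)) u := by
    have := ((hasDerivAt_pow 2 u).mul_const (z^2)).fun_neg
    simpa using this
  refine h.exp.congr_deriv ?_
  ring

lemma hasDerivAt_uT (n : ℕ) (u : ℝ) : HasDerivAt (fun u => u * T n u 0) (W' n u) u := by
  have e : (fun u => u * T n u 0) = fun u => u * (1 + 2 * ∑ k ∈ range n, g u ((k:ℝ)+1)) := by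
    ext v; rw [T_zero_eq]
  rw [e]
  have h1 : HasDerivAt (fun u : ℝ => ∑ k ∈ range n, g u ((k:ℝ)+1)) (∑ k ∈ range n, (-(2 * u * ((k:ℝ)+1)^2) * g u ((k:ℝ)+1))) u := by
    exact HasDerivAt.fun_sum (u := range n) (A := fun (k:ℕ) (u:ℝ) => g u ((k:ℝ)+1)) (A' := fun k => -(2 * u * ((k:ℝ)+1)^2) * g u ((k:ℝ)+1)) (x := u) (fun k _ => hasDerivAt_g u ((k:ℝ)+1))
  have h2 := ((hasDerivAt_id' u).fun_mul ((h1.const_mul 2).const_add 1))
  have h3 : W' n u = 1 * (1 + 2 * ∑ k ∈ range n, g u ((k:ℝ)+1)) + u * (2 * ∑ k ∈ range n, (-(2 * u * ((k:ℝ)+1)^2) * g u ((k:ℝ)+1))) := by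
    unfold W'
    have : ∑ k ∈ range n, (1 - 2 * u^2 * ((k:ℝ)+1)^2) * g u ((k:ℝ)+1) = ∑ k ∈ range n, g u ((k:ℝ)+1) + u * ∑ k ∈ range n, (-(2 * u * ((k:ℝ)+1)^2) * g u ((k:ℝ)+1)) := by
      rw [Finset.mul_sum, ← Finset.sum_add_distrib]
      exact Finset.sum_congr rfl (fun k _ => by ring)
    rw [this]; ring
  rw [h3]
  exact h2

lemma T2_eq_W' (n : ℕ) (u : ℝ) : T2 n u = -(2 * u^2) * W' n u := by
  unfold T2 W' g2
  rw [mul_add, mul_left_comm, Finset.mul_sum (a := -(2*u^2))]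
  have e0 : (4 * u^4 * 0^2 - 2 * u^2) * g u 0 = -(2*u^2) * 1 := by rw [g_zero]; ring
  rw [e0]
  congr 2
  exact Finset.sum_congr rfl (fun k _ => by ring)

lemma hasDerivAt_F (n : ℕ) (u : ℝ) :
    HasDerivAt (fun u => -(2/3) * (u * T n u 0)^3) (T n u 0 ^ 2 * T2 n u) u := by
  have h := ((hasDerivAt_uT n u).fun_pow 3).const_mul (-(2/3 : ℝ))
  rw [T2_eq_W']
  refine h.congr_deriv ?_
  push_cast; ring

@[fun_prop]
lemma continuous_g (z : ℝ) : Continuous fun u => g u z := by unfold g; fun_prop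

lemma continuous_T (n : ℕ) (y : ℝ) : Continuous fun u => T n u y := by
  unfold T; fun_prop

lemma continuous_T2 (n : ℕ) : Continuous fun u => T2 n u := by
  unfold T2 g2; fun_prop

lemma continuous_P3 (n : ℕ) (y : Fin 3 → ℝ) : Continuous fun u => P3 n u y := by
  unfold P3
  exact ((continuous_T n _).mul (continuous_T n _)).mul (continuous_T n _)

lemma continuous_XX (n : ℕ) : Continuous fun u => XX n u := by
  unfold XX; fun_prop

lemma integral_T2 (n : ℕ) (b : ℝ) : ∫ u in (0:ℝ)..b, T n u 0 ^ 2 * T2 n u = -(2/3) * (b * T n b 0)^3 := by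
  rw [intervalIntegral.integral_eq_sub_of_hasDerivAt (fun u _ => hasDerivAt_F n u)
    (Continuous.intervalIntegrable (((continuous_T n 0).pow 2).mul (continuous_T2 n)) _ _)]
  simp

lemma integral_uXX {n : ℕ} (hn : 0 < n) (b : ℝ) : ∫ u in (0:ℝ)..b, u * XX n u ^ 2 ≤ 8/(3*n^2) := by
  have hn' : (0:ℝ) < n := by exact_mod_cast hn
  have hd : ∀ u : ℝ, HasDerivAt (fun u => -(8/(3*(n:ℝ)^2)) * Real.exp (-(3/16*(u^2*n^2)))) (u * XX n u ^ 2) u := by
    intro u
    have h : HasDerivAt (fun u : ℝ => -(3/16*(u^2*(n:ℝ)^2))) (-(3/16*((2*u)*(n:ℝ)^2))) u := by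
      have := (((hasDerivAt_pow 2 u).mul_const ((n:ℝ)^2)).const_mul (3/16:ℝ)).fun_neg
      simpa using this
    have h2 := (h.exp).const_mul (-(8/(3*(n:ℝ)^2)))
    rw [XX_sq]
    refine h2.congr_deriv ?_
    field_simp; ring
  rw [intervalIntegral.integral_eq_sub_of_hasDerivAt (fun u _ => hd u)
    (Continuous.intervalIntegrable (continuous_id.mul ((continuous_XX n).pow 2)) _ _)]
  have h1 : 0 < Real.exp (-(3/16*(b^2*(n:ℝ)^2))) := Real.exp_pos _
  have h2 : (0:ℝ) < 8/(3*(n:ℝ)^2) := by positivity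
  have h3 : Real.exp (-(3/16*((0:ℝ)^2*(n:ℝ)^2))) = 1 := by simp
  rw [h3]
  nlinarith [mul_pos h2 h1]

lemma XXb_le {K : ℝ} {n : ℕ} (hn : 0 < n) (hK : 1 ≤ K) : XX n (1/K) ^ 2 ≤ 16/3 * (K^2/n^2) := by
  have hn' : (0:ℝ) < n := by exact_mod_cast hn
  have hK0 : 0 < K := by linarith
  rw [XX_sq]
  have hx : 0 < 3/16*((1/K)^2*(n:ℝ)^2) := by positivity
  have h := Real.add_one_le_exp (3/16*((1/K)^2*(n:ℝ)^2))
  rw [Real.exp_neg, inv_eq_one_div]
  have h2 : 1 / Real.exp (3/16*((1/K)^2*(n:ℝ)^2)) ≤ 1 / (3/16*((1/K)^2*(n:ℝ)^2)) :=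
    one_div_le_one_div_of_le hx (by linarith)
  refine h2.trans (le_of_eq ?_)
  field_simp

/-- scaled potential `U` (up to the factor `-λ/s`) -/
def UU (n : ℕ) (K : ℝ) (y : Fin 3 → ℝ) : ℝ :=
  2 / Real.sqrt Real.pi * (∫ u in (0:ℝ)..(1/K), P3 n u y) + 1/K / Real.sqrt Real.pi * P3 n (1/K) y

/-- the error of the quadratic expansion at parameter `u` -/
def er (n : ℕ) (u : ℝ) (y : Fin 3 → ℝ) : ℝ :=
  P3 n u y - T n u 0 ^ 3 - T n u 0 ^ 2 * T2 n u * ((y 0^2 + y 1^2 + y 2^2)/2)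

lemma continuous_er (n : ℕ) (y : Fin 3 → ℝ) : Continuous fun u => er n u y := by
  unfold er
  exact ((continuous_P3 n y).sub ((continuous_T n 0).pow 3)).sub
    ((((continuous_T n 0).pow 2).mul (continuous_T2 n)).mul continuous_const)

lemma integral_er {K ρ : ℝ} {n : ℕ} {y : Fin 3 → ℝ} (hK : 1 ≤ K) (hρ : 1 ≤ ρ)
    (hn : 4 * ρ ≤ n) (hy : ∀ c, |y c| ≤ ρ) :
    |∫ u in (0:ℝ)..(1/K), er n u y| ≤ 40000000000000 * (3 * (ρ^4/n^2) + ρ^6 * EE K) := by
  have hK0 : 0 < K := by linarith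
  have hn0 : 0 < n := by
    rcases Nat.eq_zero_or_pos n with h | h
    · subst h; norm_num at hn; linarith
    · exact h
  have hn' : (0:ℝ) < n := by exact_mod_cast hn0
  have hE := EE_pos K
  have hb : (0:ℝ) ≤ 1/K := by positivity
  have hb1 : 1/K ≤ 1 := by rw [div_le_one hK0]; exact hK
  rw [← Real.norm_eq_abs]
  have hc : Continuous fun u : ℝ => 40000000000000 * (ρ^4 * (u * XX n u ^ 2) + ρ^6 * EE K) := by
    have := continuous_XX n
    fun_prop
  have h1 := intervalIntegral.norm_integral_le_of_norm_le (f := fun u => er n u y) (μ := MeasureTheory.volume)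
    (g := fun u : ℝ => 40000000000000 * (ρ^4 * (u * XX n u ^ 2) + ρ^6 * EE K)) hb
    (Filter.Eventually.of_forall (fun u hu => ?_)) (hc.intervalIntegrable _ _)
  · refine h1.trans ?_
    rw [intervalIntegral.integral_const_mul]
    apply mul_le_mul_of_nonneg_left _ (by norm_num)
    rw [intervalIntegral.integral_add, intervalIntegral.integral_const_mul, intervalIntegral.integral_const]
    · have h2 := integral_uXX hn0 (1/K)
      have h3 : ρ^4 * (∫ u in (0:ℝ)..(1/K), u * XX n u ^ 2) ≤ ρ^4 * (8/(3*n^2)) :=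
        mul_le_mul_of_nonneg_left h2 (by positivity)
      have h4 : ρ^4 * (8/(3*(n:ℝ)^2)) ≤ 3 * (ρ^4/n^2) := by
        have : 0 ≤ ρ^4/(n:ℝ)^2 := by positivity
        have e : ρ^4 * (8/(3*(n:ℝ)^2)) = 8/3 * (ρ^4/n^2) := by field_simp
        rw [e]; linarith
      have h5 : (1/K - 0) • (ρ^6 * EE K) ≤ ρ^6 * EE K := by
        rw [smul_eq_mul, sub_zero]
        have : 0 ≤ ρ^6 * EE K := by positivity
        nlinarith
      linarith
    · apply Continuous.intervalIntegrable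
      have := continuous_XX n
      fun_prop
    · exact continuous_const.intervalIntegrable _ _
  · rw [Real.norm_eq_abs]
    have hu0 : 0 < u := hu.1
    have huK : u * K ≤ 1 := by
      have := hu.2
      rw [le_div_iff₀ hK0] at this; exact this
    exact E1_bound hu0 hK huK hρ hn hy

lemma P3_zero (n : ℕ) (u : ℝ) : P3 n u (fun _ => 0) = T n u 0 ^ 3 := by unfold P3; ring

lemma near_identity (n : ℕ) (K : ℝ) (y : Fin 3 → ℝ) :
    UU n K (fun _ => 0) - UU n K y - 2 * Real.pi / 3 * (y 0^2 + y 1^2 + y 2^2) =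
      2 / Real.sqrt Real.pi * (2/3) * ((y 0^2 + y 1^2 + y 2^2)/2) * ((1/K * T n (1/K) 0)^3 - Real.sqrt Real.pi ^ 3)
      - 2 / Real.sqrt Real.pi * (∫ u in (0:ℝ)..(1/K), er n u y)
      - 1/K / Real.sqrt Real.pi * (T n (1/K) 0 ^ 2 * T2 n (1/K) * ((y 0^2 + y 1^2 + y 2^2)/2))
      - 1/K / Real.sqrt Real.pi * er n (1/K) y := by
  have hp : 0 < Real.sqrt Real.pi := Real.sqrt_pos.mpr Real.pi_pos
  have e1 : ∀ u, P3 n u y = T n u 0 ^ 3 + T n u 0 ^ 2 * T2 n u * ((y 0^2 + y 1^2 + y 2^2)/2) + er n u y := by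
    intro u; unfold er; ring
  have hI : ∫ u in (0:ℝ)..(1/K), P3 n u y = (∫ u in (0:ℝ)..(1/K), T n u 0 ^ 3) +
      (-(2/3) * (1/K * T n (1/K) 0)^3) * ((y 0^2 + y 1^2 + y 2^2)/2) + ∫ u in (0:ℝ)..(1/K), er n u y := by
    have c1 : Continuous fun u => T n u 0 ^ 3 := (continuous_T n 0).pow 3
    have c2 : Continuous fun u => T n u 0 ^ 2 * T2 n u * ((y 0^2 + y 1^2 + y 2^2)/2) :=
      (((continuous_T n 0).pow 2).mul (continuous_T2 n)).mul continuous_const
    rw [intervalIntegral.integral_congr (g := fun u => T n u 0 ^ 3 + T n u 0 ^ 2 * T2 n u * ((y 0^2 + y 1^2 + y 2^2)/2) + er n u y) (fun u _ => e1 u)]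
    rw [intervalIntegral.integral_add ((Continuous.fun_add c1 c2).intervalIntegrable _ _) ((continuous_er n y).intervalIntegrable _ _),
      intervalIntegral.integral_add (c1.intervalIntegrable _ _) (c2.intervalIntegrable _ _),
      intervalIntegral.integral_mul_const, integral_T2]
  unfold UU
  simp only [P3_zero]
  rw [hI, e1 (1/K)]
  have hpi : Real.pi = Real.sqrt Real.pi ^ 2 := (Real.sq_sqrt Real.pi_pos.le).symm
  have e2 : 2 * Real.pi / 3 * (y 0^2 + y 1^2 + y 2^2) = 2 * Real.sqrt Real.pi ^ 2 / 3 * (y 0^2 + y 1^2 + y 2^2) := by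
    rw [← hpi]
  rw [e2]
  generalize Real.sqrt Real.pi = p at *
  generalize (∫ u in (0:ℝ)..(1/K), T n u 0 ^ 3) = I1
  generalize (∫ u in (0:ℝ)..(1/K), er n u y) = I2
  generalize er n (1/K) y = e3
  generalize T2 n (1/K) = t2
  generalize T n (1/K) 0 = t0
  generalize 1/K = b
  field_simp
  ring

end

end Crest.Agent.R338.GS
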