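import Crest.Agent.R338.GS5

/-!
Row 338, node II.C.3/II.C.4, file 6: near theorem, monotonicity, far theorem (scaled units).
-/

set_option autoImplicit false
open Real Finset
open scoped BigOperators

namespace Crest.Agent.R338.GS

noncomputable section

lemma cube_diff {m p d : ℝ} (hm : 0 ≤ m) (hm2 : m ≤ 2) (hp : 0 ≤ p) (hp2 : p ≤ 2) (h : |m - p| ≤ d) :
    |m^3 - p^3| ≤ 12 * d := by
  have e : m^3 - p^3 = (m - p) * (m^2 + m*p + p^2) := by ring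
  rw [e, abs_mul, abs_of_nonneg (by positivity : 0 ≤ m^2+m*p+p^2)]
  have h1 : m^2 + m*p + p^2 ≤ 12 := by nlinarith
  have h2 : 0 ≤ m^2 + m*p + p^2 := by positivity
  calc |m-p| * (m^2+m*p+p^2) ≤ |m-p| * 12 := mul_le_mul_of_nonneg_left h1 (abs_nonneg _)
    _ ≤ d * 12 := by linarith
    _ = _ := by ring

section
variable {K ρ : ℝ} {n : ℕ} {y : Fin 3 → ℝ}

lemma sq_sum_le (hy : ∀ c, |y c| ≤ ρ) : (y 0^2 + y 1^2 + y 2^2)/2 ≤ 3/2 * ρ^2 := by
  have h : ∀ c, y c ^ 2 ≤ ρ^2 := fun c => by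
    rw [← sq_abs]; exact pow_le_pow_left₀ (abs_nonneg _) (hy c) 2
  linarith [h 0, h 1, h 2]

lemma XXb_le' (hK : 1 ≤ K) (hKρ : K ≤ ρ) (hn : 0 < n) : ρ^2 * XX n (1/K)^2 ≤ 16/3 * (ρ^4/n^2) := by
  have h := XXb_le hn hK
  have hn' : (0:ℝ) < n := by exact_mod_cast hn
  have hK2 : K^2 ≤ ρ^2 := pow_le_pow_left₀ (by linarith) hKρ 2
  calc ρ^2 * XX n (1/K)^2 ≤ ρ^2 * (16/3 * (K^2/n^2)) := mul_le_mul_of_nonneg_left h (by positivity)
    _ ≤ ρ^2 * (16/3 * (ρ^2/n^2)) := by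
      apply mul_le_mul_of_nonneg_left _ (by positivity)
      apply mul_le_mul_of_nonneg_left _ (by norm_num)
      exact div_le_div_of_nonneg_right hK2 (by positivity)
    _ = _ := by ring

lemma inv_sqrt_pi_le : 1 / Real.sqrt Real.pi ≤ 1 := by
  rw [div_le_one (Real.sqrt_pos.mpr Real.pi_pos)]; linarith [sqrt_pi_ge]

lemma n_pos (hρ : 1 ≤ ρ) (hn : 4 * ρ ≤ n) : 0 < n := by
  rcases Nat.eq_zero_or_pos n with h | h
  · subst h; norm_num at hn; linarith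
  · exact h

lemma termA (hK : 1 ≤ K) (hKρ : K ≤ ρ) (hn : 4 * ρ ≤ n) (hy : ∀ c, |y c| ≤ ρ) :
    |2 / Real.sqrt Real.pi * (2/3) * ((y 0^2 + y 1^2 + y 2^2)/2) * ((1/K * T n (1/K) 0)^3 - Real.sqrt Real.pi ^ 3)| ≤
      1536 * (ρ^4/n^2) + 108 * (ρ^6 * EE K) := by
  have hρ : 1 ≤ ρ := hK.trans hKρ
  have hn0 := n_pos hρ hn
  have hn' : (0:ℝ) < n := by exact_mod_cast hn0
  have hK0 : 0 < K := by linarith
  have hb : 0 < 1/K := by positivity
  have hbK : 1/K * K ≤ 1 := le_of_eq (by field_simp)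
  have hb1 := u_le_one hb hK hbK
  have hE := EE_pos K
  have hm0 : 0 ≤ 1/K * T n (1/K) 0 := mul_nonneg hb.le (T_nonneg _ _ _)
  have hm2 : 1/K * T n (1/K) 0 ≤ 2 := by
    have := mul_le_mul_of_nonneg_left (T_le hb hb1 n 0) hb.le
    refine this.trans (le_of_eq ?_); field_simp
  have h1 := cube_diff hm0 hm2 (Real.sqrt_nonneg Real.pi) (by linarith [sqrt_pi_le]) (T_zero_close hb hK hbK n)
  have hQ0 : 0 ≤ (y 0^2 + y 1^2 + y 2^2)/2 := by positivity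
  have hQ := sq_sum_le hy
  have hp : 0 < Real.sqrt Real.pi := Real.sqrt_pos.mpr Real.pi_pos
  have hp' : 2 / Real.sqrt Real.pi * (2/3) ≤ 1 := by
    have : 2 / Real.sqrt Real.pi ≤ 3/2 := by
      rw [div_le_iff₀ hp]; linarith [sqrt_pi_ge]
    linarith
  have hpp : 0 ≤ 2 / Real.sqrt Real.pi * (2/3) := by positivity
  rw [abs_mul, abs_of_nonneg (mul_nonneg hpp hQ0)]
  have hX := XXb_le' hK hKρ hn0
  have hρ2 : ρ^2 ≤ ρ^6 := pow_le_pow_right₀ hρ (by norm_num)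
  calc 2 / Real.sqrt Real.pi * (2/3) * ((y 0^2 + y 1^2 + y 2^2)/2) * |(1/K * T n (1/K) 0)^3 - Real.sqrt Real.pi ^ 3|
      ≤ (1 * (3/2 * ρ^2)) * (12 * (6 * EE K + 16 * XX n (1/K) ^ 2)) := by
        apply mul_le_mul (mul_le_mul hp' hQ hQ0 (by norm_num)) h1 (abs_nonneg _) (by positivity)
    _ = 288 * (ρ^2 * XX n (1/K)^2) + 108 * (ρ^2 * EE K) := by ring
    _ ≤ 288 * (16/3 * (ρ^4/n^2)) + 108 * (ρ^6 * EE K) := by
        have := mul_le_mul_of_nonneg_right hρ2 hE.le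
        linarith
    _ = _ := by ring

lemma termB (hK : 1 ≤ K) (hKρ : K ≤ ρ) (hn : 4 * ρ ≤ n) (hy : ∀ c, |y c| ≤ ρ) :
    |2 / Real.sqrt Real.pi * (∫ u in (0:ℝ)..(1/K), er n u y)| ≤
      240000000000000 * (ρ^4/n^2) + 80000000000000 * (ρ^6 * EE K) := by
  have hρ : 1 ≤ ρ := hK.trans hKρ
  have hp : 0 < Real.sqrt Real.pi := Real.sqrt_pos.mpr Real.pi_pos
  have h := integral_er hK hρ hn hy
  rw [abs_mul, abs_of_pos (by positivity)]
  have h2 : 2 / Real.sqrt Real.pi ≤ 2 := by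
    rw [div_le_iff₀ hp]; linarith [sqrt_pi_ge]
  calc 2 / Real.sqrt Real.pi * |∫ u in (0:ℝ)..(1/K), er n u y| ≤ 2 * (40000000000000 * (3 * (ρ^4/n^2) + ρ^6 * EE K)) :=
        mul_le_mul h2 h (abs_nonneg _) (by norm_num)
    _ = _ := by ring

lemma termC (hK : 1 ≤ K) (hKρ : K ≤ ρ) (hn : 4 * ρ ≤ n) (hy : ∀ c, |y c| ≤ ρ) :
    |1/K / Real.sqrt Real.pi * (T n (1/K) 0 ^ 2 * T2 n (1/K) * ((y 0^2 + y 1^2 + y 2^2)/2))| ≤
      4096 * (ρ^4/n^2) + 98460 * (ρ^6 * EE K) := by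
  have hρ : 1 ≤ ρ := hK.trans hKρ
  have hn0 := n_pos hρ hn
  have hK0 : 0 < K := by linarith
  have hb : 0 < 1/K := by positivity
  have hbK : 1/K * K ≤ 1 := le_of_eq (by field_simp)
  have hb1 := u_le_one hb hK hbK
  have hE := EE_pos K
  have hQ0 : 0 ≤ (y 0^2 + y 1^2 + y 2^2)/2 := by positivity
  have hQ := sq_sum_le hy
  have hX := XXb_le' hK hKρ hn0
  have hρ2 : ρ^2 ≤ ρ^6 := pow_le_pow_right₀ hρ (by norm_num)
  have h2 := T2_bound (n := n) hb hK hbK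
  have hT := T_le hb hb1 n 0
  have hT0 := T_nonneg n (1/K) 0
  generalize 1/K = b at *
  have hp0 : 0 < Real.sqrt Real.pi := Real.sqrt_pos.mpr Real.pi_pos
  have e : b / Real.sqrt Real.pi = b * (1 / Real.sqrt Real.pi) := by ring
  have e3 : |b * (1 / Real.sqrt Real.pi) * (T n b 0 ^ 2 * T2 n b * ((y 0^2 + y 1^2 + y 2^2)/2))| =
      b * (1 / Real.sqrt Real.pi) * (T n b 0 ^ 2 * |T2 n b| * ((y 0^2 + y 1^2 + y 2^2)/2)) := by
    rw [abs_mul, abs_of_nonneg (by positivity : 0 ≤ b * (1 / Real.sqrt Real.pi)), abs_mul, abs_mul,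
      abs_of_nonneg (by positivity : 0 ≤ T n b 0 ^ 2), abs_of_nonneg hQ0]
  rw [e, e3]
  have hT2 : T n b 0 ^ 2 ≤ (2/b)^2 := pow_le_pow_left₀ hT0 hT 2
  have hb4 : b^4 ≤ 1 := pow_le_one₀ hb.le hb1
  calc b * (1 / Real.sqrt Real.pi) * (T n b 0 ^ 2 * |T2 n b| * ((y 0^2 + y 1^2 + y 2^2)/2))
      ≤ (b * 1) * (((2/b)^2 * (16410 * b^5 * EE K + 128 * b * XX n b ^ 2)) * (3/2 * ρ^2)) := by
        apply mul_le_mul (mul_le_mul_of_nonneg_left inv_sqrt_pi_le hb.le) _ (by positivity) (by positivity)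
        apply mul_le_mul _ hQ hQ0 (by positivity)
        exact mul_le_mul hT2 h2 (abs_nonneg _) (by positivity)
    _ = 98460 * (b^4 * (ρ^2 * EE K)) + 768 * (ρ^2 * XX n b^2) := by field_simp; ring
    _ ≤ 98460 * (ρ^6 * EE K) + 768 * (16/3 * (ρ^4/n^2)) := by
        have h3 := mul_le_mul_of_nonneg_right hρ2 hE.le
        have h4 : b^4 * (ρ^2 * EE K) ≤ 1 * (ρ^2 * EE K) := mul_le_mul_of_nonneg_right hb4 (by positivity)
        linarith
    _ = _ := by ring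

lemma termD (hK : 1 ≤ K) (hKρ : K ≤ ρ) (hn : 4 * ρ ≤ n) (hy : ∀ c, |y c| ≤ ρ) :
    |1/K / Real.sqrt Real.pi * er n (1/K) y| ≤
      240000000000000 * (ρ^4/n^2) + 40000000000000 * (ρ^6 * EE K) := by
  have hρ : 1 ≤ ρ := hK.trans hKρ
  have hn0 := n_pos hρ hn
  have hn' : (0:ℝ) < n := by exact_mod_cast hn0
  have hK0 : 0 < K := by linarith
  have hb : 0 < 1/K := by positivity
  have hbK : 1/K * K ≤ 1 := le_of_eq (by field_simp)
  have hb1 := u_le_one hb hK hbK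
  have hE := EE_pos K
  have hX := XXb_le' hK hKρ hn0
  have h := E1_bound hb hK hbK hρ hn hy
  change |er n (1/K) y| ≤ _ at h
  have e : 1/K / Real.sqrt Real.pi = 1/K * (1 / Real.sqrt Real.pi) := by ring
  rw [e, abs_mul, abs_of_nonneg (by positivity : 0 ≤ 1/K * (1 / Real.sqrt Real.pi))]
  have h1 : 1/K * (1 / Real.sqrt Real.pi) ≤ 1/K := by
    have := mul_le_mul_of_nonneg_left inv_sqrt_pi_le hb.le
    linarith
  have h2 : ρ^4 * (1/K * (1/K * XX n (1/K)^2)) ≤ 16/3 * (ρ^4/n^2) := by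
    have h3 := XXb_le hn0 hK
    have h4 : 1/K * (1/K * XX n (1/K)^2) ≤ 16/3 * (1/n^2) := by
      calc 1/K * (1/K * XX n (1/K)^2) = (1/K)^2 * XX n (1/K)^2 := by ring
        _ ≤ (1/K)^2 * (16/3 * (K^2/n^2)) := mul_le_mul_of_nonneg_left h3 (by positivity)
        _ = _ := by field_simp
    have := mul_le_mul_of_nonneg_left h4 (by positivity : 0 ≤ ρ^4)
    refine this.trans (le_of_eq ?_); ring
  calc 1/K * (1 / Real.sqrt Real.pi) * |er n (1/K) y| ≤ 1/K * (40000000000000 * (ρ^4 * (1/K * XX n (1/K) ^ 2) + ρ^6 * EE K)) :=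
        mul_le_mul h1 h (abs_nonneg _) hb.le
    _ = 40000000000000 * (ρ^4 * (1/K * (1/K * XX n (1/K)^2))) + 40000000000000 * (1/K * (ρ^6 * EE K)) := by ring
    _ ≤ 40000000000000 * (16/3 * (ρ^4/n^2)) + 40000000000000 * (ρ^6 * EE K) := by
        have : 1/K * (ρ^6 * EE K) ≤ 1 * (ρ^6 * EE K) := mul_le_mul_of_nonneg_right hb1 (by positivity)
        linarith
    _ ≤ _ := by
        have : 0 ≤ ρ^4/(n:ℝ)^2 := by positivity
        linarith

/-- constant of the near theorem -/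
def CG : ℝ := 1000000000000000

theorem near (hK : 1 ≤ K) (hKρ : K ≤ ρ) (hn : 4 * ρ ≤ n) (hy : ∀ c, |y c| ≤ ρ) :
    |UU n K (fun _ => 0) - UU n K y - 2 * Real.pi / 3 * (y 0^2 + y 1^2 + y 2^2)| ≤
      CG * (ρ^4/n^2 + ρ^6 * EE K) := by
  have hρ : 1 ≤ ρ := hK.trans hKρ
  have hn0 := n_pos hρ hn
  have hn' : (0:ℝ) < n := by exact_mod_cast hn0
  have hE := EE_pos K
  rw [near_identity]
  have hA := termA hK hKρ hn hy
  have hB := termB hK hKρ hn hy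
  have hC := termC hK hKρ hn hy
  have hD := termD hK hKρ hn hy
  have hx : 0 ≤ ρ^4/(n:ℝ)^2 := by positivity
  have hz : 0 ≤ ρ^6 * EE K := by positivity
  generalize 2 / Real.sqrt Real.pi * (2/3) * ((y 0^2 + y 1^2 + y 2^2)/2) * ((1/K * T n (1/K) 0)^3 - Real.sqrt Real.pi ^ 3) = tA at *
  generalize 2 / Real.sqrt Real.pi * (∫ u in (0:ℝ)..(1/K), er n u y) = tB at *
  generalize 1/K / Real.sqrt Real.pi * (T n (1/K) 0 ^ 2 * T2 n (1/K) * ((y 0^2 + y 1^2 + y 2^2)/2)) = tC at *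
  generalize 1/K / Real.sqrt Real.pi * er n (1/K) y = tD at *
  generalize ρ^4/(n:ℝ)^2 = x1 at *
  generalize ρ^6 * EE K = x2 at *
  unfold CG
  have a1 := abs_sub (tA - tB - tC) tD
  have a2 := abs_sub (tA - tB) tC
  have a3 := abs_sub tA tB
  linarith

end

end

end Crest.Agent.R338.GS
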