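import Crest.Agent.R338.GS6

/-!
Row 338, node II.C.3/II.C.4, file 7: monotonicity in the distance from the centre, far theorem,
bound of the central value (scaled units).
-/

set_option autoImplicit false
open Real Finset
open scoped BigOperators

namespace Crest.Agent.R338.GS

noncomputable section

lemma T_neg (n : ℕ) (u y : ℝ) : T n u (-y) = T n u y := by
  unfold T
  rw [Finset.sum_range_succ', Finset.sum_range_succ' (fun k : ℕ => g u (y - k))]
  have e1 : ∀ k : ℕ, g u (-y - ((k+1 : ℕ) : ℝ)) = g u (y + ((k:ℝ)+1)) := by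
    intro k; rw [show (-y) - ((k+1 : ℕ) : ℝ) = -(y + ((k:ℝ)+1)) by push_cast; ring, g_neg]
  have e2 : ∀ k : ℕ, g u (-y + ((k:ℝ)+1)) = g u (y - ((k+1 : ℕ) : ℝ)) := by
    intro k; rw [show (-y) + ((k:ℝ)+1) = -(y - ((k+1 : ℕ) : ℝ)) by push_cast; ring, g_neg]
  have e3 : g u (-y - ((0:ℕ):ℝ)) = g u (y - ((0:ℕ):ℝ)) := by
    rw [show (-y) - ((0:ℕ) : ℝ) = -(y - ((0:ℕ):ℝ)) by push_cast; ring, g_neg]
  simp only [e1, e2, e3]
  ring

lemma T_abs (n : ℕ) (u y : ℝ) : T n u |y| = T n u y := by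
  rcases abs_choice y with h | h <;> rw [h]
  exact T_neg n u y

lemma T_step (n : ℕ) (u y : ℝ) : T n u (y + 1) = T n u y + g u (y + (n+1)) - g u (y - n) := by
  unfold T
  rw [Finset.sum_range_succ' (fun k : ℕ => g u (y + 1 - k)), Finset.sum_range_succ (fun k : ℕ => g u (y - k))]
  have h := Finset.sum_range_succ (fun k : ℕ => g u (y + (k:ℝ))) n
  have h' := Finset.sum_range_succ' (fun k : ℕ => g u (y + (k:ℝ))) n
  have e1 : ∀ k : ℕ, g u (y + 1 - ((k+1 : ℕ) : ℝ)) = g u (y - k) := by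
    intro k; congr 1; push_cast; ring
  have e2 : g u (y + 1 - ((0:ℕ):ℝ)) = g u (y + 1) := by simp
  simp only [e1, e2]
  -- remaining: Σ_{k<n} g(y+1+(k+1)) + g(y+1) = Σ_{k<n} g(y+(k+1)) + g(y+(n+1))
  have h3 : ∑ k ∈ range n, g u (y + 1 + ((k:ℝ)+1)) + g u (y + 1) = ∑ k ∈ range n, g u (y + ((k:ℝ)+1)) + g u (y + ((n:ℝ)+1)) := by
    have a := Finset.sum_range_succ (fun k : ℕ => g u (y + ((k:ℝ)+1))) n
    have b := Finset.sum_range_succ' (fun k : ℕ => g u (y + ((k:ℝ)+1))) n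
    have e3 : ∀ k : ℕ, g u (y + (((k+1 : ℕ):ℝ)+1)) = g u (y + 1 + ((k:ℝ)+1)) := by
      intro k; congr 1; push_cast; ring
    have e4 : g u (y + (((0:ℕ):ℝ)+1)) = g u (y + 1) := by simp
    simp only [e3, e4] at b
    linarith
  linarith

lemma T_step_le (n : ℕ) (u : ℝ) {y : ℝ} (hy : 0 ≤ y) : T n u (y + 1) ≤ T n u y := by
  rw [T_step]
  have : g u (y + (n+1)) ≤ g u (y - n) := by
    unfold g; apply Real.exp_le_exp.mpr
    have hn : (0:ℝ) ≤ n := Nat.cast_nonneg n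
    have : (y - n)^2 ≤ (y + (n+1))^2 := by nlinarith [mul_nonneg hy hn]
    have := mul_le_mul_of_nonneg_left this (sq_nonneg u)
    linarith
  linarith

lemma T_add_nat_le (n : ℕ) (u : ℝ) {y : ℝ} (hy : 0 ≤ y) (m : ℕ) : T n u (y + m) ≤ T n u y := by
  induction m with
  | zero => simp
  | succ m ih =>
    have := T_step_le n u (y := y + m) (by positivity)
    push_cast
    rw [← add_assoc]
    exact this.trans ih

/-- a representative in `[r, r+1)` with larger `T`, for all parameters simultaneously -/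
lemma T_reduce (n : ℕ) {y r : ℝ} (hr : 0 ≤ r) (hy : r ≤ |y|) :
    ∃ z, r ≤ z ∧ z < r + 1 ∧ ∀ u, T n u y ≤ T n u z := by
  have h0 : 0 ≤ |y| - r := by linarith
  refine ⟨|y| - ⌊|y| - r⌋₊, ?_, ?_, fun u => ?_⟩
  · have := Nat.floor_le h0; linarith
  · have := Nat.lt_floor_add_one (|y| - r); linarith
  · have h1 := Nat.floor_le h0
    have h := T_add_nat_le n u (y := |y| - ⌊|y| - r⌋₊) (by linarith) ⌊|y| - r⌋₊
    rw [sub_add_cancel, T_abs] at h
    exact h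

lemma UU_mono {n : ℕ} {K : ℝ} (hK : 0 < K) {y z : Fin 3 → ℝ} (h : ∀ u c, T n u (y c) ≤ T n u (z c)) :
    UU n K y ≤ UU n K z := by
  have hP : ∀ u, P3 n u y ≤ P3 n u z := by
    intro u
    unfold P3
    have n0 := T_nonneg n u
    exact mul_le_mul (mul_le_mul (h u 0) (h u 1) (n0 _) (n0 _)) (h u 2) (n0 _) (mul_nonneg (n0 _) (n0 _))
  have hp : 0 < Real.sqrt Real.pi := Real.sqrt_pos.mpr Real.pi_pos
  unfold UU
  refine add_le_add (mul_le_mul_of_nonneg_left ?_ (by positivity)) (mul_le_mul_of_nonneg_left (hP _) (by positivity))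
  exact intervalIntegral.integral_mono_on (by positivity) ((continuous_P3 n y).intervalIntegrable _ _)
    ((continuous_P3 n z).intervalIntegrable _ _) (fun u _ => hP u)

theorem far {K r : ℝ} {n : ℕ} {y : Fin 3 → ℝ} (hK : 1 ≤ K) (hr : 0 ≤ r) (hKr : K ≤ r + 1) (hn : 4 * (r+1) ≤ n)
    (hy : ∃ c, r ≤ |y c|) :
    2 * Real.pi / 3 * r^2 - CG * ((r+1)^4/n^2 + (r+1)^6 * EE K) ≤ UU n K (fun _ => 0) - UU n K y := by
  obtain ⟨c0, hc0⟩ := hy
  have hex : ∀ c, ∃ z, 0 ≤ z ∧ z < r + 1 ∧ (c = c0 → r ≤ z) ∧ ∀ u, T n u (y c) ≤ T n u z := by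
    intro c
    by_cases hc : c = c0
    · subst hc
      obtain ⟨z, h1, h2, h3⟩ := T_reduce n hr hc0
      exact ⟨z, hr.trans h1, h2, fun _ => h1, h3⟩
    · obtain ⟨z, h1, h2, h3⟩ := T_reduce n (le_refl (0:ℝ)) (abs_nonneg (y c))
      exact ⟨z, h1, by linarith, fun h => absurd h hc, h3⟩
  choose z hz0 hz1 hzc hzT using hex
  have hmono := UU_mono (K := K) (by linarith : 0 < K) (y := y) (z := z) (fun u c => hzT c u)
  have hnear := near (K := K) (ρ := r+1) (n := n) (y := z) hK hKr hn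
    (fun c => by rw [abs_of_nonneg (hz0 c)]; exact (hz1 c).le)
  have h1 := (abs_le.mp hnear).1
  have hsum : r^2 ≤ z 0^2 + z 1^2 + z 2^2 := by
    have hh : r^2 ≤ z c0 ^ 2 := pow_le_pow_left₀ hr (hzc c0 rfl) 2
    have : z c0 ^ 2 ≤ ∑ c, z c ^ 2 := Finset.single_le_sum (f := fun c => z c ^ 2) (fun c _ => sq_nonneg _) (Finset.mem_univ c0)
    rw [Fin.sum_univ_three] at this
    linarith
  have h2 : 2 * Real.pi / 3 * r^2 ≤ 2 * Real.pi / 3 * (z 0^2 + z 1^2 + z 2^2) :=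
    mul_le_mul_of_nonneg_left hsum (by positivity)
  linarith

lemma T_zero_le (n : ℕ) (u : ℝ) : T n u 0 ≤ 2 * n + 1 := by
  rw [T_zero_eq]
  have : ∑ k ∈ range n, g u ((k:ℝ)+1) ≤ ∑ k ∈ range n, (1:ℝ) := by
    apply Finset.sum_le_sum; intro k _
    unfold g; rw [Real.exp_le_one_iff]; have : 0 ≤ u^2 * ((k:ℝ)+1)^2 := by positivity
    linarith
  simp at this
  linarith

lemma T_zero_le' {n : ℕ} (hn : 1 ≤ n) {u : ℝ} (hu : 0 ≤ u) (hu1 : u ≤ 1) : T n u 0 ≤ 5 * n / (1 + n * u) := by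
  have hn' : (1:ℝ) ≤ n := by exact_mod_cast hn
  have h1 := T_zero_le n u
  rw [le_div_iff₀ (by positivity)]
  have h2 : n * (u * T n u 0) ≤ n * 2 := by
    apply mul_le_mul_of_nonneg_left _ (by positivity)
    rcases hu.eq_or_lt with h | h
    · rw [← h]; norm_num
    · refine (mul_le_mul_of_nonneg_left (T_le h hu1 n 0) hu).trans (le_of_eq ?_)
      field_simp
  nlinarith

theorem UU_zero_le {n : ℕ} {K : ℝ} (hK : 1 ≤ K) (hn : K ≤ n) : UU n K (fun _ => 0) ≤ 80 * n^2 := by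
  have hK0 : 0 < K := by linarith
  have hn1 : 1 ≤ n := by
    have : (1:ℝ) ≤ n := hK.trans hn
    exact_mod_cast this
  have hn' : (1:ℝ) ≤ n := by exact_mod_cast hn1
  have hp : 0 < Real.sqrt Real.pi := Real.sqrt_pos.mpr Real.pi_pos
  have hb : 0 < 1/K := by positivity
  have hb1 : 1/K ≤ 1 := by rw [div_le_one hK0]; exact hK
  have hd : ∀ u ∈ Set.uIcc (0:ℝ) (1/K), HasDerivAt (fun u : ℝ => -(125*(n:ℝ)^2/2) * ((1 + (n:ℝ) * u)^2)⁻¹) (125*(n:ℝ)^3/(1+n*u)^3) u := by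
    intro u hu
    rw [Set.uIcc_of_le hb.le] at hu
    have hpos : (0:ℝ) < 1 + n * u := by have := hu.1; positivity
    have h1 : HasDerivAt (fun u : ℝ => 1 + (n:ℝ) * u) n u := by
      simpa using ((hasDerivAt_id' u).const_mul (n:ℝ)).const_add 1
    have h2 := (h1.fun_pow 2).fun_inv (by positivity)
    refine (h2.const_mul (-(125*(n:ℝ)^2/2))).congr_deriv ?_
    field_simp
    ring
  have hcont : ContinuousOn (fun u : ℝ => 125*(n:ℝ)^3/(1+n*u)^3) (Set.uIcc (0:ℝ) (1/K)) := by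
    rw [Set.uIcc_of_le hb.le]
    apply ContinuousOn.div (by fun_prop) (by fun_prop)
    intro u hu
    have hpos : (0:ℝ) < 1 + n * u := by have := hu.1; positivity
    positivity
  have hI : ∫ u in (0:ℝ)..(1/K), P3 n u (fun _ => 0) ≤ ∫ u in (0:ℝ)..(1/K), 125*(n:ℝ)^3/(1+n*u)^3 := by
    apply intervalIntegral.integral_mono_on hb.le ((continuous_P3 n _).intervalIntegrable _ _) hcont.intervalIntegrable
    intro u hu
    rw [P3_zero]
    have h := T_zero_le' hn1 hu.1 (hu.2.trans hb1)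
    have hpos : (0:ℝ) < 1 + n * u := by have := hu.1; positivity
    refine (pow_le_pow_left₀ (T_nonneg _ _ _) h 3).trans (le_of_eq ?_)
    field_simp; ring
  rw [intervalIntegral.integral_eq_sub_of_hasDerivAt hd hcont.intervalIntegrable] at hI
  have hI2 : ∫ u in (0:ℝ)..(1/K), P3 n u (fun _ => 0) ≤ 125 * (n:ℝ)^2/2 := by
    refine hI.trans ?_
    have : 0 ≤ 125*(n:ℝ)^2/2 * ((1 + n * (1/K))^2)⁻¹ := by positivity
    simp only [mul_zero, add_zero, one_pow, inv_one, mul_one]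
    linarith
  have hB : P3 n (1/K) (fun _ => 0) ≤ (2*K)^3 := by
    rw [P3_zero]
    have := T_le hb hb1 n 0
    have e : 2/(1/K) = 2*K := by field_simp
    rw [e] at this
    exact pow_le_pow_left₀ (T_nonneg _ _ _) this 3
  unfold UU
  have hs : 2 / Real.sqrt Real.pi ≤ 1.14 := by
    rw [div_le_iff₀ hp]; linarith [sqrt_pi_ge]
  have hs2 : 1/K / Real.sqrt Real.pi ≤ 1/K := div_le_self hb.le (by linarith [sqrt_pi_ge])
  have hP0 : 0 ≤ P3 n (1/K) (fun _ => 0) := by rw [P3_zero]; exact pow_nonneg (T_nonneg _ _ _) 3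
  have t1 : 2 / Real.sqrt Real.pi * (∫ u in (0:ℝ)..(1/K), P3 n u (fun _ => 0)) ≤ 1.14 * (125 * (n:ℝ)^2/2) :=
    mul_le_mul hs hI2 (intervalIntegral.integral_nonneg hb.le (fun u _ => by rw [P3_zero]; exact pow_nonneg (T_nonneg _ _ _) 3)) (by norm_num)
  have t2 : 1/K / Real.sqrt Real.pi * P3 n (1/K) (fun _ => 0) ≤ 8 * K^2 := by
    calc _ ≤ 1/K * (2*K)^3 := mul_le_mul hs2 hB hP0 hb.le
      _ = _ := by field_simp; ring
  have hKn : K^2 ≤ (n:ℝ)^2 := pow_le_pow_left₀ hK0.le hn 2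
  have : (0:ℝ) ≤ (n:ℝ)^2 := by positivity
  linarith

lemma UU_nonneg {n : ℕ} {K : ℝ} (hK : 0 < K) (y : Fin 3 → ℝ) : 0 ≤ UU n K y := by
  have hp : 0 < Real.sqrt Real.pi := Real.sqrt_pos.mpr Real.pi_pos
  have hP : ∀ u, 0 ≤ P3 n u y := fun u => by
    unfold P3
    exact mul_nonneg (mul_nonneg (T_nonneg _ _ _) (T_nonneg _ _ _)) (T_nonneg _ _ _)
  unfold UU
  refine add_nonneg (mul_nonneg (by positivity) ?_) (mul_nonneg (by positivity) (hP _))
  exact intervalIntegral.integral_nonneg (by positivity) (fun u _ => hP u)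

end

end Crest.Agent.R338.GS
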