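import Crest.Agent.R338.GS7
import Crest.Agent.R338.LatDefs

/-!
Row 338, node II.C.3/II.C.4, file 8: final statements in terms of `Lat.V0` (LatDefs).

`V0_near`, `V0_far`, `V0_nonpos`, `V0_zero_le`.
-/

set_option autoImplicit false
open Real Finset
open scoped BigOperators

namespace Crest.Agent.R338.GS

noncomputable section

lemma sum_Icc_int (f : ℤ → ℝ) (n : ℕ) :
    ∑ k ∈ Icc (-(n:ℤ)) n, f k = ∑ k ∈ range (n+1), f k + ∑ k ∈ range n, f (-((k:ℤ)+1)) := by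
  induction n with
  | zero => simp
  | succ n ih =>
    push_cast
    rw [Finset.Icc_succ_succ, Finset.sum_union, ih, Finset.sum_range_succ _ (n+1),
      Finset.sum_range_succ (fun k : ℕ => f (-((k:ℤ)+1))) n, Finset.sum_pair]
    · push_cast; ring
    · omega
    · rw [Finset.disjoint_left]
      intro a ha hb
      simp only [mem_Icc, mem_insert, mem_singleton] at ha hb
      omega

lemma Sx_eq {s : ℝ} (hs : s ≠ 0) (n : ℕ) (x τ : ℝ) : Lat.Sx s n x τ = T n (τ * s) (x / s) := by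
  unfold Lat.Sx T
  rw [sum_Icc_int (fun k : ℤ => Real.exp (-(τ ^ 2 * (x - s * (k : ℝ)) ^ 2)))]
  congr 1
  · refine Finset.sum_congr rfl (fun k _ => ?_)
    unfold g; congr 2; push_cast; field_simp
  · refine Finset.sum_congr rfl (fun k _ => ?_)
    unfold g; congr 2; push_cast; field_simp; ring

lemma V0_eq {lam s K : ℝ} (hs : 0 < s) (hK : 0 < K) (n : ℕ) (x : Lat.P3) :
    Lat.V0 lam s (1/(K*s)^2) n x = -(lam/s) * UU n K (fun c => x c / s) := by
  have ha : Real.sqrt (1/(K*s)^2) = 1/(K*s) := by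
    rw [Real.sqrt_div (by norm_num), Real.sqrt_one, Real.sqrt_sq (by positivity)]
  have ha2 : Real.sqrt (1/(K*s)^2/Real.pi) = 1/(K*s) / Real.sqrt Real.pi := by
    rw [Real.sqrt_div (by positivity), ha]
  have hp : 0 < Real.sqrt Real.pi := Real.sqrt_pos.mpr Real.pi_pos
  have hprod : ∀ τ : ℝ, ∏ c : Fin 3, Lat.Sx s n (x c) τ = P3 n (τ*s) (fun c => x c / s) := by
    intro τ
    rw [Fin.prod_univ_three]
    unfold P3
    rw [Sx_eq hs.ne', Sx_eq hs.ne', Sx_eq hs.ne']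
  unfold Lat.V0 UU
  rw [ha, ha2]
  simp only [hprod]
  rw [intervalIntegral.integral_comp_mul_right (fun u => P3 n u (fun c => x c / s)) hs.ne']
  have e1 : 1/(K*s)*s = 1/K := by field_simp
  rw [e1, zero_mul, smul_eq_mul]
  generalize (∫ u in (0:ℝ)..(1/K), P3 n u (fun c => x c / s)) = I
  generalize P3 n (1/K) (fun c => x c / s) = B
  field_simp
  ring

variable {lam s K : ℝ} {n : ℕ}

lemma lam_div (hs : 0 < s) (hlam : lam = 3 * s^3/(4*Real.pi)) : lam / s = 3/(4*Real.pi) * s^2 := by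
  rw [hlam]; field_simp

lemma coef_le : 3/(4*Real.pi) ≤ 1/4 := by
  rw [div_le_iff₀ (by positivity)]; linarith [Real.pi_gt_three]

/-- error of the near and far theorems -/
lemma err_scale {L : ℝ} (hs : 0 < s) (_hL : 0 ≤ L) (n : ℕ) (K : ℝ) :
    3/(4*Real.pi) * s^2 * (CG * ((L/s)^4/n^2 + (L/s)^6 * EE K)) ≤
      CG * (L^4/(s*n)^2 + L^6/s^4 * Real.exp (-(2*K^2))) := by
  have hE := EE_pos K
  have e : 3/(4*Real.pi) * s^2 * (CG * ((L/s)^4/n^2 + (L/s)^6 * EE K)) =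
      3/(4*Real.pi) * (CG * (L^4/(s*n)^2 + L^6/s^4 * EE K)) := by
    have : s^2 * ((L/s)^4/n^2 + (L/s)^6 * EE K) = L^4/(s*n)^2 + L^6/s^4 * EE K := by
      rw [mul_pow]
      field_simp
    rw [← this]; ring
  rw [e]
  have h0 : 0 ≤ CG * (L^4/(s*n)^2 + L^6/s^4 * EE K) := by unfold CG; positivity
  have h1 := mul_le_mul_of_nonneg_right coef_le h0
  change 3 / (4 * Real.pi) * (CG * (L^4/(s*n)^2 + L^6/s^4 * EE K)) ≤ CG * (L^4/(s*n)^2 + L^6/s^4 * EE K)
  linarith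

theorem V0_near (hlam : lam = 3 * s^3/(4*Real.pi)) (hs : 0 < s) (hK : 1 ≤ K) {L : ℝ} (hKL : K * s ≤ L)
    (hn : 4 * L ≤ n * s) {x : Lat.P3} (hx : ∀ c, |x c| ≤ L) :
    |Lat.V0 lam s (1/(K*s)^2) n x - Lat.V0 lam s (1/(K*s)^2) n 0 - ‖x‖^2/2| ≤
      CG * (L^4/(s*n)^2 + L^6/s^4 * Real.exp (-(2*K^2))) := by
  have hK0 : 0 < K := by linarith
  have hL : 0 ≤ L := le_trans (by positivity) hKL
  have hnear := near (K := K) (ρ := L/s) (n := n) (y := fun c => x c / s) hK (by rwa [le_div_iff₀ hs])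
    (by rw [mul_div_assoc', div_le_iff₀ hs]; exact hn)
    (fun c => by rw [abs_div, abs_of_pos hs]; exact div_le_div_of_nonneg_right (hx c) hs.le)
  rw [V0_eq hs hK0, V0_eq hs hK0]
  have e0 : (fun c : Fin 3 => (0 : Lat.P3) c / s) = fun _ => 0 := by ext c; simp
  rw [e0, Lat.norm_sq_P3, Fin.sum_univ_three]
  have hpi := Real.pi_pos
  have e : -(lam/s) * UU n K (fun c => x c / s) - -(lam/s) * UU n K (fun _ => 0) - (x 0^2 + x 1^2 + x 2^2)/2 =
      3/(4*Real.pi) * s^2 * (UU n K (fun _ => 0) - UU n K (fun c => x c / s) - 2*Real.pi/3 * ((x 0 / s)^2 + (x 1 / s)^2 + (x 2 / s)^2)) := by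
    rw [lam_div hs hlam]; field_simp; ring
  rw [e, abs_mul, abs_of_pos (by positivity)]
  refine (mul_le_mul_of_nonneg_left hnear (by positivity)).trans (err_scale hs hL n K)

theorem V0_far (hlam : lam = 3 * s^3/(4*Real.pi)) (hs : 0 < s) (hK : 1 ≤ K) {r : ℝ} (hr : 0 ≤ r)
    (hKr : K * s ≤ r + s) (hn : 4 * (r+s) ≤ n * s) {x : Lat.P3} (hx : ∃ c, r ≤ |x c|) :
    r^2/2 - CG * ((r+s)^4/(s*n)^2 + (r+s)^6/s^4 * Real.exp (-(2*K^2))) ≤
      Lat.V0 lam s (1/(K*s)^2) n x - Lat.V0 lam s (1/(K*s)^2) n 0 := by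
  have hK0 : 0 < K := by linarith
  have e1 : r/s + 1 = (r+s)/s := by field_simp
  obtain ⟨c, hc⟩ := hx
  have hfar := far (K := K) (r := r/s) (n := n) (y := fun c => x c / s) hK (by positivity)
    (by rw [e1, le_div_iff₀ hs]; exact hKr) (by rw [e1, mul_div_assoc', div_le_iff₀ hs]; exact hn)
    ⟨c, by rw [abs_div, abs_of_pos hs]; exact div_le_div_of_nonneg_right hc hs.le⟩
  rw [V0_eq hs hK0, V0_eq hs hK0]
  have e0 : (fun c : Fin 3 => (0 : Lat.P3) c / s) = fun _ => 0 := by ext c; simp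
  rw [e0]
  rw [e1] at hfar
  have hpi := Real.pi_pos
  have h2 := mul_le_mul_of_nonneg_left hfar (by positivity : 0 ≤ 3/(4*Real.pi) * s^2)
  have h3 := err_scale (L := r+s) hs (by positivity) n K
  have e3 : 3/(4*Real.pi) * s^2 * (2 * Real.pi/3 * (r/s)^2) = r^2/2 := by field_simp; norm_num
  rw [mul_sub, e3] at h2
  rw [lam_div hs hlam]
  linarith

theorem V0_nonpos (hlam : 0 ≤ lam) (hs : 0 < s) (hK : 0 < K) (x : Lat.P3) :
    Lat.V0 lam s (1/(K*s)^2) n x ≤ 0 := by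
  rw [V0_eq hs hK]
  have := UU_nonneg (n := n) hK (fun c => x c / s)
  have h2 : 0 ≤ lam / s := by positivity
  nlinarith [mul_nonneg h2 this]

theorem V0_zero_ge (hlam : lam = 3 * s^3/(4*Real.pi)) (hs : 0 < s) (hK : 1 ≤ K) (hn : K ≤ n) :
    -(20 * (s*n)^2) ≤ Lat.V0 lam s (1/(K*s)^2) n 0 := by
  have hK0 : 0 < K := by linarith
  rw [V0_eq hs hK0]
  have e0 : (fun c : Fin 3 => (0 : Lat.P3) c / s) = fun _ => 0 := by ext c; simp
  rw [e0, lam_div hs hlam]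
  have h := UU_zero_le hK hn
  have h1 := UU_nonneg (n := n) hK0 (fun _ => 0)
  have h2 : 3/(4*Real.pi) * s^2 * UU n K (fun _ => 0) ≤ 1/4 * s^2 * (80 * n^2) :=
    mul_le_mul (mul_le_mul_of_nonneg_right coef_le (sq_nonneg s)) h h1 (by positivity)
  have e : 1/4 * s^2 * (80 * (n:ℝ)^2) = 20 * (s*n)^2 := by ring
  rw [e] at h2
  linarith

end

end Crest.Agent.R338.GS
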