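import Crest.Agent.R338.LatDefs

/-! Row 338: statement of the nodes C.3 + C.4 (undisplaced lattice) as used by the assembly of `LatStmt`. -/

set_option autoImplicit false

noncomputable section
open MeasureTheory Real Set

namespace Crest.Agent.R338.Lat

/-- nodes C.3 and C.4: the undisplaced lattice near the centre and far away -/
def C34Stmt : Prop := ∃ C : ℕ, 1 ≤ C ∧ ∀ (nL : ℕ) (lam s K R : ℝ),
  0 < lam → lam ≤ 1 → 0 < s → s ≤ 1 → s ^ 3 = 4 * π * lam / 3 → (C : ℝ) ≤ K → K * s ≤ 1 →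
  (C : ℝ) ≤ R → C * R ≤ nL * s →
  let a := 1 / (K * s) ^ 2
  let E : ℝ := C * (R ^ 4 / ((nL : ℝ) * s) ^ 2 + ((nL : ℝ) + 1) ^ C * Real.exp (-K ^ 2) / s ^ C)
  (∀ x : P3, (∀ c, |x c| ≤ 2 * R) → |V0 lam s a nL x - V0 lam s a nL 0 - ‖x‖ ^ 2 / 2| ≤ E) ∧
  (E ≤ 1 → ∀ x : P3, (∃ c, R ≤ |x c|) → R ^ 2 * (3 / 10) ≤ V0 lam s a nL x - V0 lam s a nL 0)

end Crest.Agent.R338.Lat
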