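import Crest.Agent.R338.GS8
import Crest.Agent.R338.LatC34

/-!
Row 338, node II.C.3/II.C.4, file 9: `Lat.C34Stmt`.
-/

set_option autoImplicit false
open Real Finset
open scoped BigOperators

namespace Crest.Agent.R338.GS

noncomputable section

/-- comparison of the error terms -/
lemma err_le {C n : ℕ} {s K R L : ℝ} (hC : 64 * CG ≤ C) (hC6 : 6 ≤ C) (hs : 0 < s) (hs1 : s ≤ 1) (hR : 0 ≤ R)
    (hL0 : 0 ≤ L) (hL : L ≤ 2 * R) (hRn : R ≤ n) :
    CG * (L^4/(s*n)^2 + L^6/s^4 * Real.exp (-(2*K^2))) ≤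
      C * (R^4/((n:ℝ)*s)^2 + ((n:ℝ)+1)^C * Real.exp (-K^2) / s^C) := by
  have hCG : (0:ℝ) < CG := by unfold CG; norm_num
  have hC0 : (0:ℝ) ≤ C := by positivity
  have a1 : L^4 ≤ 64 * R^4 := by
    calc L^4 ≤ (2*R)^4 := pow_le_pow_left₀ hL0 hL 4
      _ = 16 * R^4 := by ring
      _ ≤ _ := by nlinarith [pow_nonneg hR 4]
  have a2 : L^6 ≤ 64 * ((n:ℝ)+1)^C := by
    calc L^6 ≤ (2*R)^6 := pow_le_pow_left₀ hL0 hL 6
      _ = 64 * R^6 := by ring
      _ ≤ 64 * ((n:ℝ)+1)^6 := by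
        apply mul_le_mul_of_nonneg_left _ (by norm_num)
        exact pow_le_pow_left₀ hR (by linarith) 6
      _ ≤ 64 * ((n:ℝ)+1)^C := by
        apply mul_le_mul_of_nonneg_left _ (by norm_num)
        exact pow_le_pow_right₀ (by have : (0:ℝ) ≤ n := Nat.cast_nonneg n; linarith) hC6
  have a3 : 1/s^4 ≤ 1/s^C := by
    apply one_div_le_one_div_of_le (by positivity)
    exact pow_le_pow_of_le_one hs.le hs1 (by omega)
  have a4 : Real.exp (-(2*K^2)) ≤ Real.exp (-K^2) := by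
    apply Real.exp_le_exp.mpr; nlinarith [sq_nonneg K]
  have e1 : CG * (L^4/(s*n)^2 + L^6/s^4 * Real.exp (-(2*K^2))) =
      CG * (L^4 * (1/(s*n)^2)) + CG * (L^6 * (1/s^4 * Real.exp (-(2*K^2)))) := by ring
  have e2 : C * (R^4/((n:ℝ)*s)^2 + ((n:ℝ)+1)^C * Real.exp (-K^2) / s^C) =
      C * (R^4 * (1/(s*n)^2)) + C * (((n:ℝ)+1)^C * (1/s^C * Real.exp (-K^2))) := by
    rw [mul_comm (n:ℝ) s]; ring
  rw [e1, e2]
  refine add_le_add ?_ ?_
  · calc CG * (L^4 * (1/(s*n)^2)) ≤ CG * ((64 * R^4) * (1/(s*n)^2)) := by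
          apply mul_le_mul_of_nonneg_left _ hCG.le
          exact mul_le_mul_of_nonneg_right a1 (by positivity)
      _ = (64 * CG) * (R^4 * (1/(s*n)^2)) := by ring
      _ ≤ C * (R^4 * (1/(s*n)^2)) := mul_le_mul_of_nonneg_right hC (by positivity)
  · calc CG * (L^6 * (1/s^4 * Real.exp (-(2*K^2)))) ≤ CG * ((64 * ((n:ℝ)+1)^C) * (1/s^C * Real.exp (-K^2))) := by
          apply mul_le_mul_of_nonneg_left _ hCG.le
          apply mul_le_mul a2 _ (by positivity) (by positivity)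
          exact mul_le_mul a3 a4 (Real.exp_pos _).le (by positivity)
      _ = (64 * CG) * (((n:ℝ)+1)^C * (1/s^C * Real.exp (-K^2))) := by ring
      _ ≤ _ := mul_le_mul_of_nonneg_right hC (by positivity)

theorem c34 : Lat.C34Stmt := by
  obtain ⟨C, hC⟩ : ∃ C : ℕ, 64 * CG ≤ C := exists_nat_ge _
  have hC100 : (100:ℝ) ≤ C := by
    refine le_trans ?_ hC
    unfold CG; norm_num
  have hC100' : 100 ≤ C := by exact_mod_cast hC100
  refine ⟨C, by omega, ?_⟩
  intro n lam s K R hlam _ hs hs1 hsl hCK hKs hCR hCRn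
  have hlam' : lam = 3 * s^3/(4*Real.pi) := by
    rw [hsl]; field_simp
  have hK : 1 ≤ K := by linarith
  have hR : 100 ≤ R := by linarith
  have hRn : 100 * R ≤ n * s := by
    refine le_trans ?_ hCRn
    exact mul_le_mul_of_nonneg_right hC100 (by linarith)
  have hn0 : (0:ℝ) ≤ n := Nat.cast_nonneg n
  have hns : (n:ℝ) * s ≤ n := by nlinarith
  have hRn' : R ≤ n := by linarith
  intro a E
  refine ⟨fun x hx => ?_, fun hE x hx => ?_⟩
  · refine (V0_near hlam' hs hK (by linarith) (by linarith) hx).trans ?_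
    exact err_le hC (by omega) hs hs1 (by linarith) (by linarith) le_rfl hRn'
  · have h := V0_far hlam' hs hK (r := R) (n := n) (by linarith) (by linarith) (by linarith) hx
    have h2 := err_le (C := C) (n := n) (K := K) (R := R) (L := R + s) hC (by omega) hs hs1 (by linarith) (by linarith) (by linarith) hRn'
    have h3 : CG * ((R+s)^4/(s*n)^2 + (R+s)^6/s^4 * Real.exp (-(2*K^2))) ≤ 1 := h2.trans hE
    have h4 : R^2 * (3/10) ≤ R^2/2 - 1 := by nlinarith
    linarith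

end

end Crest.Agent.R338.GS
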