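import Crest.Agent.R338.Pauli

/-!
Row 338, node I.3: replacing `c Z_a Z_b X_k` by a mediator qubit.  Exact identity, no Schur lemma.
-/

set_option autoImplicit false
set_option linter.unusedVariables false
set_option linter.unusedSimpArgs false
set_option linter.unusedSectionVars false

noncomputable section

namespace Crest.Agent.R338.Med

open Finset

section comp
variable {ι τ : Type*}

/-- component of a vector of the joint system at the mediator configuration `ω` -/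
def cmp (ω : τ → Bool) (Ψ : Q (ι ⊕ τ)) : Q ι := fun σ => Ψ (Sum.elim σ ω)

/-- assemble a joint vector -/
def asm (F : (τ → Bool) → Q ι) : Q (ι ⊕ τ) := fun ρ => F (fun t => ρ (Sum.inr t)) (fun i => ρ (Sum.inl i))

@[simp] lemma cmp_asm (F : (τ → Bool) → Q ι) (ω : τ → Bool) : cmp ω (asm F) = F ω := rfl

@[simp] lemma asm_cmp (Ψ : Q (ι ⊕ τ)) : asm (fun ω => cmp ω Ψ) = Ψ := by
  funext ρ
  simp only [asm, cmp]
  congr 1
  funext x
  cases x <;> rfl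

lemma cmp_add (ω : τ → Bool) (Φ Ψ : Q (ι ⊕ τ)) : cmp ω (Φ + Ψ) = cmp ω Φ + cmp ω Ψ := rfl
lemma cmp_smul (ω : τ → Bool) (c : ℝ) (Ψ : Q (ι ⊕ τ)) : cmp ω (c • Ψ) = c • cmp ω Ψ := rfl

/-- lift of an operator of the system to the joint system -/
def lift (A : Op ι) : Op (ι ⊕ τ) where
  toFun Ψ := asm fun ω => A (cmp ω Ψ)
  map_add' Φ Ψ := by
    funext ρ
    simp [asm, cmp_add]
  map_smul' c Ψ := by
    funext ρ
    simp [asm, cmp_smul]

@[simp] lemma cmp_lift (A : Op ι) (ω : τ → Bool) (Ψ : Q (ι ⊕ τ)) :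
    cmp ω (lift A Ψ) = A (cmp ω Ψ) := rfl

lemma cmp_ext {Φ Ψ : Q (ι ⊕ τ)} (h : ∀ ω, cmp ω Φ = cmp ω Ψ) : Φ = Ψ := by
  rw [← asm_cmp Φ, ← asm_cmp Ψ]
  simp only [h]

lemma lift_add (A B : Op ι) : (lift (A + B) : Op (ι ⊕ τ)) = lift A + lift B :=
  LinearMap.ext fun Ψ => cmp_ext fun ω => by simp [cmp_add]

lemma lift_sub (A B : Op ι) : (lift (A - B) : Op (ι ⊕ τ)) = lift A - lift B :=
  LinearMap.ext fun Ψ => cmp_ext fun ω => rfl

lemma lift_neg (A : Op ι) : (lift (-A) : Op (ι ⊕ τ)) = -lift A :=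
  LinearMap.ext fun Ψ => cmp_ext fun ω => rfl

lemma lift_smul (c : ℝ) (A : Op ι) : (lift (c • A) : Op (ι ⊕ τ)) = c • lift A :=
  LinearMap.ext fun Ψ => cmp_ext fun ω => rfl

lemma lift_mul (A B : Op ι) : (lift (A * B) : Op (ι ⊕ τ)) = lift A * lift B :=
  LinearMap.ext fun Ψ => cmp_ext fun ω => rfl

lemma lift_one : (lift 1 : Op (ι ⊕ τ)) = 1 :=
  LinearMap.ext fun Ψ => cmp_ext fun ω => rfl

lemma lift_zero : (lift 0 : Op (ι ⊕ τ)) = 0 :=
  LinearMap.ext fun Ψ => cmp_ext fun ω => rfl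

lemma lift_sum {κ : Type*} (s : Finset κ) (A : κ → Op ι) :
    (lift (∑ k ∈ s, A k) : Op (ι ⊕ τ)) = ∑ k ∈ s, lift (A k) := by
  classical
  induction s using Finset.induction_on with
  | empty => simp [lift_zero]
  | insert a s ha ih => rw [Finset.sum_insert ha, Finset.sum_insert ha, lift_add, ih]

lemma lift_Z (i : ι) : (lift (Z i) : Op (ι ⊕ τ)) = Z (Sum.inl i) :=
  LinearMap.ext fun Ψ => cmp_ext fun ω => by
    rw [cmp_lift]
    funext σ
    simp [Z_apply, cmp]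

lemma cmp_Z_inr (t : τ) (ω : τ → Bool) (Ψ : Q (ι ⊕ τ)) :
    cmp ω (Z (Sum.inr t) Ψ) = sg (ω t) • cmp ω Ψ := by
  funext σ
  simp [Z_apply, cmp]

lemma cmp_Nb_inr (t : τ) (ω : τ → Bool) (Ψ : Q (ι ⊕ τ)) :
    cmp ω (Nb (Sum.inr t) Ψ) = if ω t then cmp ω Ψ else 0 := by
  funext σ
  by_cases h : ω t <;> simp [Nb_apply, cmp, h]

variable [DecidableEq ι] [DecidableEq τ]

lemma lift_X (i : ι) : (lift (X i) : Op (ι ⊕ τ)) = X (Sum.inl i) :=
  LinearMap.ext fun Ψ => cmp_ext fun ω => by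
    rw [cmp_lift]
    funext σ
    simp only [X_apply, cmp]
    congr 1
    funext x
    rcases x with j | t
    · simp [flip_apply]
    · simp

lemma cmp_X_inr (t : τ) (ω : τ → Bool) (Ψ : Q (ι ⊕ τ)) :
    cmp ω (X (Sum.inr t) Ψ) = cmp (flip t ω) Ψ := by
  funext σ
  simp only [X_apply, cmp]
  congr 1
  funext x
  rcases x with j | s
  · simp [flip_apply]
  · simp [flip_apply]

variable [Fintype ι] [Fintype τ]

lemma dot_cmp (Φ Ψ : Q (ι ⊕ τ)) : Φ ⬝ᵥ Ψ = ∑ ω, cmp ω Φ ⬝ᵥ cmp ω Ψ := by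
  simp only [dotProduct, cmp]
  rw [Finset.sum_comm, ← Finset.sum_product' (f := fun σ ω => Φ (Sum.elim σ ω) * Ψ (Sum.elim σ ω))]
  rw [Finset.univ_product_univ]
  exact (Equiv.sum_comp (Equiv.sumArrowEquivProdArrow ι τ Bool).symm
    (fun ρ => Φ ρ * Ψ ρ)).symm

lemma nsq_cmp (Ψ : Q (ι ⊕ τ)) : nsq Ψ = ∑ ω, nsq (cmp ω Ψ) := dot_cmp Ψ Ψ

lemma E_lift (A : Op ι) (Ψ : Q (ι ⊕ τ)) : E (lift A) Ψ = ∑ ω, E A (cmp ω Ψ) := by
  simp [E, dot_cmp]

lemma sum_flip (t : τ) (f : (τ → Bool) → ℝ) : ∑ ω, f (flip t ω) = ∑ ω, f ω :=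
  Equiv.sum_comp (flipEquiv t) f

/-- sum over configurations in pairs -/
lemma sum_pair (t : τ) (f : (τ → Bool) → ℝ) :
    ∑ ω, f ω = ∑ ω ∈ univ.filter (fun ω : τ → Bool => ω t = false), (f ω + f (flip t ω)) := by
  classical
  rw [Finset.sum_add_distrib]
  have h1 : ∑ ω ∈ univ.filter (fun ω : τ → Bool => ω t = false), f (flip t ω)
      = ∑ ω ∈ univ.filter (fun ω : τ → Bool => ¬ ω t = false), f ω := by
    refine Finset.sum_nbij' (flip t) (flip t) ?_ ?_ ?_ ?_ ?_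
    · intro ω hω; simp at hω ⊢; simp [hω]
    · intro ω hω; simp at hω ⊢; simp [hω]
    · intro ω _; simp
    · intro ω _; simp
    · intro ω _; rfl
  rw [h1, Finset.sum_filter_add_sum_filter_not]

end comp

section med
variable {ι τ : Type*} [DecidableEq ι]

/-- data of a mediated term -/
structure Term (ι : Type*) where
  a : ι
  b : ι
  k : ι
  hka : k ≠ a
  hkb : k ≠ b

/-- `Z_a Z_b X_k` -/
def Term.W (m : Term ι) : Op ι := Z m.a * Z m.b * X m.k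

/-- `1 - Z_a Z_b` -/
def Term.P (m : Term ι) : Op ι := 1 - Z m.a * Z m.b

/-- `G = (1 - ZZ)(2 δ + c X)` -/
def Term.G (m : Term ι) (c δ : ℝ) : Op ι := m.P * ((2 * δ) • 1 + c • X m.k)

/-- `D = δ^3 - (c δ^2/2) X` -/
def Term.D (m : Term ι) (c δ : ℝ) : Op ι := (δ ^ 3) • 1 - (c * δ ^ 2 / 2) • X m.k

/-- `A = δ^2 (Z_a - Z_b)` -/
def Term.A (m : Term ι) (δ : ℝ) : Op ι := (δ ^ 2) • (Z m.a - Z m.b)

/-- `κ = 1/(1 - c^2/(4δ^2))` -/
def kap (c δ : ℝ) : ℝ := 1 / (1 - c ^ 2 / (4 * δ ^ 2))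

/-- `R = D⁻¹ A = κ δ^{-2} (δ + (c/2) X)(Z_a - Z_b)` -/
def Term.R (m : Term ι) (c δ : ℝ) : Op ι :=
  (kap c δ / δ ^ 2) • ((δ • 1 + (c / 2) • X m.k) * (Z m.a - Z m.b))

lemma kap_ge {c δ : ℝ} (hδ : 0 < δ) (hc : 0 ≤ c) (hcδ : c ≤ δ) : 1 ≤ kap c δ := by
  unfold kap
  have h1 : c ^ 2 / (4 * δ ^ 2) ≤ 1 / 4 := by
    rw [div_le_div_iff₀ (by positivity) (by norm_num)]
    nlinarith
  have h2 : 0 ≤ c ^ 2 / (4 * δ ^ 2) := by positivity
  rw [le_div_iff₀ (by linarith)]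
  linarith

lemma kap_le {c δ : ℝ} (hδ : 0 < δ) (hc : 0 ≤ c) (hcδ : c ≤ δ) : kap c δ ≤ 4 / 3 := by
  unfold kap
  have h1 : c ^ 2 / (4 * δ ^ 2) ≤ 1 / 4 := by
    rw [div_le_div_iff₀ (by positivity) (by norm_num)]
    nlinarith
  rw [div_le_div_iff₀ (by linarith) (by norm_num)]
  linarith

lemma kap_sub_one {c δ : ℝ} (hδ : 0 < δ) (hc : 0 ≤ c) (hcδ : c ≤ δ) :
    kap c δ - 1 ≤ c ^ 2 / (3 * δ ^ 2) := by
  have h1 : c ^ 2 / (4 * δ ^ 2) ≤ 1 / 4 := by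
    rw [div_le_div_iff₀ (by positivity) (by norm_num)]
    nlinarith
  have h3 := kap_le hδ hc hcδ
  have h4 : kap c δ * (1 - c ^ 2 / (4 * δ ^ 2)) = 1 := by
    unfold kap
    rw [one_div, inv_mul_cancel₀ (by linarith)]
  have h5 : kap c δ - 1 = kap c δ * (c ^ 2 / (4 * δ ^ 2)) := by linarith
  rw [h5]
  have h6 : c ^ 2 / (3 * δ ^ 2) = 4 / 3 * (c ^ 2 / (4 * δ ^ 2)) := by
    field_simp
  rw [h6]
  exact mul_le_mul_of_nonneg_right h3 (by positivity)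

lemma kap_eq {c δ : ℝ} (hδ : 0 < δ) (hc : 0 ≤ c) (hcδ : c ≤ δ) :
    kap c δ * (δ ^ 2 - c ^ 2 / 4) = δ ^ 2 := by
  have h1 : c ^ 2 / (4 * δ ^ 2) ≤ 1 / 4 := by
    rw [div_le_div_iff₀ (by positivity) (by norm_num)]
    nlinarith
  have h4 : kap c δ * (1 - c ^ 2 / (4 * δ ^ 2)) = 1 := by
    unfold kap
    rw [one_div, inv_mul_cancel₀ (by linarith)]
  have h5 : δ ^ 2 - c ^ 2 / 4 = δ ^ 2 * (1 - c ^ 2 / (4 * δ ^ 2)) := by
    field_simp
  rw [h5, mul_left_comm, h4, mul_one]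

variable (m : Term ι)

lemma Term.comm_XA : Commute (X m.k) (Z m.a - Z m.b) :=
  (X_Z_comm m.hka).sub_right (X_Z_comm m.hkb)

lemma Term.comm_XP : Commute (X m.k) m.P :=
  (Commute.one_right _).sub_right ((X_Z_comm m.hka).mul_right (X_Z_comm m.hkb))

omit [DecidableEq ι] in
lemma Term.A_sq : (Z m.a - Z m.b) * (Z m.a - Z m.b) = (2 : ℝ) • m.P := by
  have h := (Z_comm m.a m.b).eq
  have : (Z m.a - Z m.b) * (Z m.a - Z m.b) = Z m.a * Z m.a - Z m.a * Z m.b - Z m.b * Z m.a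
      + Z m.b * Z m.b := by simp only [sub_mul, mul_sub]; abel
  rw [this, Z_mul_self, Z_mul_self, ← h, Term.P, two_smul]
  abel

omit [DecidableEq ι] in
lemma Term.P_sq : m.P * m.P = (2 : ℝ) • m.P := by
  have h := (Z_comm m.a m.b).eq
  have e : Z m.a * Z m.b * (Z m.a * Z m.b) = 1 := by
    rw [mul_assoc, ← mul_assoc (Z m.b) (Z m.a) (Z m.b), ← h, mul_assoc (Z m.a) (Z m.b) (Z m.b),
      Z_mul_self, mul_one, Z_mul_self]
  have : m.P * m.P = 1 - Z m.a * Z m.b - Z m.a * Z m.b + Z m.a * Z m.b * (Z m.a * Z m.b) := by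
    unfold Term.P; simp only [sub_mul, mul_sub, one_mul, mul_one]; abel
  rw [this, e, Term.P, two_smul]; abel

lemma Term.DR {c δ : ℝ} (hδ : 0 < δ) (hc : 0 ≤ c) (hcδ : c ≤ δ) : m.D c δ * m.R c δ = m.A δ := by
  have hX : (((δ ^ 3) • (1 : Op ι) - (c * δ ^ 2 / 2) • X m.k)) * ((δ • 1 + (c / 2) • X m.k))
      = (δ ^ 2 * (δ ^ 2 - c ^ 2 / 4)) • (1 : Op ι) := by
    have : (((δ ^ 3) • (1 : Op ι) - (c * δ ^ 2 / 2) • X m.k)) * ((δ • 1 + (c / 2) • X m.k))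
        = (δ ^ 3 * δ) • (1 : Op ι) + (δ ^ 3 * (c / 2)) • X m.k - (c * δ ^ 2 / 2 * δ) • X m.k
          - (c * δ ^ 2 / 2 * (c / 2)) • (X m.k * X m.k) := by
      simp only [sub_mul, mul_add, smul_mul_assoc, mul_smul_comm, one_mul, mul_one, smul_smul]
      module
    rw [this, X_mul_self]
    module
  unfold Term.D Term.R Term.A
  rw [mul_smul_comm, ← mul_assoc, hX, smul_mul_assoc, one_mul, smul_smul]
  congr 1
  have h1 : kap c δ / δ ^ 2 * (δ ^ 2 * (δ ^ 2 - c ^ 2 / 4)) = kap c δ * (δ ^ 2 - c ^ 2 / 4) := by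
    field_simp
  rw [h1, kap_eq hδ hc hcδ]

lemma Term.RA {c δ : ℝ} (hδ : 0 < δ) : m.R c δ * m.A δ = (kap c δ) • m.G c δ := by
  unfold Term.R Term.A Term.G
  rw [mul_smul_comm, smul_mul_assoc, smul_smul, mul_assoc, Term.A_sq]
  have h : m.P * ((2 * δ) • 1 + c • X m.k) = ((2 * δ) • 1 + c • X m.k) * m.P := by
    have h1 := m.comm_XP.eq
    simp only [mul_add, add_mul, mul_smul_comm, smul_mul_assoc, mul_one, one_mul]
    rw [h1]
  rw [h]
  simp only [mul_smul_comm, smul_mul_assoc, smul_smul, add_mul, one_mul, smul_add]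
  have e1 : δ ^ 2 * (kap c δ / δ ^ 2) * 2 * δ = kap c δ * (2 * δ) := by
    field_simp
  have e2 : δ ^ 2 * (kap c δ / δ ^ 2) * 2 * (c / 2) = kap c δ * c := by
    field_simp
  rw [← e1, ← e2]
  module

/-- `2δ(1-ZZ) + cX = G + c ZZX` -/
lemma Term.rest (c δ : ℝ) : (2 * δ) • m.P + c • X m.k = m.G c δ + c • m.W := by
  unfold Term.G Term.W Term.P
  simp only [sub_mul, mul_add, mul_smul_comm, one_mul, mul_one, smul_sub]
  abel

variable [Fintype ι]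

lemma sym_A (δ : ℝ) : Sym (m.A δ) := ((sym_Z m.a).sub (sym_Z m.b)).smul _

lemma sym_D (c δ : ℝ) : Sym (m.D c δ) := (Sym.one.smul _).sub ((sym_X m.k).smul _)

lemma sym_R (c δ : ℝ) : Sym (m.R c δ) := by
  refine Sym.smul _ (Sym.mul ((Sym.one.smul _).add ((sym_X m.k).smul _))
    ((sym_Z m.a).sub (sym_Z m.b)) ?_)
  exact ((Commute.one_left _).smul_left _).add_left (m.comm_XA.smul_left _)

lemma sym_P : Sym m.P := Sym.one.sub ((sym_Z m.a).mul (sym_Z m.b) (Z_comm _ _))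

lemma E_D_nonneg {c δ : ℝ} (hδ : 0 < δ) (hc : 0 ≤ c) (hcδ : c ≤ δ) (φ : Q ι) :
    0 ≤ E (m.D c δ) φ := by
  unfold Term.D
  rw [E_sub, E_smul, E_smul, E_one]
  have h := (abs_le.1 (FB_X m.k φ)).2
  have h0 := nsq_nonneg φ
  have h1 : c * δ ^ 2 / 2 * E (X m.k) φ ≤ c * δ ^ 2 / 2 * (1 * nsq φ) :=
    mul_le_mul_of_nonneg_left h (by positivity)
  have h2 : c * δ ^ 2 / 2 * (1 * nsq φ) ≤ δ ^ 3 * nsq φ := by
    have : c * δ ^ 2 / 2 ≤ δ ^ 3 := by nlinarith [sq_nonneg δ, pow_pos hδ 2]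
    nlinarith
  linarith

/-- positivity and boundedness of `G` -/
lemma E_G {c δ : ℝ} (φ : Q ι) :
    E (m.G c δ) φ = δ * nsq (m.P φ) + c / 2 * E (X m.k) (m.P φ) := by
  have h1 : m.P * ((2 * δ) • 1 + c • X m.k)
      = (1 / 2 : ℝ) • (m.P * ((2 * δ) • 1 + c • X m.k) * m.P) := by
    have h : (((2 * δ) • (1 : Op ι) + c • X m.k)) * m.P = m.P * ((2 * δ) • 1 + c • X m.k) := by
      have h1 := m.comm_XP.eq
      simp only [mul_add, add_mul, mul_smul_comm, smul_mul_assoc, mul_one, one_mul]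
      rw [h1]
    rw [mul_assoc, h, ← mul_assoc, Term.P_sq, smul_mul_assoc, smul_smul]
    norm_num
  unfold Term.G
  rw [h1, E_smul]
  have h2 : E (m.P * ((2 * δ) • 1 + c • X m.k) * m.P) φ
      = E ((2 * δ) • 1 + c • X m.k) (m.P φ) := by
    unfold E
    rw [Module.End.mul_apply, Module.End.mul_apply, sym_P m]
  rw [h2, E_add, E_smul, E_smul, E_one]
  ring

lemma nsq_P_le (φ : Q ι) : nsq (m.P φ) ≤ 4 * nsq φ := by
  have h1 : nsq (m.P φ) = 2 * E m.P φ := by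
    unfold nsq
    rw [← sym_P m, ← Module.End.mul_apply, Term.P_sq]
    simp [E]
  have h2 : E m.P φ ≤ 2 * nsq φ := by
    unfold Term.P
    rw [E_sub, E_one]
    have hc : Commute (Z m.a : Op ι) (Z m.b) := Z_comm _ _
    have h3 := FB_invol ((sym_Z m.a).mul (sym_Z m.b) hc) (by
      rw [mul_assoc, ← mul_assoc (Z m.b) (Z m.a) (Z m.b), ← hc.eq,
        mul_assoc (Z m.a) (Z m.b) (Z m.b), Z_mul_self, mul_one, Z_mul_self]) φ
    have h4 := (abs_le.1 h3).1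
    linarith
  linarith

lemma E_G_nonneg {c δ : ℝ} (hδ : 0 < δ) (hc : 0 ≤ c) (hcδ : c ≤ δ) (φ : Q ι) :
    0 ≤ E (m.G c δ) φ := by
  rw [E_G]
  have h := (abs_le.1 (FB_X m.k (m.P φ))).1
  have h0 := nsq_nonneg (m.P φ)
  have h1 : c / 2 * -(1 * nsq (m.P φ)) ≤ c / 2 * E (X m.k) (m.P φ) :=
    mul_le_mul_of_nonneg_left h (by positivity)
  nlinarith

lemma E_G_le {c δ : ℝ} (hδ : 0 < δ) (hc : 0 ≤ c) (hcδ : c ≤ δ) (φ : Q ι) :
    E (m.G c δ) φ ≤ 6 * δ * nsq φ := by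
  rw [E_G]
  have h := (abs_le.1 (FB_X m.k (m.P φ))).2
  have h0 := nsq_nonneg (m.P φ)
  have h1 : c / 2 * E (X m.k) (m.P φ) ≤ c / 2 * (1 * nsq (m.P φ)) :=
    mul_le_mul_of_nonneg_left h (by positivity)
  have h2 := nsq_P_le m φ
  have h3 : c / 2 * nsq (m.P φ) ≤ δ / 2 * nsq (m.P φ) :=
    mul_le_mul_of_nonneg_right (by linarith) h0
  have h4 : δ * nsq (m.P φ) ≤ δ * (4 * nsq φ) := mul_le_mul_of_nonneg_left h2 hδ.le
  linarith

lemma nsq_R_le {c δ : ℝ} (hδ : 0 < δ) (hc : 0 ≤ c) (hcδ : c ≤ δ) (φ : Q ι) :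
    nsq (m.R c δ φ) ≤ 16 / δ ^ 2 * nsq φ := by
  set χ : Q ι := (Z m.a - Z m.b) φ with hχ
  have h1 : nsq χ ≤ 4 * nsq φ := by
    have : nsq χ = 2 * E m.P φ := by
      rw [hχ]
      unfold nsq
      rw [← ((sym_Z m.a).sub (sym_Z m.b)), ← Module.End.mul_apply, Term.A_sq]
      simp [E]
    rw [this]
    have h2 : nsq (m.P φ) = 2 * E m.P φ := by
      unfold nsq
      rw [← sym_P m, ← Module.End.mul_apply, Term.P_sq]
      simp [E]
    rw [← h2]; exact nsq_P_le m φ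
  have h2 : m.R c δ φ = (kap c δ / δ ^ 2) • (δ • χ + (c / 2) • X m.k χ) := by
    unfold Term.R
    simp [Module.End.mul_apply, hχ]
  have h3 : nsq (δ • χ + (c / 2) • X m.k χ) ≤ (δ + c / 2) ^ 2 * nsq χ := by
    have e : nsq (δ • χ + (c / 2) • X m.k χ)
        = δ ^ 2 * nsq χ + δ * c * E (X m.k) χ + (c / 2) ^ 2 * nsq (X m.k χ) := by
      simp only [nsq, E, add_dotProduct, dotProduct_add, smul_dotProduct, dotProduct_smul,
        smul_eq_mul, dotProduct_comm (X m.k χ) χ]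
      ring
    rw [e, nsq_invol (sym_X m.k) (X_mul_self m.k)]
    have h := (abs_le.1 (FB_X m.k χ)).2
    have : δ * c * E (X m.k) χ ≤ δ * c * (1 * nsq χ) :=
      mul_le_mul_of_nonneg_left h (by positivity)
    nlinarith
  rw [h2, nsq_smul]
  have hk := kap_le hδ hc hcδ
  have hk1 := kap_ge hδ hc hcδ
  have h4 : (kap c δ / δ ^ 2) ^ 2 ≤ (4 / 3 / δ ^ 2) ^ 2 := by
    apply pow_le_pow_left₀ (by positivity)
    gcongr
  have h5 : (δ + c / 2) ^ 2 ≤ (3 / 2 * δ) ^ 2 := by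
    apply pow_le_pow_left₀ (by positivity); linarith
  have h0 := nsq_nonneg φ
  calc (kap c δ / δ ^ 2) ^ 2 * nsq (δ • χ + (c / 2) • X m.k χ)
      ≤ (4 / 3 / δ ^ 2) ^ 2 * ((3 / 2 * δ) ^ 2 * (4 * nsq φ)) := by
        apply mul_le_mul h4 (h3.trans _) (nsq_nonneg _) (by positivity)
        exact mul_le_mul h5 h1 (nsq_nonneg _) (by positivity)
    _ = 16 / δ ^ 2 * nsq φ := by field_simp; ring

/-- the energy of one pair of components -/
def pairE (c δ : ℝ) (φ0 φ1 : Q ι) : ℝ :=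
  E (m.D c δ) φ1 + 2 * (φ1 ⬝ᵥ m.A δ φ0)
    + (2 * δ * E m.P φ0 + c * E (X m.k) φ0) + (2 * δ * E m.P φ1 + c * E (X m.k) φ1)

/-- EXACT IDENTITY for one pair of components -/
lemma pairE_eq {c δ : ℝ} (hδ : 0 < δ) (hc : 0 ≤ c) (hcδ : c ≤ δ) (φ0 φ1 : Q ι) :
    pairE m c δ φ0 φ1 = E (m.D c δ) (φ1 + m.R c δ φ0) - (kap c δ - 1) * E (m.G c δ) φ0
      + E (m.G c δ) φ1 + c * E m.W φ0 + c * E m.W φ1 := by
  have h1 : E (m.D c δ) (φ1 + m.R c δ φ0)
      = E (m.D c δ) φ1 + 2 * (φ1 ⬝ᵥ m.A δ φ0) + kap c δ * E (m.G c δ) φ0 := by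
    rw [E_add_vec (sym_D m c δ)]
    have e1 : m.D c δ (m.R c δ φ0) = m.A δ φ0 := by
      rw [← Module.End.mul_apply, m.DR hδ hc hcδ]
    have e2 : E (m.D c δ) (m.R c δ φ0) = kap c δ * E (m.G c δ) φ0 := by
      unfold E
      rw [e1, ← sym_R m c δ φ0, ← Module.End.mul_apply, m.RA hδ]
      simp
    rw [e1, e2]
  have h2 : ∀ φ : Q ι, 2 * δ * E m.P φ + c * E (X m.k) φ = E (m.G c δ) φ + c * E m.W φ := by
    intro φ
    have := congrArg (fun A => E A φ) (m.rest c δ)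
    simpa [E_add, E_smul] using this
  rw [h1, pairE, h2, h2]
  ring

end med

section main
variable {ι τ : Type*} [DecidableEq ι] [DecidableEq τ] [Fintype ι] [Fintype τ]

/-- the three-local Hamiltonian -/
def H3 (L : Op ι) (m : τ → Term ι) (c : τ → ℝ) : Op ι := L + ∑ t, c t • (m t).W

/-- the mediator terms of `t` -/
def med (m : τ → Term ι) (c : τ → ℝ) (δ : ℝ) (t : τ) : Op (ι ⊕ τ) :=
  (δ ^ 3) • Nb (Sum.inr t)
    + (δ ^ 2) • ((Z (Sum.inl (m t).a) - Z (Sum.inl (m t).b)) * X (Sum.inr t))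
    - (c t * δ ^ 2 / 2) • (Nb (Sum.inr t) * X (Sum.inl (m t).k))
    + (2 * δ) • (1 - Z (Sum.inl (m t).a) * Z (Sum.inl (m t).b))
    + c t • X (Sum.inl (m t).k)

/-- the two-local Hamiltonian with mediators -/
def H2 (L : Op ι) (m : τ → Term ι) (c : τ → ℝ) (δ : ℝ) : Op (ι ⊕ τ) :=
  lift L + ∑ t, med m c δ t

variable (L : Op ι) (m : τ → Term ι) (c : τ → ℝ) (δ : ℝ)

lemma E_med (t : τ) (Ψ : Q (ι ⊕ τ)) :
    E (med m c δ t) Ψ = ∑ ω ∈ univ.filter (fun ω : τ → Bool => ω t = false),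
      pairE (m t) (c t) δ (cmp ω Ψ) (cmp (flip t ω) Ψ) := by
  have h0 : E (med m c δ t) Ψ = ∑ ω, (cmp ω Ψ ⬝ᵥ cmp ω (med m c δ t Ψ)) := by
    unfold E; rw [dot_cmp]
  rw [h0, sum_pair t]
  refine Finset.sum_congr rfl fun ω hω => ?_
  simp only [mem_filter, mem_univ, true_and] at hω
  have hc : ∀ η : τ → Bool, cmp η (med m c δ t Ψ) =
      (δ ^ 3) • (if η t then cmp η Ψ else 0)
      + (m t).A δ (cmp (flip t η) Ψ)
      - (c t * δ ^ 2 / 2) • (if η t then X (m t).k (cmp η Ψ) else 0)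
      + (2 * δ) • (m t).P (cmp η Ψ) + c t • X (m t).k (cmp η Ψ) := by
    intro η
    have e1 : (med m c δ t) = (δ ^ 3) • Nb (Sum.inr t)
        + lift ((m t).A δ) * X (Sum.inr t)
        - (c t * δ ^ 2 / 2) • (Nb (Sum.inr t) * lift (X (m t).k))
        + (2 * δ) • lift (m t).P + c t • lift (X (m t).k) := by
      unfold med Term.A Term.P
      rw [lift_smul, lift_sub, lift_sub, lift_mul, lift_one, lift_Z, lift_Z, lift_X, smul_mul_assoc]
    rw [e1]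
    simp only [LinearMap.add_apply, LinearMap.sub_apply, LinearMap.smul_apply,
      Module.End.mul_apply]
    change (δ ^ 3) • cmp η (Nb (Sum.inr t) Ψ) + cmp η (lift ((m t).A δ) (X (Sum.inr t) Ψ))
      - (c t * δ ^ 2 / 2) • cmp η (Nb (Sum.inr t) (lift (X (m t).k) Ψ))
      + (2 * δ) • cmp η (lift (m t).P Ψ) + c t • cmp η (lift (X (m t).k) Ψ) = _
    rw [cmp_Nb_inr, cmp_Nb_inr, cmp_lift, cmp_lift, cmp_lift, cmp_X_inr]
  rw [hc, hc]
  have hf : flip t ω t = true := by simp [hω]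
  simp only [hω, hf, flip_flip, if_true, Bool.false_eq_true, if_false, smul_zero]
  unfold pairE Term.D
  rw [E_sub, E_smul, E_smul, E_one]
  have hs := sym_A (m t) δ (cmp ω Ψ) (cmp (flip t ω) Ψ)
  simp only [E, nsq, dotProduct_add, dotProduct_sub, dotProduct_smul, dotProduct_zero, smul_eq_mul]
  rw [hs, dotProduct_comm ((m t).A δ (cmp ω Ψ)) (cmp (flip t ω) Ψ)]
  ring

lemma E_H3_cmp (Ψ : Q (ι ⊕ τ)) :
    ∑ ω, E (H3 L m c) (cmp ω Ψ) = ∑ ω, E L (cmp ω Ψ)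
      + ∑ t, ∑ ω ∈ univ.filter (fun ω : τ → Bool => ω t = false),
        (c t * E (m t).W (cmp ω Ψ) + c t * E (m t).W (cmp (flip t ω) Ψ)) := by
  have h : ∀ t, ∑ ω ∈ univ.filter (fun ω : τ → Bool => ω t = false),
        (c t * E (m t).W (cmp ω Ψ) + c t * E (m t).W (cmp (flip t ω) Ψ))
      = ∑ ω, c t * E (m t).W (cmp ω Ψ) := fun t =>
    (sum_pair t (fun ω => c t * E (m t).W (cmp ω Ψ))).symm
  simp only [h]
  rw [Finset.sum_comm, ← Finset.sum_add_distrib]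
  refine Finset.sum_congr rfl fun ω _ => ?_
  rw [H3, E_add, E_sum]
  simp [E_smul]

variable {L m c δ}

/-- LOWER BOUND of the mediator step -/
theorem med_lower (hδ : 0 < δ) (hc : ∀ t, 0 ≤ c t) (hcδ : ∀ t, c t ≤ δ) {μ : ℝ}
    (h : ∀ ψ, μ * nsq ψ ≤ E (H3 L m c) ψ) (Ψ : Q (ι ⊕ τ)) :
    (μ - 2 * (∑ t, c t ^ 2) / δ) * nsq Ψ ≤ E (H2 L m c δ) Ψ := by
  have h1 : μ * nsq Ψ ≤ ∑ ω, E (H3 L m c) (cmp ω Ψ) := by
    rw [nsq_cmp, Finset.mul_sum]
    exact Finset.sum_le_sum fun ω _ => h _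
  rw [E_H3_cmp] at h1
  have h2 : ∀ t, ∑ ω ∈ univ.filter (fun ω : τ → Bool => ω t = false),
        (c t * E (m t).W (cmp ω Ψ) + c t * E (m t).W (cmp (flip t ω) Ψ))
        - 2 * c t ^ 2 / δ * nsq Ψ ≤ E (med m c δ t) Ψ := by
    intro t
    rw [E_med, nsq_cmp, sum_pair t (fun ω => nsq (cmp ω Ψ)), Finset.mul_sum,
      ← Finset.sum_sub_distrib]
    refine Finset.sum_le_sum fun ω _ => ?_
    rw [pairE_eq (m t) hδ (hc t) (hcδ t)]
    have a1 := E_D_nonneg (m t) hδ (hc t) (hcδ t) (cmp (flip t ω) Ψ + (m t).R (c t) δ (cmp ω Ψ))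
    have a2 := E_G_nonneg (m t) hδ (hc t) (hcδ t) (cmp (flip t ω) Ψ)
    have a3 := E_G_le (m t) hδ (hc t) (hcδ t) (cmp ω Ψ)
    have a4 := E_G_nonneg (m t) hδ (hc t) (hcδ t) (cmp ω Ψ)
    have a5 := kap_sub_one hδ (hc t) (hcδ t)
    have a6 : (kap (c t) δ - 1) * E ((m t).G (c t) δ) (cmp ω Ψ)
        ≤ c t ^ 2 / (3 * δ ^ 2) * (6 * δ * nsq (cmp ω Ψ)) :=
      mul_le_mul a5 a3 a4 (by positivity)
    have a7 : c t ^ 2 / (3 * δ ^ 2) * (6 * δ * nsq (cmp ω Ψ))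
        = 2 * c t ^ 2 / δ * nsq (cmp ω Ψ) := by
      field_simp; ring
    have a8 : 0 ≤ 2 * c t ^ 2 / δ * nsq (cmp (flip t ω) Ψ) :=
      mul_nonneg (by positivity) (nsq_nonneg _)
    rw [mul_add]
    linarith
  have h3 := Finset.sum_le_sum (s := (univ : Finset τ)) fun t _ => h2 t
  rw [Finset.sum_sub_distrib] at h3
  have h4 : ∑ t, 2 * c t ^ 2 / δ * nsq Ψ = 2 * (∑ t, c t ^ 2) / δ * nsq Ψ := by
    rw [← Finset.sum_mul]
    congr 1
    rw [Finset.mul_sum, Finset.sum_div]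
  rw [h4] at h3
  rw [H2, E_add, E_lift, E_sum, sub_mul]
  linarith

/-! ### the upper bound: product trial state -/

/-- factor of the trial state -/
def fct (m : τ → Term ι) (c : τ → ℝ) (δ : ℝ) (ω : τ → Bool) (t : τ) : Op ι :=
  if ω t then -(m t).R (c t) δ else 1

lemma comm_R (hk : ∀ s t, (m s).k ≠ (m t).a ∧ (m s).k ≠ (m t).b) (s t : τ) :
    Commute ((m s).R (c s) δ) ((m t).R (c t) δ) := by
  have hXZ : ∀ s t, Commute (X (m s).k) (Z (m t).a - Z (m t).b) := fun s t =>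
    (X_Z_comm (hk s t).1).sub_right (X_Z_comm (hk s t).2)
  have hZZ : Commute (Z (m s).a - Z (m s).b : Op ι) (Z (m t).a - Z (m t).b) :=
    ((Z_comm _ _).sub_right (Z_comm _ _)).sub_left ((Z_comm _ _).sub_right (Z_comm _ _))
  have hXX : Commute ((δ • 1 + (c s / 2) • X (m s).k : Op ι)) (δ • 1 + (c t / 2) • X (m t).k) := by
    refine Commute.add_left ((Commute.one_left _).smul_left _) (Commute.smul_left ?_ _)
    exact ((Commute.one_right _).smul_right _).add_right ((X_comm _ _).smul_right _)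
  have h1 : ∀ s t, Commute ((δ • 1 + (c s / 2) • X (m s).k : Op ι)) (Z (m t).a - Z (m t).b) :=
    fun s t => Commute.add_left ((Commute.one_left _).smul_left _) ((hXZ s t).smul_left _)
  unfold Term.R
  refine (Commute.smul_left (Commute.smul_right ?_ _) _)
  exact (hXX.mul_right (h1 s t)).mul_left (((h1 t s).symm).mul_right hZZ)

lemma comm_fct (hk : ∀ s t, (m s).k ≠ (m t).a ∧ (m s).k ≠ (m t).b) (ω : τ → Bool) (s t : τ) :
    Commute (fct m c δ ω s) (fct m c δ ω t) := by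
  unfold fct
  split_ifs
  · exact ((comm_R hk s t).neg_left).neg_right
  · exact Commute.one_right _
  · exact Commute.one_left _
  · exact Commute.one_left _

lemma comm_set (hk : ∀ s t, (m s).k ≠ (m t).a ∧ (m s).k ≠ (m t).b) (ω : τ → Bool) :
    ((univ : Finset τ) : Set τ).Pairwise (Function.onFun Commute (fct m c δ ω)) :=
  fun s _ t _ _ => comm_fct hk ω s t

/-- operator of the configuration `ω` -/
def pr (hk : ∀ s t, (m s).k ≠ (m t).a ∧ (m s).k ≠ (m t).b) (c : τ → ℝ) (δ : ℝ)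
    (ω : τ → Bool) : Op ι :=
  (univ : Finset τ).noncommProd (fct m c δ ω) (comm_set hk ω)

/-- the trial state -/
def trial (hk : ∀ s t, (m s).k ≠ (m t).a ∧ (m s).k ≠ (m t).b) (c : τ → ℝ) (δ : ℝ)
    (ψ : Q ι) : Q (ι ⊕ τ) := asm fun ω => pr hk c δ ω ψ

lemma pr_flip (hk : ∀ s t, (m s).k ≠ (m t).a ∧ (m s).k ≠ (m t).b) (ω : τ → Bool) (t : τ)
    (h : ω t = false) : pr hk c δ (flip t ω) = -(m t).R (c t) δ * pr hk c δ ω := by
  unfold pr
  rw [← Finset.mul_noncommProd_erase univ (mem_univ t) (fct m c δ (flip t ω)),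
    ← Finset.mul_noncommProd_erase univ (mem_univ t) (fct m c δ ω)]
  have e1 : fct m c δ (flip t ω) t = -(m t).R (c t) δ := by simp [fct, h]
  have e2 : fct m c δ ω t = 1 := by simp [fct, h]
  rw [e1, e2, one_mul]
  congr 1
  refine Finset.noncommProd_congr rfl (fun s hs => ?_) _
  have : s ≠ t := Finset.ne_of_mem_erase hs
  simp [fct, this]

lemma pr_zero (hk : ∀ s t, (m s).k ≠ (m t).a ∧ (m s).k ≠ (m t).b) :
    pr hk c δ (fun _ => false) = 1 := by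
  unfold pr
  rw [Finset.noncommProd_eq_pow_card _ _ _ 1 (fun t _ => by simp [fct])]
  simp

lemma cmp_trial_flip (hk : ∀ s t, (m s).k ≠ (m t).a ∧ (m s).k ≠ (m t).b) (ψ : Q ι)
    (ω : τ → Bool) (t : τ) (h : ω t = false) :
    cmp (flip t ω) (trial hk c δ ψ) = -(m t).R (c t) δ (cmp ω (trial hk c δ ψ)) := by
  unfold trial
  rw [cmp_asm, cmp_asm, pr_flip hk ω t h]
  simp [Module.End.mul_apply]

lemma nsq_neg (φ : Q ι) : nsq (-φ) = nsq φ := by simp [nsq]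

/-- the weight of the configurations with `ω t = true` is small -/
lemma weight_one (hδ : 0 < δ) (hc : ∀ t, 0 ≤ c t) (hcδ : ∀ t, c t ≤ δ)
    (hk : ∀ s t, (m s).k ≠ (m t).a ∧ (m s).k ≠ (m t).b) (ψ : Q ι) (t : τ) :
    ∑ ω ∈ univ.filter (fun ω : τ → Bool => ω t = false), nsq (cmp (flip t ω) (trial hk c δ ψ))
      ≤ 16 / δ ^ 2 * nsq (trial hk c δ ψ) := by
  rw [nsq_cmp, Finset.mul_sum]
  refine (Finset.sum_le_sum fun ω hω => ?_).trans
    (Finset.sum_le_univ_sum_of_nonneg (f := fun ω => 16 / δ ^ 2 * nsq (cmp ω (trial hk c δ ψ)))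
      fun ω => mul_nonneg (by positivity) (nsq_nonneg _))
  simp only [mem_filter, mem_univ, true_and] at hω
  rw [cmp_trial_flip hk ψ ω t hω, nsq_neg]
  exact nsq_R_le (m t) hδ (hc t) (hcδ t) _

lemma weight_all (hδ : 0 < δ) (hc : ∀ t, 0 ≤ c t) (hcδ : ∀ t, c t ≤ δ)
    (hk : ∀ s t, (m s).k ≠ (m t).a ∧ (m s).k ≠ (m t).b) (ψ : Q ι) :
    ∑ ω ∈ univ.erase (fun _ : τ => false), nsq (cmp ω (trial hk c δ ψ))
      ≤ Fintype.card τ * (16 / δ ^ 2) * nsq (trial hk c δ ψ) := by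
  have h1 : ∑ ω ∈ univ.erase (fun _ : τ => false), nsq (cmp ω (trial hk c δ ψ))
      ≤ ∑ ω, ∑ t : τ, (if ω t = true then nsq (cmp ω (trial hk c δ ψ)) else 0) := by
    refine (Finset.sum_le_sum (g := fun ω => ∑ t : τ,
      (if ω t = true then nsq (cmp ω (trial hk c δ ψ)) else 0)) fun ω hω => ?_).trans
      (Finset.sum_le_univ_sum_of_nonneg fun ω => Finset.sum_nonneg fun t _ => ?_)
    · have hne : ω ≠ fun _ => false := (Finset.mem_erase.1 hω).1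
      obtain ⟨t, ht⟩ : ∃ t, ω t = true := by
        by_contra hcon
        push Not at hcon
        apply hne
        funext t
        simpa using hcon t
      have := Finset.single_le_sum (f := fun t : τ =>
        (if ω t = true then nsq (cmp ω (trial hk c δ ψ)) else 0))
        (fun t _ => by split_ifs; exacts [nsq_nonneg _, le_rfl]) (mem_univ t)
      simpa [ht] using this
    · split_ifs
      exacts [nsq_nonneg _, le_rfl]
  refine h1.trans ?_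
  rw [Finset.sum_comm]
  have h2 : ∀ t : τ, ∑ ω, (if ω t = true then nsq (cmp ω (trial hk c δ ψ)) else 0)
      ≤ 16 / δ ^ 2 * nsq (trial hk c δ ψ) := by
    intro t
    rw [sum_pair t]
    refine le_trans (le_of_eq ?_) (weight_one hδ hc hcδ hk ψ t)
    refine Finset.sum_congr rfl fun ω hω => ?_
    simp only [mem_filter, mem_univ, true_and] at hω
    simp [hω]
  refine (Finset.sum_le_sum fun t _ => h2 t).trans ?_
  simp [mul_assoc]

/-- UPPER BOUND of the mediator step -/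
theorem med_upper (hδ : 0 < δ) (hc : ∀ t, 0 ≤ c t) (hcδ : ∀ t, c t ≤ δ)
    (hk : ∀ s t, (m s).k ≠ (m t).a ∧ (m s).k ≠ (m t).b) {Λ e : ℝ} (hΛ : FB (H3 L m c) Λ)
    {ψ : Q ι} (hψ : nsq ψ = 1) (h : E (H3 L m c) ψ ≤ e) :
    ∃ Ψ : Q (ι ⊕ τ), nsq Ψ = 1 ∧
      E (H2 L m c δ) Ψ ≤ e + Fintype.card τ * (32 * Λ / δ ^ 2 + 96 / δ) := by
  set Ψ := trial hk c δ ψ with hΨ
  have hc0 : cmp (fun _ => false) Ψ = ψ := by
    rw [hΨ, trial, cmp_asm, pr_zero hk]; rfl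
  have hsum : nsq Ψ = 1 + ∑ ω ∈ univ.erase (fun _ : τ => false), nsq (cmp ω Ψ) := by
    rw [nsq_cmp, ← Finset.add_sum_erase univ _ (mem_univ (fun _ : τ => false)), hc0, hψ]
  set S := ∑ ω ∈ univ.erase (fun _ : τ => false), nsq (cmp ω Ψ) with hS
  have hS0 : 0 ≤ S := Finset.sum_nonneg fun _ _ => nsq_nonneg _
  have hSle : S ≤ Fintype.card τ * (16 / δ ^ 2) * nsq Ψ := weight_all hδ hc hcδ hk ψ
  have hpos : 0 < nsq Ψ := by rw [hsum]; linarith
  have hΛ0 : 0 ≤ Λ := by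
    have := (abs_nonneg _).trans (hΛ ψ)
    rwa [hψ, mul_one] at this
  have heΛ : -Λ ≤ e := by
    have := (abs_le.1 (hΛ ψ)).1
    rw [hψ, mul_one] at this
    linarith
  -- the energy of the three-local part
  have h3 : ∑ ω, E (H3 L m c) (cmp ω Ψ) ≤ e + Λ * S := by
    rw [← Finset.add_sum_erase univ _ (mem_univ (fun _ : τ => false)), hc0, hS, Finset.mul_sum]
    refine add_le_add h (Finset.sum_le_sum fun ω _ => ?_)
    exact (abs_le.1 (hΛ _)).2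
  -- the mediator terms
  have h4 : ∀ t, E (med m c δ t) Ψ ≤ ∑ ω ∈ univ.filter (fun ω : τ → Bool => ω t = false),
        (c t * E (m t).W (cmp ω Ψ) + c t * E (m t).W (cmp (flip t ω) Ψ))
        + 6 * δ * (16 / δ ^ 2 * nsq Ψ) := by
    intro t
    have hw := weight_one hδ hc hcδ hk ψ t
    have hw2 := mul_le_mul_of_nonneg_left hw (by positivity : 0 ≤ 6 * δ)
    refine le_trans ?_ (add_le_add_right hw2 _)
    rw [E_med, Finset.mul_sum, ← Finset.sum_add_distrib]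
    refine Finset.sum_le_sum fun ω hω => ?_
    simp only [mem_filter, mem_univ, true_and] at hω
    rw [pairE_eq (m t) hδ (hc t) (hcδ t)]
    have e1 : cmp (flip t ω) Ψ + (m t).R (c t) δ (cmp ω Ψ) = 0 := by
      rw [hΨ, cmp_trial_flip hk ψ ω t hω]; simp
    rw [e1]
    have a0 : E ((m t).D (c t) δ) (0 : Q ι) = 0 := by simp [E]
    have a2 := E_G_le (m t) hδ (hc t) (hcδ t) (cmp (flip t ω) Ψ)
    have a4 := E_G_nonneg (m t) hδ (hc t) (hcδ t) (cmp ω Ψ)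
    have a5 := kap_ge hδ (hc t) (hcδ t)
    have a6 : 0 ≤ (kap (c t) δ - 1) * E ((m t).G (c t) δ) (cmp ω Ψ) :=
      mul_nonneg (by linarith) a4
    rw [a0]
    linarith
  have h5 := Finset.sum_le_sum (s := (univ : Finset τ)) fun t _ => h4 t
  rw [Finset.sum_add_distrib, Finset.sum_const, Finset.card_univ, nsmul_eq_mul] at h5
  rw [E_H3_cmp] at h3
  have h6 : E (H2 L m c δ) Ψ ≤ e + Λ * S + Fintype.card τ * (6 * δ * (16 / δ ^ 2 * nsq Ψ)) := by
    rw [H2, E_add, E_lift, E_sum]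
    linarith
  have h7 : E (H2 L m c δ) Ψ ≤ (e + Fintype.card τ * (32 * Λ / δ ^ 2 + 96 / δ)) * nsq Ψ := by
    have b1 : e = e * nsq Ψ - e * S := by rw [hsum]; ring
    have b2 : -(e * S) ≤ Λ * S := by
      rw [← neg_mul]
      exact mul_le_mul_of_nonneg_right (by linarith) hS0
    have b3 : Λ * S ≤ Λ * (Fintype.card τ * (16 / δ ^ 2) * nsq Ψ) :=
      mul_le_mul_of_nonneg_left hSle hΛ0
    have b4 : (Fintype.card τ : ℝ) * (6 * δ * (16 / δ ^ 2 * nsq Ψ))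
        = Fintype.card τ * (96 / δ) * nsq Ψ := by
      field_simp; ring
    have b5 : Λ * (Fintype.card τ * (16 / δ ^ 2) * nsq Ψ)
        = Fintype.card τ * (16 * Λ / δ ^ 2) * nsq Ψ := by
      ring
    have b6 : (e + Fintype.card τ * (32 * Λ / δ ^ 2 + 96 / δ)) * nsq Ψ
        = e * nsq Ψ + 2 * (Fintype.card τ * (16 * Λ / δ ^ 2) * nsq Ψ)
          + Fintype.card τ * (96 / δ) * nsq Ψ := by ring
    rw [b6]
    linarith
  refine ⟨(Real.sqrt (nsq Ψ))⁻¹ • Ψ, ?_, ?_⟩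
  · rw [nsq_smul, inv_pow, Real.sq_sqrt hpos.le, inv_mul_cancel₀ hpos.ne']
  · rw [E_smul_vec, inv_pow, Real.sq_sqrt hpos.le, inv_mul_le_iff₀ hpos, mul_comm]
    exact h7

end main

end Crest.Agent.R338.Med

end
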