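import Crest.Agent.R338.Pauli
import Crest.Agent.R338.Med
import Crest.Agent.R338.Clock
import Crest.Agent.R338.RCDefs

/-!
# Row 338: the clock form `H_K` and the two-local form `H_2` as operators (definitions only)

Index types: wires `Fin M`, clock qubits `Fin T`, mediators `Fin T`.
`H_K` lives on `Fin M ⊕ Fin T`, `H_2` on `(Fin M ⊕ Fin T) ⊕ Fin T`. (helper896, node I.3, pair table)
-/

set_option autoImplicit false

namespace Crest.Agent.R338.PTab

open Crest.Agent.R338 RC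

/-- clock data: gates `g t` (`t = 0` first), constrained wires, output wire, dummy wire -/
structure CD where
  M : ℕ
  T : ℕ
  g : Fin T → EG (Fin M)
  con : Fin M → Bool
  out : Fin M
  D : Fin M

/-- standing hypotheses -/
structure CD.Ok (d : CD) : Prop where
  hT : 2 ≤ d.T
  wf : ∀ t, (d.g t).WF
  first : ∀ t : Fin d.T, (t : ℕ) = 0 → d.g t = EG.rot 2 d.D
  last : ∀ t : Fin d.T, (t : ℕ) + 1 = d.T → d.g t = EG.rot 2 d.D
  conD : d.con d.D = false
  outD : d.out ≠ d.D

/-- operator of a gate, wires embedded by `f` -/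
noncomputable def gop {W ι : Type} [DecidableEq ι] (f : W → ι) : EG W → Op ι
  | EG.rot k a => Real.cos (ang k) • Z (f a) + Real.sin (ang k) • X (f a)
  | EG.cz a b => (1 / 2 : ℝ) • (1 + Z (f a) + Z (f b) - Z (f a) * Z (f b))

/-- `1` if the gate is a `CZ` -/
def isCZ {W : Type} : EG W → Bool
  | EG.rot _ _ => false
  | EG.cz _ _ => true

/-- operator `Z_a - Z_b` of a `CZ` gate (zero for rotations) -/
noncomputable def dop {W ι : Type} (f : W → ι) : EG W → Op ι
  | EG.rot _ _ => 0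
  | EG.cz a b => Z (f a) - Z (f b)

/-- operator `Z_a Z_b` of a `CZ` gate (zero for rotations) -/
noncomputable def zzop {W ι : Type} (f : W → ι) : EG W → Op ι
  | EG.rot _ _ => 0
  | EG.cz a b => Z (f a) * Z (f b)

namespace CD

variable (d : CD) {ι : Type} [DecidableEq ι] (w : Fin d.M → ι) (c : Fin d.T → ι) (m : Fin d.T → ι)

/-- the part of the clock form without the propagation term:
`|0><0|_out c_T + J_in Σ_con |1><1|_a |0><0|_{c_1} + J_prop (1 + c_1 - c_T)/2 + J_clk Σ |0><0|_{c_t}|1><1|_{c_{t+1}}` -/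
noncomputable def Hdiag (Jin Jp Jk : ℝ) : Op ι :=
  ∑ t : Fin d.T, (if (t : ℕ) + 1 = d.T then (1 - Nb (w d.out)) * Nb (c t) else 0)
    + Jin • ∑ t : Fin d.T, (if (t : ℕ) = 0 then
        ∑ a : Fin d.M, (if d.con a then Nb (w a) * (1 - Nb (c t)) else 0) else 0)
    + (Jp / 2) • (1 + ∑ t : Fin d.T, (if (t : ℕ) = 0 then Nb (c t) else 0)
        - ∑ t : Fin d.T, (if (t : ℕ) + 1 = d.T then Nb (c t) else 0))
    + Jk • ∑ t : Fin d.T, ∑ t' : Fin d.T,
        (if (t' : ℕ) = (t : ℕ) + 1 then (1 - Nb (c t)) * Nb (c t') else 0)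

/-- **the clock form** `H_K`: `Hdiag - (J_prop/2) Σ_t U_t X_{c_t}` -/
noncomputable def HK (Jin Jp Jk : ℝ) : Op ι :=
  d.Hdiag w c Jin Jp Jk - (Jp / 2) • ∑ t : Fin d.T, gop w (d.g t) * X (c t)

/-- two-local part of `H_K`: `H_K = HL + Σ_{CZ} (J_prop/4) Z_a Z_b X_{c_t}` -/
noncomputable def HL (Jin Jp Jk : ℝ) : Op ι :=
  d.HK w c Jin Jp Jk - (Jp / 4) • ∑ t : Fin d.T, zzop w (d.g t) * X (c t)

/-- the gadget of time `t` with `c = J_prop/4` (for rotations only `δ³ |1><1|_w`):
`δ³ n_w + δ² (Z_a - Z_b) X_w - (c δ²/2) n_w X_{c_t} + 2 δ (1 - Z_a Z_b) + c X_{c_t}` -/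
noncomputable def gadg (Jp δ : ℝ) (t : Fin d.T) : Op ι :=
  δ ^ 3 • Nb (m t) + δ ^ 2 • (dop w (d.g t) * X (m t))
    + (if isCZ (d.g t) then
        -((Jp / 4) * δ ^ 2 / 2) • (Nb (m t) * X (c t)) + (2 * δ) • (1 - zzop w (d.g t))
          + (Jp / 4) • X (c t)
      else 0)

/-- **the two-local form** `H_2` -/
noncomputable def H2 (Jin Jp Jk δ : ℝ) : Op ι :=
  d.HL w c Jin Jp Jk + ∑ t : Fin d.T, d.gadg w c m Jp δ t

/-! ### relation with `Med` (helper18) and `Clock` (helper714) -/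

/-- the mediated term of time `t` (trivial for rotations) -/
def term (t : Fin d.T) : Med.Term (Fin d.M ⊕ Fin d.T) :=
  match d.g t with
  | EG.rot _ a => ⟨Sum.inl a, Sum.inl a, Sum.inr t, by simp, by simp⟩
  | EG.cz a b => ⟨Sum.inl a, Sum.inl b, Sum.inr t, by simp, by simp⟩

/-- strength of the mediated term: `J_prop/4` for `CZ`, `0` for rotations -/
noncomputable def cc (Jp : ℝ) (t : Fin d.T) : ℝ := if isCZ (d.g t) then Jp / 4 else 0

/-- rejection indicator -/
noncomputable def rej (w : Fin d.M → Bool) : ℝ := if w d.out then 0 else 1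

/-- number of constrained wires which are `1` -/
noncomputable def cnt (w : Fin d.M → Bool) : ℝ :=
  ∑ a : Fin d.M, if d.con a then (if w a then 1 else 0) else 0

/-- the gates as linear maps on the wire space -/
noncomputable def U (t : Fin d.T) : Q (Fin d.M) →ₗ[ℝ] Q (Fin d.M) := gop id (d.g t)

end CD

end Crest.Agent.R338.PTab
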