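import Crest.Agent.R338.HB9

/-!
# Row 338, node I.4 (k): `PartIbStmt`
-/

set_option autoImplicit false

noncomputable section

namespace Crest.Agent.R338.HB

open Matrix Finset Ten Crest.Agent.Lib.PT Crest.Agent.R338.Nu

theorem OLM {n : ℕ} (p : Fin n) (x z : ℝ) (ψ : (Fin n → Bool) → ℝ) :
    O p (LM x z) *ᵥ ψ = (((√3 * x) • X p + z • Z p : Op (Fin n))) ψ := by
  funext σ
  rw [O_mulVec, Fintype.sum_bool]
  simp only [LinearMap.add_apply, LinearMap.smul_apply, Pi.add_apply, Pi.smul_apply, smul_eq_mul,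
    X_apply, Z_apply]
  cases h : σ p
  · have e1 : Function.update σ p false = σ := by
      conv_lhs => rw [← h]
      exact Function.update_eq_self p σ
    have e2 : Function.update σ p true = flip p σ := by
      unfold flip; rw [h]; rfl
    rw [e1, e2]
    simp [LM, X2, Z2]
  · have e1 : Function.update σ p true = σ := by
      conv_lhs => rw [← h]
      exact Function.update_eq_self p σ
    have e2 : Function.update σ p false = flip p σ := by
      unfold flip; rw [h]; rfl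
    rw [e1, e2]
    simp [LM, X2, Z2]
    ring

/-- data of a coded instance -/
def xd (x : XInst) : XD x.n where
  fx p := ((x.fl p).1 : ℝ)
  fz p := ((x.fl p).2 : ℝ)
  ax p q := ((x.cp p q).1.1 : ℝ)
  az p q := ((x.cp p q).1.2 : ℝ)
  bx p q := ((x.cp p q).2.1 : ℝ)
  bz p q := ((x.cp p q).2.2 : ℝ)

theorem E_eq (x : XInst) (φ : Q (Fin x.n)) : E x.xz.op φ = φ ⬝ᵥ ((xd x).mat *ᵥ φ) := by
  unfold E
  congr 1
  unfold XD.mat XZ.op
  rw [LinearMap.add_apply, LinearMap.sum_apply, LinearMap.sum_apply, add_mulVec, sum_mulVec,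
    sum_mulVec]
  congr 1
  · refine Finset.sum_congr rfl fun p _ => ?_
    rw [OLM]
    rfl
  · unfold pairs
    rw [Finset.sum_filter, Fintype.sum_prod_type]
    refine Finset.sum_congr rfl fun p _ => ?_
    rw [LinearMap.sum_apply]
    refine Finset.sum_congr rfl fun q _ => ?_
    by_cases h : p < q
    · simp only [h, if_true]
      rw [← mulVec_mulVec, OLM, OLM]
      rfl
    · simp only [h, if_false]
      rfl

theorem tQ_cast (x : XInst) : ((tQ x : ℚ) : ℝ) = (x.b : ℝ) + 1 := by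
  unfold tQ; push_cast; ring

theorem CAq_cast (x : XInst) (p q : Fin x.n) :
    ((CAq x p q : ℚ) : ℝ) = (xd x).CA ((x.b : ℝ) + 1) p q := by
  unfold CAq XD.CA
  rw [CrQ_cast, tQ_cast]
  rfl

theorem CBq_cast (x : XInst) (p q : Fin x.n) :
    ((CBq x p q : ℚ) : ℝ) = (xd x).CB ((x.b : ℝ) + 1) p q := by
  unfold CBq XD.CB
  rw [CrQ_cast, tQ_cast]
  push_cast
  rfl

theorem gxq_cast (x : XInst) (p : Fin x.n) :
    ((gxq x p : ℚ) : ℝ) = (xd x).gx ((x.b : ℝ) + 1) p := by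
  unfold gxq XD.gx
  rw [Finset.sum_range, Finset.sum_range]
  push_cast
  congr 1
  · congr 1
    refine Finset.sum_congr rfl fun q _ => ?_
    rw [← CAq_cast]
    simp only [Fin.lt_def]
    split_ifs
    · push_cast; rfl
    · simp
  · refine Finset.sum_congr rfl fun q _ => ?_
    rw [← CBq_cast]
    simp only [Fin.lt_def]
    split_ifs
    · push_cast; rfl
    · simp

theorem gzq_cast (x : XInst) (p : Fin x.n) :
    ((gzq x p : ℚ) : ℝ) = (xd x).gz ((x.b : ℝ) + 1) p := by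
  unfold gzq XD.gz
  rw [Finset.sum_range, Finset.sum_range]
  push_cast
  congr 1
  · congr 1
    refine Finset.sum_congr rfl fun q _ => ?_
    rw [← CAq_cast]
    simp only [Fin.lt_def]
    split_ifs
    · push_cast; rfl
    · simp
  · refine Finset.sum_congr rfl fun q _ => ?_
    rw [← CBq_cast]
    simp only [Fin.lt_def]
    split_ifs
    · push_cast; rfl
    · simp

theorem c0q_cast (x : XInst) : ((c0q x : ℚ) : ℝ) = (xd x).c0 ((x.b : ℝ) + 1) := by
  unfold c0q XD.c0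
  rw [Finset.sum_range]
  simp only [Finset.sum_range]
  push_cast
  congr 1
  · refine Finset.sum_congr rfl fun p _ => ?_
    rw [gzq_cast]
  · unfold pairs
    rw [Finset.sum_filter, Fintype.sum_prod_type]
    refine Finset.sum_congr rfl fun p _ => Finset.sum_congr rfl fun q _ => ?_
    rw [← CAq_cast, ← CBq_cast]
    simp only [Fin.lt_def]
    split_ifs
    · push_cast; rfl
    · simp

theorem main_of_valid {x : XInst} (hx : x.Valid) :
    Main (xd x) (x.b : ℝ) (x.q : ℝ) ((x.n : ℝ) * x.q * x.b) (jn x : ℝ) (rN x) (sN x) (uN x) := by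
  obtain ⟨h1, h2, h3, h4, h5⟩ := hx
  have cast_le : ∀ (y : ℚ), |y| ≤ (x.b : ℚ) → |(y : ℝ)| ≤ (x.b : ℝ) := by
    intro y hy
    have : ((|y| : ℚ) : ℝ) ≤ ((x.b : ℚ) : ℝ) := by exact_mod_cast hy
    simpa using this
  refine ⟨⟨?_, ?_, ?_, ?_, ?_, ?_⟩, ⟨?_, ?_, ?_, rfl, ?_⟩, ?_, ?_, ?_⟩
  · exact fun p => cast_le _ (h4 p p.2).1
  · exact fun p => cast_le _ (h4 p p.2).2
  · exact fun p q hpq => cast_le _ (h5 p p.2 q q.2 hpq).1
  · exact fun p q hpq => cast_le _ (h5 p p.2 q q.2 hpq).2.1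
  · exact fun p q hpq => cast_le _ (h5 p p.2 q q.2 hpq).2.2.1
  · exact fun p q hpq => cast_le _ (h5 p p.2 q q.2 hpq).2.2.2
  · exact_mod_cast h1
  · exact_mod_cast h3
  · exact_mod_cast h2
  · unfold jn; push_cast; ring
  · intro p q _ a
    unfold rN XD.r
    rw [rvN_eq, tQ_cast]
    rfl
  · intro p q _ a
    unfold sN XD.s
    rw [rvN_eq, tQ_cast]
    push_cast
    rfl
  · intro p a
    unfold uN uq XD.u uf
    rw [← gxq_cast, ← gzq_cast]
    fin_cases a <;> simp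

theorem heisR_congr {n : ℕ} {J J' : Fin n → Fin n → ℝ} (h : ∀ i j, i < j → J i j = J' i j)
    (φ : Q (Fin n)) : P1.heisR J φ = P1.heisR J' φ := by
  unfold P1.heisR
  refine Finset.sum_congr rfl fun i _ => Finset.sum_congr rfl fun j _ => ?_
  split_ifs with hij
  · rw [h i j hij]
  · rfl

theorem heisR_smul {n : ℕ} (J : Fin n → Fin n → ℝ) (c : ℝ) (φ : Q (Fin n)) :
    P1.heisR (fun i j => J i j * c) φ = P1.heisR J φ * c := by
  unfold P1.heisR
  rw [Finset.sum_mul]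
  refine Finset.sum_congr rfl fun i _ => ?_
  rw [Finset.sum_mul]
  refine Finset.sum_congr rfl fun j _ => ?_
  split_ifs
  · ring
  · ring

theorem Jx_eq {x : XInst} (hx : x.Valid) (i k : Fin (x.n * 4)) (hik : i < k) :
    Jx x i k = Jraw (rN x) (sN x) (uN x) (6 * (jn x : ℝ)) (6 * (jn x : ℝ) ^ 2) i k *
      ((7 * jn x ^ 2 : ℕ) : ℝ)⁻¹ := by
  have P := main_of_valid hx
  obtain ⟨y, rfl⟩ := finProdFinEquiv.surjective i
  obtain ⟨z, rfl⟩ := finProdFinEquiv.surjective k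
  have hb := P.Jbd y z ((lt_iff y z).1 hik)
  have hj := P.par.jpos
  unfold Jx
  have hc : (0 : ℝ) < ((7 * jn x ^ 2 : ℕ) : ℝ) := by push_cast; positivity
  rw [min_eq_right, max_eq_right]
  · exact mul_nonneg hb.1 (by positivity)
  · rw [← div_eq_mul_inv, div_le_one hc]
    push_cast
    exact hb.2

theorem heisR_Jx {x : XInst} (hx : x.Valid) (χ : Q (Fin (x.n * 4))) :
    P1.heisR (fun i k : Fin (x.n * 4) => Jx x i k) χ =
      P1.heisR (fun i k : Fin (x.n * 4) => Jraw (rN x) (sN x) (uN x) (6 * (jn x : ℝ))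
        (6 * (jn x : ℝ) ^ 2) i k) χ * ((7 * jn x ^ 2 : ℕ) : ℝ)⁻¹ := by
  rw [← heisR_smul]
  exact heisR_congr (fun i j hij => Jx_eq hx i j hij) χ

theorem loq_cast {x : XInst} (hx : x.Valid) : ((loq x : ℚ) : ℝ) =
    ((x.e : ℝ) + (xd x).c0 ((x.b : ℝ) + 1) + 1 / (8 * (x.q : ℝ)) -
      (3 / 2) * (6 * (jn x : ℝ) ^ 2) * x.n) * ((7 * jn x ^ 2 : ℕ) : ℝ)⁻¹ := by
  unfold loq
  push_cast
  rw [c0q_cast]
  rfl

theorem yes_x {x : XInst} (hx : x.Valid) (h : x.Yes) : ∃ χ : Q (Fin (x.n * 4)), nsq χ = 1 ∧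
    P1.heisR (fun i k : Fin (x.n * 4) => Jx x i k) χ ≤ ((loq x : ℚ) : ℝ) := by
  obtain ⟨φ, h1, h2⟩ := h
  have P := main_of_valid hx
  rw [E_eq] at h2
  obtain ⟨χ, h3, h4⟩ := P.yes φ h1 h2
  refine ⟨χ, h3, ?_⟩
  rw [heisR_Jx hx, loq_cast hx]
  exact mul_le_mul_of_nonneg_right h4 (by positivity)

theorem no_x {x : XInst} (hx : x.Valid) (h : x.No) (χ : Q (Fin (x.n * 4))) :
    (((loq x : ℚ) : ℝ) + 1 / (qO x : ℝ)) * nsq χ ≤
      P1.heisR (fun i k : Fin (x.n * 4) => Jx x i k) χ := by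
  have P := main_of_valid hx
  have hj := P.par.jpos
  have hq := P.par.hq
  have h1 := P.no (μ := (x.e : ℝ) + 1 / (x.q : ℝ)) (fun φ hφ => by
    have := h φ hφ
    rw [E_eq] at this
    exact this) χ
  rw [heisR_Jx hx, loq_cast hx]
  have hn := nsq_nonneg χ
  set c : ℝ := ((7 * jn x ^ 2 : ℕ) : ℝ)⁻¹ with hc
  have hc0 : 0 ≤ c := by rw [hc]; positivity
  have h2 := mul_le_mul_of_nonneg_right h1 hc0
  refine le_trans ?_ h2
  have h3 : 1 / (qO x : ℝ) ≤ (3 / 4) * (1 / (x.q : ℝ)) * c := by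
    have e1 : c = 1 / (7 * (jn x : ℝ) ^ 2) := by rw [hc]; push_cast; ring
    have e2 : (3 / 4) * (1 / (x.q : ℝ)) * (1 / (7 * (jn x : ℝ) ^ 2)) =
        3 / (28 * (x.q : ℝ) * (jn x : ℝ) ^ 2) := by
      field_simp; norm_num
    rw [e1, e2]
    unfold qO
    push_cast
    rw [div_le_div_iff₀ (by positivity) (by positivity)]
    nlinarith [mul_nonneg (by linarith : (0:ℝ) ≤ (x.q : ℝ)) (sq_nonneg (jn x : ℝ))]
  have e3 : 1 / (8 * (x.q : ℝ)) = (1 / 8) * (1 / (x.q : ℝ)) := by field_simp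
  rw [e3]
  have h4 := mul_le_mul_of_nonneg_right h3 hn
  set Q1 : ℝ := 1 / (x.q : ℝ)
  set e : ℝ := (x.e : ℝ)
  set C0 : ℝ := (xd x).c0 ((x.b : ℝ) + 1)
  set S : ℝ := (3 / 2) * (6 * (jn x : ℝ) ^ 2) * x.n
  calc ((e + C0 + 1 / 8 * Q1 - S) * c + 1 / (qO x : ℝ)) * nsq χ
      = (e + C0 + 1 / 8 * Q1 - S) * c * nsq χ + 1 / (qO x : ℝ) * nsq χ := by ring
    _ ≤ (e + C0 + 1 / 8 * Q1 - S) * c * nsq χ + 3 / 4 * Q1 * c * nsq χ := by linarith
    _ = (e + Q1 + C0 - 1 / 8 * Q1 - S) * nsq χ * c := by ring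

theorem partIb : PartIbStmt := by
  obtain ⟨g, hg, hv, hy, hn⟩ := P1.finalize (α := XInst) nO qO ptu_nO ptu_qO
    (fun x => by unfold nO; split_ifs <;> omega) (fun x => by unfold qO; omega) Jx ptr_Jx
    (fun x i k => le_max_left _ _) (fun x i k => max_le zero_le_one (min_le_left _ _))
    (fun x => ((loq x : ℚ) : ℝ)) (PTR.ratCast ptf_loq)
  have hN : ∀ x : XInst, x.Valid → nO x = x.n * 4 := by
    intro x hx
    have := hx.1
    unfold nO
    rw [if_neg (by omega), add_zero]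
  refine ⟨g, hg, fun x _ => hv x, fun x hx hyes => hy x ?_, fun x hx hno => hn x ?_⟩
  · have key : ∀ N : ℕ, N = x.n * 4 → ∃ φ : Q (Fin N), nsq φ = 1 ∧
        P1.heisR (fun i j : Fin N => Jx x i j) φ ≤ ((loq x : ℚ) : ℝ) := by
      rintro N rfl
      exact yes_x hx hyes
    exact key _ (hN x hx)
  · have key : ∀ N : ℕ, N = x.n * 4 → ∀ φ : Q (Fin N),
        (((loq x : ℚ) : ℝ) + 1 / (qO x : ℝ)) * nsq φ ≤
        P1.heisR (fun i j : Fin N => Jx x i j) φ := by
      rintro N rfl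
      exact no_x hx hno
    exact key _ (hN x hx)

end Crest.Agent.R338.HB

end
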