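import Crest.Agent.R338.HB1

/-!
# Row 338, node I.4 (b): real matrices of one block of four spins
-/

set_option autoImplicit false

namespace Crest.Agent.R338.HB

open Matrix Finset

theorem univ_B4 : (Finset.univ : Finset B4).val = (([
    ![false, false, false, false], ![false, false, false, true], ![false, false, true, false],
    ![false, false, true, true], ![false, true, false, false], ![false, true, false, true],
    ![false, true, true, false], ![false, true, true, true], ![true, false, false, false],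
    ![true, false, false, true], ![true, false, true, false],
    ![true, false, true, true], ![true, true, false, false], ![true, true, false, true],
    ![true, true, true, false], ![true, true, true, true]] : List B4) : Multiset B4) := by
  decide +kernel

theorem sum16_eq (f : B4 → ℤ) : ∑ i, f i = sum16 f := by
  unfold Finset.sum
  rw [univ_B4]
  simp only [Multiset.map_coe, Multiset.sum_coe, List.map_cons, List.map_nil, List.sum_cons,
    List.sum_nil, sum16]
  ring

/-- unit basis vector -/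
def uv (j : B4) : B4 → ℤ := fun k => if k = j then 1 else 0

/-- the exchange matrix -/
def P4 (a b : Fin 4) : Matrix B4 B4 ℝ := of fun i j => if j = swp a b i then 1 else 0

/-- spin components of the spin `a` (`1 = i y`) -/
noncomputable def TT (al : Fin 3) (a : Fin 4) : Matrix B4 B4 ℝ :=
  of fun i j => (TZ al a (uv j) i : ℝ) / 2

/-- `K = (1/2) ∑ exchanges = S (S + 1) / 2` -/
noncomputable def K4 : Matrix B4 B4 ℝ :=
  (1 / 2 : ℝ) • (P4 0 1 + P4 0 2 + P4 0 3 + P4 1 2 + P4 1 3 + P4 2 3)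

theorem P4_mulVec (a b : Fin 4) (v : B4 → ℝ) (i : B4) : (P4 a b *ᵥ v) i = v (swp a b i) := by
  simp [P4, mulVec, dotProduct]

theorem swp_swp (a b : Fin 4) (i : B4) : swp a b (swp a b i) = i := by
  funext c
  simp [swp]

theorem P4_transpose (a b : Fin 4) : (P4 a b)ᵀ = P4 a b := by
  ext i j
  simp only [transpose_apply, P4, of_apply]
  congr 1
  apply propext
  constructor
  · rintro rfl; rw [swp_swp]
  · rintro rfl; rw [swp_swp]

theorem K4_transpose : K4ᵀ = K4 := by
  simp [K4, P4_transpose]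

theorem K4_mulVec (v : B4 → ℤ) (i : B4) : (K4 *ᵥ (fun k => (v k : ℝ))) i = (KZ v i : ℝ) / 2 := by
  simp only [K4, smul_mulVec, add_mulVec, Pi.smul_apply, Pi.add_apply, P4_mulVec, KZ, smul_eq_mul]
  push_cast
  ring

theorem TT_mulVec_real (al : Fin 3) (a : Fin 4) (v : B4 → ℝ) (i : B4) :
    (TT al a *ᵥ v) i = match al with
      | 0 => v (flp a i) / 2
      | 1 => (sg (i a) : ℝ) * v (flp a i) / 2
      | 2 => (sg (i a) : ℝ) * v i / 2 := by
  fin_cases al
  · simp only [TT, mulVec, dotProduct, of_apply, TZ, uv]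
    rw [Finset.sum_eq_single (flp a i)]
    · simp; ring
    · intro b _ hb
      simp [hb.symm]
    · simp
  · simp only [TT, mulVec, dotProduct, of_apply, TZ, uv]
    rw [Finset.sum_eq_single (flp a i)]
    · simp; ring
    · intro b _ hb
      simp [hb.symm]
    · simp
  · simp only [TT, mulVec, dotProduct, of_apply, TZ, uv]
    rw [Finset.sum_eq_single i]
    · simp; ring
    · intro b _ hb
      simp [hb.symm]
    · simp

theorem TT_mulVec (al : Fin 3) (a : Fin 4) (v : B4 → ℤ) (i : B4) :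
    (TT al a *ᵥ (fun k => (v k : ℝ))) i = (TZ al a v i : ℝ) / 2 := by
  rw [TT_mulVec_real]
  fin_cases al <;> simp [TZ]

/-- sign of the component: `S_a · S_b = ∑ ε_α T_a^α T_b^α` -/
def ep (al : Fin 3) : ℝ := if al = 1 then -1 else 1

theorem ep_sq (al : Fin 3) : ep al * ep al = 1 := by
  unfold ep; split_ifs <;> norm_num

theorem flp_flp (a : Fin 4) (i : B4) : flp a (flp a i) = i := by
  funext c
  by_cases h : c = a
  · subst h; simp [flp]
  · simp [flp, Function.update_of_ne h]

theorem sg_flp (a : Fin 4) (i : B4) : sg (flp a i a) = - sg (i a) := by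
  simp only [flp, Function.update_self, sg]
  cases i a <;> simp

theorem TT_transpose (al : Fin 3) (a : Fin 4) : (TT al a)ᵀ = ep al • TT al a := by
  ext i j
  fin_cases al
  · simp only [transpose_apply, TT, of_apply, TZ, uv, Matrix.smul_apply, ep, smul_eq_mul]
    have : (flp a j = i) ↔ (flp a i = j) := by
      constructor
      · rintro rfl; rw [flp_flp]
      · rintro rfl; rw [flp_flp]
    simp [this]
  · simp only [transpose_apply, TT, of_apply, TZ, uv, Matrix.smul_apply, ep, smul_eq_mul]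
    by_cases h : flp a j = i
    · subst h
      simp [flp_flp, sg_flp]
      ring
    · have h2 : ¬ (flp a i = j) := by
        rintro rfl; exact h (flp_flp a i)
      simp [h, h2]
  · simp only [transpose_apply, TT, of_apply, TZ, uv, Matrix.smul_apply, ep, smul_eq_mul]
    by_cases h : j = i
    · subst h; simp
    · simp [h, Ne.symm h]

/-- normalization factors -/
noncomputable def dd (s : Bool) : ℝ := if s then Real.sqrt 3 / 6 else 1 / 2

/-- the isometry onto the singlet space -/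
noncomputable def eM : Matrix B4 Bool ℝ := of fun i s => (EZ s i : ℝ) * dd s

theorem eM_col (s : Bool) : (fun i => eM i s) = dd s • (fun i => (EZ s i : ℝ)) := by
  funext i; simp [eM, mul_comm]

theorem mul_eM (M : Matrix B4 B4 ℝ) (i : B4) (s : Bool) :
    (M * eM) i s = dd s * (M *ᵥ (fun k => (EZ s k : ℝ))) i := by
  simp only [Matrix.mul_apply, eM, of_apply, mulVec, dotProduct, Finset.mul_sum]
  refine Finset.sum_congr rfl fun k _ => ?_
  ring

theorem sqrt3_sq : Real.sqrt 3 * Real.sqrt 3 = 3 := Real.mul_self_sqrt (by norm_num)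

theorem eM_iso : eMᵀ * eM = 1 := by
  ext s t
  have h := normZ s t
  rw [← sum16_eq] at h
  have h2 : (eMᵀ * eM) s t = dd s * dd t * ((∑ i, EZ s i * EZ t i : ℤ) : ℝ) := by
    simp only [Matrix.mul_apply, transpose_apply, eM, of_apply]
    push_cast
    rw [Finset.mul_sum]
    refine Finset.sum_congr rfl fun k _ => ?_
    ring
  rw [h2, h]
  cases s <;> cases t <;> simp [dd]
  · norm_num
  · nlinarith [sqrt3_sq]

theorem K4_eM : K4 * eM = 0 := by
  ext i s
  rw [mul_eM, K4_mulVec, KZ_E]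
  simp

theorem K4_TT_eM (al : Fin 3) (a : Fin 4) : K4 * (TT al a * eM) = TT al a * eM := by
  ext i s
  rw [← Matrix.mul_assoc, mul_eM, mul_eM, ← Matrix.mulVec_mulVec]
  have h1 : (TT al a *ᵥ fun k => (EZ s k : ℝ)) = fun i => (1 / 2 : ℝ) * (TZ al a (EZ s) i : ℝ) := by
    funext i
    rw [TT_mulVec]; ring
  have h2 : (K4 *ᵥ (fun i => (1 / 2 : ℝ) * (TZ al a (EZ s) i : ℝ))) i =
      (1 / 2 : ℝ) * (K4 *ᵥ (fun i => (TZ al a (EZ s) i : ℝ))) i := by
    rw [show (fun i => (1 / 2 : ℝ) * (TZ al a (EZ s) i : ℝ)) =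
      (1 / 2 : ℝ) • (fun i => (TZ al a (EZ s) i : ℝ)) from rfl, mulVec_smul]
    rfl
  rw [h1, h2, K4_mulVec, KZ_T]
  push_cast
  ring

theorem eM_TT_eM (al : Fin 3) (a : Fin 4) : eMᵀ * (TT al a * eM) = 0 := by
  ext s t
  have h := orthZ al a s t
  rw [← sum16_eq] at h
  have h2 : (eMᵀ * (TT al a * eM)) s t =
      dd s * dd t / 2 * ((∑ i, EZ s i * TZ al a (EZ t) i : ℤ) : ℝ) := by
    rw [Matrix.mul_apply]
    push_cast
    rw [Finset.mul_sum]
    refine Finset.sum_congr rfl fun k _ => ?_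
    rw [mul_eM, TT_mulVec, transpose_apply]
    simp only [eM, of_apply]
    ring
  rw [h2, h]
  simp

/-! ### Logical Pauli matrices -/

/-- logical `X` -/
def X2 : Matrix Bool Bool ℝ := of fun s t => if s = t then 0 else 1

/-- logical `Z` -/
def Z2 : Matrix Bool Bool ℝ := of fun s t => if s = t then (if s then -1 else 1) else 0

/-- the three logical matrices `τ`, indexed by a pair of spins -/
noncomputable def tau (a b : Fin 4) : Matrix Bool Bool ℝ :=
  if (a = 0 ∧ b = 1) ∨ (a = 1 ∧ b = 0) ∨ (a = 2 ∧ b = 3) ∨ (a = 3 ∧ b = 2) then Z2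
  else if (a = 0 ∧ b = 2) ∨ (a = 2 ∧ b = 0) ∨ (a = 1 ∧ b = 3) ∨ (a = 3 ∧ b = 1) then
    (-(1 / 2 : ℝ)) • Z2 + (Real.sqrt 3 / 2) • X2
  else (-(1 / 2 : ℝ)) • Z2 - (Real.sqrt 3 / 2) • X2

/-- compression of `S_a · S_b` to the singlet space -/
noncomputable def MM (a b : Fin 4) : Matrix Bool Bool ℝ :=
  if a = b then (3 / 4 : ℝ) • 1 else (-(1 / 4 : ℝ)) • 1 - (1 / 2 : ℝ) • tau a b

theorem MM_GZ (a b : Fin 4) (s t : Bool) :
    dd s * dd t / 4 * (GZ a b s t : ℝ) = MM a b s t / 3 := by
  have h3 := sqrt3_sq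
  unfold MM GZ tau
  split_ifs with h1 h2 h3' <;> cases s <;> cases t <;>
    simp [dd, X2, Z2] <;> nlinarith [h3]

theorem gram (al be : Fin 3) (a b : Fin 4) :
    (TT al a * eM)ᵀ * (TT be b * eM) = if al = be then (1 / 3 : ℝ) • MM a b else 0 := by
  ext s t
  have h := gramZ al be a b s t
  rw [← sum16_eq] at h
  have h2 : ((TT al a * eM)ᵀ * (TT be b * eM)) s t =
      dd s * dd t / 4 * ((∑ i, TZ al a (EZ s) i * TZ be b (EZ t) i : ℤ) : ℝ) := by
    rw [Matrix.mul_apply]
    push_cast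
    rw [Finset.mul_sum]
    refine Finset.sum_congr rfl fun k _ => ?_
    rw [transpose_apply, mul_eM, mul_eM, TT_mulVec, TT_mulVec]
    ring
  rw [h2, h]
  split_ifs with hab
  · rw [MM_GZ]
    simp
    ring
  · simp

/-- in-block couplings act on the singlet space -/
theorem P4_eM (b : Fin 4) (hb : b ≠ 0) : P4 0 b * eM = eM * (-tau 0 b) := by
  have h3 := sqrt3_sq
  ext i s
  rw [mul_eM, P4_mulVec, Matrix.mul_apply]
  obtain ⟨h01, h02, h03, h04, h05, h06⟩ := PZ_E i
  have g01 : (EZ false (swp 0 1 i) : ℝ) = - EZ false i := by exact_mod_cast h01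
  have g02 : (EZ true (swp 0 1 i) : ℝ) = EZ true i := by exact_mod_cast h02
  have g03 : 2 * (EZ false (swp 0 2 i) : ℝ) = EZ false i - EZ true i := by exact_mod_cast h03
  have g04 : 2 * (EZ true (swp 0 2 i) : ℝ) = - 3 * EZ false i - EZ true i := by exact_mod_cast h04
  have g05 : 2 * (EZ false (swp 0 3 i) : ℝ) = EZ false i + EZ true i := by exact_mod_cast h05
  have g06 : 2 * (EZ true (swp 0 3 i) : ℝ) = 3 * EZ false i - EZ true i := by exact_mod_cast h06
  fin_cases b
  · exact absurd rfl hb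
  · cases s <;> simp [tau, eM, dd, Z2, g01, g02] <;> ring
  · cases s <;> simp [tau, eM, dd, Z2, X2]
    · linear_combination (1 / 4 : ℝ) * g03 + (EZ true i : ℝ) / 12 * h3
    · linear_combination (Real.sqrt 3 / 12 : ℝ) * g04
  · cases s <;> simp [tau, eM, dd, Z2, X2]
    · linear_combination (1 / 4 : ℝ) * g05 - (EZ true i : ℝ) / 12 * h3
    · linear_combination (Real.sqrt 3 / 12 : ℝ) * g06

/-- the singlet projection -/
noncomputable def Pi4 : Matrix B4 B4 ℝ := eM * eMᵀ

theorem Pi4_transpose : Pi4ᵀ = Pi4 := by simp [Pi4]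

theorem Pi4_sq : Pi4 * Pi4 = Pi4 := by
  unfold Pi4
  rw [Matrix.mul_assoc, ← Matrix.mul_assoc eMᵀ, eM_iso, Matrix.one_mul]

theorem K4_Pi4 : K4 * Pi4 = 0 := by
  unfold Pi4
  rw [← Matrix.mul_assoc, K4_eM, Matrix.zero_mul]

theorem Pi4_K4 : Pi4 * K4 = 0 := by
  have := congrArg Matrix.transpose K4_Pi4
  simpa [K4_transpose, Pi4_transpose] using this

theorem K4_col (j : B4) : K4 *ᵥ (Pi.single j 1) = fun i => (KZ (uv j) i : ℝ) / 2 := by
  have h : (Pi.single j 1 : B4 → ℝ) = fun k => ((uv j k : ℤ) : ℝ) := by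
    funext k
    by_cases h : k = j
    · subst h; simp [uv]
    · simp [uv, h]
  funext i
  rw [h, K4_mulVec]

theorem K4_quad : K4 * K4 - (4 : ℝ) • K4 + (3 : ℝ) • 1 = (3 : ℝ) • Pi4 := by
  ext i j
  have h := KZ_sq i j
  have e1 : K4 i j = (KZ (uv j) i : ℝ) / 2 := by
    have := congrFun (K4_col j) i
    rw [Matrix.mulVec_single_one] at this
    simpa using this
  have e2 : (K4 * K4) i j = (KZ (KZ (uv j)) i : ℝ) / 4 := by
    have h1 : (K4 * K4) i j = ((K4 * K4) *ᵥ Pi.single j 1) i := by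
      rw [Matrix.mulVec_single_one]; rfl
    rw [h1, ← Matrix.mulVec_mulVec, K4_col]
    have h2 : (fun i => (KZ (uv j) i : ℝ) / 2) = (1 / 2 : ℝ) • (fun i => (KZ (uv j) i : ℝ)) := by
      funext i; simp; ring
    rw [h2, mulVec_smul, Pi.smul_apply, K4_mulVec]
    simp; ring
  have e3 : Pi4 i j = (EZ false i * EZ false j : ℝ) / 4 + (EZ true i * EZ true j : ℝ) / 12 := by
    simp only [Pi4, Matrix.mul_apply, transpose_apply, eM, of_apply, Fintype.sum_bool, dd]
    have h3 := sqrt3_sq
    simp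
    linear_combination (EZ true i * EZ true j : ℝ) / 36 * h3
  have hr : (KZ (KZ (uv j)) i : ℝ) - 8 * (KZ (uv j) i : ℝ) + 12 * (if i = j then 1 else 0) =
      3 * ((EZ false i : ℝ) * EZ false j) + EZ true i * EZ true j := by
    change KZ (KZ (uv j)) i - 8 * KZ (uv j) i + 12 * (if i = j then 1 else 0) =
      3 * (EZ false i * EZ false j) + EZ true i * EZ true j at h
    have := congrArg (Int.cast : ℤ → ℝ) h
    push_cast at this
    exact this
  simp only [Matrix.add_apply, Matrix.sub_apply, Matrix.smul_apply, smul_eq_mul, e1, e2, e3,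
    Matrix.one_apply]
  linear_combination (1 / 4 : ℝ) * hr

/-- projection onto spin `2` -/
noncomputable def N4 : Matrix B4 B4 ℝ := (1 / 2 : ℝ) • (K4 - 1 + Pi4)

theorem N4_transpose : N4ᵀ = N4 := by
  simp [N4, K4_transpose, Pi4_transpose]

theorem N4_sq : N4 * N4 = N4 := by
  have h : (K4 - 1 + Pi4) * (K4 - 1 + Pi4) = (2 : ℝ) • (K4 - 1 + Pi4) := by
    have hq : K4 * K4 = (4 : ℝ) • K4 - (3 : ℝ) • 1 + (3 : ℝ) • Pi4 := by
      rw [← K4_quad]; abel
    have : (K4 - 1 + Pi4) * (K4 - 1 + Pi4) = K4 * K4 - K4 - K4 + 1 + K4 * Pi4 + Pi4 * K4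
        - Pi4 - Pi4 + Pi4 * Pi4 := by noncomm_ring
    rw [this, K4_Pi4, Pi4_K4, Pi4_sq, hq]
    module
  unfold N4
  rw [Matrix.smul_mul, Matrix.mul_smul, h]
  module

theorem K4_eq : K4 = 1 - Pi4 + (2 : ℝ) • N4 := by
  unfold N4
  module

end Crest.Agent.R338.HB
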