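import Crest.Agent.R338.HB2

/-!
# Row 338, node I.4 (c): the many-block Hamiltonian, its low energy space and second-order term
-/

set_option autoImplicit false

namespace Crest.Agent.R338.HB

open Matrix Finset Ten

/-- total component `∑ r_a S_a^α` -/
noncomputable def XX (al : Fin 3) (r : Fin 4 → ℝ) : Matrix B4 B4 ℝ := ∑ a, r a • TT al a

/-- `P |∑ r_a S_a|² P` -/
noncomputable def RR (r : Fin 4 → ℝ) : Matrix Bool Bool ℝ := ∑ a, ∑ b, (r a * r b) • MM a b

theorem K4_XX_eM (al : Fin 3) (r : Fin 4 → ℝ) : K4 * (XX al r * eM) = XX al r * eM := by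
  simp only [XX, Matrix.sum_mul, Matrix.mul_sum, Matrix.smul_mul, Matrix.mul_smul, K4_TT_eM]

theorem eM_XX_eM (al : Fin 3) (r : Fin 4 → ℝ) : eMᵀ * (XX al r * eM) = 0 := by
  simp only [XX, Matrix.sum_mul, Matrix.mul_sum, Matrix.smul_mul, Matrix.mul_smul, eM_TT_eM,
    smul_zero, Finset.sum_const_zero]

theorem gramXX (al be : Fin 3) (r : Fin 4 → ℝ) :
    (XX al r * eM)ᵀ * (XX be r * eM) = if al = be then (1 / 3 : ℝ) • RR r else 0 := by
  have h : (XX al r * eM)ᵀ * (XX be r * eM) =
      ∑ a, ∑ b, (r a * r b) • ((TT al a * eM)ᵀ * (TT be b * eM)) := by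
    simp only [XX, Matrix.sum_mul, Matrix.mul_sum, Matrix.smul_mul, Matrix.mul_smul,
      Matrix.transpose_sum, Matrix.transpose_smul]
    rw [Finset.sum_comm]
    refine Finset.sum_congr rfl fun a _ => ?_
    rw [Finset.smul_sum]
    refine Finset.sum_congr rfl fun b _ => ?_
    rw [smul_smul, mul_comm]
  rw [h]
  simp only [gram]
  split_ifs with hab
  · simp only [RR, Finset.smul_sum]
    refine Finset.sum_congr rfl fun a _ => Finset.sum_congr rfl fun b _ => ?_
    rw [smul_smul, smul_smul, mul_comm]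
  · simp

theorem XX_transpose (al : Fin 3) (r : Fin 4 → ℝ) : (XX al r)ᵀ = ep al • XX al r := by
  simp only [XX, Matrix.transpose_sum, Matrix.transpose_smul, TT_transpose, Finset.smul_sum]
  refine Finset.sum_congr rfl fun a _ => ?_
  rw [smul_smul, smul_smul, mul_comm]

variable {n : ℕ}

/-- the isometry onto the product of the singlet spaces -/
noncomputable def iota (n : ℕ) : Matrix (Fin n → B4) (Fin n → Bool) ℝ := T (fun _ => eM)

theorem iota_iso : (iota n)ᵀ * iota n = 1 := by
  unfold iota
  rw [T_transpose, T_mul]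
  simp only [eM_iso]
  exact T_one

/-- a product with `A` at the site `p`, `B` at the site `q` and `eM` elsewhere -/
noncomputable def pairT (p q : Fin n) (A B : Matrix B4 Bool ℝ) :
    Matrix (Fin n → B4) (Fin n → Bool) ℝ :=
  T (Function.update (Function.update (fun _ => eM) q B) p A)

theorem OO_iota {p q : Fin n} (h : p ≠ q) (M N : Matrix B4 B4 ℝ) :
    O p M * O q N * iota n = pairT p q (M * eM) (N * eM) := by
  unfold iota pairT
  rw [Matrix.mul_assoc, O_mul_T, O_mul_T, Function.update_of_ne h]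

theorem OO_eq {B : Type*} [Fintype B] [DecidableEq B] {p q : Fin n} (h : p ≠ q)
    (M N : Matrix B B ℝ) : O p M * O q N =
      T (Function.update (Function.update (fun _ => (1 : Matrix B B ℝ)) q N) p M) := by
  conv_lhs => rw [show O q N = T (Function.update (fun _ => (1 : Matrix B B ℝ)) q N) from rfl]
  rw [O_mul_T, Function.update_of_ne h, Matrix.mul_one]

theorem pairT_K {p q : Fin n} (h : p ≠ q) {A B : Matrix B4 Bool ℝ} (hA : K4 * A = A)
    (hB : K4 * B = B) : (∑ p' : Fin n, O p' K4) * pairT p q A B = (2 : ℝ) • pairT p q A B := by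
  rw [Matrix.sum_mul]
  have key : ∀ p' : Fin n, O p' K4 * pairT p q A B =
      (if p' = p then pairT p q A B else 0) + (if p' = q then pairT p q A B else 0) := by
    intro p'
    unfold pairT
    rw [O_mul_T]
    by_cases h1 : p' = p
    · subst h1
      rw [Function.update_self, hA, Function.update_idem, if_pos rfl, if_neg h, add_zero]
    · by_cases h2 : p' = q
      · subst h2
        rw [Function.update_of_ne h1, Function.update_self, hB, if_neg h1, if_pos rfl, zero_add]
        congr 1
        funext i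
        by_cases h3 : i = p'
        · subst h3
          rw [Function.update_self, Function.update_of_ne h1, Function.update_self]
        · rw [Function.update_of_ne h3]
      · rw [Function.update_of_ne h1, Function.update_of_ne h2, K4_eM, if_neg h1, if_neg h2,
          T_update_zero, add_zero]
  rw [Finset.sum_congr rfl fun p' _ => key p', Finset.sum_add_distrib,
    Finset.sum_ite_eq' Finset.univ p, Finset.sum_ite_eq' Finset.univ q]
  simp [two_smul]

theorem pairT_same {p q : Fin n} (h : p ≠ q) (A B A' B' : Matrix B4 Bool ℝ) :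
    (pairT p q A B)ᵀ * pairT p q A' B' = O p (Aᵀ * A') * O q (Bᵀ * B') := by
  rw [OO_eq h]
  unfold pairT
  rw [T_transpose, T_mul]
  congr 1
  funext i
  by_cases h1 : i = p
  · subst h1; simp
  · by_cases h2 : i = q
    · subst h2; simp [Function.update_of_ne h1]
    · simp [Function.update_of_ne h1, Function.update_of_ne h2, eM_iso]

theorem pairT_orth {p q p' q' : Fin n} (h : p < q) (h' : p' < q') (hne : (p, q) ≠ (p', q'))
    {A B A' B' : Matrix B4 Bool ℝ} (hA : eMᵀ * A = 0) (hB : eMᵀ * B = 0) :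
    (pairT p q A B)ᵀ * pairT p' q' A' B' = 0 := by
  have hA' : Aᵀ * eM = 0 := by
    have := congrArg Matrix.transpose hA
    simpa using this
  have hB' : Bᵀ * eM = 0 := by
    have := congrArg Matrix.transpose hB
    simpa using this
  unfold pairT
  rw [T_transpose, T_mul]
  by_cases hp : p ≠ p' ∧ p ≠ q'
  · refine T_eq_zero _ p ?_
    rw [Function.update_self, Function.update_of_ne hp.1, Function.update_of_ne hp.2, hA']
  · have hq : q ≠ p' ∧ q ≠ q' := by
      constructor
      · rintro rfl
        apply hp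
        exact ⟨h.ne, fun h2 => by omega⟩
      · rintro rfl
        apply hp
        refine ⟨fun h2 => hne (by rw [h2]), h.ne⟩
    refine T_eq_zero _ q ?_
    rw [Function.update_of_ne h.ne', Function.update_self, Function.update_of_ne hq.1,
      Function.update_of_ne hq.2, hB']

theorem iota_pairT (p q : Fin n) {A B : Matrix B4 Bool ℝ} (hA : eMᵀ * A = 0) :
    (iota n)ᵀ * pairT p q A B = 0 := by
  unfold iota pairT
  rw [T_transpose, T_mul]
  refine T_eq_zero _ p ?_
  rw [Function.update_self, hA]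

/-- coupling of the blocks `p`, `q` (in units of `κ`) -/
noncomputable def Vpq (p q : Fin n) (r s : Fin 4 → ℝ) : Matrix (Fin n → B4) (Fin n → B4) ℝ :=
  ∑ al : Fin 3, ep al • (O p (XX al r) * O q (XX al s))

theorem Vpq_iota {p q : Fin n} (h : p ≠ q) (r s : Fin 4 → ℝ) :
    Vpq p q r s * iota n = ∑ al : Fin 3, ep al • pairT p q (XX al r * eM) (XX al s * eM) := by
  unfold Vpq
  rw [Matrix.sum_mul]
  refine Finset.sum_congr rfl fun al _ => ?_
  rw [Matrix.smul_mul, OO_iota h]

theorem Vpq_transpose {p q : Fin n} (h : p ≠ q) (r s : Fin 4 → ℝ) :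
    (Vpq p q r s)ᵀ = Vpq p q r s := by
  unfold Vpq
  rw [Matrix.transpose_sum]
  refine Finset.sum_congr rfl fun al _ => ?_
  rw [Matrix.transpose_smul, Matrix.transpose_mul, O_transpose, O_transpose, XX_transpose,
    XX_transpose, O_smul, O_smul, Matrix.smul_mul, Matrix.mul_smul, smul_smul, ep_sq, one_smul,
    O_comm h.symm]

theorem K_Vpq_iota {p q : Fin n} (h : p ≠ q) (r s : Fin 4 → ℝ) :
    (∑ p' : Fin n, O p' K4) * (Vpq p q r s * iota n) = (2 : ℝ) • (Vpq p q r s * iota n) := by
  rw [Vpq_iota h, Matrix.mul_sum, Finset.smul_sum]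
  refine Finset.sum_congr rfl fun al _ => ?_
  rw [Matrix.mul_smul, pairT_K h (K4_XX_eM al r) (K4_XX_eM al s), smul_comm]

theorem iota_Vpq_iota {p q : Fin n} (h : p ≠ q) (r s : Fin 4 → ℝ) :
    (iota n)ᵀ * (Vpq p q r s * iota n) = 0 := by
  rw [Vpq_iota h, Matrix.mul_sum]
  refine Finset.sum_eq_zero fun al _ => ?_
  rw [Matrix.mul_smul, iota_pairT p q (eM_XX_eM al r), smul_zero]

theorem Vpq_sq {p q : Fin n} (h : p ≠ q) (r s : Fin 4 → ℝ) :
    (Vpq p q r s * iota n)ᵀ * (Vpq p q r s * iota n) = (1 / 3 : ℝ) • (O p (RR r) * O q (RR s)) := by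
  rw [Vpq_iota h, Matrix.transpose_sum, Matrix.sum_mul]
  have key : ∀ al : Fin 3, (ep al • pairT p q (XX al r * eM) (XX al s * eM))ᵀ *
      ∑ be : Fin 3, ep be • pairT p q (XX be r * eM) (XX be s * eM) =
      (1 / 9 : ℝ) • (O p (RR r) * O q (RR s)) := by
    intro al
    rw [Matrix.mul_sum, Finset.sum_eq_single al]
    · rw [Matrix.transpose_smul, Matrix.smul_mul, Matrix.mul_smul, smul_smul, ep_sq, one_smul,
        pairT_same h, gramXX, gramXX, if_pos rfl, if_pos rfl, O_smul, O_smul, Matrix.smul_mul,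
        Matrix.mul_smul, smul_smul]
      norm_num
    · intro be _ hbe
      rw [Matrix.transpose_smul, Matrix.smul_mul, Matrix.mul_smul, pairT_same h, gramXX,
        if_neg (Ne.symm hbe), O_zero, Matrix.zero_mul, smul_zero, smul_zero]
    · intro h'; exact absurd (Finset.mem_univ _) h'
  rw [Finset.sum_congr rfl fun al _ => key al]
  simp only [Finset.sum_const, Finset.card_univ, Fintype.card_fin]
  rw [← Nat.cast_smul_eq_nsmul ℝ, smul_smul]
  norm_num

theorem Vpq_orth {p q p' q' : Fin n} (h : p < q) (h' : p' < q') (hne : (p, q) ≠ (p', q'))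
    (r s r' s' : Fin 4 → ℝ) :
    (Vpq p q r s * iota n)ᵀ * (Vpq p' q' r' s' * iota n) = 0 := by
  rw [Vpq_iota h.ne, Vpq_iota h'.ne, Matrix.transpose_sum, Matrix.sum_mul]
  refine Finset.sum_eq_zero fun al _ => ?_
  rw [Matrix.mul_sum]
  refine Finset.sum_eq_zero fun be _ => ?_
  rw [Matrix.transpose_smul, Matrix.smul_mul, Matrix.mul_smul,
    pairT_orth h h' hne (eM_XX_eM al r) (eM_XX_eM al s), smul_zero, smul_zero]

end Crest.Agent.R338.HB
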