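import Crest.Agent.R338.Ten

/-!
# Row 338, node I.4 (d): second order perturbation theory, abstract real matrices

`H0` vanishes on the range of the isometry `ι`, is `≥ J0` on its complement, and is exactly `2 J0`
on the range of the off-diagonal part `Y` of the perturbation `D1`.
-/

set_option autoImplicit false

namespace Crest.Agent.R338.HB

open Matrix Finset Ten

/-- numeric core of the lower bound -/
theorem num_lower {Np Nq a c d0 d1 h μ J d m hb : ℝ} (hNp : 0 ≤ Np) (hNq : 0 ≤ Nq) (hJ : 0 < J)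
    (hd : 0 ≤ d) (hm0 : 0 ≤ m) (hhb : 0 ≤ hb) (h0 : 0 ≤ h)
    (h1 : μ * Np ≤ a - h) (h2 : c ^ 2 ≤ h * d0) (h3 : J * Nq ≤ d0) (h4 : |d1| ≤ d * Nq)
    (h5 : h ≤ hb * Np) (hμ : |μ| ≤ m) (hc : d + m + hb ≤ J / 2) :
    (μ - 2 * hb * (d + m + hb) / J) * (Np + Nq) ≤ a + 2 * c + d0 + d1 := by
  set x := (d + m + hb) / J with hx
  have hx0 : 0 ≤ x := by positivity
  have hx1 : x ≤ 1 / 2 := by rw [hx, div_le_iff₀ hJ]; linarith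
  have hxJ : x * J = d + m + hb := by rw [hx]; field_simp
  have herr : 2 * hb * (d + m + hb) / J = 2 * hb * x := by rw [hx]; ring
  rw [herr]
  set E := μ - 2 * hb * x with hE
  have hEabs : |E| ≤ m + hb := by
    have hhx : 2 * hb * x ≤ hb := by nlinarith
    have hhx0 : 0 ≤ 2 * hb * x := by positivity
    have h6 := abs_le.1 hμ
    rw [abs_le]
    constructor <;> linarith [h6.1, h6.2]
  have hE1 : E ≤ m + hb := (le_abs_self _).trans hEabs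
  have hd0 : 0 ≤ d0 := le_trans (by positivity) h3
  -- the Q block
  have hQ : (1 - x) * d0 ≤ d0 + d1 - E * Nq := by
    have h7 : -(d * Nq) ≤ d1 := (abs_le.1 h4).1
    have h8 : (d + m + hb) * Nq ≤ x * d0 := by
      calc (d + m + hb) * Nq = x * (J * Nq) := by rw [← hxJ]; ring
        _ ≤ x * d0 := by exact mul_le_mul_of_nonneg_left h3 hx0
    have h9 : E * Nq ≤ (m + hb) * Nq := mul_le_mul_of_nonneg_right hE1 hNq
    nlinarith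
  -- completing the square
  have h1x : (1 / 2 : ℝ) ≤ 1 - x := by linarith
  have h1x0 : (0 : ℝ) < 1 - x := by linarith
  have hsq : -(h / (1 - x)) ≤ 2 * c + (1 - x) * d0 := by
    have h10 : 0 ≤ h / (1 - x) := by positivity
    have h11 : 0 ≤ (1 - x) * d0 := by positivity
    have h12 : c ^ 2 ≤ (h / (1 - x)) * ((1 - x) * d0) := by
      have : (h / (1 - x)) * ((1 - x) * d0) = h * d0 := by field_simp
      rw [this]; exact h2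
    have h13 : (2 * c) ^ 2 ≤ (h / (1 - x) + (1 - x) * d0) ^ 2 := by
      nlinarith [sq_nonneg (h / (1 - x) - (1 - x) * d0)]
    have h14 := abs_le_of_sq_le_sq' h13 (by positivity)
    linarith [h14.1]
  have hx2 : h / (1 - x) ≤ h + 2 * x * h := by
    rw [div_le_iff₀ h1x0]
    nlinarith [mul_nonneg h0 hx0, mul_nonneg (mul_nonneg h0 hx0) (by linarith : (0:ℝ) ≤ 1 / 2 - x)]
  have hfin : E * Np + h + 2 * x * h ≤ a := by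
    have : 2 * x * h ≤ 2 * x * (hb * Np) := by
      exact mul_le_mul_of_nonneg_left h5 (by positivity)
    have h15 : E * Np = μ * Np - 2 * x * (hb * Np) := by rw [hE]; ring
    linarith
  nlinarith

variable {J K : Type*} [Fintype J] [Fintype K] [DecidableEq J] [DecidableEq K]

/-- Cauchy–Schwarz for a positive semidefinite symmetric matrix. -/
theorem psd_cs (H : Matrix J J ℝ) (hs : Hᵀ = H) (hp : ∀ x, 0 ≤ x ⬝ᵥ (H *ᵥ x)) (x y : J → ℝ) :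
    (x ⬝ᵥ (H *ᵥ y)) ^ 2 ≤ (x ⬝ᵥ (H *ᵥ x)) * (y ⬝ᵥ (H *ᵥ y)) := by
  have hsym : y ⬝ᵥ (H *ᵥ x) = x ⬝ᵥ (H *ᵥ y) := by
    rw [dot_mulVec_transpose, hs, dotProduct_comm]
  have hq : ∀ t : ℝ, 0 ≤ (x ⬝ᵥ (H *ᵥ x)) * (t * t) + (2 * (x ⬝ᵥ (H *ᵥ y))) * t +
      (y ⬝ᵥ (H *ᵥ y)) := by
    intro t
    have := hp (t • x + y)
    rw [mulVec_add, mulVec_smul, dotProduct_add, add_dotProduct, add_dotProduct, smul_dotProduct,
      smul_dotProduct, dotProduct_smul, dotProduct_smul, hsym] at this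
    simp only [smul_eq_mul] at this
    linarith
  have hd := discrim_le_zero hq
  unfold discrim at hd
  nlinarith

structure PertData (ι Y : Matrix J K ℝ) (H0 D1 : Matrix J J ℝ) (A : Matrix K K ℝ)
    (J0 d m hb : ℝ) : Prop where
  iso : ιᵀ * ι = 1
  H0s : H0ᵀ = H0
  H0p : ∀ x, 0 ≤ x ⬝ᵥ (H0 *ᵥ x)
  H0ι : H0 * ι = 0
  gap : ∀ q, ιᵀ *ᵥ q = 0 → J0 * (q ⬝ᵥ q) ≤ q ⬝ᵥ (H0 *ᵥ q)
  D1s : D1ᵀ = D1
  D1ι : D1 * ι = ι * A + Y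
  hY : ιᵀ * Y = 0
  H0Y : H0 * Y = (2 * J0) • Y
  hd : ∀ x, |x ⬝ᵥ (D1 *ᵥ x)| ≤ d * (x ⬝ᵥ x)
  hm : ∀ φ : K → ℝ, |φ ⬝ᵥ (A *ᵥ φ) - (1 / (2 * J0)) * ((Y *ᵥ φ) ⬝ᵥ (Y *ᵥ φ))| ≤ m * (φ ⬝ᵥ φ)
  hhb : ∀ φ : K → ℝ, (Y *ᵥ φ) ⬝ᵥ (Y *ᵥ φ) ≤ 2 * J0 * (hb * (φ ⬝ᵥ φ))
  J0pos : 0 < J0
  d0 : 0 ≤ d
  m0 : 0 ≤ m
  hb0 : 0 ≤ hb
  cond : d + m + hb ≤ J0 / 2

namespace PertData

variable {ι Y : Matrix J K ℝ} {H0 D1 : Matrix J J ℝ} {A : Matrix K K ℝ} {J0 d m hb : ℝ}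

/-- effective energy -/
noncomputable def eff (A : Matrix K K ℝ) (Y : Matrix J K ℝ) (J0 : ℝ) (φ : K → ℝ) : ℝ :=
  φ ⬝ᵥ (A *ᵥ φ) - (1 / (2 * J0)) * ((Y *ᵥ φ) ⬝ᵥ (Y *ᵥ φ))

theorem iso_vec (P : PertData ι Y H0 D1 A J0 d m hb) (φ χ : K → ℝ) :
    (ι *ᵥ φ) ⬝ᵥ (ι *ᵥ χ) = φ ⬝ᵥ χ := by
  rw [dot_mulVec_transpose, mulVec_mulVec, P.iso, one_mulVec]

theorem lower_aux (P : PertData ι Y H0 D1 A J0 d m hb) {μ : ℝ} (hμm : |μ| ≤ m)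
    (hμ : ∀ φ, μ * (φ ⬝ᵥ φ) ≤ eff A Y J0 φ) (ψ : J → ℝ) :
    (μ - 2 * hb * (d + m + hb) / J0) * (ψ ⬝ᵥ ψ) ≤ ψ ⬝ᵥ ((H0 + D1) *ᵥ ψ) := by
  set φ : K → ℝ := ιᵀ *ᵥ ψ with hφ
  set q : J → ℝ := ψ - ι *ᵥ φ with hq
  have hψ : ψ = ι *ᵥ φ + q := by rw [hq]; abel
  have hιq : ιᵀ *ᵥ q = 0 := by
    rw [hq, mulVec_sub, mulVec_mulVec, P.iso, one_mulVec, hφ, sub_self]
  have horth : ∀ χ : K → ℝ, (ι *ᵥ χ) ⬝ᵥ q = 0 := by
    intro χ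
    rw [dotProduct_comm, dot_mulVec_transpose, hιq, zero_dotProduct]
  set y : J → ℝ := Y *ᵥ φ with hy
  have hJ := P.J0pos
  have hN : ψ ⬝ᵥ ψ = φ ⬝ᵥ φ + q ⬝ᵥ q := by
    conv_lhs => rw [hψ]
    rw [dotProduct_add, add_dotProduct, add_dotProduct, P.iso_vec, horth, dotProduct_comm q, horth]
    ring
  have hH0φ : H0 *ᵥ (ι *ᵥ φ) = 0 := by rw [mulVec_mulVec, P.H0ι, zero_mulVec]
  have hD1φ : D1 *ᵥ (ι *ᵥ φ) = ι *ᵥ (A *ᵥ φ) + y := by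
    rw [mulVec_mulVec, P.D1ι, add_mulVec, ← mulVec_mulVec]
  have hE : ψ ⬝ᵥ ((H0 + D1) *ᵥ ψ) =
      φ ⬝ᵥ (A *ᵥ φ) + 2 * (q ⬝ᵥ y) + q ⬝ᵥ (H0 *ᵥ q) + q ⬝ᵥ (D1 *ᵥ q) := by
    have e1 : (ι *ᵥ φ) ⬝ᵥ y = 0 := by
      rw [dotProduct_comm, dot_mulVec_transpose]
      have : ιᵀ *ᵥ y = 0 := by rw [hy, mulVec_mulVec, P.hY, zero_mulVec]
      rw [this, zero_dotProduct]
    have e2 : (ι *ᵥ φ) ⬝ᵥ (D1 *ᵥ q) = q ⬝ᵥ y := by
      rw [dot_mulVec_transpose, P.D1s, hD1φ, add_dotProduct, horth, zero_add, dotProduct_comm]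
    have e3 : (ι *ᵥ φ) ⬝ᵥ (H0 *ᵥ q) = 0 := by
      rw [dot_mulVec_transpose, P.H0s, hH0φ, zero_dotProduct]
    conv_lhs => rw [hψ]
    rw [mulVec_add, add_mulVec, add_mulVec, hH0φ, zero_add, hD1φ, dotProduct_add, add_dotProduct,
      add_dotProduct, dotProduct_add, dotProduct_add, dotProduct_add, dotProduct_add, P.iso_vec,
      e1, e2, e3, dotProduct_comm q (ι *ᵥ (A *ᵥ φ)), horth]
    ring
  rw [hN, hE]
  set h := (1 / (2 * J0)) * (y ⬝ᵥ y) with hh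
  have hyy := dot_self_nonneg y
  have h0 : 0 ≤ h := by rw [hh]; positivity
  refine num_lower (h := h) (dot_self_nonneg φ) (dot_self_nonneg q) hJ P.d0 P.m0 P.hb0 h0
    (hμ φ) ?_ (P.gap q hιq) (P.hd q) ?_ hμm P.cond
  · -- Cauchy-Schwarz
    have h1 : q ⬝ᵥ y = (1 / (2 * J0)) * (q ⬝ᵥ (H0 *ᵥ y)) := by
      have : H0 *ᵥ y = (2 * J0) • y := by
        rw [hy, mulVec_mulVec, P.H0Y, smul_mulVec]
      rw [this, dotProduct_smul, smul_eq_mul]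
      field_simp
    have h2 : y ⬝ᵥ (H0 *ᵥ y) = 2 * J0 * (y ⬝ᵥ y) := by
      have : H0 *ᵥ y = (2 * J0) • y := by
        rw [hy, mulVec_mulVec, P.H0Y, smul_mulVec]
      rw [this, dotProduct_smul, smul_eq_mul]
    have h3 := psd_cs H0 P.H0s P.H0p q y
    rw [h2] at h3
    rw [h1, hh]
    have h4 : (1 / (2 * J0) * (q ⬝ᵥ (H0 *ᵥ y))) ^ 2 =
        (1 / (2 * J0)) ^ 2 * (q ⬝ᵥ (H0 *ᵥ y)) ^ 2 := by ring
    rw [h4]
    calc (1 / (2 * J0)) ^ 2 * (q ⬝ᵥ (H0 *ᵥ y)) ^ 2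
        ≤ (1 / (2 * J0)) ^ 2 * ((q ⬝ᵥ (H0 *ᵥ q)) * (2 * J0 * (y ⬝ᵥ y))) :=
          mul_le_mul_of_nonneg_left h3 (by positivity)
      _ = 1 / (2 * J0) * (y ⬝ᵥ y) * (q ⬝ᵥ (H0 *ᵥ q)) := by field_simp
  · have := P.hhb φ
    rw [hh]
    rw [← hy] at this
    calc 1 / (2 * J0) * (y ⬝ᵥ y) ≤ 1 / (2 * J0) * (2 * J0 * (hb * (φ ⬝ᵥ φ))) :=
          mul_le_mul_of_nonneg_left this (by positivity)
      _ = hb * (φ ⬝ᵥ φ) := by field_simp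

theorem lower [Nonempty K] (P : PertData ι Y H0 D1 A J0 d m hb) {μ : ℝ}
    (hμ : ∀ φ, μ * (φ ⬝ᵥ φ) ≤ eff A Y J0 φ) (ψ : J → ℝ) :
    (μ - 2 * hb * (d + m + hb) / J0) * (ψ ⬝ᵥ ψ) ≤ ψ ⬝ᵥ ((H0 + D1) *ᵥ ψ) := by
  have hψ := dot_self_nonneg ψ
  have hle : μ ≤ m := by
    obtain ⟨k⟩ := ‹Nonempty K›
    have h1 := hμ (Pi.single k 1)
    have h2 := P.hm (Pi.single k 1)
    have h3 : (Pi.single k 1 : K → ℝ) ⬝ᵥ Pi.single k 1 = 1 := by simp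
    rw [h3, mul_one] at h1 h2
    exact h1.trans ((le_abs_self _).trans h2)
  by_cases hc : -m ≤ μ
  · exact P.lower_aux (abs_le.2 ⟨hc, hle⟩) hμ ψ
  · have h1 : ∀ φ, (-m) * (φ ⬝ᵥ φ) ≤ eff A Y J0 φ := by
      intro φ
      have := (abs_le.1 (P.hm φ)).1
      unfold eff
      linarith
    have h2 := P.lower_aux (μ := -m) (by rw [abs_neg, abs_of_nonneg P.m0]) h1 ψ
    refine le_trans ?_ h2
    apply mul_le_mul_of_nonneg_right _ hψ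
    linarith

theorem upper (P : PertData ι Y H0 D1 A J0 d m hb) (φ : K → ℝ) (hφ : φ ⬝ᵥ φ = 1) :
    ∃ ψ : J → ℝ, ψ ⬝ᵥ ψ = 1 ∧
      ψ ⬝ᵥ ((H0 + D1) *ᵥ ψ) ≤ eff A Y J0 φ + 2 * hb * (d + m + hb) / J0 := by
  have hJ := P.J0pos
  set y : J → ℝ := Y *ᵥ φ with hy
  set t : ℝ := 1 / (2 * J0) with ht
  have ht0 : 0 < t := by rw [ht]; positivity
  have htJ : t * (2 * J0) = 1 := by rw [ht]; field_simp
  set χ : J → ℝ := ι *ᵥ φ - t • y with hχ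
  have hιy : (ι *ᵥ φ) ⬝ᵥ y = 0 := by
    rw [dotProduct_comm, dot_mulVec_transpose]
    have : ιᵀ *ᵥ y = 0 := by rw [hy, mulVec_mulVec, P.hY, zero_mulVec]
    rw [this, zero_dotProduct]
  have hyy := dot_self_nonneg y
  have hNχ : χ ⬝ᵥ χ = 1 + t ^ 2 * (y ⬝ᵥ y) := by
    rw [hχ, sub_dotProduct, dotProduct_sub, dotProduct_sub, P.iso_vec, hφ, smul_dotProduct,
      smul_dotProduct, dotProduct_smul, dotProduct_smul, dotProduct_comm y, hιy]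
    simp only [smul_eq_mul]
    ring
  have hH0φ : H0 *ᵥ (ι *ᵥ φ) = 0 := by rw [mulVec_mulVec, P.H0ι, zero_mulVec]
  have hD1φ : D1 *ᵥ (ι *ᵥ φ) = ι *ᵥ (A *ᵥ φ) + y := by
    rw [mulVec_mulVec, P.D1ι, add_mulVec, ← mulVec_mulVec]
  have hH0y : H0 *ᵥ y = (2 * J0) • y := by
    rw [hy, mulVec_mulVec, P.H0Y, smul_mulVec]
  have hιAy : (ι *ᵥ (A *ᵥ φ)) ⬝ᵥ y = 0 := by
    rw [dotProduct_comm, dot_mulVec_transpose]
    have : ιᵀ *ᵥ y = 0 := by rw [hy, mulVec_mulVec, P.hY, zero_mulVec]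
    rw [this, zero_dotProduct]
  have hyD : (ι *ᵥ φ) ⬝ᵥ (D1 *ᵥ y) = y ⬝ᵥ y := by
    rw [dot_mulVec_transpose, P.D1s, hD1φ, add_dotProduct, hιAy, zero_add]
  have hE : χ ⬝ᵥ ((H0 + D1) *ᵥ χ) = eff A Y J0 φ + t ^ 2 * (y ⬝ᵥ (D1 *ᵥ y)) := by
    have e0 : (H0 + D1) *ᵥ χ = ι *ᵥ (A *ᵥ φ) + y - t • ((2 * J0) • y + D1 *ᵥ y) := by
      rw [hχ, mulVec_sub, mulVec_smul, add_mulVec, add_mulVec, hH0φ, zero_add, hD1φ, hH0y]
    rw [e0, hχ]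
    rw [sub_dotProduct, dotProduct_sub, dotProduct_sub, dotProduct_add, P.iso_vec, hιy,
      dotProduct_smul, dotProduct_add, dotProduct_smul, hιy, hyD, smul_dotProduct, smul_dotProduct,
      dotProduct_add, dotProduct_comm y (ι *ᵥ (A *ᵥ φ)), hιAy, dotProduct_smul, dotProduct_add,
      dotProduct_smul]
    simp only [smul_eq_mul, eff]
    rw [← hy, ← ht]
    linear_combination (t * (y ⬝ᵥ y)) * htJ
  set N := χ ⬝ᵥ χ with hNdef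
  have hN1 : 1 ≤ N := by rw [hNχ]; nlinarith [sq_nonneg t, mul_nonneg (sq_nonneg t) hyy]
  have hN0 : 0 < N := by linarith
  have hsN : 0 < Real.sqrt N := Real.sqrt_pos.2 hN0
  have hss : (Real.sqrt N)⁻¹ * (Real.sqrt N)⁻¹ = N⁻¹ := by
    rw [← mul_inv, Real.mul_self_sqrt hN0.le]
  refine ⟨(Real.sqrt N)⁻¹ • χ, ?_, ?_⟩
  · rw [smul_dotProduct, dotProduct_smul, smul_eq_mul, smul_eq_mul, ← mul_assoc, hss, ← hNdef]
    field_simp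
  · rw [mulVec_smul, smul_dotProduct, dotProduct_smul, smul_eq_mul, smul_eq_mul, ← mul_assoc, hss,
      hE]
    have hb1 := P.hhb φ
    rw [← hy, hφ, mul_one] at hb1
    have hm1 := P.hm φ
    rw [hφ, mul_one, ← hy, ← ht] at hm1
    have hef : |eff A Y J0 φ| ≤ m := hm1
    have hd1 := (abs_le.1 (P.hd y)).2
    -- t^2 * y.y ≤ t * hb
    have hty : t ^ 2 * (y ⬝ᵥ y) ≤ t * hb := by
      calc t ^ 2 * (y ⬝ᵥ y) ≤ t ^ 2 * (2 * J0 * hb) :=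
            mul_le_mul_of_nonneg_left hb1 (by positivity)
        _ = t * (t * (2 * J0)) * hb := by ring
        _ = t * hb := by rw [htJ]; ring
    have hty0 : 0 ≤ t ^ 2 * (y ⬝ᵥ y) := by positivity
    have h1 : eff A Y J0 φ + t ^ 2 * (y ⬝ᵥ (D1 *ᵥ y)) ≤
        (eff A Y J0 φ + t * hb * (d + m)) * N := by
      have h2 : t ^ 2 * (y ⬝ᵥ (D1 *ᵥ y)) ≤ d * (t ^ 2 * (y ⬝ᵥ y)) := by
        calc t ^ 2 * (y ⬝ᵥ (D1 *ᵥ y)) ≤ t ^ 2 * (d * (y ⬝ᵥ y)) :=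
              mul_le_mul_of_nonneg_left hd1 (by positivity)
          _ = d * (t ^ 2 * (y ⬝ᵥ y)) := by ring
      have h3 : d * (t ^ 2 * (y ⬝ᵥ y)) ≤ d * (t * hb) := mul_le_mul_of_nonneg_left hty P.d0
      have h4 : -m * (t ^ 2 * (y ⬝ᵥ y)) ≤ eff A Y J0 φ * (t ^ 2 * (y ⬝ᵥ y)) :=
        mul_le_mul_of_nonneg_right (abs_le.1 hef).1 hty0
      have h5 : m * (t ^ 2 * (y ⬝ᵥ y)) ≤ m * (t * hb) := mul_le_mul_of_nonneg_left hty P.m0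
      have h6 : 0 ≤ t * hb * (d + m) * (t ^ 2 * (y ⬝ᵥ y)) := by
        have := P.hb0; have := P.d0; have := P.m0
        positivity
      rw [hNχ]
      nlinarith
    have h7 : N⁻¹ * (eff A Y J0 φ + t ^ 2 * (y ⬝ᵥ (D1 *ᵥ y))) ≤
        eff A Y J0 φ + t * hb * (d + m) := by
      rw [inv_mul_le_iff₀ hN0]
      linarith
    refine h7.trans ?_
    have h8 : t * hb * (d + m) ≤ 2 * hb * (d + m + hb) / J0 := by
      rw [ht, le_div_iff₀ hJ]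
      have := P.hb0; have := P.d0; have := P.m0
      have : 1 / (2 * J0) * hb * (d + m) * J0 = hb * (d + m) / 2 := by field_simp
      rw [this]
      nlinarith [mul_nonneg P.hb0 P.d0, mul_nonneg P.hb0 P.m0, mul_nonneg P.hb0 P.hb0]
    linarith

end PertData

end Crest.Agent.R338.HB
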