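import Crest.Agent.R338.HB3
import Crest.Agent.R338.HBPert

/-!
# Row 338, node I.4 (e): the block Hamiltonian is an instance of `PertData`
-/

set_option autoImplicit false

namespace Crest.Agent.R338.HB

open Matrix Finset Ten

section NB
variable {J : Type*} [Fintype J]

/-- operator norm bound -/
def NB (M : Matrix J J ℝ) (c : ℝ) : Prop :=
  0 ≤ c ∧ ∀ x : J → ℝ, (M *ᵥ x) ⬝ᵥ (M *ᵥ x) ≤ c ^ 2 * (x ⬝ᵥ x)

theorem NB.form {M : Matrix J J ℝ} {c : ℝ} (h : NB M c) (x : J → ℝ) :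
    |x ⬝ᵥ (M *ᵥ x)| ≤ c * (x ⬝ᵥ x) := by
  have h1 := dot_sq_le x (M *ᵥ x)
  have h2 := h.2 x
  have h3 := dot_self_nonneg x
  apply abs_le_of_sq_le_sq
  · calc (x ⬝ᵥ (M *ᵥ x)) ^ 2 ≤ (x ⬝ᵥ x) * ((M *ᵥ x) ⬝ᵥ (M *ᵥ x)) := h1
      _ ≤ (x ⬝ᵥ x) * (c ^ 2 * (x ⬝ᵥ x)) := mul_le_mul_of_nonneg_left h2 h3
      _ = (c * (x ⬝ᵥ x)) ^ 2 := by ring
  · exact mul_nonneg h.1 h3

theorem NB.mono {M : Matrix J J ℝ} {c c' : ℝ} (h : NB M c) (hc : c ≤ c') : NB M c' := by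
  refine ⟨h.1.trans hc, fun x => (h.2 x).trans ?_⟩
  have := h.1
  exact mul_le_mul_of_nonneg_right (by nlinarith) (dot_self_nonneg x)

theorem NB.mul {M N : Matrix J J ℝ} {a b : ℝ} (hM : NB M a) (hN : NB N b) : NB (M * N) (a * b) := by
  refine ⟨mul_nonneg hM.1 hN.1, fun x => ?_⟩
  rw [← mulVec_mulVec]
  calc (M *ᵥ (N *ᵥ x)) ⬝ᵥ (M *ᵥ (N *ᵥ x)) ≤ a ^ 2 * ((N *ᵥ x) ⬝ᵥ (N *ᵥ x)) := hM.2 _
    _ ≤ a ^ 2 * (b ^ 2 * (x ⬝ᵥ x)) := mul_le_mul_of_nonneg_left (hN.2 x) (sq_nonneg _)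
    _ = (a * b) ^ 2 * (x ⬝ᵥ x) := by ring

theorem NB.add {M N : Matrix J J ℝ} {a b : ℝ} (hM : NB M a) (hN : NB N b) : NB (M + N) (a + b) := by
  refine ⟨add_nonneg hM.1 hN.1, fun x => ?_⟩
  have h0 := dot_self_nonneg x
  have hm := hM.2 x
  have hn := hN.2 x
  have hm0 := dot_self_nonneg (M *ᵥ x)
  have hn0 := dot_self_nonneg (N *ᵥ x)
  have hcs := dot_sq_le (M *ᵥ x) (N *ᵥ x)
  have h1 : |(M *ᵥ x) ⬝ᵥ (N *ᵥ x)| ≤ a * b * (x ⬝ᵥ x) := by
    apply abs_le_of_sq_le_sq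
    · calc ((M *ᵥ x) ⬝ᵥ (N *ᵥ x)) ^ 2
          ≤ ((M *ᵥ x) ⬝ᵥ (M *ᵥ x)) * ((N *ᵥ x) ⬝ᵥ (N *ᵥ x)) := hcs
        _ ≤ (a ^ 2 * (x ⬝ᵥ x)) * (b ^ 2 * (x ⬝ᵥ x)) := by
            apply mul_le_mul hm hn hn0
            positivity
        _ = (a * b * (x ⬝ᵥ x)) ^ 2 := by ring
    · have := hM.1; have := hN.1; positivity
  rw [add_mulVec, dotProduct_add, add_dotProduct, add_dotProduct,
    dotProduct_comm (N *ᵥ x) (M *ᵥ x)]
  have h2 := (abs_le.1 h1).2
  nlinarith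

theorem NB.smul {M : Matrix J J ℝ} {a : ℝ} (c : ℝ) (hM : NB M a) : NB (c • M) (|c| * a) := by
  refine ⟨mul_nonneg (abs_nonneg _) hM.1, fun x => ?_⟩
  rw [smul_mulVec, smul_dotProduct, dotProduct_smul, smul_eq_mul, smul_eq_mul]
  have h := hM.2 x
  calc c * (c * ((M *ᵥ x) ⬝ᵥ (M *ᵥ x))) = c ^ 2 * ((M *ᵥ x) ⬝ᵥ (M *ᵥ x)) := by ring
    _ ≤ c ^ 2 * (a ^ 2 * (x ⬝ᵥ x)) := mul_le_mul_of_nonneg_left h (sq_nonneg _)
    _ = (|c| * a) ^ 2 * (x ⬝ᵥ x) := by rw [mul_pow, sq_abs]; ring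

theorem NB.zero : NB (0 : Matrix J J ℝ) 0 := ⟨le_rfl, fun x => by simp⟩

theorem NB.neg {M : Matrix J J ℝ} {a : ℝ} (hM : NB M a) : NB (-M) a := by
  have := hM.smul (-1)
  simpa using this

theorem NB.sub {M N : Matrix J J ℝ} {a b : ℝ} (hM : NB M a) (hN : NB N b) : NB (M - N) (a + b) := by
  rw [sub_eq_add_neg]; exact hM.add hN.neg

theorem NB.sum {κ : Type*} (s : Finset κ) {M : κ → Matrix J J ℝ} {a : κ → ℝ}
    (h : ∀ k ∈ s, NB (M k) (a k)) : NB (∑ k ∈ s, M k) (∑ k ∈ s, a k) := by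
  classical
  induction s using Finset.induction_on with
  | empty => simpa using NB.zero
  | insert i s hi ih =>
    rw [Finset.sum_insert hi, Finset.sum_insert hi]
    exact (h i (Finset.mem_insert_self i s)).add (ih fun k hk => h k (Finset.mem_insert_of_mem hk))

theorem NB.of_iso [DecidableEq J] {M : Matrix J J ℝ} (h : Mᵀ * M = 1) : NB M 1 := by
  refine ⟨zero_le_one, fun x => ?_⟩
  rw [dot_mulVec_transpose, mulVec_mulVec, h, one_mulVec]
  simp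

theorem NB.one [DecidableEq J] : NB (1 : Matrix J J ℝ) 1 := NB.of_iso (by simp)

end NB

variable {n : ℕ}

theorem O_iso {B : Type*} [Fintype B] [DecidableEq B] {M : Matrix B B ℝ} (h : Mᵀ * M = 1)
    (p : Fin n) : NB (O p M) 1 := by
  apply NB.of_iso
  rw [O_transpose, O_mul, h, O_one]

theorem P4_iso (a b : Fin 4) : (P4 a b)ᵀ * P4 a b = 1 := by
  rw [P4_transpose]
  ext i j
  rw [Matrix.mul_apply]
  have : ∀ k, P4 a b i k * P4 a b k j = if k = swp a b i then (P4 a b k j) else 0 := by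
    intro k
    by_cases hk : k = swp a b i <;> simp [P4, hk]
  rw [Finset.sum_congr rfl fun k _ => this k, Finset.sum_ite_eq']
  simp [P4, swp_swp, Matrix.one_apply, eq_comm]

theorem TT_sq (al : Fin 3) (a : Fin 4) :
    ((2 : ℝ) • TT al a)ᵀ * ((2 : ℝ) • TT al a) = 1 := by
  have h : ∀ v : B4 → ℝ, (((2 : ℝ) • TT al a)ᵀ * ((2 : ℝ) • TT al a)) *ᵥ v = v := by
    intro v
    rw [← mulVec_mulVec, transpose_smul, TT_transpose]
    funext i
    rw [smul_mulVec, smul_mulVec, smul_mulVec]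
    simp only [Pi.smul_apply, smul_eq_mul]
    rw [mulVec_smul, Pi.smul_apply, TT_mulVec_real]
    have e2 : ((sg (i a) : ℤ) : ℝ) * (sg (i a) : ℝ) = 1 := by
      unfold sg; split_ifs <;> norm_num
    have e3 : ((sg (flp a i a) : ℤ) : ℝ) = - (sg (i a) : ℝ) := by
      rw [sg_flp]; push_cast; ring
    fin_cases al
    · simp [ep, TT_mulVec_real, flp_flp]
      ring
    · simp only [ep, TT_mulVec_real, flp_flp, e3]
      simp
      linear_combination (v i) * e2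
    · simp only [ep, TT_mulVec_real]
      simp
      linear_combination (v i) * e2
  ext i j
  have := congrFun (h (Pi.single j 1)) i
  rw [Matrix.mulVec_single_one] at this
  rw [Matrix.one_apply]
  simpa [Pi.single_apply, eq_comm] using this

theorem NB_TT (p : Fin n) (al : Fin 3) (a : Fin 4) : NB (O p (TT al a)) (1 / 2) := by
  have h := (O_iso (TT_sq al a) p).smul (1 / 2 : ℝ)
  rw [← O_smul, smul_smul] at h
  norm_num at h
  convert h using 1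

theorem NB_XX (p : Fin n) (al : Fin 3) (r : Fin 4 → ℝ) :
    NB (O p (XX al r)) (∑ a, |r a| * (1 / 2)) := by
  unfold XX
  rw [O_sum]
  refine NB.sum _ fun a _ => ?_
  rw [O_smul]
  exact (NB_TT p al a).smul (r a)

theorem NB_Vpq (p q : Fin n) (r s : Fin 4 → ℝ) :
    NB (Vpq p q r s) (3 / 4 * (∑ a, |r a|) * (∑ a, |s a|)) := by
  have h : NB (Vpq p q r s) (∑ al : Fin 3, |ep al| *
      ((∑ a, |r a| * (1 / 2)) * (∑ a, |s a| * (1 / 2)))) := by
    unfold Vpq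
    exact NB.sum _ fun al _ => ((NB_XX p al r).mul (NB_XX q al s)).smul (ep al)
  convert h using 1
  rw [← Finset.sum_mul, ← Finset.sum_mul, ← Finset.sum_mul]
  have : ∑ al : Fin 3, |ep al| = 3 := by
    rw [Fin.sum_univ_three]; simp [ep]; norm_num
  rw [this]
  ring

/-! ### The gap -/

theorem Rproj (p : Fin n) : (1 - O p Pi4)ᵀ = 1 - O p Pi4 ∧
    (1 - O p Pi4) * (1 - O p Pi4) = 1 - O p Pi4 := by
  constructor
  · rw [Matrix.transpose_sub, O_transpose, Pi4_transpose, Matrix.transpose_one]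
  · rw [mul_sub, sub_mul, sub_mul, O_mul, Pi4_sq]
    simp

/-- projection onto singlets on the sites of `S` -/
noncomputable def PS (S : Finset (Fin n)) : Matrix (Fin n → B4) (Fin n → B4) ℝ :=
  T (fun p => if p ∈ S then Pi4 else 1)

theorem PS_transpose (S : Finset (Fin n)) : (PS S)ᵀ = PS S := by
  unfold PS
  rw [T_transpose]
  congr 1
  funext p
  split_ifs <;> simp [Pi4_transpose]

theorem PS_sq (S : Finset (Fin n)) : PS S * PS S = PS S := by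
  unfold PS
  rw [T_mul]
  congr 1
  funext p
  split_ifs <;> simp [Pi4_sq]

theorem PS_insert {S : Finset (Fin n)} {a : Fin n} (ha : a ∉ S) :
    PS (insert a S) = O a Pi4 * PS S := by
  unfold PS
  rw [O_mul_T]
  congr 1
  funext p
  by_cases h : p = a
  · subst h; simp [ha]
  · simp [h]

theorem PS_comm {S : Finset (Fin n)} {a : Fin n} (ha : a ∉ S) :
    O a Pi4 * PS S = PS S * O a Pi4 := by
  unfold PS
  rw [O_mul_T, T_mul_O]
  congr 1
  funext p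
  by_cases h : p = a
  · subst h; simp [ha]
  · simp [h]

theorem gap_aux (S : Finset (Fin n)) (ψ : (Fin n → B4) → ℝ) :
    ψ ⬝ᵥ ψ - ψ ⬝ᵥ (PS S *ᵥ ψ) ≤ ∑ p ∈ S, ψ ⬝ᵥ ((1 - O p Pi4) *ᵥ ψ) := by
  classical
  induction S using Finset.induction_on with
  | empty =>
    have : PS (∅ : Finset (Fin n)) = 1 := by
      unfold PS; simp [T_one]
    simp [this]
  | insert a S ha ih =>
    rw [Finset.sum_insert ha]
    set R := (1 : Matrix (Fin n → B4) (Fin n → B4) ℝ) - O a Pi4 with hR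
    obtain ⟨hRt, hRs⟩ := Rproj a
    have hc : R * PS S = PS S * R := by
      rw [hR, sub_mul, mul_sub, PS_comm ha]; simp
    have h1 : PS (insert a S) = PS S - R * PS S := by
      rw [PS_insert ha, hR, sub_mul]; simp
    have h2 : ψ ⬝ᵥ ((R * PS S) *ᵥ ψ) = (PS S *ᵥ (R *ᵥ ψ)) ⬝ᵥ (PS S *ᵥ (R *ᵥ ψ)) := by
      have hMt : (PS S * R)ᵀ = PS S * R := by
        rw [Matrix.transpose_mul, PS_transpose, hR, hRt, ← hR, hc]
      have hMs : (PS S * R) * (PS S * R) = PS S * R := by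
        calc (PS S * R) * (PS S * R) = PS S * (R * PS S) * R := by noncomm_ring
          _ = (PS S * PS S) * (R * R) := by rw [hc]; noncomm_ring
          _ = PS S * R := by rw [PS_sq, hR, hRs]
      rw [hc, proj_form _ hMt hMs, mulVec_mulVec]
    have h3 : (PS S *ᵥ (R *ᵥ ψ)) ⬝ᵥ (PS S *ᵥ (R *ᵥ ψ)) ≤ (R *ᵥ ψ) ⬝ᵥ (R *ᵥ ψ) :=
      proj_form_le _ (PS_transpose S) (PS_sq S) _
    have h4 : (R *ᵥ ψ) ⬝ᵥ (R *ᵥ ψ) = ψ ⬝ᵥ (R *ᵥ ψ) := (proj_form R hRt hRs ψ).symm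
    rw [h1, sub_mulVec, dotProduct_sub]
    linarith

theorem PS_univ : PS (Finset.univ : Finset (Fin n)) = iota n * (iota n)ᵀ := by
  unfold PS iota
  rw [T_transpose, T_mul]
  congr 1
  funext p
  simp [Pi4]

theorem gap_K (q : (Fin n → B4) → ℝ) (hq : (iota n)ᵀ *ᵥ q = 0) :
    q ⬝ᵥ q ≤ q ⬝ᵥ ((∑ p : Fin n, O p K4) *ᵥ q) := by
  have h1 := gap_aux Finset.univ q
  rw [PS_univ, ← mulVec_mulVec, hq, mulVec_zero, dotProduct_zero, sub_zero] at h1
  refine h1.trans ?_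
  rw [sum_mulVec, dotProduct_sum]
  refine Finset.sum_le_sum fun p _ => ?_
  have h2 : O p K4 = (1 - O p Pi4) + (2 : ℝ) • O p N4 := by
    rw [K4_eq, O_add, O_sub, O_one, O_smul]
  have h3 := proj_form_nonneg (O p N4) (by rw [O_transpose, N4_transpose])
    (by rw [O_mul, N4_sq]) q
  rw [h2, add_mulVec, dotProduct_add, smul_mulVec, dotProduct_smul, smul_eq_mul]
  linarith

theorem K_nonneg (q : (Fin n → B4) → ℝ) : 0 ≤ q ⬝ᵥ ((∑ p : Fin n, O p K4) *ᵥ q) := by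
  rw [sum_mulVec, dotProduct_sum]
  refine Finset.sum_nonneg fun p _ => ?_
  have h2 : O p K4 = (1 - O p Pi4) + (2 : ℝ) • O p N4 := by
    rw [K4_eq, O_add, O_sub, O_one, O_smul]
  have h3 := proj_form_nonneg (O p N4) (by rw [O_transpose, N4_transpose])
    (by rw [O_mul, N4_sq]) q
  have h4 := proj_form_nonneg _ (Rproj p).1 (Rproj p).2 q
  rw [h2, add_mulVec, dotProduct_add, smul_mulVec, dotProduct_smul, smul_eq_mul]
  linarith

theorem K_transpose : (∑ p : Fin n, O p K4)ᵀ = ∑ p : Fin n, O p K4 := by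
  rw [Matrix.transpose_sum]
  exact Finset.sum_congr rfl fun p _ => by rw [O_transpose, K4_transpose]

theorem K_iota : (∑ p : Fin n, O p K4) * iota n = 0 := by
  rw [Matrix.sum_mul]
  refine Finset.sum_eq_zero fun p _ => ?_
  unfold iota
  rw [O_mul_T, K4_eM, T_update_zero]

/-! ### The Hamiltonian -/

/-- pairs -/
def pairs (n : ℕ) : Finset (Fin n × Fin n) := Finset.univ.filter fun x => x.1 < x.2

/-- in-block field `∑_b u_b S_0·S_b` -/
noncomputable def wB (u : Fin 4 → ℝ) : Matrix B4 B4 ℝ :=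
  ∑ b ∈ ({1, 2, 3} : Finset (Fin 4)), u b • ((1 / 2 : ℝ) • P4 0 b - (1 / 4 : ℝ) • 1)

/-- its compression -/
noncomputable def wL (u : Fin 4 → ℝ) : Matrix Bool Bool ℝ :=
  ∑ b ∈ ({1, 2, 3} : Finset (Fin 4)), u b • (-(1 / 4 : ℝ) • 1 - (1 / 2 : ℝ) • tau 0 b)

theorem wB_eM (u : Fin 4 → ℝ) : wB u * eM = eM * wL u := by
  unfold wB wL
  rw [Matrix.sum_mul, Matrix.mul_sum]
  refine Finset.sum_congr rfl fun b hb => ?_
  have hb0 : b ≠ 0 := by
    intro h; subst h; simp at hb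
  rw [Matrix.smul_mul, Matrix.mul_smul, Matrix.sub_mul, Matrix.smul_mul, Matrix.smul_mul,
    P4_eM b hb0, Matrix.mul_sub, Matrix.mul_smul, Matrix.mul_smul, Matrix.one_mul, Matrix.mul_one,
    Matrix.mul_neg]
  congr 1
  module

theorem wB_transpose (u : Fin 4 → ℝ) : (wB u)ᵀ = wB u := by
  unfold wB
  rw [Matrix.transpose_sum]
  refine Finset.sum_congr rfl fun b _ => ?_
  simp [P4_transpose]

/-- the perturbation -/
noncomputable def D1 (r s : Fin n → Fin n → Fin 4 → ℝ) (u : Fin n → Fin 4 → ℝ) (kap : ℝ) :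
    Matrix (Fin n → B4) (Fin n → B4) ℝ :=
  ∑ p, O p (wB (u p)) + kap • ∑ x ∈ pairs n, Vpq x.1 x.2 (r x.1 x.2) (s x.1 x.2)

/-- local part of the effective Hamiltonian -/
noncomputable def AL (u : Fin n → Fin 4 → ℝ) : Matrix (Fin n → Bool) (Fin n → Bool) ℝ :=
  ∑ p, O p (wL (u p))

/-- off-diagonal part -/
noncomputable def YY (r s : Fin n → Fin n → Fin 4 → ℝ) (kap : ℝ) :
    Matrix (Fin n → B4) (Fin n → Bool) ℝ :=
  kap • ∑ x ∈ pairs n, Vpq x.1 x.2 (r x.1 x.2) (s x.1 x.2) * iota n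

/-- second order form -/
noncomputable def SO (r s : Fin n → Fin n → Fin 4 → ℝ) :
    Matrix (Fin n → Bool) (Fin n → Bool) ℝ :=
  ∑ x ∈ pairs n, O x.1 (RR (r x.1 x.2)) * O x.2 (RR (s x.1 x.2))

theorem YY_sq (r s : Fin n → Fin n → Fin 4 → ℝ) (kap : ℝ) :
    (YY r s kap)ᵀ * YY r s kap = (kap ^ 2 / 3) • SO r s := by
  unfold YY SO
  rw [Matrix.transpose_smul, Matrix.smul_mul, Matrix.mul_smul, smul_smul, Matrix.transpose_sum,
    Matrix.sum_mul]
  have key : ∀ x ∈ pairs n, (Vpq x.1 x.2 (r x.1 x.2) (s x.1 x.2) * iota n)ᵀ *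
      ∑ y ∈ pairs n, Vpq y.1 y.2 (r y.1 y.2) (s y.1 y.2) * iota n =
      (1 / 3 : ℝ) • (O x.1 (RR (r x.1 x.2)) * O x.2 (RR (s x.1 x.2))) := by
    intro x hx
    have hx' : x.1 < x.2 := by simpa [pairs] using hx
    rw [Matrix.mul_sum, Finset.sum_eq_single x]
    · exact Vpq_sq hx'.ne _ _
    · intro y hy hne
      have hy' : y.1 < y.2 := by simpa [pairs] using hy
      exact Vpq_orth hx' hy' (fun h => hne (by rw [Prod.ext_iff] at h ⊢; exact ⟨h.1.symm, h.2.symm⟩))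
        _ _ _ _
    · intro h; exact absurd hx h
  rw [Finset.sum_congr rfl key, ← Finset.smul_sum, smul_smul]
  congr 1
  ring

theorem pertData (r s : Fin n → Fin n → Fin 4 → ℝ) (u : Fin n → Fin 4 → ℝ) {kap J0 d m hb : ℝ}
    (hJ : 0 < J0) (hk : kap ^ 2 = 6 * J0) (hd0 : 0 ≤ d) (hm0 : 0 ≤ m) (hb0 : 0 ≤ hb)
    (hd : NB (D1 r s u kap) d) (hm : NB (AL u - SO r s) m) (hhb : NB (SO r s) hb)
    (hc : d + m + hb ≤ J0 / 2) :
    PertData (iota n) (YY r s kap) (J0 • ∑ p : Fin n, O p K4) (D1 r s u kap) (AL u) J0 d m hb where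
  iso := iota_iso
  H0s := by rw [Matrix.transpose_smul, K_transpose]
  H0p x := by
    rw [smul_mulVec, dotProduct_smul, smul_eq_mul]
    exact mul_nonneg hJ.le (K_nonneg x)
  H0ι := by rw [Matrix.smul_mul, K_iota, smul_zero]
  gap q hq := by
    rw [smul_mulVec, dotProduct_smul, smul_eq_mul]
    exact mul_le_mul_of_nonneg_left (gap_K q hq) hJ.le
  D1s := by
    unfold D1
    rw [Matrix.transpose_add, Matrix.transpose_smul, Matrix.transpose_sum, Matrix.transpose_sum]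
    congr 1
    · exact Finset.sum_congr rfl fun p _ => by rw [O_transpose, wB_transpose]
    · congr 1
      refine Finset.sum_congr rfl fun x hx => ?_
      have hx' : x.1 < x.2 := by simpa [pairs] using hx
      exact Vpq_transpose hx'.ne _ _
  D1ι := by
    unfold D1 AL YY
    rw [Matrix.add_mul, Matrix.smul_mul, Matrix.sum_mul, Matrix.sum_mul, Matrix.mul_sum]
    congr 1
    refine Finset.sum_congr rfl fun p _ => ?_
    unfold iota
    rw [O_mul_T, T_mul_O, wB_eM]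
  hY := by
    unfold YY
    rw [Matrix.mul_smul, Matrix.mul_sum]
    rw [Finset.sum_eq_zero, smul_zero]
    intro x hx
    have hx' : x.1 < x.2 := by simpa [pairs] using hx
    exact iota_Vpq_iota hx'.ne _ _
  H0Y := by
    unfold YY
    rw [Matrix.smul_mul, Matrix.mul_smul, Matrix.mul_sum]
    have : ∑ x ∈ pairs n, (∑ p : Fin n, O p K4) * (Vpq x.1 x.2 (r x.1 x.2) (s x.1 x.2) * iota n) =
        ∑ x ∈ pairs n, (2 : ℝ) • (Vpq x.1 x.2 (r x.1 x.2) (s x.1 x.2) * iota n) := by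
      refine Finset.sum_congr rfl fun x hx => ?_
      have hx' : x.1 < x.2 := by simpa [pairs] using hx
      exact K_Vpq_iota hx'.ne _ _
    rw [this, ← Finset.smul_sum]
    module
  hd := hd.form
  hm φ := by
    have h1 : (YY r s kap *ᵥ φ) ⬝ᵥ (YY r s kap *ᵥ φ) = 2 * J0 * (φ ⬝ᵥ (SO r s *ᵥ φ)) := by
      rw [dotProduct_comm, dot_mulVec_transpose, mulVec_mulVec, YY_sq, smul_mulVec, smul_dotProduct,
        smul_eq_mul, hk, dotProduct_comm]
      ring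
    have h2 := hm.form φ
    rw [sub_mulVec, dotProduct_sub] at h2
    rw [h1]
    have h3 : 1 / (2 * J0) * (2 * J0 * (φ ⬝ᵥ (SO r s *ᵥ φ))) = φ ⬝ᵥ (SO r s *ᵥ φ) := by
      field_simp
    rw [h3]
    exact h2
  hhb φ := by
    have h1 : (YY r s kap *ᵥ φ) ⬝ᵥ (YY r s kap *ᵥ φ) = 2 * J0 * (φ ⬝ᵥ (SO r s *ᵥ φ)) := by
      rw [dotProduct_comm, dot_mulVec_transpose, mulVec_mulVec, YY_sq, smul_mulVec, smul_dotProduct,
        smul_eq_mul, hk, dotProduct_comm]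
      ring
    rw [h1]
    have h2 := (le_abs_self _).trans (hhb.form φ)
    exact mul_le_mul_of_nonneg_left h2 (by positivity)
  J0pos := hJ
  d0 := hd0
  m0 := hm0
  hb0 := hb0
  cond := hc

/-- effective energy is the form of `AL - SO` -/
theorem eff_eq (r s : Fin n → Fin n → Fin 4 → ℝ) (u : Fin n → Fin 4 → ℝ) {kap J0 : ℝ}
    (hJ : 0 < J0) (hk : kap ^ 2 = 6 * J0) (φ : (Fin n → Bool) → ℝ) :
    PertData.eff (AL u) (YY r s kap) J0 φ = φ ⬝ᵥ ((AL u - SO r s) *ᵥ φ) := by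
  unfold PertData.eff
  have h1 : (YY r s kap *ᵥ φ) ⬝ᵥ (YY r s kap *ᵥ φ) = 2 * J0 * (φ ⬝ᵥ (SO r s *ᵥ φ)) := by
    rw [dotProduct_comm, dot_mulVec_transpose, mulVec_mulVec, YY_sq, smul_mulVec, smul_dotProduct,
      smul_eq_mul, hk, dotProduct_comm]
    ring
  rw [h1, sub_mulVec, dotProduct_sub]
  field_simp

end Crest.Agent.R338.HB
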