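import Crest.Agent.R338.Pauli
import Crest.Agent.R338.Iface

/-!
# Row 338: interface between node I.3 (mediators) and node I.4 (Heisenberg blocks)

`XZ n` = real data of a two-local `XZ` Hamiltonian with one rank-one coupling on every pair `p < q`.
`XInst` = coded rational instances; the `X` coefficients are `√3` times a rational number, the `Z`
coefficients are rational.
-/

set_option autoImplicit false

noncomputable section

open Crest.Quantum.QMA Crest.Agent.Lib.PT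

namespace Crest.Agent.R338

/-- data of a two-local `XZ` Hamiltonian with one rank-one coupling on every pair `p < q` -/
structure XZ (n : ℕ) where
  /-- local `X` fields -/
  fx : Fin n → ℝ
  /-- local `Z` fields -/
  fz : Fin n → ℝ
  /-- `X` coefficient of the first factor -/
  ax : Fin n → Fin n → ℝ
  /-- `Z` coefficient of the first factor -/
  az : Fin n → Fin n → ℝ
  /-- `X` coefficient of the second factor -/
  bx : Fin n → Fin n → ℝ
  /-- `Z` coefficient of the second factor -/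
  bz : Fin n → Fin n → ℝ

/-- the Hamiltonian -/
def XZ.op {n : ℕ} (D : XZ n) : Op (Fin n) :=
  ∑ p, (D.fx p • X p + D.fz p • Z p) +
  ∑ p, ∑ q, if p < q then
    (D.ax p q • X p + D.az p q • Z p) * (D.bx p q • X q + D.bz p q • Z q) else 0

/-- A coded `XZ` instance `(((n, q), b), ((local fields (x, z), couplings ((ax, az), (bx, bz)) row
major), e))`; `n`, `q`, `b` in unary; all `X` coefficients are in units of `√3`; `b` bounds all
coefficients. -/
abbrev XInst := ((Un × Un) × Un) × ((List (ℚ × ℚ) × List ((ℚ × ℚ) × (ℚ × ℚ))) × ℚ)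

namespace XInst
/-- number of qubits -/
def n (x : XInst) : ℕ := x.1.1.1.val
/-- inverse promise gap -/
def q (x : XInst) : ℕ := x.1.1.2.val
/-- bound for the coefficients -/
def b (x : XInst) : ℕ := x.1.2.val
/-- local field `(x, z)` at `p` -/
def fl (x : XInst) (p : ℕ) : ℚ × ℚ := x.2.1.1.getD p (0, 0)
/-- coupling `((ax, az), (bx, bz))` of the pair `p < q` -/
def cp (x : XInst) (p q : ℕ) : (ℚ × ℚ) × (ℚ × ℚ) := x.2.1.2.getD (p * x.n + q) ((0, 0), (0, 0))
/-- threshold -/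
def e (x : XInst) : ℚ := x.2.2
/-- the real data -/
def xz (x : XInst) : XZ x.n where
  fx p := √3 * ((x.fl p).1 : ℝ)
  fz p := ((x.fl p).2 : ℝ)
  ax p q := √3 * ((x.cp p q).1.1 : ℝ)
  az p q := ((x.cp p q).1.2 : ℝ)
  bx p q := √3 * ((x.cp p q).2.1 : ℝ)
  bz p q := ((x.cp p q).2.2 : ℝ)
/-- validity -/
def Valid (x : XInst) : Prop := 1 ≤ x.n ∧ 1 ≤ x.q ∧ 1 ≤ x.b ∧
  (∀ p < x.n, |(x.fl p).1| ≤ x.b ∧ |(x.fl p).2| ≤ x.b) ∧
  (∀ p < x.n, ∀ q < x.n, p < q → |(x.cp p q).1.1| ≤ x.b ∧ |(x.cp p q).1.2| ≤ x.b ∧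
    |(x.cp p q).2.1| ≤ x.b ∧ |(x.cp p q).2.2| ≤ x.b)
/-- YES instance -/
def Yes (x : XInst) : Prop := ∃ φ : Q (Fin x.n), nsq φ = 1 ∧ E x.xz.op φ ≤ (x.e : ℝ)
/-- NO instance -/
def No (x : XInst) : Prop := ∀ φ : Q (Fin x.n), nsq φ = 1 →
  (x.e : ℝ) + 1 / (x.q : ℝ) ≤ E x.xz.op φ
end XInst

/-- PART I, first half (nodes I.1, I.2, I.3): `QMA → XZ` -/
def PartIaStmt : Prop := ∀ P : Promise, InQMA P → ∃ g : Bits → XInst, PTF g ∧
  (∀ x, (g x).Valid) ∧ (∀ x : Bits, x.val ∈ P.yes → (g x).Yes) ∧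
  (∀ x : Bits, x.val ∈ P.no → (g x).No)

/-- PART I, second half (node I.4): `XZ → Heisenberg` -/
def PartIbStmt : Prop := ∃ F : XInst → HInst, PTF F ∧
  (∀ x : XInst, x.Valid → (F x).Valid) ∧ (∀ x : XInst, x.Valid → x.Yes → (F x).Yes) ∧
  (∀ x : XInst, x.Valid → x.No → (F x).No)

theorem partI_of (ha : PartIaStmt) (hb : PartIbStmt) : PartIStmt := by
  intro P hP
  obtain ⟨g, hg, hv, hy, hn⟩ := ha P hP
  obtain ⟨F, hF, hFv, hFy, hFn⟩ := hb
  exact ⟨fun x => F (g x), hF.comp hg, fun x => hFv _ (hv x), fun x hx => hFy _ (hv x) (hy x hx),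
    fun x hx => hFn _ (hv x) (hn x hx)⟩

end Crest.Agent.R338

end
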