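import Crest.Agent.R338.HB4
import Crest.Agent.R338.P1Fin
import Crest.Agent.R338.XZ

/-!
# Row 338, node I.4 (f): the block Hamiltonian as a Heisenberg form
-/

set_option autoImplicit false

namespace Crest.Agent.R338.HB

open Matrix Finset Ten

variable {n : ℕ}

/-- exchange of the spins `(p, a)` and `(q, b)` in a configuration of blocks -/
def exch (x y : Fin n × Fin 4) (σ : Fin n → B4) : Fin n → B4 :=
  fun p' a' => σ (Equiv.swap x y (p', a')).1 (Equiv.swap x y (p', a')).2

theorem O_mulVec' (p : Fin n) (M : Matrix B4 B4 ℝ) (ψ : (Fin n → B4) → ℝ) (σ : Fin n → B4) :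
    (O p M *ᵥ ψ) σ = (M *ᵥ (fun b => ψ (Function.update σ p b))) (σ p) := by
  rw [O_mulVec]; rfl

theorem exch_in (p : Fin n) (a b : Fin 4) (σ : Fin n → B4) :
    exch (p, a) (p, b) σ = Function.update σ p (swp a b (σ p)) := by
  funext p' a'
  by_cases hp : p' = p
  · subst hp
    rw [Function.update_self]
    simp only [exch, swp]
    by_cases h1 : a' = a
    · subst h1; simp
    · by_cases h2 : a' = b
      · subst h2; simp
      · rw [Equiv.swap_apply_of_ne_of_ne, Equiv.swap_apply_of_ne_of_ne h1 h2]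
        · simpa using h1
        · simpa using h2
  · rw [Function.update_of_ne hp]
    simp only [exch]
    rw [Equiv.swap_apply_of_ne_of_ne]
    · simp [hp]
    · simp [hp]

theorem exch_ne {p q : Fin n} (h : p ≠ q) (a b : Fin 4) (σ : Fin n → B4) :
    exch (p, a) (q, b) σ = if σ p a = σ q b then σ else
      Function.update (Function.update σ p (flp a (σ p))) q (flp b (σ q)) := by
  split_ifs with hs
  · funext p' a'
    simp only [exch]
    by_cases h1 : (p', a') = (p, a)
    · rw [h1, Equiv.swap_apply_left]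
      simp only [Prod.mk.injEq] at h1
      rw [h1.1, h1.2]
      exact hs.symm
    · by_cases h2 : (p', a') = (q, b)
      · rw [h2, Equiv.swap_apply_right]
        simp only [Prod.mk.injEq] at h2
        rw [h2.1, h2.2]
        exact hs
      · rw [Equiv.swap_apply_of_ne_of_ne h1 h2]
  · have hs1 : σ q b = !(σ p a) := by
      cases hh : σ p a <;> cases hh' : σ q b <;> simp_all
    have hs2 : σ p a = !(σ q b) := by
      cases hh : σ p a <;> cases hh' : σ q b <;> simp_all
    funext p' a'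
    simp only [exch]
    by_cases h1 : (p', a') = (p, a)
    · rw [h1, Equiv.swap_apply_left]
      simp only [Prod.mk.injEq] at h1
      rw [h1.1, h1.2, Function.update_of_ne h, Function.update_self]
      simp [flp, hs1]
    · by_cases h2 : (p', a') = (q, b)
      · rw [h2, Equiv.swap_apply_right]
        simp only [Prod.mk.injEq] at h2
        rw [h2.1, h2.2, Function.update_self]
        simp [flp, hs2]
      · rw [Equiv.swap_apply_of_ne_of_ne h1 h2]
        by_cases h3 : p' = q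
        · subst h3
          rw [Function.update_self]
          have : a' ≠ b := by rintro rfl; exact h2 rfl
          simp [flp, Function.update_of_ne this]
        · rw [Function.update_of_ne h3]
          by_cases h4 : p' = p
          · subst h4
            rw [Function.update_self]
            have : a' ≠ a := by rintro rfl; exact h1 rfl
            simp [flp, Function.update_of_ne this]
          · rw [Function.update_of_ne h4]

theorem in_swap (p : Fin n) (a b : Fin 4) (ψ : (Fin n → B4) → ℝ) (σ : Fin n → B4) :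
    (O p (P4 a b) *ᵥ ψ) σ = ψ (exch (p, a) (p, b) σ) := by
  rw [O_mulVec', P4_mulVec, exch_in]

theorem out_swap {p q : Fin n} (h : p ≠ q) (a b : Fin 4) (ψ : (Fin n → B4) → ℝ)
    (σ : Fin n → B4) :
    ((∑ al : Fin 3, ep al • (O p (TT al a) * O q (TT al b))) *ᵥ ψ) σ =
      (1 / 2) * ψ (exch (p, a) (q, b) σ) - (1 / 4) * ψ σ := by
  have key : ∀ al : Fin 3, ((O p (TT al a) * O q (TT al b)) *ᵥ ψ) σ = match al with
      | 0 => ψ (Function.update (Function.update σ p (flp a (σ p))) q (flp b (σ q))) / 4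
      | 1 => (HB.sg (σ p a) : ℝ) * (HB.sg (σ q b) : ℝ) *
          ψ (Function.update (Function.update σ p (flp a (σ p))) q (flp b (σ q))) / 4
      | 2 => (HB.sg (σ p a) : ℝ) * (HB.sg (σ q b) : ℝ) * ψ σ / 4 := by
    intro al
    rw [← mulVec_mulVec, O_mulVec', TT_mulVec_real]
    fin_cases al
    · simp only [O_mulVec', TT_mulVec_real]
      rw [Function.update_of_ne h.symm]
      ring
    · simp only [O_mulVec', TT_mulVec_real]
      rw [Function.update_of_ne h.symm]
      ring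
    · simp only [O_mulVec', TT_mulVec_real]
      rw [Function.update_of_ne h.symm, Function.update_eq_self, Function.update_eq_self]
      ring
  rw [sum_mulVec, Finset.sum_apply, Fin.sum_univ_three]
  simp only [smul_mulVec, Pi.smul_apply, key, smul_eq_mul]
  rw [exch_ne h]
  have hep0 : ep 0 = 1 := by simp [ep]
  have hep1 : ep 1 = -1 := by simp [ep]
  have hep2 : ep 2 = 1 := by simp [ep]
  rw [hep0, hep1, hep2]
  cases h1 : σ p a <;> cases h2 : σ q b <;> simp [HB.sg] <;> ring

theorem OO_XX (p q : Fin n) (al : Fin 3) (r s : Fin 4 → ℝ) :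
    O p (XX al r) * O q (XX al s) = ∑ a, ∑ b, (r a * s b) • (O p (TT al a) * O q (TT al b)) := by
  unfold XX
  rw [O_sum, O_sum, Matrix.sum_mul]
  refine Finset.sum_congr rfl fun a _ => ?_
  rw [Matrix.mul_sum]
  refine Finset.sum_congr rfl fun b _ => ?_
  rw [O_smul, O_smul, Matrix.smul_mul, Matrix.mul_smul, smul_smul]

theorem Vpq_expand (p q : Fin n) (r s : Fin 4 → ℝ) :
    Vpq p q r s = ∑ a, ∑ b, (r a * s b) •
      (∑ al : Fin 3, ep al • (O p (TT al a) * O q (TT al b))) := by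
  unfold Vpq
  simp only [OO_XX, Finset.smul_sum]
  rw [Finset.sum_comm]
  refine Finset.sum_congr rfl fun a _ => ?_
  rw [Finset.sum_comm]
  refine Finset.sum_congr rfl fun b _ => Finset.sum_congr rfl fun al _ => ?_
  rw [smul_comm]

/-- overlap with an exchanged state -/
def swB (x y : Fin n × Fin 4) (ψ : (Fin n → B4) → ℝ) : ℝ := ∑ σ, ψ σ * ψ (exch x y σ)

/-- `⟨S_x·S_y⟩` -/
noncomputable def SS (x y : Fin n × Fin 4) (ψ : (Fin n → B4) → ℝ) : ℝ :=
  (1 / 2) * swB x y ψ - (1 / 4) * (ψ ⬝ᵥ ψ)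

theorem form_Vpq {p q : Fin n} (h : p ≠ q) (r s : Fin 4 → ℝ) (ψ : (Fin n → B4) → ℝ) :
    ψ ⬝ᵥ (Vpq p q r s *ᵥ ψ) = ∑ a, ∑ b, (r a * s b) * SS (p, a) (q, b) ψ := by
  rw [Vpq_expand]
  simp only [sum_mulVec, dotProduct_sum, smul_mulVec, dotProduct_smul, smul_eq_mul]
  refine Finset.sum_congr rfl fun a _ => Finset.sum_congr rfl fun b _ => ?_
  have : ∑ al : Fin 3, ep al * (ψ ⬝ᵥ ((O p (TT al a) * O q (TT al b)) *ᵥ ψ)) =
      ψ ⬝ᵥ ((∑ al : Fin 3, ep al • (O p (TT al a) * O q (TT al b))) *ᵥ ψ) := by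
    simp only [sum_mulVec, dotProduct_sum, smul_mulVec, dotProduct_smul, smul_eq_mul]
  rw [this]
  congr 1
  have h2 : ((∑ al : Fin 3, ep al • (O p (TT al a) * O q (TT al b))) *ᵥ ψ) =
      fun σ => (1 / 2) * ψ (exch (p, a) (q, b) σ) - (1 / 4) * ψ σ := by
    funext σ; exact out_swap h a b ψ σ
  rw [h2]
  simp only [dotProduct, SS, swB, Finset.mul_sum, ← Finset.sum_sub_distrib]
  refine Finset.sum_congr rfl fun σ _ => ?_
  ring

theorem form_P4 (p : Fin n) (a b : Fin 4) (ψ : (Fin n → B4) → ℝ) :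
    ψ ⬝ᵥ (O p (P4 a b) *ᵥ ψ) = swB (p, a) (p, b) ψ := by
  simp only [dotProduct, swB, in_swap]

theorem form_K4 (p : Fin n) (ψ : (Fin n → B4) → ℝ) :
    ψ ⬝ᵥ (O p K4 *ᵥ ψ) = SS (p, 0) (p, 1) ψ + SS (p, 0) (p, 2) ψ + SS (p, 0) (p, 3) ψ +
      SS (p, 1) (p, 2) ψ + SS (p, 1) (p, 3) ψ + SS (p, 2) (p, 3) ψ + (3 / 2) * (ψ ⬝ᵥ ψ) := by
  unfold K4
  rw [O_smul, O_add, O_add, O_add, O_add, O_add, smul_mulVec, dotProduct_smul, smul_eq_mul]
  simp only [add_mulVec, dotProduct_add, form_P4, SS]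
  ring

theorem form_wB (p : Fin n) (u : Fin 4 → ℝ) (ψ : (Fin n → B4) → ℝ) :
    ψ ⬝ᵥ (O p (wB u) *ᵥ ψ) = u 1 * SS (p, 0) (p, 1) ψ + u 2 * SS (p, 0) (p, 2) ψ +
      u 3 * SS (p, 0) (p, 3) ψ := by
  unfold wB
  rw [O_sum, sum_mulVec, dotProduct_sum]
  rw [Finset.sum_insert (by decide), Finset.sum_insert (by decide), Finset.sum_singleton]
  simp only [O_smul, O_sub, O_one, smul_mulVec, sub_mulVec, one_mulVec, dotProduct_smul,
    dotProduct_sub, form_P4, SS, smul_eq_mul]
  ring

/-! ### Reindexing -/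

/-- configurations of blocks versus configurations of spins -/
def cf (n : ℕ) : (Fin n → B4) ≃ (Fin (n * 4) → Bool) where
  toFun σ := fun i => σ (finProdFinEquiv.symm i).1 (finProdFinEquiv.symm i).2
  invFun τ := fun p a => τ (finProdFinEquiv (p, a))
  left_inv σ := by funext p a; simp
  right_inv τ := by
    funext i
    show τ (finProdFinEquiv (finProdFinEquiv.symm i)) = τ i
    rw [Equiv.apply_symm_apply]

theorem cf_swap (x y : Fin n × Fin 4) (σ : Fin n → B4) :
    cf n σ ∘ Equiv.swap (finProdFinEquiv x) (finProdFinEquiv y) = cf n (exch x y σ) := by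
  funext i
  obtain ⟨z, rfl⟩ := finProdFinEquiv.surjective i
  simp only [cf, Function.comp_apply, Equiv.coe_fn_mk, exch, Equiv.symm_apply_apply]
  by_cases h1 : z = x
  · subst h1; simp
  · by_cases h2 : z = y
    · subst h2; simp
    · rw [Equiv.swap_apply_of_ne_of_ne (fun h => h1 (finProdFinEquiv.injective h))
        (fun h => h2 (finProdFinEquiv.injective h)), Equiv.swap_apply_of_ne_of_ne h1 h2]
      simp

/-- pull back of a state -/
def pb (φ : Q (Fin (n * 4))) : (Fin n → B4) → ℝ := fun σ => φ (cf n σ)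

theorem swapR_eq (x y : Fin n × Fin 4) (φ : Q (Fin (n * 4))) :
    P1.swapR (finProdFinEquiv x) (finProdFinEquiv y) φ = swB x y (pb φ) := by
  unfold P1.swapR swB pb
  rw [← Equiv.sum_comp (cf n)]
  refine Finset.sum_congr rfl fun σ _ => ?_
  rw [cf_swap]

theorem nsq_eq (φ : Q (Fin (n * 4))) : nsq φ = pb φ ⬝ᵥ pb φ := by
  unfold nsq dotProduct pb
  rw [← Equiv.sum_comp (cf n)]

/-- order of the spins -/
theorem lt_iff (x y : Fin n × Fin 4) :
    (finProdFinEquiv x : Fin (n * 4)) < finProdFinEquiv y ↔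
      x.1 < y.1 ∨ (x.1 = y.1 ∧ x.2 < y.2) := by
  obtain ⟨p, a⟩ := x
  obtain ⟨q, b⟩ := y
  rw [Fin.lt_def, Fin.lt_def, Fin.lt_def, Fin.ext_iff]
  simp only [finProdFinEquiv_apply_val]
  have ha := a.2
  have hb := b.2
  constructor
  · intro h
    by_cases h1 : (p : ℕ) < q
    · exact Or.inl h1
    · right
      constructor <;> omega
  · rintro (h | ⟨h, h2⟩) <;> omega

/-- the couplings, as a function of natural numbers -/
noncomputable def Jraw (r s : ℕ → ℕ → ℕ → ℝ) (u : ℕ → ℕ → ℝ) (kap J0 : ℝ) (i j : ℕ) : ℝ :=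
  if i / 4 < j / 4 then kap * (r (i / 4) (j / 4) (i % 4) * s (i / 4) (j / 4) (j % 4))
  else if i / 4 = j / 4 then J0 + (if i % 4 = 0 then u (i / 4) (j % 4) else 0)
  else 0

theorem Jraw_eq (r s : ℕ → ℕ → ℕ → ℝ) (u : ℕ → ℕ → ℝ) (kap J0 : ℝ) (x y : Fin n × Fin 4) :
    Jraw r s u kap J0 (finProdFinEquiv x : Fin (n * 4)) (finProdFinEquiv y : Fin (n * 4)) =
      if x.1 < y.1 then kap * (r x.1 y.1 x.2 * s x.1 y.1 y.2)
      else if x.1 = y.1 then J0 + (if x.2 = 0 then u x.1 y.2 else 0) else 0 := by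
  obtain ⟨p, a⟩ := x
  obtain ⟨q, b⟩ := y
  have ha := a.2
  have hb := b.2
  have h1 : ((finProdFinEquiv (p, a) : Fin (n * 4)) : ℕ) / 4 = p := by
    rw [finProdFinEquiv_apply_val]; simp only []; omega
  have h2 : ((finProdFinEquiv (p, a) : Fin (n * 4)) : ℕ) % 4 = a := by
    rw [finProdFinEquiv_apply_val]; simp only []; omega
  have h3 : ((finProdFinEquiv (q, b) : Fin (n * 4)) : ℕ) / 4 = q := by
    rw [finProdFinEquiv_apply_val]; simp only []; omega
  have h4 : ((finProdFinEquiv (q, b) : Fin (n * 4)) : ℕ) % 4 = b := by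
    rw [finProdFinEquiv_apply_val]; simp only []; omega
  unfold Jraw
  rw [h1, h2, h3, h4]
  simp only [Fin.lt_def, Fin.ext_iff]
  rfl

theorem heisR_eq (r s : ℕ → ℕ → ℕ → ℝ) (u : ℕ → ℕ → ℝ) (kap J0 : ℝ) (φ : Q (Fin (n * 4))) :
    P1.heisR (fun i j => Jraw r s u kap J0 i j) φ + (3 / 2) * J0 * n * nsq φ =
      pb φ ⬝ᵥ (((J0 • ∑ p : Fin n, O p K4) + D1 (fun p q a => r p q a) (fun p q a => s p q a)
        (fun p a => u p a) kap) *ᵥ pb φ) := by
  set ψ := pb φ with hψ
  have hterm : ∀ x y : Fin n × Fin 4,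
      (if (finProdFinEquiv x : Fin (n * 4)) < finProdFinEquiv y then
        Jraw r s u kap J0 (finProdFinEquiv x : Fin (n * 4)) (finProdFinEquiv y : Fin (n * 4)) *
          ((1 / 2) * P1.swapR (finProdFinEquiv x) (finProdFinEquiv y) φ - (1 / 4) * nsq φ) else 0)
      = (if x.1 < y.1 then kap * ((r x.1 y.1 x.2 * s x.1 y.1 y.2) * SS x y ψ) else 0) +
        (if x.1 = y.1 then (if x.2 < y.2 then
          (J0 + (if x.2 = 0 then u x.1 y.2 else 0)) * SS x y ψ else 0) else 0) := by
    intro x y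
    rw [swapR_eq, nsq_eq, ← hψ]
    change (if _ then _ * SS x y ψ else 0) = _
    simp only [lt_iff, Jraw_eq]
    by_cases h1 : x.1 < y.1
    · simp only [h1, true_or, if_true, h1.ne, if_false, add_zero]
      ring
    · by_cases h2 : x.1 = y.1
      · by_cases h3 : x.2 < y.2
        · simp [h2, h3]
        · simp [h2, h3]
      · simp [h1, h2]
  have hL : P1.heisR (fun i j => Jraw r s u kap J0 i j) φ =
      ∑ p : Fin n, ∑ q : Fin n, (if p < q then kap * (ψ ⬝ᵥ (Vpq p q (fun a => r p q a)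
        (fun a => s p q a) *ᵥ ψ)) else 0) +
      ∑ p : Fin n, ∑ a : Fin 4, ∑ b : Fin 4, (if a < b then
          (J0 + (if a = 0 then u p b else 0)) * SS (p, a) (p, b) ψ else 0) := by
    unfold P1.heisR
    rw [← Equiv.sum_comp (finProdFinEquiv (m := n) (n := 4))]
    have h0 : ∀ x : Fin n × Fin 4, ∑ j : Fin (n * 4), (if finProdFinEquiv x < j then
        Jraw r s u kap J0 (finProdFinEquiv x : Fin (n * 4)) j *
          ((1 / 2) * P1.swapR (finProdFinEquiv x) j φ - (1 / 4) * nsq φ) else 0) =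
        ∑ y : Fin n × Fin 4,
          ((if x.1 < y.1 then kap * ((r x.1 y.1 x.2 * s x.1 y.1 y.2) * SS x y ψ) else 0) +
        (if x.1 = y.1 then (if x.2 < y.2 then
          (J0 + (if x.2 = 0 then u x.1 y.2 else 0)) * SS x y ψ else 0) else 0)) := by
      intro x
      rw [← Equiv.sum_comp (finProdFinEquiv (m := n) (n := 4))]
      exact Finset.sum_congr rfl fun y _ => hterm x y
    rw [Finset.sum_congr rfl fun x _ => h0 x]
    simp only [Finset.sum_add_distrib]
    congr 1
    · rw [Fintype.sum_prod_type]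
      refine Finset.sum_congr rfl fun p _ => ?_
      simp only [Fintype.sum_prod_type]
      rw [Finset.sum_comm]
      refine Finset.sum_congr rfl fun q _ => ?_
      by_cases h : p < q
      · simp only [h, if_true]
        rw [form_Vpq h.ne, Finset.mul_sum]
        refine Finset.sum_congr rfl fun a _ => ?_
        rw [Finset.mul_sum]
      · simp [h]
    · rw [Fintype.sum_prod_type]
      refine Finset.sum_congr rfl fun p _ => Finset.sum_congr rfl fun a _ => ?_
      rw [Fintype.sum_prod_type, Finset.sum_eq_single p]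
      · simp
      · intro q _ hq
        simp [hq.symm]
      · simp
  rw [hL]
  have hR : ψ ⬝ᵥ (((J0 • ∑ p : Fin n, O p K4) + D1 (fun p q a => r p q a) (fun p q a => s p q a)
        (fun p a => u p a) kap) *ᵥ ψ) =
      ∑ p : Fin n, (J0 * (ψ ⬝ᵥ (O p K4 *ᵥ ψ)) + ψ ⬝ᵥ (O p (wB (fun a => u p a)) *ᵥ ψ)) +
      ∑ p : Fin n, ∑ q : Fin n, (if p < q then kap * (ψ ⬝ᵥ (Vpq p q (fun a => r p q a)
        (fun a => s p q a) *ᵥ ψ)) else 0) := by
    unfold D1
    rw [add_mulVec, add_mulVec, dotProduct_add, dotProduct_add, smul_mulVec, smul_mulVec,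
      dotProduct_smul, dotProduct_smul, sum_mulVec, sum_mulVec, sum_mulVec, dotProduct_sum,
      dotProduct_sum, dotProduct_sum, smul_eq_mul, smul_eq_mul, Finset.mul_sum, Finset.mul_sum,
      Finset.sum_add_distrib, add_assoc]
    congr 2
    unfold pairs
    rw [Finset.sum_filter, Fintype.sum_prod_type]
  rw [hR]
  have hin : ∀ p : Fin n, J0 * (ψ ⬝ᵥ (O p K4 *ᵥ ψ)) + ψ ⬝ᵥ (O p (wB (fun a => u p a)) *ᵥ ψ) =
      (∑ a : Fin 4, ∑ b : Fin 4, (if a < b then
          (J0 + (if a = 0 then u p b else 0)) * SS (p, a) (p, b) ψ else 0)) +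
      (3 / 2) * J0 * (ψ ⬝ᵥ ψ) := by
    intro p
    rw [form_K4, form_wB]
    simp [Fin.sum_univ_four]
    ring
  rw [Finset.sum_congr rfl fun p _ => hin p, Finset.sum_add_distrib, Finset.sum_const,
    Finset.card_univ, Fintype.card_fin, nsq_eq, ← hψ, nsmul_eq_mul]
  ring

end Crest.Agent.R338.HB
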