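import Crest.Agent.R338.HB5

/-!
# Row 338, node I.4 (g): choice of the couplings; the effective Hamiltonian is the `XZ` Hamiltonian
-/

set_option autoImplicit false

namespace Crest.Agent.R338.HB

open Matrix Finset Ten

variable {n : ℕ}

/-- one-site operator with `X` coefficient `√3 x` and `Z` coefficient `z` -/
noncomputable def LM (x z : ℝ) : Matrix Bool Bool ℝ := (√3 * x) • X2 + z • Z2

theorem LM_add (x z x' z' : ℝ) : LM (x + x') (z + z') = LM x z + LM x' z' := by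
  unfold LM; module

theorem LM_smul (c x z : ℝ) : LM (c * x) (c * z) = c • LM x z := by
  unfold LM; module

theorem LM_neg (x z : ℝ) : LM (-x) (-z) = - LM x z := by
  unfold LM; module

theorem LM_zero : LM 0 0 = 0 := by unfold LM; simp

theorem LM_sum {κ : Type*} (s : Finset κ) (x z : κ → ℝ) :
    LM (∑ k ∈ s, x k) (∑ k ∈ s, z k) = ∑ k ∈ s, LM (x k) (z k) := by
  classical
  induction s using Finset.induction_on with
  | empty => simp [LM_zero]
  | insert a s ha ih => rw [Finset.sum_insert ha, Finset.sum_insert ha, Finset.sum_insert ha,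
      LM_add, ih]

theorem X2_iso : X2ᵀ * X2 = 1 := by
  ext s t; cases s <;> cases t <;> simp [X2, Matrix.mul_apply]

theorem Z2_iso : Z2ᵀ * Z2 = 1 := by
  ext s t; cases s <;> cases t <;> simp [Z2, Matrix.mul_apply]

theorem NB_LM (p : Fin n) (x z : ℝ) : NB (O p (LM x z)) (2 * |x| + |z|) := by
  unfold LM
  rw [O_add, O_smul, O_smul]
  have h := ((O_iso X2_iso p).smul (√3 * x)).add ((O_iso Z2_iso p).smul z)
  refine h.mono ?_
  rw [abs_mul, abs_of_nonneg (Real.sqrt_nonneg 3)]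
  have : √3 ≤ 2 := by
    rw [show (2 : ℝ) = √4 by rw [show (4 : ℝ) = 2 ^ 2 by norm_num]; simp]
    exact Real.sqrt_le_sqrt (by norm_num)
  nlinarith [abs_nonneg x]

/-- the coefficients `c₁, c₂, c₃` -/
noncomputable def rv (x z t : ℝ) : Fin 4 → ℝ :=
  ![√((z + t) * (t + x) / (t - x)), √((z + t) * (t - x) / (t + x)),
    √((t + x) * (t - x) / (z + t)), 0]

/-- scalar part -/
noncomputable def Cr (x z t : ℝ) : ℝ :=
  (3 / 4) * ((z + t) * (t + x) / (t - x) + (z + t) * (t - x) / (t + x) +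
    (t + x) * (t - x) / (z + t)) - (1 / 2) * ((z + t) + (t + x) + (t - x))

theorem MM_symm (a b : Fin 4) : MM a b = MM b a := by
  unfold MM tau
  fin_cases a <;> fin_cases b <;> simp

theorem RR_three (r : Fin 4 → ℝ) (h : r 3 = 0) : RR r =
    ((3 / 4) * (r 0 * r 0 + r 1 * r 1 + r 2 * r 2) -
      (1 / 2) * (r 0 * r 1 + r 0 * r 2 + r 1 * r 2)) • (1 : Matrix Bool Bool ℝ) -
    LM ((r 0 * r 2 - r 1 * r 2) / 2) (r 0 * r 1 - (r 0 * r 2 + r 1 * r 2) / 2) := by
  have hMM : ∀ a : Fin 4, MM a a = (3 / 4 : ℝ) • 1 := by intro a; simp [MM]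
  have h01 : MM 0 1 = -(1 / 4 : ℝ) • 1 - (1 / 2 : ℝ) • Z2 := by simp [MM, tau]
  have h02 : MM 0 2 = -(1 / 4 : ℝ) • 1 - (1 / 2 : ℝ) • (-(1 / 2 : ℝ) • Z2 + (√3 / 2) • X2) := by
    simp [MM, tau]
  have h12 : MM 1 2 = -(1 / 4 : ℝ) • 1 - (1 / 2 : ℝ) • (-(1 / 2 : ℝ) • Z2 - (√3 / 2) • X2) := by
    simp [MM, tau]
  unfold RR LM
  simp only [Fin.sum_univ_four, h, mul_zero, zero_mul, zero_smul, add_zero]
  rw [MM_symm 1 0, MM_symm 2 0, MM_symm 2 1, hMM, hMM, hMM, h01, h02, h12]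
  module

theorem RR_rv {x z t : ℝ} (h1 : 0 < z + t) (h2 : 0 < t + x) (h3 : 0 < t - x) :
    RR (rv x z t) = Cr x z t • (1 : Matrix Bool Bool ℝ) - LM x z := by
  have e0 : rv x z t 0 = √((z + t) * (t + x) / (t - x)) := rfl
  have e1 : rv x z t 1 = √((z + t) * (t - x) / (t + x)) := rfl
  have e2 : rv x z t 2 = √((t + x) * (t - x) / (z + t)) := rfl
  have e3 : rv x z t 3 = 0 := rfl
  have p0 : 0 ≤ (z + t) * (t + x) / (t - x) := by positivity
  have p1 : 0 ≤ (z + t) * (t - x) / (t + x) := by positivity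
  have p2 : 0 ≤ (t + x) * (t - x) / (z + t) := by positivity
  have m00 : rv x z t 0 * rv x z t 0 = (z + t) * (t + x) / (t - x) := by
    rw [e0, Real.mul_self_sqrt p0]
  have m11 : rv x z t 1 * rv x z t 1 = (z + t) * (t - x) / (t + x) := by
    rw [e1, Real.mul_self_sqrt p1]
  have m22 : rv x z t 2 * rv x z t 2 = (t + x) * (t - x) / (z + t) := by
    rw [e2, Real.mul_self_sqrt p2]
  have m01 : rv x z t 0 * rv x z t 1 = z + t := by
    rw [e0, e1, ← Real.sqrt_mul p0,
      show (z + t) * (t + x) / (t - x) * ((z + t) * (t - x) / (t + x)) = (z + t) * (z + t) by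
        field_simp, Real.sqrt_mul_self h1.le]
  have m02 : rv x z t 0 * rv x z t 2 = t + x := by
    rw [e0, e2, ← Real.sqrt_mul p0,
      show (z + t) * (t + x) / (t - x) * ((t + x) * (t - x) / (z + t)) = (t + x) * (t + x) by
        field_simp, Real.sqrt_mul_self h2.le]
  have m12 : rv x z t 1 * rv x z t 2 = t - x := by
    rw [e1, e2, ← Real.sqrt_mul p1,
      show (z + t) * (t - x) / (t + x) * ((t + x) * (t - x) / (z + t)) = (t - x) * (t - x) by
        field_simp, Real.sqrt_mul_self h3.le]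
  rw [RR_three _ e3, m00, m11, m22, m01, m02, m12]
  congr 1
  congr 1 <;> ring

/-- in-block field producing `LM gx gz` -/
noncomputable def uf (gx gz : ℝ) : Fin 4 → ℝ := ![0, -2 * gz, -2 * gx, 2 * gx]

theorem wL_uf (gx gz : ℝ) : wL (uf gx gz) = (gz / 2) • (1 : Matrix Bool Bool ℝ) + LM gx gz := by
  have t1 : tau 0 1 = Z2 := by simp [tau]
  have t2 : tau 0 2 = -(1 / 2 : ℝ) • Z2 + (√3 / 2) • X2 := by simp [tau]
  have t3 : tau 0 3 = -(1 / 2 : ℝ) • Z2 - (√3 / 2) • X2 := by simp [tau]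
  unfold wL
  rw [Finset.sum_insert (by decide), Finset.sum_insert (by decide), Finset.sum_singleton, t1, t2, t3]
  have u1 : uf gx gz 1 = -2 * gz := rfl
  have u2 : uf gx gz 2 = -2 * gx := rfl
  have u3 : uf gx gz 3 = 2 * gx := rfl
  rw [u1, u2, u3]
  unfold LM
  module

/-- `XZ` data in units of `√3` -/
structure XD (n : ℕ) where
  /-- local `X` -/
  fx : Fin n → ℝ
  /-- local `Z` -/
  fz : Fin n → ℝ
  /-- first `X` -/
  ax : Fin n → Fin n → ℝ
  /-- first `Z` -/
  az : Fin n → Fin n → ℝ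
  /-- second `X` -/
  bx : Fin n → Fin n → ℝ
  /-- second `Z` -/
  bz : Fin n → Fin n → ℝ

namespace XD

/-- the Hamiltonian as a matrix -/
noncomputable def mat (D : XD n) : Matrix (Fin n → Bool) (Fin n → Bool) ℝ :=
  ∑ p, O p (LM (D.fx p) (D.fz p)) +
  ∑ y ∈ pairs n, O y.1 (LM (D.ax y.1 y.2) (D.az y.1 y.2)) * O y.2 (LM (D.bx y.1 y.2) (D.bz y.1 y.2))

/-- scalar part of the first factor -/
noncomputable def CA (D : XD n) (t : ℝ) (p q : Fin n) : ℝ := Cr (D.ax p q) (D.az p q) t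
/-- scalar part of the second factor -/
noncomputable def CB (D : XD n) (t : ℝ) (p q : Fin n) : ℝ := Cr (-D.bx p q) (-D.bz p q) t

/-- corrected local fields -/
noncomputable def gx (D : XD n) (t : ℝ) (p : Fin n) : ℝ :=
  D.fx p + ∑ q, (if q < p then D.CA t q p * D.bx q p else 0) -
    ∑ q, (if p < q then D.CB t p q * D.ax p q else 0)
/-- corrected local fields -/
noncomputable def gz (D : XD n) (t : ℝ) (p : Fin n) : ℝ :=
  D.fz p + ∑ q, (if q < p then D.CA t q p * D.bz q p else 0) -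
    ∑ q, (if p < q then D.CB t p q * D.az p q else 0)

/-- first vectors -/
noncomputable def r (D : XD n) (t : ℝ) (p q : Fin n) : Fin 4 → ℝ := rv (D.ax p q) (D.az p q) t
/-- second vectors -/
noncomputable def s (D : XD n) (t : ℝ) (p q : Fin n) : Fin 4 → ℝ := rv (-D.bx p q) (-D.bz p q) t
/-- in-block fields -/
noncomputable def u (D : XD n) (t : ℝ) (p : Fin n) : Fin 4 → ℝ := uf (D.gx t p) (D.gz t p)

/-- energy shift -/
noncomputable def c0 (D : XD n) (t : ℝ) : ℝ :=
  ∑ p, D.gz t p / 2 - ∑ y ∈ pairs n, D.CA t y.1 y.2 * D.CB t y.1 y.2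

/-- positivity of the parameters -/
def Pos (D : XD n) (t : ℝ) : Prop := ∀ p q : Fin n, p < q →
  |D.ax p q| < t ∧ |D.az p q| < t ∧ |D.bx p q| < t ∧ |D.bz p q| < t

theorem LM_g (D : XD n) (t : ℝ) (p : Fin n) : O p (LM (D.gx t p) (D.gz t p)) =
    O p (LM (D.fx p) (D.fz p)) +
    ∑ q, (if q < p then D.CA t q p • O p (LM (D.bx q p) (D.bz q p)) else 0) -
    ∑ q, (if p < q then D.CB t p q • O p (LM (D.ax p q) (D.az p q)) else 0) := by
  have h1 : LM (D.gx t p) (D.gz t p) = LM (D.fx p) (D.fz p) +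
      ∑ q, (if q < p then D.CA t q p • (LM (D.bx q p) (D.bz q p)) else 0) -
      ∑ q, (if p < q then D.CB t p q • (LM (D.ax p q) (D.az p q)) else 0) := by
    unfold gx gz
    rw [sub_eq_add_neg, sub_eq_add_neg, LM_add, LM_add, LM_neg, LM_sum, LM_sum, ← sub_eq_add_neg]
    congr 1
    · congr 1
      refine Finset.sum_congr rfl fun q _ => ?_
      split_ifs
      · rw [LM_smul]
      · exact LM_zero
    · refine Finset.sum_congr rfl fun q _ => ?_
      split_ifs
      · rw [LM_smul]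
      · exact LM_zero
  rw [h1, O_sub, O_add, O_sum, O_sum]
  congr 1
  · congr 1
    refine Finset.sum_congr rfl fun q _ => ?_
    split_ifs
    · rw [O_smul]
    · exact O_zero p
  · refine Finset.sum_congr rfl fun q _ => ?_
    split_ifs
    · rw [O_smul]
    · exact O_zero p

theorem RR_r {D : XD n} {t : ℝ} (hD : D.Pos t) {p q : Fin n} (h : p < q) :
    RR (D.r t p q) = D.CA t p q • (1 : Matrix Bool Bool ℝ) - LM (D.ax p q) (D.az p q) := by
  obtain ⟨h1, h2, h3, h4⟩ := hD p q h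
  have h1' := abs_lt.1 h1
  have h2' := abs_lt.1 h2
  exact RR_rv (by linarith [h2'.1]) (by linarith [h1'.1]) (by linarith [h1'.2])

theorem RR_s {D : XD n} {t : ℝ} (hD : D.Pos t) {p q : Fin n} (h : p < q) :
    RR (D.s t p q) = D.CB t p q • (1 : Matrix Bool Bool ℝ) + LM (D.bx p q) (D.bz p q) := by
  obtain ⟨h1, h2, h3, h4⟩ := hD p q h
  have h3' := abs_lt.1 h3
  have h4' := abs_lt.1 h4
  have := RR_rv (x := -D.bx p q) (z := -D.bz p q) (t := t) (by linarith [h4'.2])
    (by linarith [h3'.2]) (by linarith [h3'.1])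
  rw [LM_neg, sub_neg_eq_add] at this
  exact this

theorem SO_eq {D : XD n} {t : ℝ} (hD : D.Pos t) :
    SO (D.r t) (D.s t) = ∑ y ∈ pairs n, (
      (D.CA t y.1 y.2 * D.CB t y.1 y.2) • (1 : Matrix (Fin n → Bool) (Fin n → Bool) ℝ) +
      D.CA t y.1 y.2 • O y.2 (LM (D.bx y.1 y.2) (D.bz y.1 y.2)) -
      D.CB t y.1 y.2 • O y.1 (LM (D.ax y.1 y.2) (D.az y.1 y.2)) -
      O y.1 (LM (D.ax y.1 y.2) (D.az y.1 y.2)) * O y.2 (LM (D.bx y.1 y.2) (D.bz y.1 y.2))) := by
  unfold SO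
  refine Finset.sum_congr rfl fun y hy => ?_
  have hy' : y.1 < y.2 := by simpa [pairs] using hy
  rw [RR_r hD hy', RR_s hD hy', O_sub, O_add, O_smul, O_smul, O_one, O_one, sub_mul, mul_add,
    mul_add, Matrix.smul_mul, Matrix.one_mul, Matrix.smul_mul, Matrix.one_mul, Matrix.mul_smul,
    Matrix.mul_one, smul_smul]
  abel

theorem heff_eq {D : XD n} {t : ℝ} (hD : D.Pos t) :
    HB.AL (D.u t) - SO (D.r t) (D.s t) = D.mat + D.c0 t • 1 := by
  have hAL : HB.AL (D.u t) = (∑ p, D.gz t p / 2) • (1 : Matrix (Fin n → Bool) (Fin n → Bool) ℝ) +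
      ∑ p, O p (LM (D.gx t p) (D.gz t p)) := by
    unfold HB.AL u
    rw [Finset.sum_smul, ← Finset.sum_add_distrib]
    refine Finset.sum_congr rfl fun p _ => ?_
    rw [wL_uf, O_add, O_smul, O_one]
  have hP : ∀ F : Fin n → Fin n → Matrix (Fin n → Bool) (Fin n → Bool) ℝ,
      ∑ y ∈ pairs n, F y.1 y.2 = ∑ p, ∑ q, if p < q then F p q else 0 := by
    intro F
    unfold pairs
    rw [Finset.sum_filter, Fintype.sum_prod_type]
  rw [hAL, SO_eq hD]
  simp only [LM_g, Finset.sum_add_distrib, Finset.sum_sub_distrib]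
  rw [hP (fun p q => D.CA t p q • O q (LM (D.bx p q) (D.bz p q))),
    hP (fun p q => D.CB t p q • O p (LM (D.ax p q) (D.az p q)))]
  rw [Finset.sum_comm (f := fun p q => if q < p then D.CA t q p • O p (LM (D.bx q p) (D.bz q p))
    else 0)]
  rw [← Finset.sum_smul]
  unfold mat c0
  rw [sub_smul]
  abel

end XD

end Crest.Agent.R338.HB
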