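import Crest.Agent.R338.HB6

/-!
# Row 338, node I.4 (h): bounds and the real main theorem
-/

set_option autoImplicit false

namespace Crest.Agent.R338.HB

open Matrix Finset Ten

variable {n : ℕ}

theorem frac_bound {c c' c'' b : ℝ} (hb : 1 ≤ b) (h1 : 1 ≤ c) (h1' : c ≤ 3 * b) (h2 : 1 ≤ c')
    (h2' : c' ≤ 3 * b) (h3 : 1 ≤ c'') : 0 ≤ c * c' / c'' ∧ c * c' / c'' ≤ 9 * b ^ 2 := by
  constructor
  · positivity
  · rw [div_le_iff₀ (by linarith)]
    have : c * c' ≤ (3 * b) * (3 * b) := mul_le_mul h1' h2' (by linarith) (by linarith)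
    nlinarith [sq_nonneg b]

theorem Cr_bound {x z b : ℝ} (hb : 1 ≤ b) (hx : |x| ≤ b) (hz : |z| ≤ b) :
    |Cr x z (b + 1)| ≤ 21 * b ^ 2 := by
  have hx' := abs_le.1 hx
  have hz' := abs_le.1 hz
  have a1 : 1 ≤ z + (b + 1) := by linarith [hz'.1]
  have a2 : z + (b + 1) ≤ 3 * b := by linarith [hz'.2]
  have b1 : 1 ≤ (b + 1) + x := by linarith [hx'.1]
  have b2 : (b + 1) + x ≤ 3 * b := by linarith [hx'.2]
  have d1 : 1 ≤ (b + 1) - x := by linarith [hx'.2]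
  have d2 : (b + 1) - x ≤ 3 * b := by linarith [hx'.1]
  have f1 := frac_bound hb a1 a2 b1 b2 d1
  have f2 := frac_bound hb a1 a2 d1 d2 b1
  have f3 := frac_bound hb b1 b2 d1 d2 a1
  unfold Cr
  rw [abs_le]
  constructor <;> nlinarith [f1.1, f1.2, f2.1, f2.2, f3.1, f3.2]

theorem sqrt_bound {y b : ℝ} (hb : 1 ≤ b) (h : y ≤ 9 * b ^ 2) : √y ≤ 3 * b := by
  apply Real.sqrt_le_iff.2
  constructor
  · linarith
  · nlinarith

theorem rv_bound {x z b : ℝ} (hb : 1 ≤ b) (hx : |x| ≤ b) (hz : |z| ≤ b) (a : Fin 4) :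
    0 ≤ rv x z (b + 1) a ∧ rv x z (b + 1) a ≤ 3 * b := by
  have hx' := abs_le.1 hx
  have hz' := abs_le.1 hz
  have a1 : 1 ≤ z + (b + 1) := by linarith [hz'.1]
  have a2 : z + (b + 1) ≤ 3 * b := by linarith [hz'.2]
  have b1 : 1 ≤ (b + 1) + x := by linarith [hx'.1]
  have b2 : (b + 1) + x ≤ 3 * b := by linarith [hx'.2]
  have d1 : 1 ≤ (b + 1) - x := by linarith [hx'.2]
  have d2 : (b + 1) - x ≤ 3 * b := by linarith [hx'.1]
  have f1 := frac_bound hb a1 a2 b1 b2 d1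
  have f2 := frac_bound hb a1 a2 d1 d2 b1
  have f3 := frac_bound hb b1 b2 d1 d2 a1
  fin_cases a
  · exact ⟨Real.sqrt_nonneg _, sqrt_bound hb f1.2⟩
  · exact ⟨Real.sqrt_nonneg _, sqrt_bound hb f2.2⟩
  · exact ⟨Real.sqrt_nonneg _, sqrt_bound hb f3.2⟩
  · refine ⟨le_rfl, ?_⟩
    change (0 : ℝ) ≤ 3 * b
    linarith

theorem rv_sum {x z b : ℝ} (hb : 1 ≤ b) (hx : |x| ≤ b) (hz : |z| ≤ b) :
    ∑ a, |rv x z (b + 1) a| ≤ 9 * b := by
  rw [Fin.sum_univ_four]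
  have h0 := rv_bound hb hx hz 0
  have h1 := rv_bound hb hx hz 1
  have h2 := rv_bound hb hx hz 2
  have h3 : rv x z (b + 1) 3 = 0 := rfl
  rw [h3, abs_of_nonneg h0.1, abs_of_nonneg h1.1, abs_of_nonneg h2.1, abs_zero]
  linarith [h0.2, h1.2, h2.2]

/-- bounded data -/
structure XD.Bd (D : XD n) (b : ℝ) : Prop where
  fx : ∀ p, |D.fx p| ≤ b
  fz : ∀ p, |D.fz p| ≤ b
  ax : ∀ p q, p < q → |D.ax p q| ≤ b
  az : ∀ p q, p < q → |D.az p q| ≤ b
  bx : ∀ p q, p < q → |D.bx p q| ≤ b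
  bz : ∀ p q, p < q → |D.bz p q| ≤ b

namespace XD

variable {D : XD n} {b : ℝ}

theorem Bd.pos (h : D.Bd b) : D.Pos (b + 1) := fun p q hpq =>
  ⟨by linarith [h.ax p q hpq], by linarith [h.az p q hpq], by linarith [h.bx p q hpq],
    by linarith [h.bz p q hpq]⟩

theorem Bd.CA (h : D.Bd b) (hb : 1 ≤ b) {p q : Fin n} (hpq : p < q) :
    |D.CA (b + 1) p q| ≤ 21 * b ^ 2 := Cr_bound hb (h.ax p q hpq) (h.az p q hpq)

theorem Bd.CB (h : D.Bd b) (hb : 1 ≤ b) {p q : Fin n} (hpq : p < q) :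
    |D.CB (b + 1) p q| ≤ 21 * b ^ 2 :=
  Cr_bound hb (by rw [abs_neg]; exact h.bx p q hpq) (by rw [abs_neg]; exact h.bz p q hpq)

theorem sum_bd {f : Fin n → ℝ} {c : ℝ} (h : ∀ q, |f q| ≤ c) : |∑ q, f q| ≤ n * c := by
  calc |∑ q, f q| ≤ ∑ q, |f q| := Finset.abs_sum_le_sum_abs _ _
    _ ≤ ∑ _q : Fin n, c := Finset.sum_le_sum fun q _ => h q
    _ = n * c := by simp

theorem g_bound (hb : 1 ≤ b) (hn : 1 ≤ n) {f : ℝ} {F G : Fin n → ℝ} (hf : |f| ≤ b)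
    (hF : ∀ q, |F q| ≤ 21 * b ^ 3) (hG : ∀ q, |G q| ≤ 21 * b ^ 3) :
    |f + ∑ q, F q - ∑ q, G q| ≤ 43 * n * b ^ 3 := by
  have h1 := sum_bd hF
  have h2 := sum_bd hG
  have hn' : (1 : ℝ) ≤ n := by exact_mod_cast hn
  have h3 : b ≤ n * b ^ 3 := by
    have : b ≤ b ^ 3 := by nlinarith [sq_nonneg b, sq_nonneg (b - 1)]
    have h0 : 0 ≤ b ^ 3 := by positivity
    nlinarith
  calc |f + ∑ q, F q - ∑ q, G q| ≤ |f| + |∑ q, F q| + |∑ q, G q| := by
        refine (abs_sub _ _).trans ?_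
        gcongr
        exact abs_add_le _ _
    _ ≤ b + n * (21 * b ^ 3) + n * (21 * b ^ 3) := by gcongr
    _ ≤ 43 * n * b ^ 3 := by nlinarith

theorem Bd.gx (h : D.Bd b) (hb : 1 ≤ b) (hn : 1 ≤ n) (p : Fin n) :
    |D.gx (b + 1) p| ≤ 43 * n * b ^ 3 := by
  have hb3 : (0 : ℝ) ≤ 21 * b ^ 3 := by positivity
  unfold XD.gx
  apply g_bound hb hn (h.fx p)
  · intro q
    split_ifs with hq
    · rw [abs_mul]
      calc |D.CA (b + 1) q p| * |D.bx q p| ≤ (21 * b ^ 2) * b :=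
            mul_le_mul (h.CA hb hq) (h.bx q p hq) (abs_nonneg _) (by positivity)
        _ = 21 * b ^ 3 := by ring
    · simpa using hb3
  · intro q
    split_ifs with hq
    · rw [abs_mul]
      calc |D.CB (b + 1) p q| * |D.ax p q| ≤ (21 * b ^ 2) * b :=
            mul_le_mul (h.CB hb hq) (h.ax p q hq) (abs_nonneg _) (by positivity)
        _ = 21 * b ^ 3 := by ring
    · simpa using hb3

theorem Bd.gz (h : D.Bd b) (hb : 1 ≤ b) (hn : 1 ≤ n) (p : Fin n) :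
    |D.gz (b + 1) p| ≤ 43 * n * b ^ 3 := by
  have hb3 : (0 : ℝ) ≤ 21 * b ^ 3 := by positivity
  unfold XD.gz
  apply g_bound hb hn (h.fz p)
  · intro q
    split_ifs with hq
    · rw [abs_mul]
      calc |D.CA (b + 1) q p| * |D.bz q p| ≤ (21 * b ^ 2) * b :=
            mul_le_mul (h.CA hb hq) (h.bz q p hq) (abs_nonneg _) (by positivity)
        _ = 21 * b ^ 3 := by ring
    · simpa using hb3
  · intro q
    split_ifs with hq
    · rw [abs_mul]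
      calc |D.CB (b + 1) p q| * |D.az p q| ≤ (21 * b ^ 2) * b :=
            mul_le_mul (h.CB hb hq) (h.az p q hq) (abs_nonneg _) (by positivity)
        _ = 21 * b ^ 3 := by ring
    · simpa using hb3

theorem card_pairs : ((pairs n).card : ℝ) ≤ (n : ℝ) ^ 2 := by
  have : (pairs n).card ≤ n * n := by
    unfold pairs
    refine (Finset.card_filter_le _ _).trans ?_
    simp
  calc ((pairs n).card : ℝ) ≤ ((n * n : ℕ) : ℝ) := by exact_mod_cast this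
    _ = (n : ℝ) ^ 2 := by push_cast; ring

theorem NB_pairs {J : Type*} [Fintype J] {F : Fin n × Fin n → Matrix J J ℝ} {c : ℝ} (hc : 0 ≤ c)
    (h : ∀ y ∈ pairs n, NB (F y) c) : NB (∑ y ∈ pairs n, F y) ((n : ℝ) ^ 2 * c) := by
  refine (NB.sum (pairs n) h).mono ?_
  rw [Finset.sum_const, nsmul_eq_mul]
  exact mul_le_mul_of_nonneg_right card_pairs hc

theorem NB_univ {J : Type*} [Fintype J] {F : Fin n → Matrix J J ℝ} {c : ℝ}
    (h : ∀ y, NB (F y) c) : NB (∑ y, F y) ((n : ℝ) * c) := by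
  refine (NB.sum Finset.univ fun y _ => h y).mono ?_
  simp

theorem Bd.NB_SO (h : D.Bd b) (hb : 1 ≤ b) :
    NB (SO (D.r (b + 1)) (D.s (b + 1))) ((n : ℝ) ^ 2 * (576 * b ^ 4)) := by
  unfold SO
  apply NB_pairs (by positivity)
  intro y hy
  have hy' : y.1 < y.2 := by simpa [pairs] using hy
  have h1 : NB (O y.1 (RR (D.r (b + 1) y.1 y.2))) (24 * b ^ 2) := by
    rw [RR_r h.pos hy', O_sub, O_smul, O_one]
    refine ((NB.one.smul _).sub (NB_LM _ _ _)).mono ?_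
    have e1 := h.CA hb hy'
    have e2 := h.ax _ _ hy'
    have e3 := h.az _ _ hy'
    nlinarith
  have h2 : NB (O y.2 (RR (D.s (b + 1) y.1 y.2))) (24 * b ^ 2) := by
    rw [RR_s h.pos hy', O_add, O_smul, O_one]
    refine ((NB.one.smul _).add (NB_LM _ _ _)).mono ?_
    have e1 := h.CB hb hy'
    have e2 := h.bx _ _ hy'
    have e3 := h.bz _ _ hy'
    nlinarith
  refine (h1.mul h2).mono (le_of_eq ?_)
  ring

theorem Bd.NB_AL (h : D.Bd b) (hb : 1 ≤ b) (hn : 1 ≤ n) :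
    NB (HB.AL (D.u (b + 1))) ((n : ℝ) * (151 * n * b ^ 3)) := by
  unfold HB.AL XD.u
  apply NB_univ
  intro p
  rw [wL_uf, O_add, O_smul, O_one]
  refine ((NB.one.smul _).add (NB_LM _ _ _)).mono ?_
  have e1 := h.gx hb hn p
  have e2 := h.gz hb hn p
  have hnb : 0 ≤ (n : ℝ) * b ^ 3 := by positivity
  rw [abs_div, abs_two]
  nlinarith

theorem NB_wB (p : Fin n) (u : Fin 4 → ℝ) :
    NB (O p (wB u)) (3 / 4 * (|u 1| + |u 2| + |u 3|)) := by
  unfold wB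
  rw [O_sum, Finset.sum_insert (by decide), Finset.sum_insert (by decide), Finset.sum_singleton]
  have key : ∀ b : Fin 4, NB (O p (u b • ((1 / 2 : ℝ) • P4 0 b - (1 / 4 : ℝ) • 1)))
      (|u b| * (3 / 4)) := by
    intro b
    rw [O_smul, O_sub, O_smul, O_smul, O_one]
    apply NB.smul
    refine (((O_iso (P4_iso 0 b) p).smul (1 / 2)).sub (NB.one.smul (1 / 4))).mono ?_
    norm_num [abs_of_pos]
  refine ((key 1).add ((key 2).add (key 3))).mono (le_of_eq ?_)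
  ring

theorem Bd.NB_D1 (h : D.Bd b) (hb : 1 ≤ b) (hn : 1 ≤ n) {kap : ℝ} (hk : 0 ≤ kap) :
    NB (D1 (D.r (b + 1)) (D.s (b + 1)) (D.u (b + 1)) kap)
      ((n : ℝ) * (200 * n * b ^ 3) + kap * ((n : ℝ) ^ 2 * (61 * b ^ 2))) := by
  unfold D1
  apply NB.add
  · apply NB_univ
    intro p
    refine (NB_wB p _).mono ?_
    have e1 := h.gx hb hn p
    have e2 := h.gz hb hn p
    have u1 : D.u (b + 1) p 1 = -2 * D.gz (b + 1) p := rfl
    have u2 : D.u (b + 1) p 2 = -2 * D.gx (b + 1) p := rfl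
    have u3 : D.u (b + 1) p 3 = 2 * D.gx (b + 1) p := rfl
    rw [u1, u2, u3, abs_mul, abs_mul, abs_mul, abs_neg, abs_two]
    have hnb : 0 ≤ (n : ℝ) * b ^ 3 := by positivity
    nlinarith
  · have h1 : NB (∑ x ∈ pairs n, Vpq x.1 x.2 (D.r (b + 1) x.1 x.2) (D.s (b + 1) x.1 x.2))
        ((n : ℝ) ^ 2 * (61 * b ^ 2)) := by
      apply NB_pairs (by positivity)
      intro y hy
      have hy' : y.1 < y.2 := by simpa [pairs] using hy
      refine (NB_Vpq _ _ _ _).mono ?_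
      have e1 : ∑ a, |D.r (b + 1) y.1 y.2 a| ≤ 9 * b :=
        rv_sum hb (h.ax _ _ hy') (h.az _ _ hy')
      have e2 : ∑ a, |D.s (b + 1) y.1 y.2 a| ≤ 9 * b :=
        rv_sum hb (by rw [abs_neg]; exact h.bx _ _ hy') (by rw [abs_neg]; exact h.bz _ _ hy')
      have e3 : 0 ≤ ∑ a, |D.s (b + 1) y.1 y.2 a| := Finset.sum_nonneg fun _ _ => abs_nonneg _
      calc 3 / 4 * (∑ a, |D.r (b + 1) y.1 y.2 a|) * ∑ a, |D.s (b + 1) y.1 y.2 a|
          ≤ 3 / 4 * (9 * b) * (9 * b) := by gcongr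
        _ ≤ 61 * b ^ 2 := by nlinarith [sq_nonneg b]
    have h2 := h1.smul kap
    rw [abs_of_nonneg hk] at h2
    exact h2

end XD

end Crest.Agent.R338.HB
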