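import Crest.Agent.R338.HB7

/-!
# Row 338, node I.4 (i): the main theorem with real data
-/

set_option autoImplicit false

namespace Crest.Agent.R338.HB

open Matrix Finset Ten

variable {n : ℕ}

section num

variable {N b q M j : ℝ}

/-- parameters -/
structure Par (N b q M j : ℝ) : Prop where
  hN : 1 ≤ N
  hb : 1 ≤ b
  hq : 1 ≤ q
  hM : M = N * q * b
  hj : j = 10 ^ 6 * M ^ 7

theorem Par.M1 (P : Par N b q M j) : 1 ≤ M := by
  rw [P.hM]
  have := P.hN; have := P.hb; have := P.hq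
  have h1 : 1 ≤ N * q := one_le_mul_of_one_le_of_one_le P.hN P.hq
  exact one_le_mul_of_one_le_of_one_le h1 P.hb

theorem Par.qM (P : Par N b q M j) : q ≤ M := by
  rw [P.hM]
  have h1 : 1 ≤ N * b := one_le_mul_of_one_le_of_one_le P.hN P.hb
  have h2 : 0 ≤ q := by linarith [P.hq]
  nlinarith

theorem Par.Nb (P : Par N b q M j) : N * b ≤ M := by
  rw [P.hM]
  have h1 : 0 ≤ N * b := mul_nonneg (by linarith [P.hN]) (by linarith [P.hb])
  nlinarith [P.hq]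

theorem Par.jpos (P : Par N b q M j) : 0 < j := by
  rw [P.hj]
  have := P.M1
  positivity

theorem Par.jM (P : Par N b q M j) {k : ℕ} (hk : k ≤ 7) : 10 ^ 6 * M ^ k ≤ j := by
  rw [P.hj]
  have := pow_le_pow_right₀ P.M1 hk
  linarith

theorem Par.e4 (P : Par N b q M j) : N ^ 2 * b ^ 4 ≤ M ^ 4 := by
  have h1 := P.Nb
  have hN := P.hN
  have hb := P.hb
  have h2 : (N * b) ^ 4 ≤ M ^ 4 := pow_le_pow_left₀ (by positivity) h1 4
  have h3 : N ^ 2 * b ^ 4 ≤ N ^ 4 * b ^ 4 := by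
    apply mul_le_mul_of_nonneg_right _ (by positivity)
    exact pow_le_pow_right₀ hN (by norm_num)
  calc N ^ 2 * b ^ 4 ≤ N ^ 4 * b ^ 4 := h3
    _ = (N * b) ^ 4 := by ring
    _ ≤ M ^ 4 := h2

theorem Par.e3 (P : Par N b q M j) : N ^ 2 * b ^ 3 ≤ M ^ 4 := by
  refine le_trans ?_ P.e4
  have hN := P.hN
  have hb := P.hb
  apply mul_le_mul_of_nonneg_left _ (by positivity)
  exact pow_le_pow_right₀ hb (by norm_num)

theorem Par.e2 (P : Par N b q M j) : N ^ 2 * b ^ 2 ≤ M ^ 2 := by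
  have h1 := P.Nb
  have hN := P.hN
  have hb := P.hb
  calc N ^ 2 * b ^ 2 = (N * b) ^ 2 := by ring
    _ ≤ M ^ 2 := pow_le_pow_left₀ (by positivity) h1 2

theorem Par.total (P : Par N b q M j) :
    (N * (200 * N * b ^ 3) + (6 * j) * (N ^ 2 * (61 * b ^ 2))) +
      (N * (151 * N * b ^ 3) + N ^ 2 * (576 * b ^ 4)) + N ^ 2 * (576 * b ^ 4) ≤
      367 * j * M ^ 2 := by
  have h4 := P.e4
  have h3 := P.e3
  have h2 := P.e2
  have hj := P.jpos
  have hM := P.M1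
  have h5 : 10 ^ 6 * M ^ 4 ≤ j := P.jM (by norm_num)
  have h6 : j ≤ j * M ^ 2 := by
    have : 1 ≤ M ^ 2 := one_le_pow₀ hM
    nlinarith
  have h7 : j * (N ^ 2 * b ^ 2) ≤ j * M ^ 2 := mul_le_mul_of_nonneg_left h2 hj.le
  have e : (N * (200 * N * b ^ 3) + (6 * j) * (N ^ 2 * (61 * b ^ 2))) +
      (N * (151 * N * b ^ 3) + N ^ 2 * (576 * b ^ 4)) + N ^ 2 * (576 * b ^ 4) =
      351 * (N ^ 2 * b ^ 3) + 1152 * (N ^ 2 * b ^ 4) + 366 * (j * (N ^ 2 * b ^ 2)) := by ring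
  rw [e]
  nlinarith [pow_pos (by linarith : (0:ℝ) < M) 4]

theorem Par.cond (P : Par N b q M j) :
    (N * (200 * N * b ^ 3) + (6 * j) * (N ^ 2 * (61 * b ^ 2))) +
      (N * (151 * N * b ^ 3) + N ^ 2 * (576 * b ^ 4)) + N ^ 2 * (576 * b ^ 4) ≤
      (6 * j ^ 2) / 2 := by
  refine P.total.trans ?_
  have hj := P.jpos
  have h5 : 10 ^ 6 * M ^ 2 ≤ j := P.jM (by norm_num)
  nlinarith

theorem Par.err (P : Par N b q M j) :
    2 * (N ^ 2 * (576 * b ^ 4)) * ((N * (200 * N * b ^ 3) + (6 * j) * (N ^ 2 * (61 * b ^ 2))) +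
      (N * (151 * N * b ^ 3) + N ^ 2 * (576 * b ^ 4)) + N ^ 2 * (576 * b ^ 4)) / (6 * j ^ 2) ≤
      1 / (8 * q) := by
  have h4 := P.e4
  have hj := P.jpos
  have hM := P.M1
  have hq := P.hq
  have hqM := P.qM
  have hN := P.hN
  have hb := P.hb
  have ht := P.total
  have h1 : 2 * (N ^ 2 * (576 * b ^ 4)) * ((N * (200 * N * b ^ 3) + (6 * j) *
      (N ^ 2 * (61 * b ^ 2))) + (N * (151 * N * b ^ 3) + N ^ 2 * (576 * b ^ 4)) +
      N ^ 2 * (576 * b ^ 4)) ≤ (1152 * M ^ 4) * (367 * j * M ^ 2) := by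
    apply mul_le_mul _ ht (by positivity) (by positivity)
    nlinarith
  rw [div_le_div_iff₀ (by positivity) (by positivity)]
  have h2 : (1152 * M ^ 4) * (367 * j * M ^ 2) * (8 * q) ≤ 1 * (6 * j ^ 2) := by
    have h7 : M ^ 6 * q ≤ M ^ 7 := by
      calc M ^ 6 * q ≤ M ^ 6 * M := mul_le_mul_of_nonneg_left hqM (by positivity)
        _ = M ^ 7 := by ring
    have h8 : 1152 * 367 * 8 * (M ^ 6 * q) ≤ 6 * j := by
      rw [P.hj]
      nlinarith [pow_pos (by linarith : (0:ℝ) < M) 7]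
    calc (1152 * M ^ 4) * (367 * j * M ^ 2) * (8 * q)
        = (1152 * 367 * 8 * (M ^ 6 * q)) * j := by ring
      _ ≤ (6 * j) * j := mul_le_mul_of_nonneg_right h8 hj.le
      _ = 1 * (6 * j ^ 2) := by ring
  calc _ ≤ (1152 * M ^ 4) * (367 * j * M ^ 2) * (8 * q) :=
        mul_le_mul_of_nonneg_right h1 (by positivity)
    _ ≤ _ := h2

end num

theorem D1_congr {r s r' s' : Fin n → Fin n → Fin 4 → ℝ} {u u' : Fin n → Fin 4 → ℝ} (kap : ℝ)
    (hr : ∀ p q, p < q → r p q = r' p q) (hs : ∀ p q, p < q → s p q = s' p q)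
    (hu : ∀ p, u p = u' p) : D1 r s u kap = D1 r' s' u' kap := by
  unfold D1
  congr 1
  · exact Finset.sum_congr rfl fun p _ => by rw [hu]
  · congr 1
    refine Finset.sum_congr rfl fun y hy => ?_
    have hy' : y.1 < y.2 := by simpa [pairs] using hy
    rw [hr _ _ hy', hs _ _ hy']

/-- the data of the main theorem -/
structure Main (D : XD n) (b q M j : ℝ) (rN sN : ℕ → ℕ → ℕ → ℝ) (uN : ℕ → ℕ → ℝ) : Prop where
  bd : D.Bd b
  par : Par (n : ℝ) b q M j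
  hr : ∀ p q : Fin n, p < q → ∀ a : Fin 4, rN p q a = D.r (b + 1) p q a
  hs : ∀ p q : Fin n, p < q → ∀ a : Fin 4, sN p q a = D.s (b + 1) p q a
  hu : ∀ p : Fin n, ∀ a : Fin 4, uN p a = D.u (b + 1) p a

namespace Main

variable {D : XD n} {b q M j : ℝ} {rN sN : ℕ → ℕ → ℕ → ℝ} {uN : ℕ → ℕ → ℝ}

theorem hn (P : Main D b q M j rN sN uN) : 1 ≤ n := by
  have := P.par.hN
  exact_mod_cast this

theorem D1_eq (P : Main D b q M j rN sN uN) :
    D1 (fun p q a => rN p q a) (fun p q a => sN p q a) (fun (p : Fin n) a => uN p a) (6 * j) =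
      D1 (D.r (b + 1)) (D.s (b + 1)) (D.u (b + 1)) (6 * j) :=
  D1_congr _ (fun p q h => funext fun a => P.hr p q h a)
    (fun p q h => funext fun a => P.hs p q h a) (fun p => funext fun a => P.hu p a)

theorem pert (P : Main D b q M j rN sN uN) :
    PertData (iota n) (YY (D.r (b + 1)) (D.s (b + 1)) (6 * j)) ((6 * j ^ 2) • ∑ p : Fin n, O p K4)
      (D1 (D.r (b + 1)) (D.s (b + 1)) (D.u (b + 1)) (6 * j)) (AL (D.u (b + 1))) (6 * j ^ 2)
      ((n : ℝ) * (200 * n * b ^ 3) + (6 * j) * ((n : ℝ) ^ 2 * (61 * b ^ 2)))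
      ((n : ℝ) * (151 * n * b ^ 3) + (n : ℝ) ^ 2 * (576 * b ^ 4))
      ((n : ℝ) ^ 2 * (576 * b ^ 4)) := by
  have hj := P.par.jpos
  have hb := P.par.hb
  apply pertData
  · positivity
  · ring
  · positivity
  · positivity
  · positivity
  · exact P.bd.NB_D1 hb P.hn (by positivity)
  · exact (P.bd.NB_AL hb P.hn).sub (P.bd.NB_SO hb)
  · exact P.bd.NB_SO hb
  · exact P.par.cond

theorem eff (P : Main D b q M j rN sN uN) (φ : (Fin n → Bool) → ℝ) :
    PertData.eff (AL (D.u (b + 1))) (YY (D.r (b + 1)) (D.s (b + 1)) (6 * j)) (6 * j ^ 2) φ =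
      φ ⬝ᵥ (D.mat *ᵥ φ) + D.c0 (b + 1) * (φ ⬝ᵥ φ) := by
  have hj := P.par.jpos
  rw [eff_eq _ _ _ (by positivity) (by ring), XD.heff_eq P.bd.pos, add_mulVec, dotProduct_add,
    smul_mulVec, one_mulVec, dotProduct_smul, smul_eq_mul]

theorem yes (P : Main D b q M j rN sN uN) {e : ℝ} (φ : (Fin n → Bool) → ℝ) (hφ : φ ⬝ᵥ φ = 1)
    (he : φ ⬝ᵥ (D.mat *ᵥ φ) ≤ e) :
    ∃ χ : Q (Fin (n * 4)), nsq χ = 1 ∧
      P1.heisR (fun i k => Jraw rN sN uN (6 * j) (6 * j ^ 2) i k) χ ≤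
        e + D.c0 (b + 1) + 1 / (8 * q) - (3 / 2) * (6 * j ^ 2) * n := by
  obtain ⟨ψ, h1, h2⟩ := P.pert.upper φ hφ
  rw [P.eff, hφ] at h2
  have herr := P.par.err
  refine ⟨fun τ => ψ ((cf n).symm τ), ?_, ?_⟩
  · rw [nsq_eq]
    have : pb (fun τ => ψ ((cf n).symm τ)) = ψ := by
      funext σ; simp [pb]
    rw [this, h1]
  · have hpb : pb (fun τ => ψ ((cf n).symm τ)) = ψ := by
      funext σ; simp [pb]
    have h3 := heisR_eq rN sN uN (6 * j) (6 * j ^ 2) (fun τ => ψ ((cf n).symm τ))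
    rw [hpb, nsq_eq, hpb, h1, P.D1_eq] at h3
    linarith

theorem no (P : Main D b q M j rN sN uN) {μ : ℝ}
    (hμ : ∀ φ : (Fin n → Bool) → ℝ, φ ⬝ᵥ φ = 1 → μ ≤ φ ⬝ᵥ (D.mat *ᵥ φ)) (χ : Q (Fin (n * 4))) :
    (μ + D.c0 (b + 1) - 1 / (8 * q) - (3 / 2) * (6 * j ^ 2) * n) * nsq χ ≤
      P1.heisR (fun i k => Jraw rN sN uN (6 * j) (6 * j ^ 2) i k) χ := by
  have hμ' : ∀ φ : (Fin n → Bool) → ℝ, (μ + D.c0 (b + 1)) * (φ ⬝ᵥ φ) ≤
      PertData.eff (AL (D.u (b + 1))) (YY (D.r (b + 1)) (D.s (b + 1)) (6 * j)) (6 * j ^ 2) φ := by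
    intro φ
    rw [P.eff, add_mul]
    have : μ * (φ ⬝ᵥ φ) ≤ φ ⬝ᵥ (D.mat *ᵥ φ) := by
      by_cases h0 : φ ⬝ᵥ φ = 0
      · have : φ = 0 := by
          rwa [dotProduct_self_eq_zero] at h0
        subst this
        simp
      · have hpos : 0 < φ ⬝ᵥ φ := lt_of_le_of_ne (dot_self_nonneg φ) (Ne.symm h0)
        set c := (√(φ ⬝ᵥ φ))⁻¹ with hc
        have hcc : c * c = (φ ⬝ᵥ φ)⁻¹ := by
          rw [hc, ← mul_inv, Real.mul_self_sqrt hpos.le]
        have h1 := hμ (c • φ) (by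
          rw [smul_dotProduct, dotProduct_smul, smul_eq_mul, smul_eq_mul, ← mul_assoc, hcc]
          field_simp)
        rw [mulVec_smul, smul_dotProduct, dotProduct_smul, smul_eq_mul, smul_eq_mul, ← mul_assoc,
          hcc, ← div_eq_inv_mul, le_div_iff₀ hpos] at h1
        exact h1
    linarith
  have h2 := P.pert.lower hμ' (pb χ)
  have h3 := heisR_eq rN sN uN (6 * j) (6 * j ^ 2) χ
  rw [P.D1_eq] at h3
  have herr := P.par.err
  have hN := dot_self_nonneg (pb χ)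
  rw [nsq_eq] at h3 ⊢
  have h4 : (μ + D.c0 (b + 1) - 1 / (8 * q)) * (pb χ ⬝ᵥ pb χ) ≤
      pb χ ⬝ᵥ ((((6 * j ^ 2) • ∑ p : Fin n, O p K4) +
        D1 (D.r (b + 1)) (D.s (b + 1)) (D.u (b + 1)) (6 * j)) *ᵥ pb χ) := by
    refine le_trans ?_ h2
    apply mul_le_mul_of_nonneg_right _ hN
    linarith
  linarith

/-- the couplings are in `[0, 7 j²]` -/
theorem Jbd (P : Main D b q M j rN sN uN) (x y : Fin n × Fin 4)
    (hxy : x.1 < y.1 ∨ (x.1 = y.1 ∧ x.2 < y.2)) :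
    0 ≤ Jraw rN sN uN (6 * j) (6 * j ^ 2) (finProdFinEquiv x : Fin (n * 4))
        (finProdFinEquiv y : Fin (n * 4)) ∧
      Jraw rN sN uN (6 * j) (6 * j ^ 2) (finProdFinEquiv x : Fin (n * 4))
        (finProdFinEquiv y : Fin (n * 4)) ≤ 7 * j ^ 2 := by
  have hj := P.par.jpos
  have hb := P.par.hb
  have hM := P.par.M1
  have hN := P.par.hN
  rw [Jraw_eq]
  rcases hxy with h | ⟨h, h2⟩
  · rw [if_pos h, P.hr _ _ h, P.hs _ _ h]
    have e1 := rv_bound hb (P.bd.ax _ _ h) (P.bd.az _ _ h) x.2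
    have e2 := rv_bound hb (by rw [abs_neg]; exact P.bd.bx _ _ h)
      (by rw [abs_neg]; exact P.bd.bz _ _ h) y.2 (x := -D.bx x.1 y.1) (z := -D.bz x.1 y.1)
    change 0 ≤ D.r (b + 1) x.1 y.1 x.2 ∧ _ at e1
    change 0 ≤ D.s (b + 1) x.1 y.1 y.2 ∧ _ at e2
    refine ⟨mul_nonneg (by positivity) (mul_nonneg e1.1 e2.1), ?_⟩
    have h5 : D.r (b + 1) x.1 y.1 x.2 * D.s (b + 1) x.1 y.1 y.2 ≤ (3 * b) * (3 * b) :=
      mul_le_mul e1.2 e2.2 e2.1 (by positivity)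
    have h6 : b ^ 2 ≤ M ^ 2 := by
      have : b ≤ M := by
        have := P.par.Nb
        nlinarith
      exact pow_le_pow_left₀ (by positivity) this 2
    have h7 : 10 ^ 6 * M ^ 2 ≤ j := P.par.jM (by norm_num)
    calc 6 * j * (D.r (b + 1) x.1 y.1 x.2 * D.s (b + 1) x.1 y.1 y.2)
        ≤ 6 * j * ((3 * b) * (3 * b)) := mul_le_mul_of_nonneg_left h5 (by positivity)
      _ = 54 * j * b ^ 2 := by ring
      _ ≤ 7 * j ^ 2 := by nlinarith
  · rw [if_neg (by rw [h]; exact lt_irrefl _), if_pos h]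
    have hu : |if x.2 = 0 then uN x.1 y.2 else 0| ≤ j ^ 2 := by
      split_ifs with h0
      · rw [P.hu]
        have e1 := P.bd.gx hb P.hn x.1
        have e2 := P.bd.gz hb P.hn x.1
        have h8 : (n : ℝ) * b ^ 3 ≤ M ^ 4 := by
          refine le_trans ?_ P.par.e3
          have : (n : ℝ) ≤ (n : ℝ) ^ 2 := by nlinarith
          exact mul_le_mul_of_nonneg_right this (by positivity)
        have h9 : 10 ^ 6 * M ^ 4 ≤ j := P.par.jM (by norm_num)
        have h10 : 1 ≤ M ^ 4 := one_le_pow₀ hM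
        have h11 : 86 * (n : ℝ) * b ^ 3 ≤ j ^ 2 := by nlinarith
        have key : ∀ a : Fin 4, |D.u (b + 1) x.1 a| ≤ j ^ 2 := by
          intro a
          fin_cases a
          · change |(0 : ℝ)| ≤ j ^ 2
            rw [abs_zero]; positivity
          · change |-2 * D.gz (b + 1) x.1| ≤ j ^ 2
            rw [abs_mul, abs_neg, abs_two]
            linarith
          · change |-2 * D.gx (b + 1) x.1| ≤ j ^ 2
            rw [abs_mul, abs_neg, abs_two]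
            linarith
          · change |2 * D.gx (b + 1) x.1| ≤ j ^ 2
            rw [abs_mul, abs_two]
            linarith
        exact key y.2
      · rw [abs_zero]; positivity
    have h12 := abs_le.1 hu
    constructor
    · nlinarith [h12.1, sq_nonneg j]
    · nlinarith [h12.2]

end Main

end Crest.Agent.R338.HB
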