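import Crest.Agent.R338.HB8
import Crest.Agent.R338.Nu1

/-!
# Row 338, node I.4 (j): the map from `XZ` instances to Heisenberg instances
-/

set_option autoImplicit false

noncomputable section

namespace Crest.Agent.R338.HB

open Matrix Finset Ten Crest.Agent.Lib.PT Crest.Agent.R338.Nu

/-! ### Rational data -/

/-- rational scalar part -/
def CrQ (x z t : ℚ) : ℚ :=
  (3 / 4) * ((z + t) * (t + x) / (t - x) + (z + t) * (t - x) / (t + x) +
    (t + x) * (t - x) / (z + t)) - (1 / 2) * ((z + t) + (t + x) + (t - x))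

/-- components of `rv`, natural number index -/
def rvN (x z t : ℚ) (a : ℕ) : ℝ :=
  if a = 0 then √(((z + t) * (t + x) / (t - x) : ℚ) : ℝ)
  else if a = 1 then √(((z + t) * (t - x) / (t + x) : ℚ) : ℝ)
  else if a = 2 then √(((t + x) * (t - x) / (z + t) : ℚ) : ℝ) else 0

theorem CrQ_cast (x z t : ℚ) : ((CrQ x z t : ℚ) : ℝ) = Cr x z t := by
  unfold CrQ Cr; push_cast; ring

theorem rvN_eq (x z t : ℚ) (a : Fin 4) : rvN x z t a = rv x z t a := by
  unfold rvN rv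
  fin_cases a <;> simp

/-- `t = b + 1` -/
def tQ (x : XInst) : ℚ := (x.b : ℚ) + 1
/-- scalar part of the first factor -/
def CAq (x : XInst) (p q : ℕ) : ℚ := CrQ (x.cp p q).1.1 (x.cp p q).1.2 (tQ x)
/-- scalar part of the second factor -/
def CBq (x : XInst) (p q : ℕ) : ℚ := CrQ (-(x.cp p q).2.1) (-(x.cp p q).2.2) (tQ x)
/-- corrected fields -/
def gxq (x : XInst) (p : ℕ) : ℚ :=
  (x.fl p).1 + ∑ q ∈ range x.n, (if q < p then CAq x q p * (x.cp q p).2.1 else 0) -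
    ∑ q ∈ range x.n, (if p < q then CBq x p q * (x.cp p q).1.1 else 0)
/-- corrected fields -/
def gzq (x : XInst) (p : ℕ) : ℚ :=
  (x.fl p).2 + ∑ q ∈ range x.n, (if q < p then CAq x q p * (x.cp q p).2.2 else 0) -
    ∑ q ∈ range x.n, (if p < q then CBq x p q * (x.cp p q).1.2 else 0)
/-- in-block fields -/
def uq (x : XInst) (p a : ℕ) : ℚ :=
  if a = 1 then -2 * gzq x p else if a = 2 then -2 * gxq x p else if a = 3 then 2 * gxq x p else 0
/-- energy shift -/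
def c0q (x : XInst) : ℚ :=
  ∑ p ∈ range x.n, gzq x p / 2 -
    ∑ p ∈ range x.n, ∑ q ∈ range x.n, (if p < q then CAq x p q * CBq x p q else 0)
/-- the large parameter -/
def jn (x : XInst) : ℕ := 10 ^ 6 * (x.n * x.q * x.b) ^ 7

/-- first vectors -/
def rN (x : XInst) (p q a : ℕ) : ℝ := rvN (x.cp p q).1.1 (x.cp p q).1.2 (tQ x) a
/-- second vectors -/
def sN (x : XInst) (p q a : ℕ) : ℝ := rvN (-(x.cp p q).2.1) (-(x.cp p q).2.2) (tQ x) a
/-- in-block fields -/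
def uN (x : XInst) (p a : ℕ) : ℝ := ((uq x p a : ℚ) : ℝ)

/-- final couplings -/
def Jx (x : XInst) (i k : ℕ) : ℝ :=
  max 0 (min 1 (Jraw (rN x) (sN x) (uN x) (6 * (jn x : ℝ)) (6 * (jn x : ℝ) ^ 2) i k *
    ((7 * jn x ^ 2 : ℕ) : ℝ)⁻¹))

/-- final threshold -/
def loq (x : XInst) : ℚ :=
  (x.e + c0q x + 1 / (8 * (x.q : ℚ)) - (3 / 2) * (6 * (jn x : ℚ) ^ 2) * x.n) / (7 * (jn x : ℚ) ^ 2)

/-- number of spins -/
def nO (x : XInst) : ℕ := x.n * 4 + (if x.n = 0 then 2 else 0)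

/-- inverse gap -/
def qO (x : XInst) : ℕ := 14 * x.q * jn x ^ 2 + 1

/-! ### Computability -/

section ptf

variable {γ : Type} [PTCode γ]

theorem getDB {α : Type} [PTCode α] {l : γ → List α} {i : γ → ℕ} {d : γ → α} (hl : PTF l)
    (hi : PTF i) (hd : PTF d) : PTF (fun c => (l c).getD (i c) (d c)) := by
  refine PTF.of_eq (PTF.getD (PTF.natMinUn hi (PTU.length hl)) hl hd) (fun c => ?_)
  rcases le_total (i c) (l c).length with h | h
  · rw [min_eq_left h]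
  · rw [min_eq_right h, List.getD_eq_default _ _ le_rfl, List.getD_eq_default _ _ h]

theorem ptu_n : PTU (fun x : XInst => x.n) :=
  PTU.val (PTF.comp PTF.fst (PTF.comp PTF.fst PTF.fst))

theorem ptu_q : PTU (fun x : XInst => x.q) :=
  PTU.val (PTF.comp PTF.snd (PTF.comp PTF.fst PTF.fst))

theorem ptu_b : PTU (fun x : XInst => x.b) :=
  PTU.val (PTF.comp PTF.snd PTF.fst)

theorem ptf_e : PTF (fun x : XInst => x.e) := by
  show PTF (fun x : XInst => x.2.2)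
  fun_prop

theorem ptf_fl {x : γ → XInst} {p : γ → ℕ} (hx : PTF x) (hp : PTF p) :
    PTF (fun c => (x c).fl (p c)) := by
  unfold XInst.fl
  exact getDB (PTF.comp PTF.fst (PTF.comp PTF.fst (PTF.comp PTF.snd hx))) hp (PTF.const _)

theorem ptf_cp {x : γ → XInst} {p q : γ → ℕ} (hx : PTF x) (hp : PTF p) (hq : PTF q) :
    PTF (fun c => (x c).cp (p c) (q c)) := by
  unfold XInst.cp
  refine getDB (PTF.comp PTF.snd (PTF.comp PTF.fst (PTF.comp PTF.snd hx))) ?_ (PTF.const _)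
  exact PTF.natAdd (PTF.natMul hp (PTU.comp ptu_n hx).toPTF) hq

theorem ptf_CrQ {x z t : γ → ℚ} (hx : PTF x) (hz : PTF z) (ht : PTF t) :
    PTF (fun c => CrQ (x c) (z c) (t c)) := by
  unfold CrQ
  fun_prop

theorem ptf_tQ {x : γ → XInst} (hx : PTF x) : PTF (fun c => tQ (x c)) := by
  unfold tQ
  exact PTF.ratAdd (PTF.ratNatCast (PTU.comp ptu_b hx).toPTF) (PTF.const 1)

theorem ptf_CAq {x : γ → XInst} {p q : γ → ℕ} (hx : PTF x) (hp : PTF p) (hq : PTF q) :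
    PTF (fun c => CAq (x c) (p c) (q c)) := by
  unfold CAq
  have h := ptf_cp hx hp hq
  exact ptf_CrQ (PTF.comp PTF.fst (PTF.comp PTF.fst h)) (PTF.comp PTF.snd (PTF.comp PTF.fst h))
    (ptf_tQ hx)

theorem ptf_CBq {x : γ → XInst} {p q : γ → ℕ} (hx : PTF x) (hp : PTF p) (hq : PTF q) :
    PTF (fun c => CBq (x c) (p c) (q c)) := by
  unfold CBq
  have h := ptf_cp hx hp hq
  exact ptf_CrQ (PTF.ratNeg (PTF.comp PTF.fst (PTF.comp PTF.snd h)))
    (PTF.ratNeg (PTF.comp PTF.snd (PTF.comp PTF.snd h))) (ptf_tQ hx)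

theorem ptf_gxq {x : γ → XInst} {p : γ → ℕ} (hx : PTF x) (hp : PTF p) :
    PTF (fun c => gxq (x c) (p c)) := by
  unfold gxq
  have hx' : PTF (fun c : γ × ℕ => x c.1) := PTF.comp hx PTF.fst
  have hp' : PTF (fun c : γ × ℕ => p c.1) := PTF.comp hp PTF.fst
  have hs : PTF (fun c : γ × ℕ => c.2) := PTF.snd
  refine PTF.ratSub (PTF.ratAdd (PTF.comp PTF.fst (ptf_fl hx hp)) ?_) ?_
  · refine PTF.ratSumRange (PTU.comp ptu_n hx) (f := fun c q => if q < p c then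
      CAq (x c) q (p c) * ((x c).cp q (p c)).2.1 else 0) ?_
    refine PTF.ite (PTPred.natLt hs hp') (PTF.ratMul (ptf_CAq hx' hs hp') ?_) (PTF.const 0)
    exact PTF.comp PTF.fst (PTF.comp PTF.snd (ptf_cp hx' hs hp'))
  · refine PTF.ratSumRange (PTU.comp ptu_n hx) (f := fun c q => if p c < q then
      CBq (x c) (p c) q * ((x c).cp (p c) q).1.1 else 0) ?_
    refine PTF.ite (PTPred.natLt hp' hs) (PTF.ratMul (ptf_CBq hx' hp' hs) ?_) (PTF.const 0)
    exact PTF.comp PTF.fst (PTF.comp PTF.fst (ptf_cp hx' hp' hs))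

theorem ptf_gzq {x : γ → XInst} {p : γ → ℕ} (hx : PTF x) (hp : PTF p) :
    PTF (fun c => gzq (x c) (p c)) := by
  unfold gzq
  have hx' : PTF (fun c : γ × ℕ => x c.1) := PTF.comp hx PTF.fst
  have hp' : PTF (fun c : γ × ℕ => p c.1) := PTF.comp hp PTF.fst
  have hs : PTF (fun c : γ × ℕ => c.2) := PTF.snd
  refine PTF.ratSub (PTF.ratAdd (PTF.comp PTF.snd (ptf_fl hx hp)) ?_) ?_
  · refine PTF.ratSumRange (PTU.comp ptu_n hx) (f := fun c q => if q < p c then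
      CAq (x c) q (p c) * ((x c).cp q (p c)).2.2 else 0) ?_
    refine PTF.ite (PTPred.natLt hs hp') (PTF.ratMul (ptf_CAq hx' hs hp') ?_) (PTF.const 0)
    exact PTF.comp PTF.snd (PTF.comp PTF.snd (ptf_cp hx' hs hp'))
  · refine PTF.ratSumRange (PTU.comp ptu_n hx) (f := fun c q => if p c < q then
      CBq (x c) (p c) q * ((x c).cp (p c) q).1.2 else 0) ?_
    refine PTF.ite (PTPred.natLt hp' hs) (PTF.ratMul (ptf_CBq hx' hp' hs) ?_) (PTF.const 0)
    exact PTF.comp PTF.snd (PTF.comp PTF.fst (ptf_cp hx' hp' hs))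

theorem ptf_uq {x : γ → XInst} {p a : γ → ℕ} (hx : PTF x) (hp : PTF p) (ha : PTF a) :
    PTF (fun c => uq (x c) (p c) (a c)) := by
  unfold uq
  have h1 := ptf_gxq hx hp
  have h2 := ptf_gzq hx hp
  refine PTF.ite (PTPred.natEq ha (PTF.const 1)) (PTF.ratMul (PTF.const _) h2) ?_
  refine PTF.ite (PTPred.natEq ha (PTF.const 2)) (PTF.ratMul (PTF.const _) h1) ?_
  exact PTF.ite (PTPred.natEq ha (PTF.const 3)) (PTF.ratMul (PTF.const _) h1) (PTF.const 0)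

theorem ptf_c0q : PTF (fun x : XInst => c0q x) := by
  unfold c0q
  refine PTF.ratSub ?_ ?_
  · refine PTF.ratSumRange ptu_n (f := fun x p => gzq x p / 2) ?_
    exact PTF.ratDiv (ptf_gzq PTF.fst PTF.snd) (PTF.const 2)
  · refine PTF.ratSumRange ptu_n (f := fun x p => ∑ q ∈ range x.n,
      (if p < q then CAq x p q * CBq x p q else 0)) ?_
    refine PTF.ratSumRange (α := XInst × ℕ) (n := fun y => y.1.n) (PTU.comp ptu_n PTF.fst)
      (f := fun y q => (if y.2 < q then CAq y.1 y.2 q * CBq y.1 y.2 q else 0)) ?_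
    have h1 : PTF (fun z : (XInst × ℕ) × ℕ => z.1.1) := PTF.comp PTF.fst PTF.fst
    have h2 : PTF (fun z : (XInst × ℕ) × ℕ => z.1.2) := PTF.comp PTF.snd PTF.fst
    have h3 : PTF (fun z : (XInst × ℕ) × ℕ => z.2) := PTF.snd
    exact PTF.ite (PTPred.natLt h2 h3) (PTF.ratMul (ptf_CAq h1 h2 h3) (ptf_CBq h1 h2 h3))
      (PTF.const 0)

theorem ptu_jn : PTU (fun x : XInst => jn x) := by
  unfold jn
  exact PTU.mul (PTU.const _) (PTU.pow (PTU.mul (PTU.mul ptu_n ptu_q) ptu_b) 7)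

theorem ptr_rvN {x z t : γ → ℚ} {a : γ → ℕ} (hx : PTF x) (hz : PTF z) (ht : PTF t) (ha : PTF a) :
    PTR (fun c => rvN (x c) (z c) (t c) (a c)) := by
  unfold rvN
  refine PTR.ite (PTPred.natEq ha (PTF.const 0)) (PTR.sqrt (PTR.ratCast (by fun_prop))) ?_
  refine PTR.ite (PTPred.natEq ha (PTF.const 1)) (PTR.sqrt (PTR.ratCast (by fun_prop))) ?_
  exact PTR.ite (PTPred.natEq ha (PTF.const 2)) (PTR.sqrt (PTR.ratCast (by fun_prop))) PTR.zero

theorem ptr_rN {x : γ → XInst} {p q a : γ → ℕ} (hx : PTF x) (hp : PTF p) (hq : PTF q)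
    (ha : PTF a) : PTR (fun c => rN (x c) (p c) (q c) (a c)) := by
  unfold rN
  have h := ptf_cp hx hp hq
  exact ptr_rvN (PTF.comp PTF.fst (PTF.comp PTF.fst h)) (PTF.comp PTF.snd (PTF.comp PTF.fst h))
    (ptf_tQ hx) ha

theorem ptr_sN {x : γ → XInst} {p q a : γ → ℕ} (hx : PTF x) (hp : PTF p) (hq : PTF q)
    (ha : PTF a) : PTR (fun c => sN (x c) (p c) (q c) (a c)) := by
  unfold sN
  have h := ptf_cp hx hp hq
  exact ptr_rvN (PTF.ratNeg (PTF.comp PTF.fst (PTF.comp PTF.snd h)))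
    (PTF.ratNeg (PTF.comp PTF.snd (PTF.comp PTF.snd h))) (ptf_tQ hx) ha

theorem ptr_Jx : PTR (fun p : XInst × (ℕ × ℕ) => Jx p.1 p.2.1 p.2.2) := by
  have hx : PTF (fun p : XInst × (ℕ × ℕ) => p.1) := PTF.fst
  have hi : PTF (fun p : XInst × (ℕ × ℕ) => p.2.1) := PTF.comp PTF.fst PTF.snd
  have hk : PTF (fun p : XInst × (ℕ × ℕ) => p.2.2) := PTF.comp PTF.snd PTF.snd
  have hi4 : PTF (fun p : XInst × (ℕ × ℕ) => p.2.1 / 4) := PTF.natDiv hi (PTF.const 4)
  have hi5 : PTF (fun p : XInst × (ℕ × ℕ) => p.2.1 % 4) := PTF.natMod hi (PTF.const 4)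
  have hk4 : PTF (fun p : XInst × (ℕ × ℕ) => p.2.2 / 4) := PTF.natDiv hk (PTF.const 4)
  have hk5 : PTF (fun p : XInst × (ℕ × ℕ) => p.2.2 % 4) := PTF.natMod hk (PTF.const 4)
  have hj : PTR (fun p : XInst × (ℕ × ℕ) => (jn p.1 : ℝ)) :=
    PTR.natCastU (PTU.comp ptu_jn hx)
  have h6 : PTR (fun p : XInst × (ℕ × ℕ) => 6 * (jn p.1 : ℝ)) := PTR.mul (PTR.ofNat 6) hj
  have h7 : PTR (fun p : XInst × (ℕ × ℕ) => 6 * (jn p.1 : ℝ) ^ 2) :=
    PTR.mul (PTR.ofNat 6) (PTR.powConst hj 2)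
  unfold Jx Jraw
  refine PTR.max PTR.zero (PTR.min PTR.one (PTR.mul ?_ ?_))
  · refine PTR.ite (PTPred.natLt hi4 hk4) (PTR.mul h6 (PTR.mul (ptr_rN hx hi4 hk4 hi5)
      (ptr_sN hx hi4 hk4 hk5))) ?_
    refine PTR.ite (PTPred.natEq hi4 hk4) (PTR.add h7 ?_) PTR.zero
    refine PTR.ite (PTPred.natEq hi5 (PTF.const 0)) ?_ PTR.zero
    unfold uN
    exact PTR.ratCast (ptf_uq hx hi4 hk5)
  · refine PTR.natInv ?_
    exact PTF.natMul (PTF.const 7) (PTF.natPow (PTU.comp ptu_jn hx).toPTF (PTU.const 2))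

theorem ptf_loq : PTF (fun x : XInst => loq x) := by
  unfold loq
  have hj : PTF (fun x : XInst => (jn x : ℚ)) := PTF.ratNatCast ptu_jn.toPTF
  have hj2 : PTF (fun x : XInst => (jn x : ℚ) ^ 2) := PTF.ratPowConst hj 2
  have hq : PTF (fun x : XInst => (x.q : ℚ)) := PTF.ratNatCast ptu_q.toPTF
  have hn : PTF (fun x : XInst => (x.n : ℚ)) := PTF.ratNatCast ptu_n.toPTF
  refine PTF.ratDiv (PTF.ratSub (PTF.ratAdd (PTF.ratAdd ptf_e ptf_c0q) ?_) ?_) ?_
  · exact PTF.ratDiv (PTF.const 1) (PTF.ratMul (PTF.const 8) hq)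
  · exact PTF.ratMul (PTF.ratMul (PTF.const _) (PTF.ratMul (PTF.const 6) hj2)) hn
  · exact PTF.ratMul (PTF.const 7) hj2

theorem ptu_nO : PTU nO := by
  unfold nO
  exact PTU.add (PTU.mul ptu_n (PTU.const 4)) (PTU.ite (PTU.eq ptu_n (PTU.const 0)) (PTU.const 2)
    (PTU.const 0))

theorem ptu_qO : PTU qO := by
  unfold qO
  exact PTU.succ (PTU.mul (PTU.mul (PTU.const 14) ptu_q) (PTU.pow ptu_jn 2))

end ptf

end Crest.Agent.R338.HB

end
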