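import Crest.Agent.R338.HO1a

/-!
Row 338 (S0529), node HK: Hermite functions of even index near the origin (blueprint D.6).
-/

set_option autoImplicit false

open MeasureTheory Set Real Filter
open scoped Topology

noncomputable section
namespace Crest.Agent.R338.HK
open Crest.Agent.R338.HO

/-- derivative of `hf m` -/
def dh (m : ℕ) (s : ℝ) : ℝ := √((m : ℝ) / 2) * hf (m - 1) s - √(((m : ℝ) + 1) / 2) * hf (m + 1) s

theorem hasDerivAt_h (m : ℕ) (s : ℝ) : HasDerivAt (hf m) (dh m s) s := hasDerivAt_hf m s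

theorem hasDerivAt_dh (m : ℕ) (s : ℝ) : HasDerivAt (dh m) ((s ^ 2 - (2 * m + 1)) * hf m s) s :=
  hasDerivAt_deriv_hf m s

theorem continuous_dh (m : ℕ) : Continuous (dh m) := by
  unfold dh
  exact ((continuous_hf _).const_mul _).sub ((continuous_hf _).const_mul _)

/-- three term recursion at a point -/
theorem hf_add_two (n : ℕ) (s : ℝ) :
    hf (n + 2) s = √(2 / (n + 2)) * (s * hf (n + 1) s) - √((n + 1) / (n + 2)) * hf n s := by
  have h := x_mul_hf (n + 1) s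
  rw [Nat.add_sub_cancel, show n + 1 + 1 = n + 2 by ring] at h
  push_cast at h
  have h1 : √(2 / ((n : ℝ) + 2)) * √(((n : ℝ) + 1 + 1) / 2) = 1 := by
    rw [← Real.sqrt_mul (by positivity)]
    rw [show (2 / ((n : ℝ) + 2)) * (((n : ℝ) + 1 + 1) / 2) = 1 by field_simp; ring]
    exact Real.sqrt_one
  have h2 : √(2 / ((n : ℝ) + 2)) * √(((n : ℝ) + 1) / 2) = √(((n : ℝ) + 1) / ((n : ℝ) + 2)) := by
    rw [← Real.sqrt_mul (by positivity)]
    congr 1
    field_simp
  rw [h, mul_add, ← mul_assoc, h1, ← mul_assoc, h2]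
  ring

/-- parity -/
theorem hf_neg (n : ℕ) (s : ℝ) : hf n (-s) = (-1) ^ n * hf n s := by
  induction n using Nat.twoStepInduction with
  | zero => simp [hf_zero]
  | one =>
    have e : ∀ s, hf 1 s = √2 * (s * hf 0 s) := fun s => by
      have h := x_mul_hf 0 s
      simp only [Nat.cast_zero, zero_div, Real.sqrt_zero, zero_mul, add_zero, zero_add] at h
      rw [h, ← mul_assoc]
      have : √2 * √(1 / 2 : ℝ) = 1 := by
        rw [← Real.sqrt_mul (by norm_num)]; norm_num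
      rw [this, one_mul]
    rw [e, e, hf_zero, hf_zero]; simp
  | more n ih1 ih2 =>
    rw [hf_add_two, hf_add_two, ih1, ih2]
    ring

theorem hf_even (k : ℕ) (s : ℝ) : hf (2 * k) (-s) = hf (2 * k) s := by
  rw [hf_neg, pow_mul]; simp

theorem hf_odd_zero (k : ℕ) : hf (2 * k + 1) 0 = 0 := by
  have := hf_neg (2 * k + 1) 0
  rw [neg_zero, pow_succ, pow_mul] at this
  simp at this
  linarith

theorem dh_even_zero (k : ℕ) : dh (2 * k) 0 = 0 := by
  unfold dh
  rw [hf_odd_zero]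
  rcases k with _ | k
  · simp
  · rw [show 2 * (k + 1) - 1 = 2 * k + 1 by omega, hf_odd_zero]; simp

/-- `h_{2k}(0)² = C(2k,k) 4^{-k} / √π` -/
theorem hf_even_zero_sq (k : ℕ) : hf (2 * k) 0 ^ 2 = (k.centralBinom : ℝ) / 4 ^ k / √π := by
  induction k with
  | zero =>
    have h : (π ^ (-(1 / 4) : ℝ)) ^ 2 = (√π)⁻¹ := by
      rw [← Real.rpow_natCast, ← Real.rpow_mul Real.pi_pos.le, Real.sqrt_eq_rpow,
        ← Real.rpow_neg Real.pi_pos.le]
      norm_num
    have h0 : hf (2 * 0) 0 = π ^ (-(1 / 4) : ℝ) := by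
      rw [mul_zero, hf_zero]; norm_num
    rw [h0, h]
    simp
  | succ k ih =>
    rw [show 2 * (k + 1) = 2 * k + 2 by ring, hf_add_two]
    simp only [mul_zero, zero_mul, zero_sub, even_two, Even.neg_pow, mul_pow]
    rw [ih, Real.sq_sqrt (by positivity)]
    have h := Nat.succ_mul_centralBinom_succ k
    have h' : ((k : ℝ) + 1) * ((k + 1).centralBinom : ℝ) = 2 * (2 * k + 1) * (k.centralBinom : ℝ) := by
      exact_mod_cast h
    have h'' : ((k + 1).centralBinom : ℝ) = 2 * (2 * k + 1) * (k.centralBinom : ℝ) / (k + 1) := by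
      field_simp; linarith
    rw [h'']
    push_cast
    field_simp
    ring

/-- `p_k = C(2k,k) / 4^k` -/
def cb (k : ℕ) : ℝ := (k.centralBinom : ℝ) / 4 ^ k

theorem cb_pos (k : ℕ) : 0 < cb k := by
  unfold cb
  have := Nat.centralBinom_pos k
  positivity

theorem cb_succ (k : ℕ) : cb (k + 1) = cb k * ((2 * k + 1) / (2 * k + 2)) := by
  unfold cb
  have h := Nat.succ_mul_centralBinom_succ k
  have h' : ((k : ℝ) + 1) * ((k + 1).centralBinom : ℝ) = 2 * (2 * k + 1) * (k.centralBinom : ℝ) := by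
    exact_mod_cast h
  have h'' : ((k + 1).centralBinom : ℝ) = 2 * (2 * k + 1) * (k.centralBinom : ℝ) / (k + 1) := by
    field_simp; linarith
  rw [h'']
  field_simp
  ring

theorem cb_sq_le (k : ℕ) : cb k ^ 2 * (2 * k + 1) ≤ 1 := by
  induction k with
  | zero => simp [cb]
  | succ k ih =>
    rw [cb_succ, mul_pow, div_pow]
    have h0 := sq_nonneg (cb k)
    have : cb k ^ 2 * ((2 * (k : ℝ) + 1) ^ 2 / (2 * k + 2) ^ 2) * (2 * ((k + 1 : ℕ) : ℝ) + 1) =
        (cb k ^ 2 * (2 * k + 1)) * ((2 * k + 1) * (2 * k + 3) / (2 * k + 2) ^ 2) := by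
      push_cast; ring
    rw [this]
    have h1 : (2 * (k : ℝ) + 1) * (2 * k + 3) / (2 * k + 2) ^ 2 ≤ 1 := by
      rw [div_le_one (by positivity)]; nlinarith
    have h2 : 0 ≤ (2 * (k : ℝ) + 1) * (2 * k + 3) / (2 * k + 2) ^ 2 := by positivity
    calc (cb k ^ 2 * (2 * k + 1)) * ((2 * k + 1) * (2 * k + 3) / (2 * k + 2) ^ 2)
        ≤ 1 * 1 := mul_le_mul ih h1 h2 (by norm_num)
      _ = 1 := by norm_num

theorem le_cb_sq (k : ℕ) : 1 ≤ cb (k + 1) ^ 2 * (4 * (k + 1)) := by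
  induction k with
  | zero =>
    have : cb 1 = 1 / 2 := by
      have := cb_succ 0
      simp [cb] at this ⊢
      linarith
    simp only [zero_add, this]; norm_num
  | succ k ih =>
    rw [cb_succ, mul_pow, div_pow]
    have : cb (k + 1) ^ 2 * ((2 * ((k + 1 : ℕ) : ℝ) + 1) ^ 2 / (2 * ((k + 1 : ℕ) : ℝ) + 2) ^ 2) *
        (4 * (((k + 1 : ℕ) : ℝ) + 1)) =
        (cb (k + 1) ^ 2 * (4 * (k + 1))) * ((2 * k + 3) ^ 2 / (4 * ((k + 1) * (k + 2)))) := by
      push_cast; field_simp; ring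
    rw [this]
    have h1 : 1 ≤ (2 * (k : ℝ) + 3) ^ 2 / (4 * ((k + 1) * (k + 2))) := by
      rw [one_le_div (by positivity)]; nlinarith
    nlinarith

/-- `κ_m = √(2m+1)` -/
def kap (m : ℕ) : ℝ := √(2 * m + 1)

theorem kap_sq (m : ℕ) : kap m ^ 2 = 2 * m + 1 := Real.sq_sqrt (by positivity)

theorem one_le_kap (m : ℕ) : 1 ≤ kap m := by
  unfold kap
  rw [Real.one_le_sqrt]
  have : (0 : ℝ) ≤ m := m.cast_nonneg
  linarith

theorem kap_pos (m : ℕ) : 0 < kap m := lt_of_lt_of_le one_pos (one_le_kap m)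

/-- two-sided bound of `h_{2k}(0)²`: upper bound `≤ 1 / κ` -/
theorem hf_zero_sq_le (k : ℕ) : hf (2 * k) 0 ^ 2 ≤ 1 / kap (2 * k) := by
  rw [hf_even_zero_sq]
  change cb k / √π ≤ _
  have h1 := cb_sq_le k
  have h2 : kap (2 * k) ^ 2 = 4 * k + 1 := by rw [kap_sq]; push_cast; ring
  have hk := kap_pos (2 * k)
  have hp : √π ^ 2 = π := Real.sq_sqrt Real.pi_pos.le
  have hp0 : 0 < √π := Real.sqrt_pos.2 Real.pi_pos
  rw [div_le_div_iff₀ hp0 hk, one_mul]
  refine abs_le_of_sq_le_sq' ?_ hp0.le |>.2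
  rw [mul_pow, h2, hp]
  have h3 : cb k ^ 2 * (4 * k + 1) ≤ 2 := by nlinarith [sq_nonneg (cb k)]
  linarith [Real.pi_gt_three]

/-- lower bound `≥ (1/2) / κ` (indeed `0.3`) -/
theorem le_hf_zero_sq (k : ℕ) : 1 / (2 * kap (2 * k)) ≤ hf (2 * k) 0 ^ 2 := by
  rw [hf_even_zero_sq]
  change _ ≤ cb k / √π
  have h2 : kap (2 * k) ^ 2 = 4 * k + 1 := by rw [kap_sq]; push_cast; ring
  have hk := kap_pos (2 * k)
  have hp : √π ^ 2 = π := Real.sq_sqrt Real.pi_pos.le
  have hp0 : 0 < √π := Real.sqrt_pos.2 Real.pi_pos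
  have hc := cb_pos k
  rw [div_le_div_iff₀ (by positivity) hp0, one_mul]
  refine abs_le_of_sq_le_sq' ?_ (by positivity) |>.2
  rw [mul_pow, mul_pow, h2, hp]
  have hpi := Real.pi_lt_d2
  rcases k with _ | k
  · simp [cb]; linarith
  · have h1 := le_cb_sq k
    have h3 : 1 ≤ cb (k + 1) ^ 2 * (4 * ((k + 1 : ℕ) : ℝ) + 1) := by
      push_cast
      nlinarith [sq_nonneg (cb (k + 1))]
    nlinarith

theorem hf_zero_ne (k : ℕ) : hf (2 * k) 0 ≠ 0 := by
  intro h
  have := le_hf_zero_sq k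
  rw [h] at this
  have h2 : 0 < 1 / (2 * kap (2 * k)) := by have := kap_pos (2 * k); positivity
  have h3 : (0 : ℝ) ^ 2 = 0 := by norm_num
  rw [h3] at this
  exact absurd (lt_of_lt_of_le h2 this) (lt_irrefl 0)

end Crest.Agent.R338.HK
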