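import Crest.Agent.R338.HK1

/-!
Row 338 (S0529), node HK: energy, cosine approximation near `0` and global bound for the Hermite
functions of even index (blueprint D.1, D.6).
-/

set_option autoImplicit false

open MeasureTheory Set Real Filter
open scoped Topology

noncomputable section
namespace Crest.Agent.R338.HK
open Crest.Agent.R338.HO

/-- energy `A(s) = h'² + (κ² - s²) h²` -/
def En (m : ℕ) (s : ℝ) : ℝ := dh m s ^ 2 + (kap m ^ 2 - s ^ 2) * hf m s ^ 2

theorem hasDerivAt_En (m : ℕ) (s : ℝ) : HasDerivAt (En m) (-2 * s * hf m s ^ 2) s := by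
  have h1 := ((hasDerivAt_dh m s).pow 2).add
    (((hasDerivAt_const s (kap m ^ 2)).sub (hasDerivAt_pow 2 s)).mul ((hasDerivAt_h m s).pow 2))
  refine HasDerivAt.congr_deriv (f := En m) h1 ?_
  have hk := kap_sq m
  simp only [Nat.cast_ofNat, Nat.add_one_sub_one, pow_one, Pi.pow_apply, Pi.sub_apply]
  rw [hk]
  ring

theorem En_antitone (m : ℕ) : AntitoneOn (En m) (Ici 0) := by
  apply antitoneOn_of_deriv_nonpos (convex_Ici 0)
  · exact fun x _ => (hasDerivAt_En m x).continuousAt.continuousWithinAt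
  · exact fun x _ => (hasDerivAt_En m x).differentiableAt.differentiableWithinAt
  · intro x hx
    rw [interior_Ici, mem_Ioi] at hx
    rw [(hasDerivAt_En m x).deriv]
    have := sq_nonneg (hf m x)
    nlinarith [mul_nonneg hx.le this]

theorem En_zero (k : ℕ) : En (2 * k) 0 = kap (2 * k) ^ 2 * hf (2 * k) 0 ^ 2 := by
  unfold En
  rw [dh_even_zero]; ring

theorem En_le (k : ℕ) {s : ℝ} (hs : 0 ≤ s) :
    dh (2 * k) s ^ 2 + (kap (2 * k) ^ 2 - s ^ 2) * hf (2 * k) s ^ 2 ≤
      kap (2 * k) ^ 2 * hf (2 * k) 0 ^ 2 := by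
  rw [← En_zero]
  exact En_antitone (2 * k) (mem_Ici.2 le_rfl) (mem_Ici.2 hs) hs

theorem hf_sq_le_near (k : ℕ) {s : ℝ} (hs : |s| ≤ kap (2 * k) / 2) :
    hf (2 * k) s ^ 2 ≤ 4 / 3 * hf (2 * k) 0 ^ 2 := by
  have key : ∀ s : ℝ, 0 ≤ s → s ≤ kap (2 * k) / 2 → hf (2 * k) s ^ 2 ≤ 4 / 3 * hf (2 * k) 0 ^ 2 := by
    intro s hs0 hs
    have h := En_le k hs0
    have hk := kap_pos (2 * k)
    have h2 : s ^ 2 ≤ kap (2 * k) ^ 2 / 4 := by nlinarith
    have h3 := sq_nonneg (dh (2 * k) s)
    have h4 := sq_nonneg (hf (2 * k) s)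
    have h5 : 3 / 4 * kap (2 * k) ^ 2 * hf (2 * k) s ^ 2 ≤ kap (2 * k) ^ 2 * hf (2 * k) 0 ^ 2 := by
      nlinarith
    have h6 : 0 < kap (2 * k) ^ 2 := by positivity
    have h7 : kap (2 * k) ^ 2 * (3 / 4 * hf (2 * k) s ^ 2) ≤ kap (2 * k) ^ 2 * hf (2 * k) 0 ^ 2 := by
      linarith
    have h8 := le_of_mul_le_mul_left h7 h6
    linarith
  rcases le_total 0 s with h | h
  · rw [abs_of_nonneg h] at hs; exact key s h hs
  · rw [abs_of_nonpos h] at hs
    rw [← hf_even]
    exact key (-s) (by linarith) hs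

theorem abs_hf_le_near (k : ℕ) {s : ℝ} (hs : |s| ≤ kap (2 * k) / 2) :
    |hf (2 * k) s| ≤ 6 / 5 * |hf (2 * k) 0| := by
  have h := hf_sq_le_near k hs
  apply abs_le_of_sq_le_sq' _ (by positivity) |>.2
  rw [sq_abs, mul_pow, sq_abs]
  nlinarith [sq_nonneg (hf (2 * k) 0)]

/-- variation of constants -/
theorem duhamel (k : ℕ) (s : ℝ) :
    kap (2 * k) * (hf (2 * k) s - hf (2 * k) 0 * cos (kap (2 * k) * s)) =
      ∫ r in (0 : ℝ)..s, r ^ 2 * hf (2 * k) r * sin (kap (2 * k) * (s - r)) := by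
  set m := 2 * k with hm
  set κ := kap m with hκ
  set h0 := hf m 0 with hh0
  have hκ2 : κ ^ 2 = 2 * m + 1 := kap_sq m
  have hF : ∀ r ∈ uIcc 0 s, HasDerivAt
      (fun r => (hf m r - h0 * cos (κ * r)) * (κ * cos (κ * (s - r))) +
        (dh m r + h0 * (κ * sin (κ * r))) * sin (κ * (s - r)))
      (r ^ 2 * hf m r * sin (κ * (s - r))) r := by
    intro r _
    have a1 : HasDerivAt (fun r => κ * r) κ r := by
      simpa using (hasDerivAt_id r).const_mul κ
    have a2 : HasDerivAt (fun r => κ * (s - r)) (-κ) r := by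
      have := ((hasDerivAt_const r s).sub (hasDerivAt_id r)).const_mul κ
      simpa using this
    have b1 : HasDerivAt (fun r => hf m r - h0 * cos (κ * r)) (dh m r - h0 * (-sin (κ * r) * κ)) r :=
      (hasDerivAt_h m r).sub (a1.cos.const_mul h0)
    have b2 : HasDerivAt (fun r => κ * cos (κ * (s - r))) (κ * (-sin (κ * (s - r)) * -κ)) r :=
      a2.cos.const_mul κ
    have b3 : HasDerivAt (fun r => dh m r + h0 * (κ * sin (κ * r)))
        ((r ^ 2 - (2 * m + 1)) * hf m r + h0 * (κ * (cos (κ * r) * κ))) r :=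
      (hasDerivAt_dh m r).add ((a1.sin.const_mul κ).const_mul h0)
    have b4 : HasDerivAt (fun r => sin (κ * (s - r))) (cos (κ * (s - r)) * -κ) r := a2.sin
    refine ((b1.mul b2).add (b3.mul b4)).congr_deriv ?_
    rw [← hκ2]
    ring
  have hint : IntervalIntegrable (fun r => r ^ 2 * hf m r * sin (κ * (s - r))) volume 0 s := by
    apply Continuous.intervalIntegrable
    have := continuous_hf m
    fun_prop
  have h := intervalIntegral.integral_eq_sub_of_hasDerivAt hF hint
  rw [h]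
  have e0 : dh m 0 = 0 := by rw [hm]; exact dh_even_zero k
  simp only [sub_self, mul_zero, cos_zero, mul_one, sin_zero, add_zero, sub_zero, e0, ← hh0, zero_mul]
  ring

/-- cosine approximation near the origin (D.6) -/
theorem abs_sub_cos_le (k : ℕ) {s : ℝ} (hs : |s| ≤ kap (2 * k) / 2) :
    |hf (2 * k) s - hf (2 * k) 0 * cos (kap (2 * k) * s)| ≤
      2 / 5 * |hf (2 * k) 0| * |s| ^ 3 / kap (2 * k) := by
  have hk := kap_pos (2 * k)
  have key : ∀ s : ℝ, 0 ≤ s → s ≤ kap (2 * k) / 2 →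
      |hf (2 * k) s - hf (2 * k) 0 * cos (kap (2 * k) * s)| ≤
      2 / 5 * |hf (2 * k) 0| * |s| ^ 3 / kap (2 * k) := by
    intro s hs0 hs
    have h := duhamel k s
    have hb : ‖∫ r in (0 : ℝ)..s, r ^ 2 * hf (2 * k) r * sin (kap (2 * k) * (s - r))‖ ≤
        |∫ r in (0 : ℝ)..s, (6 / 5 * |hf (2 * k) 0|) * r ^ 2| := by
      apply intervalIntegral.norm_integral_le_abs_of_norm_le
      · refine (ae_restrict_mem measurableSet_uIoc).mono fun r hr => ?_
        rw [uIoc_of_le hs0] at hr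
        rw [Real.norm_eq_abs, abs_mul, abs_mul, abs_of_nonneg (sq_nonneg r)]
        have h1 : |hf (2 * k) r| ≤ 6 / 5 * |hf (2 * k) 0| := by
          apply abs_hf_le_near
          rw [abs_of_pos hr.1]; linarith [hr.2]
        have h2 := abs_sin_le_one (kap (2 * k) * (s - r))
        have h3 := sq_nonneg r
        calc r ^ 2 * |hf (2 * k) r| * |sin (kap (2 * k) * (s - r))|
            ≤ r ^ 2 * |hf (2 * k) r| * 1 := by gcongr
          _ = r ^ 2 * |hf (2 * k) r| := mul_one _
          _ ≤ r ^ 2 * (6 / 5 * |hf (2 * k) 0|) := by gcongr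
          _ = _ := by ring
      · apply Continuous.intervalIntegrable
        fun_prop
    rw [← h, intervalIntegral.integral_const_mul, integral_pow, Real.norm_eq_abs, abs_mul,
      abs_of_pos hk] at hb
    have e1 : |6 / 5 * |hf (2 * k) 0| * ((s ^ (2 + 1) - 0 ^ (2 + 1)) / (((2 : ℕ) : ℝ) + 1))| =
        2 / 5 * |hf (2 * k) 0| * s ^ 3 := by
      rw [abs_of_nonneg]
      · norm_num
        ring
      · norm_num
        positivity
    rw [e1] at hb
    rw [le_div_iff₀ hk, abs_of_nonneg hs0, mul_comm]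
    exact hb
  rcases le_total 0 s with h | h
  · exact key s h (by rwa [abs_of_nonneg h] at hs)
  · have := key (-s) (by linarith) (by rwa [abs_of_nonpos h] at hs)
    rw [hf_even, mul_neg, cos_neg, abs_neg] at this
    exact this

theorem tendsto_hf (m : ℕ) : Tendsto (hf m) atTop (𝓝 0) := by
  have h1 := (Polynomial.tendsto_div_exp_atTop (hP m)).norm
  rw [norm_zero] at h1
  apply squeeze_zero_norm' _ h1
  filter_upwards [eventually_ge_atTop (2 : ℝ)] with x hx
  unfold hf
  rw [norm_mul, norm_div]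
  rw [div_eq_mul_inv]
  apply mul_le_mul_of_nonneg_left _ (norm_nonneg _)
  rw [Real.norm_of_nonneg (Real.exp_pos _).le, Real.norm_of_nonneg (Real.exp_pos _).le,
    ← Real.exp_neg]
  apply Real.exp_le_exp.2
  nlinarith

theorem tendsto_hf_mul_dh (m : ℕ) : Tendsto (fun s => hf m s * dh m s) atTop (𝓝 0) := by
  unfold dh
  have h := (tendsto_hf m).mul (((tendsto_hf (m - 1)).const_mul √((m : ℝ) / 2)).sub
    ((tendsto_hf (m + 1)).const_mul √(((m : ℝ) + 1) / 2)))
  simpa using h

/-- beyond the turning point `h²` decreases -/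
theorem hf_sq_antitone (m : ℕ) : AntitoneOn (fun s => hf m s ^ 2) (Ici (kap m)) := by
  have hP : ∀ s, HasDerivAt (fun s => hf m s * dh m s)
      (dh m s ^ 2 + (s ^ 2 - kap m ^ 2) * hf m s ^ 2) s := fun s => by
    refine ((hasDerivAt_h m s).mul (hasDerivAt_dh m s)).congr_deriv ?_
    rw [kap_sq]; ring
  have hmono : MonotoneOn (fun s => hf m s * dh m s) (Ici (kap m)) := by
    apply monotoneOn_of_deriv_nonneg (convex_Ici _)
    · exact fun x _ => (hP x).continuousAt.continuousWithinAt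
    · exact fun x _ => (hP x).differentiableAt.differentiableWithinAt
    · intro x hx
      rw [interior_Ici, mem_Ioi] at hx
      rw [(hP x).deriv]
      have h1 : 0 ≤ x ^ 2 - kap m ^ 2 := by
        have := kap_pos m
        nlinarith
      positivity
  have hneg : ∀ s ∈ Ici (kap m), hf m s * dh m s ≤ 0 := by
    intro s hs
    refine ge_of_tendsto (tendsto_hf_mul_dh m) ?_
    filter_upwards [eventually_ge_atTop s] with t ht
    exact hmono hs (mem_Ici.2 (le_trans hs ht)) ht
  apply antitoneOn_of_deriv_nonpos (convex_Ici _)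
  · exact fun x _ => ((hasDerivAt_h m x).pow 2).continuousAt.continuousWithinAt
  · exact fun x _ => ((hasDerivAt_h m x).pow 2).differentiableAt.differentiableWithinAt
  · intro x hx
    rw [interior_Ici, mem_Ioi] at hx
    have h1 : HasDerivAt (fun s => hf m s ^ 2) _ x := (hasDerivAt_h m x).pow 2
    rw [h1.deriv]
    have := hneg x hx.le
    simp only [Nat.cast_ofNat, Nat.add_one_sub_one, pow_one]
    linarith

/-- global bound relative to the value at the origin -/
theorem abs_hf_le (k : ℕ) (s : ℝ) :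
    |hf (2 * k) s| ≤ (1 + kap (2 * k) ^ 2) * |hf (2 * k) 0| := by
  have hk := kap_pos (2 * k)
  have hd : ∀ s, 0 ≤ s → s ≤ kap (2 * k) → |dh (2 * k) s| ≤ kap (2 * k) * |hf (2 * k) 0| := by
    intro s h0 h1
    have h := En_le k h0
    have h2 : 0 ≤ kap (2 * k) ^ 2 - s ^ 2 := by nlinarith
    have h3 : dh (2 * k) s ^ 2 ≤ kap (2 * k) ^ 2 * hf (2 * k) 0 ^ 2 := by
      nlinarith [mul_nonneg h2 (sq_nonneg (hf (2 * k) s))]
    apply abs_le_of_sq_le_sq' _ (by positivity) |>.2
    rw [sq_abs, mul_pow, sq_abs]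
    exact h3
  have key1 : ∀ s, 0 ≤ s → s ≤ kap (2 * k) →
      |hf (2 * k) s| ≤ (1 + kap (2 * k) ^ 2) * |hf (2 * k) 0| := by
    intro s h0 h1
    have h2 : ‖hf (2 * k) s - hf (2 * k) 0‖ ≤ kap (2 * k) * |hf (2 * k) 0| * ‖s - 0‖ := by
      apply Convex.norm_image_sub_le_of_norm_hasDerivWithin_le (s := Icc 0 (kap (2 * k)))
        (f' := dh (2 * k)) (x := 0) (y := s)
      · exact fun x _ => (hasDerivAt_h (2 * k) x).hasDerivWithinAt
      · exact fun x hx => hd x hx.1 hx.2
      · exact convex_Icc _ _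
      · exact ⟨le_rfl, hk.le⟩
      · exact ⟨h0, h1⟩
    rw [sub_zero, Real.norm_eq_abs, Real.norm_eq_abs, abs_of_nonneg h0] at h2
    have h3 : |hf (2 * k) s| ≤ |hf (2 * k) s - hf (2 * k) 0| + |hf (2 * k) 0| := by
      have := abs_add_le (hf (2 * k) s - hf (2 * k) 0) (hf (2 * k) 0)
      simpa using this
    have h4 : kap (2 * k) * |hf (2 * k) 0| * s ≤ kap (2 * k) ^ 2 * |hf (2 * k) 0| := by
      have := abs_nonneg (hf (2 * k) 0)
      have : kap (2 * k) * |hf (2 * k) 0| * s ≤ kap (2 * k) * |hf (2 * k) 0| * kap (2 * k) := by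
        gcongr
      linarith
    linarith
  have key : ∀ s, 0 ≤ s → |hf (2 * k) s| ≤ (1 + kap (2 * k) ^ 2) * |hf (2 * k) 0| := by
    intro s h0
    rcases le_total s (kap (2 * k)) with h1 | h1
    · exact key1 s h0 h1
    · have h2 := hf_sq_antitone (2 * k) (mem_Ici.2 le_rfl) (mem_Ici.2 h1) h1
      have h3 := key1 (kap (2 * k)) hk.le le_rfl
      exact (sq_le_sq.1 h2).trans h3
  rcases le_total 0 s with h | h
  · exact key s h
  · rw [← hf_even]; exact key (-s) (by linarith)

end Crest.Agent.R338.HK
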