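import Crest.Agent.R338.HK2

/-!
Row 338 (S0529), node HK: Gaussian integrals of products of four Hermite functions of even index
(blueprint D.11).
-/

set_option autoImplicit false

open MeasureTheory Set Real Filter
open scoped Topology

noncomputable section
namespace Crest.Agent.R338.HK
open Crest.Agent.R338.HO

/-- `∫ e^{-2s²} cos(ω s) ds = √(π/2) e^{-ω²/8}` -/
theorem integral_gauss_cos (w : ℝ) :
    ∫ s : ℝ, Real.exp (-2 * s ^ 2) * cos (w * s) = √(π / 2) * Real.exp (-w ^ 2 / 8) := by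
  have h := fourierIntegral_gaussian (b := (2 : ℂ)) (by norm_num) (w : ℂ)
  have e1 : ∀ s : ℝ, Complex.exp (Complex.I * w * s) * Complex.exp (-2 * (s : ℂ) ^ 2) =
      ((Real.exp (-2 * s ^ 2) * cos (w * s) : ℝ) : ℂ) +
        ((Real.exp (-2 * s ^ 2) * sin (w * s) : ℝ) : ℂ) * Complex.I := by
    intro s
    have : Complex.I * w * s = ((w * s : ℝ) : ℂ) * Complex.I := by push_cast; ring
    rw [this, Complex.exp_mul_I]
    push_cast
    ring
  have i0 : Integrable (fun s : ℝ => Real.exp (-2 * s ^ 2)) := integrable_exp_neg_mul_sq (by norm_num)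
  have i1 : Integrable (fun s : ℝ => Real.exp (-2 * s ^ 2) * cos (w * s)) := by
    refine i0.mono' (by fun_prop) (Eventually.of_forall fun s => ?_)
    rw [norm_mul, Real.norm_of_nonneg (Real.exp_pos _).le]
    have := abs_cos_le_one (w * s)
    exact mul_le_of_le_one_right (Real.exp_pos _).le this
  have i2 : Integrable (fun s : ℝ => Real.exp (-2 * s ^ 2) * sin (w * s)) := by
    refine i0.mono' (by fun_prop) (Eventually.of_forall fun s => ?_)
    rw [norm_mul, Real.norm_of_nonneg (Real.exp_pos _).le]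
    have := abs_sin_le_one (w * s)
    exact mul_le_of_le_one_right (Real.exp_pos _).le this
  have e2 : ∫ s : ℝ, Complex.exp (Complex.I * w * s) * Complex.exp (-2 * (s : ℂ) ^ 2) =
      ((∫ s : ℝ, Real.exp (-2 * s ^ 2) * cos (w * s) : ℝ) : ℂ) +
        ((∫ s : ℝ, Real.exp (-2 * s ^ 2) * sin (w * s) : ℝ) : ℂ) * Complex.I := by
    simp_rw [e1]
    rw [integral_add i1.ofReal (i2.ofReal.mul_const _), integral_mul_const]
    congr 1
    · exact integral_complex_ofReal
    · congr 1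
      exact integral_complex_ofReal
  rw [e2] at h
  have h2 : ((π : ℂ) / 2) ^ (1 / 2 : ℂ) * Complex.exp (-(w : ℂ) ^ 2 / (4 * 2)) =
      ((√(π / 2) * Real.exp (-w ^ 2 / 8) : ℝ) : ℂ) := by
    have : ((π : ℂ) / 2) ^ (1 / 2 : ℂ) = ((√(π / 2) : ℝ) : ℂ) := by
      rw [Real.sqrt_eq_rpow, Complex.ofReal_cpow (by positivity)]
      push_cast
      rfl
    rw [this]
    push_cast
    congr 2
    ring
  rw [h2] at h
  have h3 := congrArg Complex.re h
  simp only [Complex.add_re, Complex.ofReal_re, Complex.mul_re, Complex.I_re, Complex.ofReal_im,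
    Complex.I_im] at h3
  linarith

theorem integrable_gauss_cos (w : ℝ) : Integrable (fun s : ℝ => Real.exp (-2 * s ^ 2) * cos (w * s)) := by
  have i0 : Integrable (fun s : ℝ => Real.exp (-2 * s ^ 2)) := integrable_exp_neg_mul_sq (by norm_num)
  refine i0.mono' (by fun_prop) (Eventually.of_forall fun s => ?_)
  rw [norm_mul, Real.norm_of_nonneg (Real.exp_pos _).le]
  have := abs_cos_le_one (w * s)
  exact mul_le_of_le_one_right (Real.exp_pos _).le this

/-- `J(κ) = ∫ e^{-2s²} ∏ cos(κ_a s) ds` -/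
def J4 (a b c d : ℝ) : ℝ :=
  ∫ s : ℝ, Real.exp (-2 * s ^ 2) * (cos (a * s) * cos (b * s) * cos (c * s) * cos (d * s))

theorem cos4 (a b c d s : ℝ) : cos (a * s) * cos (b * s) * cos (c * s) * cos (d * s) =
    1 / 8 * (cos ((a + b + c + d) * s) + cos ((a + b + c - d) * s) + cos ((a + b - c + d) * s) +
      cos ((a + b - c - d) * s) + cos ((a - b + c + d) * s) + cos ((a - b + c - d) * s) +
      cos ((a - b - c + d) * s) + cos ((a - b - c - d) * s)) := by
  have h : ∀ x y : ℝ, cos x * cos y = (cos (x + y) + cos (x - y)) / 2 := fun x y => by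
    rw [cos_add, cos_sub]; ring
  have e1 : cos (a * s) * cos (b * s) = (cos ((a + b) * s) + cos ((a - b) * s)) / 2 := by
    rw [h]; ring_nf
  have e2 : ∀ x, cos (x * s) * cos (c * s) = (cos ((x + c) * s) + cos ((x - c) * s)) / 2 := fun x => by
    rw [h]; ring_nf
  have e3 : ∀ x, cos (x * s) * cos (d * s) = (cos ((x + d) * s) + cos ((x - d) * s)) / 2 := fun x => by
    rw [h]; ring_nf
  rw [e1, div_mul_eq_mul_div, add_mul, e2, e2]
  rw [div_mul_eq_mul_div]
  have e4 : ((cos ((a + b + c) * s) + cos ((a + b - c) * s)) / 2 +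
      (cos ((a - b + c) * s) + cos ((a - b - c) * s)) / 2) * cos (d * s) =
      (cos ((a + b + c) * s) * cos (d * s) + cos ((a + b - c) * s) * cos (d * s)) / 2 +
      (cos ((a - b + c) * s) * cos (d * s) + cos ((a - b - c) * s) * cos (d * s)) / 2 := by ring
  rw [e4, e3, e3, e3, e3]
  ring

/-- `g(ω) = √(π/2) e^{-ω²/8}` -/
def gω (w : ℝ) : ℝ := √(π / 2) * Real.exp (-w ^ 2 / 8)

theorem gω_pos (w : ℝ) : 0 < gω w := by
  unfold gω
  have : 0 < √(π / 2) := Real.sqrt_pos.2 (by positivity)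
  positivity

theorem J4_eq (a b c d : ℝ) : J4 a b c d =
    1 / 8 * (gω (a + b + c + d) + gω (a + b + c - d) + gω (a + b - c + d) + gω (a + b - c - d) +
      gω (a - b + c + d) + gω (a - b + c - d) + gω (a - b - c + d) + gω (a - b - c - d)) := by
  have e : ∀ s : ℝ, Real.exp (-2 * s ^ 2) * (cos (a * s) * cos (b * s) * cos (c * s) * cos (d * s)) =
      1 / 8 * ∑ i : Fin 8, Real.exp (-2 * s ^ 2) * cos (![a + b + c + d, a + b + c - d,
        a + b - c + d, a + b - c - d, a - b + c + d, a - b + c - d, a - b - c + d,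
        a - b - c - d] i * s) := fun s => by
    rw [cos4, Fin.sum_univ_eight]
    simp only [Matrix.cons_val]
    ring
  unfold J4
  simp_rw [e]
  rw [integral_const_mul, integral_finsetSum _ fun i _ => integrable_gauss_cos _]
  simp only [integral_gauss_cos]
  rw [Fin.sum_univ_eight]
  simp only [Matrix.cons_val]
  rfl

theorem gω_le {w t : ℝ} (ht : 0 ≤ t) (h : t ≤ |w|) : gω w ≤ √(π / 2) * Real.exp (-t ^ 2 / 8) := by
  unfold gω
  apply mul_le_mul_of_nonneg_left _ (Real.sqrt_nonneg _)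
  apply Real.exp_le_exp.2
  have : t ^ 2 ≤ w ^ 2 := by
    rw [← sq_abs w]; exact pow_le_pow_left₀ ht h 2
  linarith

theorem gω_zero : gω 0 = √(π / 2) := by simp [gω]

/-- lower bound for the resonant case -/
theorem J4_diag_ge (a b : ℝ) : √(π / 2) / 4 ≤ J4 a b a b := by
  rw [J4_eq]
  have e1 : a + b - a - b = 0 := by ring
  have e2 : a - b - a + b = 0 := by ring
  rw [e1, e2, gω_zero]
  have p := fun w => (gω_pos w).le
  have := p (a + b + a + b)
  have := p (a + b + a - b)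
  have := p (a + b - a + b)
  have := p (a - b + a + b)
  have := p (a - b + a - b)
  have := p (a - b - a - b)
  linarith

theorem J4_nonneg (a b c d : ℝ) : 0 ≤ J4 a b c d := by
  rw [J4_eq]
  have p := fun w => (gω_pos w).le
  have := p (a + b + c + d)
  have := p (a + b + c - d)
  have := p (a + b - c + d)
  have := p (a + b - c - d)
  have := p (a - b + c + d)
  have := p (a - b + c - d)
  have := p (a - b - c + d)
  have := p (a - b - c - d)
  linarith

theorem J4_le_one (a b c d : ℝ) : J4 a b c d ≤ √(π / 2) := by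
  rw [J4_eq]
  have p : ∀ w, gω w ≤ √(π / 2) := fun w => by
    have := gω_le (w := w) le_rfl (abs_nonneg w)
    simpa using this
  have := p (a + b + c + d)
  have := p (a + b + c - d)
  have := p (a + b - c + d)
  have := p (a + b - c - d)
  have := p (a - b + c + d)
  have := p (a - b + c - d)
  have := p (a - b - c + d)
  have := p (a - b - c - d)
  linarith

/-- all eight signed sums are at least `t` in absolute value -/
def Sep (t a b c d : ℝ) : Prop :=
  t ≤ |a + b + c + d| ∧ t ≤ |a + b + c - d| ∧ t ≤ |a + b - c + d| ∧ t ≤ |a + b - c - d| ∧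
  t ≤ |a - b + c + d| ∧ t ≤ |a - b + c - d| ∧ t ≤ |a - b - c + d| ∧ t ≤ |a - b - c - d|

theorem J4_le_of_sep {t a b c d : ℝ} (ht : 0 ≤ t) (h : Sep t a b c d) :
    J4 a b c d ≤ √(π / 2) * Real.exp (-t ^ 2 / 8) := by
  rw [J4_eq]
  obtain ⟨h1, h2, h3, h4, h5, h6, h7, h8⟩ := h
  have := gω_le ht h1
  have := gω_le ht h2
  have := gω_le ht h3
  have := gω_le ht h4
  have := gω_le ht h5
  have := gω_le ht h6
  have := gω_le ht h7
  have := gω_le ht h8
  linarith

/-- `∫ e^{-2s²} h_a h_b h_c h_d` -/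
def GI (a b c d : ℕ) : ℝ :=
  ∫ s : ℝ, Real.exp (-2 * s ^ 2) * (hf a s * hf b s * hf c s * hf d s)

theorem GI_integrable (a b c d : ℕ) :
    Integrable (fun s : ℝ => Real.exp (-2 * s ^ 2) * (hf a s * hf b s * hf c s * hf d s)) := by
  have h := integrable_poly_gauss (hP a * hP b * hP c * hP d) (b := 4) (by norm_num)
  refine h.congr (Eventually.of_forall fun s => ?_)
  simp only [Polynomial.eval_mul, hf]
  have : Real.exp (-4 * s ^ 2) = Real.exp (-2 * s ^ 2) * (Real.exp (-(s ^ 2) / 2) *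
      Real.exp (-(s ^ 2) / 2) * Real.exp (-(s ^ 2) / 2) * Real.exp (-(s ^ 2) / 2)) := by
    rw [← Real.exp_add, ← Real.exp_add, ← Real.exp_add, ← Real.exp_add]
    congr 1; ring
  rw [this]; ring

theorem tele4 {x1 x2 x3 x4 c1 c2 c3 c4 e : ℝ} (hx2 : |x2| ≤ 6 / 5)
    (hx3 : |x3| ≤ 6 / 5) (hx4 : |x4| ≤ 6 / 5) (h1 : |c1| ≤ 1) (h2 : |c2| ≤ 1) (h3 : |c3| ≤ 1)
    (e1 : |x1 - c1| ≤ e) (e2 : |x2 - c2| ≤ e) (e3 : |x3 - c3| ≤ e)
    (e4 : |x4 - c4| ≤ e) : |x1 * x2 * x3 * x4 - c1 * c2 * c3 * c4| ≤ 6 * e := by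
  have he : 0 ≤ e := (abs_nonneg _).trans e1
  have h : x1 * x2 * x3 * x4 - c1 * c2 * c3 * c4 = (x1 - c1) * x2 * x3 * x4 +
      c1 * (x2 - c2) * x3 * x4 + c1 * c2 * (x3 - c3) * x4 + c1 * c2 * c3 * (x4 - c4) := by ring
  rw [h]
  have b1 : |(x1 - c1) * x2 * x3 * x4| ≤ e * (6 / 5) * (6 / 5) * (6 / 5) := by
    simp only [abs_mul]; gcongr
  have b2 : |c1 * (x2 - c2) * x3 * x4| ≤ 1 * e * (6 / 5) * (6 / 5) := by
    simp only [abs_mul]; gcongr
  have b3 : |c1 * c2 * (x3 - c3) * x4| ≤ 1 * 1 * e * (6 / 5) := by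
    simp only [abs_mul]; gcongr
  have b4 : |c1 * c2 * c3 * (x4 - c4)| ≤ 1 * 1 * 1 * e := by
    simp only [abs_mul]; gcongr
  have := abs_add_le ((x1 - c1) * x2 * x3 * x4 + c1 * (x2 - c2) * x3 * x4 +
    c1 * c2 * (x3 - c3) * x4) (c1 * c2 * c3 * (x4 - c4))
  have := abs_add_le ((x1 - c1) * x2 * x3 * x4 + c1 * (x2 - c2) * x3 * x4)
    (c1 * c2 * (x3 - c3) * x4)
  have := abs_add_le ((x1 - c1) * x2 * x3 * x4) (c1 * (x2 - c2) * x3 * x4)
  linarith

end Crest.Agent.R338.HK
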