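import Crest.Agent.R338.HK3

/-!
Row 338 (S0529), node HK: `∫ e^{-2s²} h_a h_b h_c h_d = ∏ h(0) (J(κ_a, κ_b, κ_c, κ_d) + O(1/κ))`.
-/

set_option autoImplicit false

open MeasureTheory Set Real Filter
open scoped Topology

noncomputable section
namespace Crest.Agent.R338.HK
open Crest.Agent.R338.HO

theorem exp_bound {t : ℝ} (ht : 1 ≤ t) : t ^ 8 * Real.exp (-t ^ 2 / 4) ≤ 122880 / t := by
  have h := Real.pow_div_factorial_le_exp (t ^ 2 / 4) (by positivity) 5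
  have e1 : Real.exp (-t ^ 2 / 4) = 1 / Real.exp (t ^ 2 / 4) := by
    rw [one_div, ← Real.exp_neg]; congr 1; ring
  have hf : ((Nat.factorial 5 : ℕ) : ℝ) = 120 := by norm_num [Nat.factorial]
  rw [hf] at h
  have h2 : t ^ 10 ≤ 122880 * Real.exp (t ^ 2 / 4) := by
    have : (t ^ 2 / 4) ^ 5 / 120 = t ^ 10 / 122880 := by ring
    rw [this] at h
    rw [div_le_iff₀ (by norm_num)] at h
    linarith
  have h3 : t ^ 9 ≤ t ^ 10 := pow_le_pow_right₀ ht (by norm_num)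
  have ht0 : 0 < t := by linarith
  rw [e1, mul_one_div, div_le_div_iff₀ (Real.exp_pos _) ht0]
  calc t ^ 8 * t = t ^ 9 := by ring
    _ ≤ _ := h3.trans h2

/-- relative values -/
def rl (k : ℕ) (s : ℝ) : ℝ := hf (2 * k) s / hf (2 * k) 0

theorem rl_near {k : ℕ} {s t : ℝ} (h : t ≤ kap (2 * k)) (hs : |s| ≤ t / 2) : |rl k s| ≤ 6 / 5 := by
  unfold rl
  rw [abs_div, div_le_iff₀ (abs_pos.2 (hf_zero_ne k))]
  exact abs_hf_le_near k (by linarith)

theorem rl_cos {k : ℕ} {s t : ℝ} (ht : 0 < t) (h : t ≤ kap (2 * k)) (hs : |s| ≤ t / 2) :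
    |rl k s - cos (kap (2 * k) * s)| ≤ 2 / 5 * |s| ^ 3 / t := by
  have h0 := abs_pos.2 (hf_zero_ne k)
  have h1 := abs_sub_cos_le k (s := s) (by linarith)
  have e : rl k s - cos (kap (2 * k) * s) =
      (hf (2 * k) s - hf (2 * k) 0 * cos (kap (2 * k) * s)) / hf (2 * k) 0 := by
    unfold rl
    field_simp [hf_zero_ne k]
  rw [e, abs_div, div_le_iff₀ h0]
  refine h1.trans ?_
  have h2 : 2 / 5 * |hf (2 * k) 0| * |s| ^ 3 / kap (2 * k) ≤
      2 / 5 * |hf (2 * k) 0| * |s| ^ 3 / t := by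
    apply div_le_div_of_nonneg_left (by positivity) ht h
  refine h2.trans (le_of_eq ?_)
  ring

theorem rl_far {k : ℕ} {t : ℝ} (ht : 1 ≤ t) (h : kap (2 * k) ≤ 2 * t) (s : ℝ) :
    |rl k s| ≤ 5 * t ^ 2 := by
  unfold rl
  rw [abs_div, div_le_iff₀ (abs_pos.2 (hf_zero_ne k))]
  refine (abs_hf_le k s).trans ?_
  gcongr
  have hk := kap_pos (2 * k)
  nlinarith

theorem cube_le_exp (s : ℝ) : |s| ^ 3 ≤ Real.exp (s ^ 2) := by
  have h := Real.quadratic_le_exp_of_nonneg (sq_nonneg s)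
  have e : s ^ 2 = |s| ^ 2 := (sq_abs s).symm
  refine le_trans ?_ h
  rw [e]
  have := abs_nonneg s
  nlinarith [sq_nonneg (|s| ^ 2 - |s|), sq_nonneg (|s|), pow_nonneg this 3, sq_nonneg (|s| ^ 2)]

theorem point_bound {k1 k2 k3 k4 : ℕ} {t : ℝ} (ht : 1 ≤ t)
    (h1 : t ≤ kap (2 * k1)) (h2 : t ≤ kap (2 * k2)) (h3 : t ≤ kap (2 * k3)) (h4 : t ≤ kap (2 * k4))
    (g1 : kap (2 * k1) ≤ 2 * t) (g2 : kap (2 * k2) ≤ 2 * t) (g3 : kap (2 * k3) ≤ 2 * t)
    (g4 : kap (2 * k4) ≤ 2 * t) (s : ℝ) :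
    Real.exp (-2 * s ^ 2) * |rl k1 s * rl k2 s * rl k3 s * rl k4 s -
      cos (kap (2 * k1) * s) * cos (kap (2 * k2) * s) * cos (kap (2 * k3) * s) *
        cos (kap (2 * k4) * s)| ≤ 160000000 / t * Real.exp (-s ^ 2) := by
  have ht0 : 0 < t := by linarith
  rcases le_total |s| (t / 2) with hs | hs
  · have hb := tele4 (rl_near h2 hs) (rl_near h3 hs) (rl_near h4 hs) (abs_cos_le_one _)
      (abs_cos_le_one _) (abs_cos_le_one _) (rl_cos ht0 h1 hs) (rl_cos ht0 h2 hs)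
      (rl_cos ht0 h3 hs) (rl_cos ht0 h4 hs)
    have e : Real.exp (-2 * s ^ 2) = Real.exp (-s ^ 2) * Real.exp (-s ^ 2) := by
      rw [← Real.exp_add]; congr 1; ring
    have hc := cube_le_exp s
    have hc2 : |s| ^ 3 * Real.exp (-s ^ 2) ≤ 1 := by
      rw [Real.exp_neg, ← div_eq_mul_inv, div_le_one (Real.exp_pos _)]
      exact hc
    calc _ ≤ Real.exp (-2 * s ^ 2) * (6 * (2 / 5 * |s| ^ 3 / t)) := by gcongr
      _ = 12 / 5 / t * (|s| ^ 3 * Real.exp (-s ^ 2)) * Real.exp (-s ^ 2) := by rw [e]; ring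
      _ ≤ 12 / 5 / t * 1 * Real.exp (-s ^ 2) := by gcongr
      _ ≤ 160000000 / t * 1 * Real.exp (-s ^ 2) := by gcongr; norm_num
      _ = _ := by ring
  · have f1 := rl_far ht g1 s
    have f2 := rl_far ht g2 s
    have f3 := rl_far ht g3 s
    have f4 := rl_far ht g4 s
    have hx : |rl k1 s * rl k2 s * rl k3 s * rl k4 s| ≤ 625 * t ^ 8 := by
      simp only [abs_mul]
      calc |rl k1 s| * |rl k2 s| * |rl k3 s| * |rl k4 s| ≤
          (5 * t ^ 2) * (5 * t ^ 2) * (5 * t ^ 2) * (5 * t ^ 2) := by gcongr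
        _ = _ := by ring
    have hc : |cos (kap (2 * k1) * s) * cos (kap (2 * k2) * s) * cos (kap (2 * k3) * s) *
        cos (kap (2 * k4) * s)| ≤ 1 := by
      simp only [abs_mul]
      calc _ ≤ (1 : ℝ) * 1 * 1 * 1 := by
            gcongr <;> exact abs_cos_le_one _
        _ = 1 := by norm_num
    have ht8 : 1 ≤ t ^ 8 := one_le_pow₀ ht
    have hd : |rl k1 s * rl k2 s * rl k3 s * rl k4 s -
      cos (kap (2 * k1) * s) * cos (kap (2 * k2) * s) * cos (kap (2 * k3) * s) *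
        cos (kap (2 * k4) * s)| ≤ 1250 * t ^ 8 := by
      refine (abs_sub _ _).trans ?_
      linarith
    have e : Real.exp (-2 * s ^ 2) ≤ Real.exp (-t ^ 2 / 4) * Real.exp (-s ^ 2) := by
      rw [← Real.exp_add]
      apply Real.exp_le_exp.2
      have : (t / 2) ^ 2 ≤ s ^ 2 := by
        rw [← sq_abs s]; gcongr
      linarith
    have hb := exp_bound ht
    calc _ ≤ (Real.exp (-t ^ 2 / 4) * Real.exp (-s ^ 2)) * (1250 * t ^ 8) := by gcongr
      _ = 1250 * (t ^ 8 * Real.exp (-t ^ 2 / 4)) * Real.exp (-s ^ 2) := by ring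
      _ ≤ 1250 * (122880 / t) * Real.exp (-s ^ 2) := by gcongr
      _ = 153600000 / t * Real.exp (-s ^ 2) := by ring
      _ ≤ 160000000 / t * Real.exp (-s ^ 2) := by gcongr; norm_num

/-- product of the values at the origin -/
def P4 (k1 k2 k3 k4 : ℕ) : ℝ := hf (2 * k1) 0 * hf (2 * k2) 0 * hf (2 * k3) 0 * hf (2 * k4) 0

theorem P4_ne (k1 k2 k3 k4 : ℕ) : P4 k1 k2 k3 k4 ≠ 0 := by
  unfold P4
  have := hf_zero_ne
  exact mul_ne_zero (mul_ne_zero (mul_ne_zero (this _) (this _)) (this _)) (this _)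

theorem GI_approx {k1 k2 k3 k4 : ℕ} {t : ℝ} (ht : 1 ≤ t)
    (h1 : t ≤ kap (2 * k1)) (h2 : t ≤ kap (2 * k2)) (h3 : t ≤ kap (2 * k3)) (h4 : t ≤ kap (2 * k4))
    (g1 : kap (2 * k1) ≤ 2 * t) (g2 : kap (2 * k2) ≤ 2 * t) (g3 : kap (2 * k3) ≤ 2 * t)
    (g4 : kap (2 * k4) ≤ 2 * t) :
    |GI (2 * k1) (2 * k2) (2 * k3) (2 * k4) / P4 k1 k2 k3 k4 -
      J4 (kap (2 * k1)) (kap (2 * k2)) (kap (2 * k3)) (kap (2 * k4))| ≤ 320000000 / t := by
  have ht0 : 0 < t := by linarith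
  have e1 : GI (2 * k1) (2 * k2) (2 * k3) (2 * k4) / P4 k1 k2 k3 k4 =
      ∫ s : ℝ, Real.exp (-2 * s ^ 2) * (rl k1 s * rl k2 s * rl k3 s * rl k4 s) := by
    unfold GI
    rw [← integral_div]
    congr 1
    ext s
    unfold rl P4
    have n1 := hf_zero_ne k1
    have n2 := hf_zero_ne k2
    have n3 := hf_zero_ne k3
    have n4 := hf_zero_ne k4
    field_simp
  have i1 : Integrable (fun s : ℝ => Real.exp (-2 * s ^ 2) * (rl k1 s * rl k2 s * rl k3 s * rl k4 s)) := by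
    refine ((GI_integrable (2 * k1) (2 * k2) (2 * k3) (2 * k4)).div_const (P4 k1 k2 k3 k4)).congr
      (Eventually.of_forall fun s => ?_)
    unfold rl P4
    have n1 := hf_zero_ne k1
    have n2 := hf_zero_ne k2
    have n3 := hf_zero_ne k3
    have n4 := hf_zero_ne k4
    field_simp
  have i0 : Integrable (fun s : ℝ => Real.exp (-2 * s ^ 2)) := integrable_exp_neg_mul_sq (by norm_num)
  have i2 : Integrable (fun s : ℝ => Real.exp (-2 * s ^ 2) * (cos (kap (2 * k1) * s) *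
      cos (kap (2 * k2) * s) * cos (kap (2 * k3) * s) * cos (kap (2 * k4) * s))) := by
    refine i0.mono' (by fun_prop) (Eventually.of_forall fun s => ?_)
    rw [norm_mul, Real.norm_of_nonneg (Real.exp_pos _).le]
    refine mul_le_of_le_one_right (Real.exp_pos _).le ?_
    rw [Real.norm_eq_abs]
    simp only [abs_mul]
    calc _ ≤ (1 : ℝ) * 1 * 1 * 1 := by
          gcongr <;> exact abs_cos_le_one _
      _ = 1 := by norm_num
  rw [e1, J4, ← integral_sub i1 i2, ← Real.norm_eq_abs]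
  have i3 : Integrable (fun s : ℝ => 160000000 / t * Real.exp (-s ^ 2)) := by
    have := integrable_exp_neg_mul_sq (b := 1) (by norm_num)
    refine (this.const_mul (160000000 / t)).congr (Eventually.of_forall fun s => ?_)
    simp
  refine (norm_integral_le_of_norm_le i3 (Eventually.of_forall fun s => ?_)).trans ?_
  · rw [← mul_sub, norm_mul, Real.norm_of_nonneg (Real.exp_pos _).le, Real.norm_eq_abs]
    exact point_bound ht h1 h2 h3 h4 g1 g2 g3 g4 s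
  · rw [integral_const_mul]
    have : ∫ s : ℝ, Real.exp (-s ^ 2) = √π := by
      have := integral_gaussian 1
      simpa using this
    rw [this]
    have hp : √π ≤ 2 := by
      rw [Real.sqrt_le_left (by norm_num)]
      linarith [Real.pi_lt_four]
    calc 160000000 / t * √π ≤ 160000000 / t * 2 := by gcongr
      _ = _ := by ring

/-- lower bound for the resonant integrals -/
theorem GI_diag_ge {k1 k2 : ℕ} {t : ℝ} (ht : 1 ≤ t) (h1 : t ≤ kap (2 * k1)) (h2 : t ≤ kap (2 * k2))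
    (g1 : kap (2 * k1) ≤ 2 * t) (g2 : kap (2 * k2) ≤ 2 * t) :
    (3 / 10 - 320000000 / t) * P4 k1 k2 k1 k2 ≤ GI (2 * k1) (2 * k2) (2 * k1) (2 * k2) := by
  have h := GI_approx ht h1 h2 h1 h2 g1 g2 g1 g2
  have hJ := J4_diag_ge (kap (2 * k1)) (kap (2 * k2))
  have hP : 0 < P4 k1 k2 k1 k2 := by
    unfold P4
    have n1 := hf_zero_ne k1
    have n2 := hf_zero_ne k2
    have : hf (2 * k1) 0 * hf (2 * k2) 0 * hf (2 * k1) 0 * hf (2 * k2) 0 =
      (hf (2 * k1) 0 * hf (2 * k2) 0) ^ 2 := by ring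
    rw [this]
    positivity
  have hs : (6 / 5 : ℝ) ≤ √(π / 2) := by
    apply Real.le_sqrt_of_sq_le
    linarith [Real.pi_gt_d2]
  rw [abs_le] at h
  have h3 : 3 / 10 - 320000000 / t ≤ GI (2 * k1) (2 * k2) (2 * k1) (2 * k2) / P4 k1 k2 k1 k2 := by
    linarith [h.1]
  rwa [le_div_iff₀ hP] at h3

/-- upper bound in general -/
theorem GI_le {k1 k2 k3 k4 : ℕ} {t : ℝ} (ht : 1 ≤ t)
    (h1 : t ≤ kap (2 * k1)) (h2 : t ≤ kap (2 * k2)) (h3 : t ≤ kap (2 * k3)) (h4 : t ≤ kap (2 * k4))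
    (g1 : kap (2 * k1) ≤ 2 * t) (g2 : kap (2 * k2) ≤ 2 * t) (g3 : kap (2 * k3) ≤ 2 * t)
    (g4 : kap (2 * k4) ≤ 2 * t) :
    |GI (2 * k1) (2 * k2) (2 * k3) (2 * k4)| ≤ (2 + 320000000 / t) * |P4 k1 k2 k3 k4| := by
  have h := GI_approx ht h1 h2 h3 h4 g1 g2 g3 g4
  have hP := abs_pos.2 (P4_ne k1 k2 k3 k4)
  have hJ := J4_le_one (kap (2 * k1)) (kap (2 * k2)) (kap (2 * k3)) (kap (2 * k4))
  have hJ0 := J4_nonneg (kap (2 * k1)) (kap (2 * k2)) (kap (2 * k3)) (kap (2 * k4))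
  have hs : √(π / 2) ≤ 2 := by
    rw [Real.sqrt_le_left (by norm_num)]
    linarith [Real.pi_lt_four]
  rw [← div_le_iff₀ hP, ← abs_div]
  rw [abs_le] at h ⊢
  constructor <;> linarith [h.1, h.2]

/-- upper bound in the separated case -/
theorem GI_le_sep {k1 k2 k3 k4 : ℕ} {t K : ℝ} (ht : 1 ≤ t) (hK : 1 ≤ K) (hKt : K ≤ t)
    (h1 : t ≤ kap (2 * k1)) (h2 : t ≤ kap (2 * k2)) (h3 : t ≤ kap (2 * k3)) (h4 : t ≤ kap (2 * k4))
    (g1 : kap (2 * k1) ≤ 2 * t) (g2 : kap (2 * k2) ≤ 2 * t) (g3 : kap (2 * k3) ≤ 2 * t)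
    (g4 : kap (2 * k4) ≤ 2 * t)
    (hS : Sep K (kap (2 * k1)) (kap (2 * k2)) (kap (2 * k3)) (kap (2 * k4))) :
    |GI (2 * k1) (2 * k2) (2 * k3) (2 * k4)| ≤ 320000016 / K * |P4 k1 k2 k3 k4| := by
  have h := GI_approx ht h1 h2 h3 h4 g1 g2 g3 g4
  have hP := abs_pos.2 (P4_ne k1 k2 k3 k4)
  have hK0 : 0 < K := by linarith
  have hJ := J4_le_of_sep hK0.le hS
  have hJ0 := J4_nonneg (kap (2 * k1)) (kap (2 * k2)) (kap (2 * k3)) (kap (2 * k4))
  have hs : √(π / 2) ≤ 2 := by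
    rw [Real.sqrt_le_left (by norm_num)]
    linarith [Real.pi_lt_four]
  have he : Real.exp (-K ^ 2 / 8) ≤ 8 / K := by
    have h5 := Real.add_one_le_exp (K ^ 2 / 8)
    have e1 : Real.exp (-K ^ 2 / 8) = 1 / Real.exp (K ^ 2 / 8) := by
      rw [one_div, ← Real.exp_neg]; congr 1; ring
    rw [e1, div_le_div_iff₀ (Real.exp_pos _) hK0]
    nlinarith
  have h6 : √(π / 2) * Real.exp (-K ^ 2 / 8) ≤ 2 * (8 / K) := by gcongr
  have h7 : 320000000 / t ≤ 320000000 / K := by gcongr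
  rw [← div_le_iff₀ hP, ← abs_div]
  have e2 : 320000016 / K = 320000000 / K + 2 * (8 / K) := by ring
  rw [e2]
  rw [abs_le] at h ⊢
  constructor <;> linarith [h.1, h.2]

end Crest.Agent.R338.HK
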