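import Crest.Agent.R338.HK4
import Crest.Agent.R338.Bridge

/-!
Row 338 (S0529), node HK: the site frequencies: windows and separation (Sidon property).
-/

set_option autoImplicit false

open MeasureTheory Set Real Filter
open scoped Topology

noncomputable section
namespace Crest.Agent.R338.HK
open Crest.Agent.R338 (Yn nu mi n0' site vhop Mhop w1 Idx)

theorem Yn_pos {n : ℕ} (hn : 0 < n) : 0 < Yn n := by unfold Yn; positivity

theorem le_nu (n i : ℕ) : Yn n ≤ nu n i := by unfold nu; omega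

theorem nu_le {n i : ℕ} (hi : i < n) : 4 * nu n i ≤ 5 * Yn n := by
  unfold nu Yn
  nlinarith [Nat.mul_le_mul_left (n ^ 2) (Nat.succ_le_of_lt hi), Nat.mul_le_mul hi.le hi.le,
    Nat.mul_le_mul_left (16 * n ^ 2) hi.le, sq_nonneg (n : ℤ)]

/-- Sidon property -/
theorem nu_sidon {n i j k l : ℕ} (hi : i < n) (hj : j < n) (hk : k < n) (hl : l < n)
    (h : nu n i + nu n j = nu n k + nu n l) : (i = k ∧ j = l) ∨ (i = l ∧ j = k) := by
  have h1 : 4 * n ^ 2 * (i + j) + (i ^ 2 + j ^ 2) = 4 * n ^ 2 * (k + l) + (k ^ 2 + l ^ 2) := by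
    unfold nu at h; linarith
  have b1 : i ^ 2 + j ^ 2 < 4 * n ^ 2 := by nlinarith
  have b2 : k ^ 2 + l ^ 2 < 4 * n ^ 2 := by nlinarith
  have hs : i + j = k + l := by
    by_contra hne
    rcases Nat.lt_or_gt_of_ne hne with hlt | hlt
    · have : 4 * n ^ 2 * (i + j + 1) ≤ 4 * n ^ 2 * (k + l) := Nat.mul_le_mul_left _ hlt
      nlinarith
    · have : 4 * n ^ 2 * (k + l + 1) ≤ 4 * n ^ 2 * (i + j) := Nat.mul_le_mul_left _ hlt
      nlinarith
  have hq : i ^ 2 + j ^ 2 = k ^ 2 + l ^ 2 := by rw [hs] at h1; omega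
  have hp : ((i : ℤ) - k) * ((i : ℤ) - l) = 0 := by
    have e1 : (i : ℤ) + j = k + l := by exact_mod_cast hs
    have e2 : (i : ℤ) ^ 2 + j ^ 2 = k ^ 2 + l ^ 2 := by exact_mod_cast hq
    have e3 : (j : ℤ) = k + l - i := by linarith
    rw [e3] at e2
    nlinarith
  rcases mul_eq_zero.1 hp with h0 | h0
  · left; constructor <;> omega
  · right; constructor <;> omega

/-- half of `m_i` -/
def ki (n k i : ℕ) : ℕ := (k ^ 3 * nu n i) ^ 2

/-- half of `m'_i = n0 - m_i` -/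
def ki' (n k i : ℕ) : ℕ := (k ^ 3) ^ 2 * (8 * Yn n ^ 2 - nu n i ^ 2)

theorem mi_eq (n k i : ℕ) : mi n k i = 2 * ki n k i := rfl

theorem nu_sq_le {n i : ℕ} (hi : i < n) : 16 * nu n i ^ 2 ≤ 25 * Yn n ^ 2 := by
  have h := nu_le hi
  have h2 : (4 * nu n i) ^ 2 ≤ (5 * Yn n) ^ 2 := Nat.pow_le_pow_left h 2
  nlinarith

theorem mi'_eq (n k : ℕ) {i : ℕ} (hi : i < n) : n0' n k - mi n k i = 2 * ki' n k i := by
  unfold n0' mi ki'
  have h4 : nu n i ^ 2 ≤ 8 * Yn n ^ 2 := by have := nu_sq_le hi; omega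
  obtain ⟨d, hd⟩ := Nat.exists_eq_add_of_le h4
  have e : 8 * Yn n ^ 2 - nu n i ^ 2 = d := by omega
  rw [e]
  have : 16 * (k ^ 3) ^ 2 * Yn n ^ 2 = 2 * (k ^ 3 * nu n i) ^ 2 + 2 * ((k ^ 3) ^ 2 * d) := by
    calc 16 * (k ^ 3) ^ 2 * Yn n ^ 2 = 2 * (k ^ 3) ^ 2 * (8 * Yn n ^ 2) := by ring
      _ = 2 * (k ^ 3) ^ 2 * (nu n i ^ 2 + d) := by rw [hd]
      _ = _ := by ring
  omega

/-- `t = 2 K Y` -/
def tS (n k : ℕ) : ℝ := 2 * (k : ℝ) ^ 3 * Yn n

theorem one_le_Yn {n : ℕ} (hn : 0 < n) : (1 : ℝ) ≤ Yn n := by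
  have := Yn_pos hn
  exact_mod_cast this

theorem le_tS {n k : ℕ} (hn : 0 < n) (hk : 0 < k) : (k : ℝ) ^ 3 ≤ tS n k := by
  unfold tS
  have h1 := one_le_Yn hn
  have h2 : (0 : ℝ) ≤ (k : ℝ) ^ 3 := by positivity
  nlinarith

theorem one_le_k3 {k : ℕ} (hk : 0 < k) : (1 : ℝ) ≤ (k : ℝ) ^ 3 := by
  have : (1 : ℝ) ≤ k := by exact_mod_cast hk
  exact one_le_pow₀ this

theorem kap_ki_sq (n k i : ℕ) : kap (2 * ki n k i) ^ 2 = (2 * ((k : ℝ) ^ 3 * nu n i)) ^ 2 + 1 := by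
  rw [kap_sq]
  unfold ki
  push_cast
  ring

theorem kap_ki_ge (n k i : ℕ) : 2 * ((k : ℝ) ^ 3 * nu n i) ≤ kap (2 * ki n k i) := by
  have h := kap_ki_sq n k i
  have h2 := kap_pos (2 * ki n k i)
  nlinarith

theorem kap_ki_le {n k i : ℕ} (hn : 0 < n) (hk : 0 < k) :
    kap (2 * ki n k i) ≤ 2 * ((k : ℝ) ^ 3 * nu n i) + 1 / 4 := by
  have h := kap_ki_sq n k i
  have h2 := kap_pos (2 * ki n k i)
  have h3 : (1 : ℝ) ≤ (k : ℝ) ^ 3 := one_le_k3 hk
  have h4 : (Yn n : ℝ) ≤ nu n i := by exact_mod_cast le_nu n i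
  have h5 := one_le_Yn hn
  have h6 : (16 : ℝ) ≤ Yn n := by
    have : 16 ≤ Yn n := by
      unfold Yn
      have : 1 ≤ n ^ 3 := Nat.one_le_pow _ _ hn
      nlinarith
    exact_mod_cast this
  have h7 : (16 : ℝ) ≤ (k : ℝ) ^ 3 * nu n i := by nlinarith
  by_contra hc
  push Not at hc
  nlinarith

theorem win1 {n k i : ℕ} (hn : 0 < n) (hk : 0 < k) (hi : i < n) :
    tS n k ≤ kap (2 * ki n k i) ∧ kap (2 * ki n k i) ≤ 2 * tS n k := by
  have h1 := kap_ki_ge n k i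
  have h2 := kap_ki_le (i := i) hn hk
  have h3 : (1 : ℝ) ≤ (k : ℝ) ^ 3 := one_le_k3 hk
  have h4 : (Yn n : ℝ) ≤ nu n i := by exact_mod_cast le_nu n i
  have h5 := one_le_Yn hn
  have h6 : (4 : ℝ) * nu n i ≤ 5 * Yn n := by exact_mod_cast nu_le hi
  unfold tS
  constructor
  · nlinarith
  · have : (k : ℝ) ^ 3 * nu n i ≤ (k : ℝ) ^ 3 * (5 / 4 * Yn n) := by
      apply mul_le_mul_of_nonneg_left _ (by positivity); linarith
    nlinarith

theorem kap_ki'_sq {n k i : ℕ} (hi : i < n) :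
    kap (2 * ki' n k i) ^ 2 = 4 * ((k : ℝ) ^ 3) ^ 2 * (8 * (Yn n : ℝ) ^ 2 - (nu n i : ℝ) ^ 2) + 1 := by
  rw [kap_sq]
  unfold ki'
  have h4 : nu n i ^ 2 ≤ 8 * Yn n ^ 2 := by have := nu_sq_le hi; omega
  push_cast [Nat.cast_sub h4]
  ring

theorem win2 {n k i : ℕ} (hn : 0 < n) (hk : 0 < k) (hi : i < n) :
    2 * tS n k ≤ kap (2 * ki' n k i) ∧ kap (2 * ki' n k i) ≤ 2 * (2 * tS n k) := by
  have h := kap_ki'_sq (k := k) hi
  have h0 := kap_pos (2 * ki' n k i)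
  have h3 : (1 : ℝ) ≤ (k : ℝ) ^ 3 := one_le_k3 hk
  have h4 : (Yn n : ℝ) ≤ nu n i := by exact_mod_cast le_nu n i
  have h5 := one_le_Yn hn
  have h6 : (16 : ℝ) * (nu n i : ℝ) ^ 2 ≤ 25 * (Yn n : ℝ) ^ 2 := by exact_mod_cast nu_sq_le hi
  have h7 : (Yn n : ℝ) ^ 2 ≤ (nu n i : ℝ) ^ 2 := by gcongr
  have hK : (1 : ℝ) ≤ ((k : ℝ) ^ 3) ^ 2 := one_le_pow₀ h3
  have hY : (1 : ℝ) ≤ (Yn n : ℝ) ^ 2 := one_le_pow₀ h5
  have hKY : (1 : ℝ) ≤ ((k : ℝ) ^ 3) ^ 2 * (Yn n : ℝ) ^ 2 := by nlinarith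
  unfold tS
  constructor
  · have e : (2 * (2 * (k : ℝ) ^ 3 * Yn n)) ^ 2 ≤ kap (2 * ki' n k i) ^ 2 := by
      rw [h]
      have : ((k : ℝ) ^ 3) ^ 2 * (8 * (Yn n : ℝ) ^ 2 - (nu n i : ℝ) ^ 2) ≥
          ((k : ℝ) ^ 3) ^ 2 * (103 / 16 * (Yn n : ℝ) ^ 2) := by
        apply mul_le_mul_of_nonneg_left _ (by positivity); linarith
      nlinarith
    exact abs_le_of_sq_le_sq' e h0.le |>.2
  · have e : kap (2 * ki' n k i) ^ 2 ≤ (2 * (2 * (2 * (k : ℝ) ^ 3 * Yn n))) ^ 2 := by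
      rw [h]
      have : ((k : ℝ) ^ 3) ^ 2 * (8 * (Yn n : ℝ) ^ 2 - (nu n i : ℝ) ^ 2) ≤
          ((k : ℝ) ^ 3) ^ 2 * (7 * (Yn n : ℝ) ^ 2) := by
        apply mul_le_mul_of_nonneg_left _ (by positivity); linarith
      nlinarith
    exact abs_le_of_sq_le_sq' e (by positivity) |>.2

theorem sep_aux {K d x : ℝ} {N : ℤ} (hK : 1 ≤ K) (hN : N ≠ 0) (hd : |d| ≤ 1)
    (hx : x = 2 * K * N + d) : K ≤ |x| := by
  have h1 : (1 : ℝ) ≤ |(N : ℝ)| := by
    have := Int.one_le_abs hN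
    exact_mod_cast this
  have h2 : |2 * K * (N : ℝ)| - |d| ≤ |x| := by
    rw [hx]
    have := abs_sub_abs_le_abs_sub (2 * K * (N : ℝ)) (-d)
    rw [abs_neg, sub_neg_eq_add] at this
    exact this
  rw [abs_mul, abs_of_pos (by linarith : (0 : ℝ) < 2 * K)] at h2
  nlinarith

/-- separation of the frequencies for different pairs -/
theorem sep_sites {n k i j a b : ℕ} (hn : 0 < n) (hk : 0 < k) (hi : i < n) (hj : j < n)
    (ha : a < n) (hb : b < n) (hij : i ≠ j) (h1 : ¬ (i = a ∧ j = b)) (h2 : ¬ (i = b ∧ j = a)) :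
    Sep ((k : ℝ) ^ 3) (kap (2 * ki n k i)) (kap (2 * ki n k j)) (kap (2 * ki n k a))
      (kap (2 * ki n k b)) := by
  have hK := one_le_k3 hk
  have hY := Yn_pos hn
  have w := fun i => le_nu n i
  have u := fun {i} (hi : i < n) => nu_le hi
  have wi := w i; have wj := w j; have wa := w a; have wb := w b
  have ui := u hi; have uj := u hj; have ua := u ha; have ub := u hb
  -- remainders
  set δ : ℕ → ℝ := fun i => kap (2 * ki n k i) - 2 * ((k : ℝ) ^ 3 * nu n i) with hδ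
  have d0 : ∀ i, 0 ≤ δ i := fun i => by have := kap_ki_ge n k i; simp only [hδ]; linarith
  have d1 : ∀ i, δ i ≤ 1 / 4 := fun i => by
    have := kap_ki_le (i := i) hn hk; simp only [hδ]; linarith
  have e : ∀ i, kap (2 * ki n k i) = 2 * (k : ℝ) ^ 3 * nu n i + δ i := fun i => by
    simp only [hδ]; ring
  have di0 := d0 i; have dj0 := d0 j; have da0 := d0 a; have db0 := d0 b
  have di1 := d1 i; have dj1 := d1 j; have da1 := d1 a; have db1 := d1 b
  rw [e i, e j, e a, e b]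
  refine ⟨?_, ?_, ?_, ?_, ?_, ?_, ?_, ?_⟩
  · refine sep_aux (N := nu n i + nu n j + nu n a + nu n b) (d := δ i + δ j + δ a + δ b) hK
      (by omega) (abs_le.2 ⟨by linarith, by linarith⟩) (by push_cast; ring)
  · refine sep_aux (N := nu n i + nu n j + nu n a - nu n b) (d := δ i + δ j + δ a - δ b) hK
      (by omega) (abs_le.2 ⟨by linarith, by linarith⟩) (by push_cast; ring)
  · refine sep_aux (N := nu n i + nu n j - nu n a + nu n b) (d := δ i + δ j - δ a + δ b) hK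
      (by omega) (abs_le.2 ⟨by linarith, by linarith⟩) (by push_cast; ring)
  · refine sep_aux (N := nu n i + nu n j - nu n a - nu n b) (d := δ i + δ j - δ a - δ b) hK
      ?_ (abs_le.2 ⟨by linarith, by linarith⟩) (by push_cast; ring)
    intro h0
    have h3 : nu n i + nu n j = nu n a + nu n b := by omega
    rcases nu_sidon hi hj ha hb h3 with h | h
    · exact h1 h
    · exact h2 h
  · refine sep_aux (N := nu n i - nu n j + nu n a + nu n b) (d := δ i - δ j + δ a + δ b) hK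
      (by omega) (abs_le.2 ⟨by linarith, by linarith⟩) (by push_cast; ring)
  · refine sep_aux (N := nu n i - nu n j + nu n a - nu n b) (d := δ i - δ j + δ a - δ b) hK
      ?_ (abs_le.2 ⟨by linarith, by linarith⟩) (by push_cast; ring)
    intro h0
    have h3 : nu n i + nu n a = nu n j + nu n b := by omega
    rcases nu_sidon hi ha hj hb h3 with h | h
    · exact hij h.1
    · exact h2 ⟨h.1, h.2.symm⟩
  · refine sep_aux (N := nu n i - nu n j - nu n a + nu n b) (d := δ i - δ j - δ a + δ b) hK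
      ?_ (abs_le.2 ⟨by linarith, by linarith⟩) (by push_cast; ring)
    intro h0
    have h3 : nu n i + nu n b = nu n j + nu n a := by omega
    rcases nu_sidon hi hb hj ha h3 with h | h
    · exact hij h.1
    · exact h1 ⟨h.1, h.2.symm⟩
  · refine sep_aux (N := nu n i - nu n j - nu n a - nu n b) (d := δ i - δ j - δ a - δ b) hK
      (by omega) (abs_le.2 ⟨by linarith, by linarith⟩) (by push_cast; ring)

end Crest.Agent.R338.HK
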