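import Crest.Agent.R338.HK5

/-!
Row 338 (S0529), node HK: the hopping matrix `Mhop` (blueprint D.11).
-/

set_option autoImplicit false

open MeasureTheory Set Real Filter
open scoped Topology

noncomputable section
namespace Crest.Agent.R338.HK
open Crest.Agent.R338 (Yn nu mi n0' site vhop Mhop w1 Idx)

theorem integral_prod3 (F : Fin 3 → ℝ → ℝ) :
    ∫ x : EuclideanSpace ℝ (Fin 3), F 0 (x 0) * F 1 (x 1) * F 2 (x 2) =
      (∫ s, F 0 s) * (∫ s, F 1 s) * (∫ s, F 2 s) := by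
  have h1 := (EuclideanSpace.volume_preserving_symm_measurableEquiv_toLp (Fin 3)).symm
  rw [← h1.integral_comp (MeasurableEquiv.measurableEmbedding _)]
  have h2 := integral_fintype_prod_eq_prod (μ := fun _ : Fin 3 => (volume : Measure ℝ)) F
  rw [Fin.prod_univ_three] at h2
  rw [← h2]
  simp only [Fin.prod_univ_three]
  rfl

theorem Mhop_eq (n k i j a b : ℕ) : Mhop n k i j a b =
    GI (mi n k i) (mi n k j) (mi n k a) (mi n k b) *
    GI (n0' n k - mi n k i) (n0' n k - mi n k j) (n0' n k - mi n k a) (n0' n k - mi n k b) := by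
  have hh : ∫ s, HO.hf 0 s * HO.hf 0 s = 1 := HO.integral_hf_zero_sq
  unfold Mhop
  rw [w1_eq]
  have e : ∀ x : EuclideanSpace ℝ (Fin 3), vhop n k i j x *
      (HO.Phi (site n k a) x * HO.Phi (site n k b) x) =
      (Real.exp (-2 * (x 0) ^ 2) * (HO.hf (mi n k i) (x 0) * HO.hf (mi n k j) (x 0) *
        HO.hf (mi n k a) (x 0) * HO.hf (mi n k b) (x 0))) *
      (Real.exp (-2 * (x 1) ^ 2) * (HO.hf (n0' n k - mi n k i) (x 1) * HO.hf (n0' n k - mi n k j) (x 1) *
        HO.hf (n0' n k - mi n k a) (x 1) * HO.hf (n0' n k - mi n k b) (x 1))) *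
      (HO.hf 0 (x 2) * HO.hf 0 (x 2)) := by
    intro x
    unfold vhop HO.Phi
    rw [Fin.prod_univ_three, Fin.prod_univ_three, hf_eq']
    simp only [site, Matrix.cons_val_zero, Matrix.cons_val_one, Matrix.cons_val]
    ring
  simp_rw [e]
  have h := integral_prod3 ![fun s => Real.exp (-2 * s ^ 2) * (HO.hf (mi n k i) s * HO.hf (mi n k j) s *
        HO.hf (mi n k a) s * HO.hf (mi n k b) s),
      fun s => Real.exp (-2 * s ^ 2) * (HO.hf (n0' n k - mi n k i) s * HO.hf (n0' n k - mi n k j) s *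
        HO.hf (n0' n k - mi n k a) s * HO.hf (n0' n k - mi n k b) s),
      fun s => HO.hf 0 s * HO.hf 0 s]
  simp only [Matrix.cons_val_zero, Matrix.cons_val_one, Matrix.cons_val] at h
  rw [h, hh, mul_one]
  rfl

/-- weight of a site: `h_{m_i}(0) h_{m'_i}(0)` -/
def Dp (n k i : ℕ) : ℝ := HO.hf (mi n k i) 0 * HO.hf (n0' n k - mi n k i) 0

theorem Dp_sq_le {n k i : ℕ} (hn : 0 < n) (hk : 0 < k) (hi : i < n) :
    Dp n k i ^ 2 ≤ 1 / (2 * tS n k ^ 2) := by
  unfold Dp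
  rw [mi'_eq n k hi, mi_eq, mul_pow]
  have h1 := hf_zero_sq_le (ki n k i)
  have h2 := hf_zero_sq_le (ki' n k i)
  have w1 := (win1 hn hk hi).1
  have w2 := (win2 hn hk hi).1
  have ht : 0 < tS n k := by
    have := le_tS hn hk; have := one_le_k3 hk; linarith
  have p1 := kap_pos (2 * ki n k i)
  have p2 := kap_pos (2 * ki' n k i)
  calc _ ≤ (1 / kap (2 * ki n k i)) * (1 / kap (2 * ki' n k i)) := by gcongr
    _ ≤ (1 / tS n k) * (1 / (2 * tS n k)) := by gcongr
    _ = _ := by field_simp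

theorem le_Dp_sq {n k i : ℕ} (hn : 0 < n) (hk : 0 < k) (hi : i < n) :
    1 / (32 * tS n k ^ 2) ≤ Dp n k i ^ 2 := by
  unfold Dp
  rw [mi'_eq n k hi, mi_eq, mul_pow]
  have h1 := le_hf_zero_sq (ki n k i)
  have h2 := le_hf_zero_sq (ki' n k i)
  have w1 := (win1 hn hk hi).2
  have w2 := (win2 hn hk hi).2
  have ht : 0 < tS n k := by
    have := le_tS hn hk; have := one_le_k3 hk; linarith
  have p1 := kap_pos (2 * ki n k i)
  have p2 := kap_pos (2 * ki' n k i)
  calc 1 / (32 * tS n k ^ 2) = (1 / (2 * (2 * tS n k))) * (1 / (2 * (2 * (2 * tS n k)))) := by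
        field_simp; norm_num
    _ ≤ (1 / (2 * kap (2 * ki n k i))) * (1 / (2 * kap (2 * ki' n k i))) := by gcongr
    _ ≤ _ := by gcongr

theorem Dp_ne {n k i : ℕ} (hn : 0 < n) (hk : 0 < k) (hi : i < n) : Dp n k i ≠ 0 := by
  intro h
  have := le_Dp_sq hn hk hi
  rw [h] at this
  have ht : 0 < tS n k := by
    have := le_tS hn hk; have := one_le_k3 hk; linarith
  have h2 : 0 < 1 / (32 * tS n k ^ 2) := by positivity
  have h3 : (0 : ℝ) ^ 2 = 0 := by norm_num
  rw [h3] at this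
  linarith

theorem P4_mul (n k : ℕ) {i j a b : ℕ} (hi : i < n) (hj : j < n) (ha : a < n) (hb : b < n) :
    P4 (ki n k i) (ki n k j) (ki n k a) (ki n k b) * P4 (ki' n k i) (ki' n k j) (ki' n k a)
      (ki' n k b) = Dp n k i * Dp n k j * (Dp n k a * Dp n k b) := by
  unfold P4 Dp
  rw [mi'_eq n k hi, mi'_eq n k hj, mi'_eq n k ha, mi'_eq n k hb, mi_eq, mi_eq, mi_eq, mi_eq]
  ring

/-- size assumption on `k` -/
def Big (k : ℕ) : Prop := (10 : ℝ) ^ 11 ≤ (k : ℝ) ^ 3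

theorem Big.pos {k : ℕ} (h : Big k) : 0 < k := by
  rcases Nat.eq_zero_or_pos k with h0 | h0
  · subst h0; unfold Big at h; norm_num at h
  · exact h0

/-- diagonal entries of the hopping matrix -/
theorem Mhop_diag_ge {n k i j : ℕ} (hk : Big k) (hi : i < n) (hj : j < n) :
    1 / 16 * (Dp n k i * Dp n k j) ^ 2 ≤ Mhop n k i j i j := by
  have hn : 0 < n := by omega
  have hk0 := hk.pos
  have ht := le_tS hn hk0
  have hb : (10 : ℝ) ^ 11 ≤ tS n k := hk.trans ht
  have ht1 : 1 ≤ tS n k := le_trans (by norm_num) hb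
  have wi := win1 hn hk0 hi
  have wj := win1 hn hk0 hj
  have wi' := win2 hn hk0 hi
  have wj' := win2 hn hk0 hj
  have h1 := GI_diag_ge ht1 wi.1 wj.1 wi.2 wj.2
  have h2 := GI_diag_ge (t := 2 * tS n k) (by linarith) wi'.1 wj'.1 wi'.2 wj'.2
  rw [Mhop_eq, mi'_eq n k hi, mi'_eq n k hj, mi_eq, mi_eq]
  have hP := P4_mul n k hi hj hi hj
  have hp1 : 0 < P4 (ki n k i) (ki n k j) (ki n k i) (ki n k j) := by
    unfold P4
    have n1 := hf_zero_ne (ki n k i)
    have n2 := hf_zero_ne (ki n k j)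
    have : HO.hf (2 * ki n k i) 0 * HO.hf (2 * ki n k j) 0 * HO.hf (2 * ki n k i) 0 *
      HO.hf (2 * ki n k j) 0 = (HO.hf (2 * ki n k i) 0 * HO.hf (2 * ki n k j) 0) ^ 2 := by ring
    rw [this]; positivity
  have hp2 : 0 < P4 (ki' n k i) (ki' n k j) (ki' n k i) (ki' n k j) := by
    unfold P4
    have n1 := hf_zero_ne (ki' n k i)
    have n2 := hf_zero_ne (ki' n k j)
    have : HO.hf (2 * ki' n k i) 0 * HO.hf (2 * ki' n k j) 0 * HO.hf (2 * ki' n k i) 0 *
      HO.hf (2 * ki' n k j) 0 = (HO.hf (2 * ki' n k i) 0 * HO.hf (2 * ki' n k j) 0) ^ 2 := by ring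
    rw [this]; positivity
  have c1 : 320000000 / tS n k ≤ 1 / 25 := by
    rw [div_le_iff₀ (by linarith)]; linarith
  have c2 : 320000000 / (2 * tS n k) ≤ 1 / 25 := by
    rw [div_le_iff₀ (by linarith)]; linarith
  calc 1 / 16 * (Dp n k i * Dp n k j) ^ 2 = 1 / 16 * (P4 (ki n k i) (ki n k j) (ki n k i) (ki n k j) *
        P4 (ki' n k i) (ki' n k j) (ki' n k i) (ki' n k j)) := by rw [hP]; ring
    _ = (1 / 4 * P4 (ki n k i) (ki n k j) (ki n k i) (ki n k j)) *
        (1 / 4 * P4 (ki' n k i) (ki' n k j) (ki' n k i) (ki' n k j)) := by ring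
    _ ≤ ((3 / 10 - 320000000 / tS n k) * P4 (ki n k i) (ki n k j) (ki n k i) (ki n k j)) *
        ((3 / 10 - 320000000 / (2 * tS n k)) *
          P4 (ki' n k i) (ki' n k j) (ki' n k i) (ki' n k j)) := by
        have q1 : (1 / 4 : ℝ) ≤ 3 / 10 - 320000000 / tS n k := by linarith
        have q2 : (1 / 4 : ℝ) ≤ 3 / 10 - 320000000 / (2 * tS n k) := by linarith
        apply mul_le_mul
        · exact mul_le_mul_of_nonneg_right q1 hp1.le
        · exact mul_le_mul_of_nonneg_right q2 hp2.le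
        · positivity
        · exact mul_nonneg (by linarith) hp1.le
    _ ≤ _ := by
        apply mul_le_mul h1 h2
        · apply mul_nonneg _ hp2.le; linarith
        · exact le_trans (mul_nonneg (by linarith) hp1.le) h1

/-- general upper bound -/
theorem Mhop_le {n k i j a b : ℕ} (hk : Big k) (hi : i < n) (hj : j < n) (ha : a < n) (hb : b < n) :
    |Mhop n k i j a b| ≤ 5 * |Dp n k i * Dp n k j * (Dp n k a * Dp n k b)| := by
  have hn : 0 < n := by omega
  have hk0 := hk.pos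
  have ht := le_tS hn hk0
  have hbt : (10 : ℝ) ^ 11 ≤ tS n k := hk.trans ht
  have ht1 : 1 ≤ tS n k := le_trans (by norm_num) hbt
  have wi := win1 hn hk0 hi; have wj := win1 hn hk0 hj
  have wa := win1 hn hk0 ha; have wb := win1 hn hk0 hb
  have wi' := win2 hn hk0 hi; have wj' := win2 hn hk0 hj
  have wa' := win2 hn hk0 ha; have wb' := win2 hn hk0 hb
  have h1 := GI_le ht1 wi.1 wj.1 wa.1 wb.1 wi.2 wj.2 wa.2 wb.2
  have h2 := GI_le (t := 2 * tS n k) (by linarith) wi'.1 wj'.1 wa'.1 wb'.1 wi'.2 wj'.2 wa'.2 wb'.2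
  rw [Mhop_eq, mi'_eq n k hi, mi'_eq n k hj, mi'_eq n k ha, mi'_eq n k hb, mi_eq, mi_eq, mi_eq,
    mi_eq, ← P4_mul n k hi hj ha hb, abs_mul, abs_mul]
  have c1 : 320000000 / tS n k ≤ 1 / 25 := by
    rw [div_le_iff₀ (by linarith)]; linarith
  have c2 : 320000000 / (2 * tS n k) ≤ 1 / 25 := by
    rw [div_le_iff₀ (by linarith)]; linarith
  calc _ ≤ ((2 + 320000000 / tS n k) * |P4 (ki n k i) (ki n k j) (ki n k a) (ki n k b)|) *
      ((2 + 320000000 / (2 * tS n k)) * |P4 (ki' n k i) (ki' n k j) (ki' n k a) (ki' n k b)|) := by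
        gcongr
    _ ≤ ((2 + 1 / 25) * |P4 (ki n k i) (ki n k j) (ki n k a) (ki n k b)|) *
      ((2 + 1 / 25) * |P4 (ki' n k i) (ki' n k j) (ki' n k a) (ki' n k b)|) := by
        gcongr
    _ ≤ _ := by
        have := abs_nonneg (P4 (ki n k i) (ki n k j) (ki n k a) (ki n k b))
        have := abs_nonneg (P4 (ki' n k i) (ki' n k j) (ki' n k a) (ki' n k b))
        have := mul_nonneg (abs_nonneg (P4 (ki n k i) (ki n k j) (ki n k a) (ki n k b)))
          (abs_nonneg (P4 (ki' n k i) (ki' n k j) (ki' n k a) (ki' n k b)))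
        nlinarith

/-- off-diagonal entries: `{i,j} ≠ {a,b}`, `i ≠ j` (`a = b` allowed) -/
theorem Mhop_off {n k i j a b : ℕ} (hk : Big k) (hi : i < n) (hj : j < n) (ha : a < n) (hb : b < n)
    (hij : i ≠ j) (h1 : ¬ (i = a ∧ j = b)) (h2 : ¬ (i = b ∧ j = a)) :
    |Mhop n k i j a b| ≤ 10 ^ 9 / (k : ℝ) ^ 3 * |Dp n k i * Dp n k j * (Dp n k a * Dp n k b)| := by
  have hn : 0 < n := by omega
  have hk0 := hk.pos
  have ht := le_tS hn hk0
  have hbt : (10 : ℝ) ^ 11 ≤ tS n k := hk.trans ht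
  have ht1 : 1 ≤ tS n k := le_trans (by norm_num) hbt
  have wi := win1 hn hk0 hi; have wj := win1 hn hk0 hj
  have wa := win1 hn hk0 ha; have wb := win1 hn hk0 hb
  have wi' := win2 hn hk0 hi; have wj' := win2 hn hk0 hj
  have wa' := win2 hn hk0 ha; have wb' := win2 hn hk0 hb
  have hs := sep_sites hn hk0 hi hj ha hb hij h1 h2
  have g1 := GI_le_sep ht1 (one_le_k3 hk0) ht wi.1 wj.1 wa.1 wb.1 wi.2 wj.2 wa.2 wb.2 hs
  have g2 := GI_le (t := 2 * tS n k) (by linarith) wi'.1 wj'.1 wa'.1 wb'.1 wi'.2 wj'.2 wa'.2 wb'.2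
  rw [Mhop_eq, mi'_eq n k hi, mi'_eq n k hj, mi'_eq n k ha, mi'_eq n k hb, mi_eq, mi_eq, mi_eq,
    mi_eq, ← P4_mul n k hi hj ha hb, abs_mul, abs_mul]
  have c2 : 320000000 / (2 * tS n k) ≤ 1 / 25 := by
    rw [div_le_iff₀ (by linarith)]; linarith
  have hK0 : (0 : ℝ) < (k : ℝ) ^ 3 := by have := one_le_k3 hk0; linarith
  have hm := mul_nonneg (abs_nonneg (P4 (ki n k i) (ki n k j) (ki n k a) (ki n k b)))
          (abs_nonneg (P4 (ki' n k i) (ki' n k j) (ki' n k a) (ki' n k b)))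
  calc _ ≤ (320000016 / (k : ℝ) ^ 3 * |P4 (ki n k i) (ki n k j) (ki n k a) (ki n k b)|) *
      ((2 + 320000000 / (2 * tS n k)) * |P4 (ki' n k i) (ki' n k j) (ki' n k a) (ki' n k b)|) := by
        gcongr
    _ ≤ (320000016 / (k : ℝ) ^ 3 * |P4 (ki n k i) (ki n k j) (ki n k a) (ki n k b)|) *
      ((2 + 1 / 25) * |P4 (ki' n k i) (ki' n k j) (ki' n k a) (ki' n k b)|) := by
        gcongr
    _ = (320000016 * (2 + 1 / 25)) / (k : ℝ) ^ 3 *
        (|P4 (ki n k i) (ki n k j) (ki n k a) (ki n k b)| *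
          |P4 (ki' n k i) (ki' n k j) (ki' n k a) (ki' n k b)|) := by ring
    _ ≤ _ := by
        gcongr
        norm_num

end Crest.Agent.R338.HK
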