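import Crest.Agent.R338.HK6

/-!
Row 338 (S0529), node HK: the hopping matrix is row dominant; sizes (final form of D.11).
-/

set_option autoImplicit false

open MeasureTheory Set Real Filter
open scoped Topology

noncomputable section
namespace Crest.Agent.R338.HK
open Crest.Agent.R338 (Yn nu mi n0' site vhop Mhop w1 Idx)

theorem GI_swap (a b c d : ℕ) : GI a b c d = GI c d a b := by
  unfold GI
  congr 1
  ext s
  ring

theorem Mhop_symm (n k i j a b : ℕ) : Mhop n k i j a b = Mhop n k a b i j := by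
  rw [Mhop_eq, Mhop_eq, GI_swap, GI_swap (n0' n k - mi n k i)]

theorem Mhop_swap (n k i j a b : ℕ) : Mhop n k i j a b = Mhop n k i j b a := by
  rw [Mhop_eq, Mhop_eq]
  unfold GI
  congr 1 <;> congr 1 <;> ext s <;> ring

theorem n0'_eq (n k : ℕ) : (n0' n k : ℝ) = 4 * tS n k ^ 2 := by
  unfold n0' tS
  push_cast
  ring

theorem abs_Dp_mul_le {n k i j : ℕ} (hn : 0 < n) (hk : 0 < k) (hi : i < n) (hj : j < n) :
    |Dp n k i * Dp n k j| ≤ 1 / (2 * tS n k ^ 2) := by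
  have h1 := Dp_sq_le hn hk hi
  have h2 := Dp_sq_le hn hk hj
  rw [abs_mul]
  have := two_mul_le_add_sq |Dp n k i| |Dp n k j|
  rw [sq_abs, sq_abs] at this
  linarith

theorem le_abs_Dp_mul {n k i j : ℕ} (hn : 0 < n) (hk : 0 < k) (hi : i < n) (hj : j < n) :
    1 / (32 * tS n k ^ 2) ≤ |Dp n k i * Dp n k j| := by
  have h1 := le_Dp_sq hn hk hi
  have h2 := le_Dp_sq hn hk hj
  have ht : 0 < tS n k := by
    have := le_tS hn hk; have := one_le_k3 hk; linarith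
  have h0 : 0 ≤ 1 / (32 * tS n k ^ 2) := by positivity
  apply abs_le_of_sq_le_sq' _ (abs_nonneg _) |>.2
  rw [sq_abs, mul_pow]
  calc (1 / (32 * tS n k ^ 2)) ^ 2 = 1 / (32 * tS n k ^ 2) * (1 / (32 * tS n k ^ 2)) := by ring
    _ ≤ _ := mul_le_mul h1 h2 h0 (sq_nonneg _)

theorem big_of {n k : ℕ} (hn : 2 ≤ n) (hk : (12000 * n) ^ 12000 ≤ k) : Big k := by
  have h1 : 12000 * n ≤ k := (Nat.le_self_pow (by norm_num) _).trans hk
  have h2 : 24000 ≤ k := by omega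
  have h3 : (24000 : ℝ) ≤ k := by exact_mod_cast h2
  unfold Big
  calc (10 : ℝ) ^ 11 ≤ 24000 ^ 3 := by norm_num
    _ ≤ (k : ℝ) ^ 3 := by gcongr

theorem k3_ge {n k : ℕ} (hk : (12000 * n) ^ 12000 ≤ k) (hn : 1 ≤ n) :
    1024 * 10 ^ 9 * (n : ℝ) ^ 2 ≤ (k : ℝ) ^ 3 := by
  have h1 : 12000 * n ≤ k := (Nat.le_self_pow (by norm_num) _).trans hk
  have h3 : (12000 : ℝ) * n ≤ k := by exact_mod_cast h1
  have h4 : (1 : ℝ) ≤ n := by exact_mod_cast hn
  have h5 : (n : ℝ) ^ 2 ≤ (n : ℝ) ^ 3 := pow_le_pow_right₀ h4 (by norm_num)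
  calc 1024 * 10 ^ 9 * (n : ℝ) ^ 2 ≤ 12000 ^ 3 * (n : ℝ) ^ 3 := by
        have : (0 : ℝ) ≤ (n : ℝ) ^ 2 := by positivity
        nlinarith
    _ = (12000 * (n : ℝ)) ^ 3 := by ring
    _ ≤ (k : ℝ) ^ 3 := by gcongr

theorem Mhop_off_le_diag {n k i j a b : ℕ} (hn : 2 ≤ n) (hk : (12000 * n) ^ 12000 ≤ k)
    (hi : i < n) (hj : j < n) (ha : a < n) (hb : b < n) (hij : i ≠ j)
    (h1 : ¬ (i = a ∧ j = b)) (h2 : ¬ (i = b ∧ j = a)) :
    |Mhop n k i j a b| ≤ 1 / (4 * (n : ℝ) ^ 2) * Mhop n k a b a b := by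
  have hB := big_of hn hk
  have hn0 : 0 < n := by omega
  have hk0 := hB.pos
  have h := Mhop_off hB hi hj ha hb hij h1 h2
  have hd := Mhop_diag_ge hB ha hb
  have ht : 0 < tS n k := by
    have := le_tS hn0 hk0; have := one_le_k3 hk0; linarith
  have e1 := abs_Dp_mul_le hn0 hk0 hi hj
  have e2 := le_abs_Dp_mul hn0 hk0 ha hb
  have e3 : |Dp n k i * Dp n k j| ≤ 16 * |Dp n k a * Dp n k b| := by
    have : 1 / (2 * tS n k ^ 2) = 16 * (1 / (32 * tS n k ^ 2)) := by field_simp; norm_num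
    rw [this] at e1
    linarith
  have hk3 := k3_ge hk (by omega)
  have hn2 : (0 : ℝ) < (n : ℝ) ^ 2 := by
    have : (0 : ℝ) < n := by exact_mod_cast hn0
    positivity
  have hK : (0 : ℝ) < (k : ℝ) ^ 3 := by have := one_le_k3 hk0; linarith
  rw [abs_mul (Dp n k i * Dp n k j)] at h
  calc |Mhop n k i j a b| ≤ 10 ^ 9 / (k : ℝ) ^ 3 * (|Dp n k i * Dp n k j| * |Dp n k a * Dp n k b|) := h
    _ ≤ 10 ^ 9 / (k : ℝ) ^ 3 * ((16 * |Dp n k a * Dp n k b|) * |Dp n k a * Dp n k b|) := by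
        gcongr
    _ = (256 * 10 ^ 9 / (k : ℝ) ^ 3) * (1 / 16 * (Dp n k a * Dp n k b) ^ 2) := by
        rw [← sq_abs (Dp n k a * Dp n k b)]; ring
    _ ≤ (256 * 10 ^ 9 / (k : ℝ) ^ 3) * Mhop n k a b a b := by gcongr
    _ ≤ 1 / (4 * (n : ℝ) ^ 2) * Mhop n k a b a b := by
        have hpos : 0 ≤ Mhop n k a b a b := le_trans (by positivity) hd
        apply mul_le_mul_of_nonneg_right _ hpos
        rw [div_le_div_iff₀ hK (by positivity)]
        linarith

/-- row dominance -/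
theorem Mhop_row {n k a b : ℕ} (hn : 2 ≤ n) (hk : (12000 * n) ^ 12000 ≤ k)
    (hab : a < b) (hb : b < n) :
    ∑ i ∈ Finset.range n, ∑ j ∈ Finset.range n,
      (if i < j ∧ ¬ (i = a ∧ j = b) then |Mhop n k i j a b| else 0) ≤ Mhop n k a b a b / 4 := by
  have ha : a < n := by omega
  have hB := big_of hn hk
  have hd := Mhop_diag_ge hB ha hb
  have hpos : 0 ≤ Mhop n k a b a b := le_trans (by positivity) hd
  have hn0 : (0 : ℝ) < n := by exact_mod_cast (by omega : 0 < n)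
  calc _ ≤ ∑ i ∈ Finset.range n, ∑ j ∈ Finset.range n, 1 / (4 * (n : ℝ) ^ 2) * Mhop n k a b a b := by
        refine Finset.sum_le_sum fun i hi => Finset.sum_le_sum fun j hj => ?_
        rw [Finset.mem_range] at hi hj
        split_ifs with h
        · refine Mhop_off_le_diag hn hk hi hj ha hb h.1.ne h.2 ?_
          rintro ⟨h3, h4⟩
          omega
        · positivity
    _ = _ := by
        simp only [Finset.sum_const, Finset.card_range, nsmul_eq_mul]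
        field_simp

/-- lower bound of the diagonal -/
theorem Mhop_diag_ge' {n k a b : ℕ} (hn : 2 ≤ n) (hk : (12000 * n) ^ 12000 ≤ k)
    (ha : a < n) (hb : b < n) : 1 / (n0' n k : ℝ) ^ 3 ≤ Mhop n k a b a b := by
  have hB := big_of hn hk
  have hn0 : 0 < n := by omega
  have hk0 := hB.pos
  have hd := Mhop_diag_ge hB ha hb
  have e2 := le_abs_Dp_mul hn0 hk0 ha hb
  have hbt : (10 : ℝ) ^ 11 ≤ tS n k := le_trans hB (le_tS hn0 hk0)
  have ht : 0 < tS n k := by linarith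
  refine le_trans ?_ hd
  rw [← sq_abs, n0'_eq]
  have h1 : 1 / 16 * (1 / (32 * tS n k ^ 2)) ^ 2 ≤ 1 / 16 * |Dp n k a * Dp n k b| ^ 2 := by gcongr
  refine le_trans ?_ h1
  have : 1 / 16 * (1 / (32 * tS n k ^ 2)) ^ 2 = 1 / (16384 * tS n k ^ 4) := by
    field_simp; norm_num
  rw [this]
  apply one_div_le_one_div_of_le (by positivity)
  have h2 : (4 * tS n k ^ 2) ^ 3 = 64 * tS n k ^ 2 * tS n k ^ 4 := by ring
  rw [h2]
  have h3 : (16384 : ℝ) ≤ 64 * tS n k ^ 2 := by nlinarith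
  gcongr

/-- all entries are at most one -/
theorem abs_Mhop_le_one {n k i j a b : ℕ} (hn : 2 ≤ n) (hk : (12000 * n) ^ 12000 ≤ k)
    (hi : i < n) (hj : j < n) (ha : a < n) (hb : b < n) : |Mhop n k i j a b| ≤ 1 := by
  have hB := big_of hn hk
  have hn0 : 0 < n := by omega
  have hk0 := hB.pos
  have h := Mhop_le hB hi hj ha hb
  have e1 := abs_Dp_mul_le hn0 hk0 hi hj
  have e2 := abs_Dp_mul_le hn0 hk0 ha hb
  have hbt : (10 : ℝ) ^ 11 ≤ tS n k := le_trans hB (le_tS hn0 hk0)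
  have ht : 0 < tS n k := by linarith
  rw [abs_mul (Dp n k i * Dp n k j)] at h
  have h3 : 1 / (2 * tS n k ^ 2) ≤ 1 / 5 := by
    apply one_div_le_one_div_of_le (by norm_num)
    nlinarith
  have h4 : |Dp n k i * Dp n k j| * |Dp n k a * Dp n k b| ≤ 1 / 5 * (1 / 5) := by
    apply mul_le_mul (e1.trans h3) (e2.trans h3) (abs_nonneg _) (by norm_num)
  linarith

/-- summary for the calibration (node CAL) -/
theorem hop_facts : ∃ C : ℕ, 1 ≤ C ∧ ∀ n k : ℕ, 2 ≤ n → (C * n) ^ C ≤ k →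
    (∀ a b, a < b → b < n → ∑ i ∈ Finset.range n, ∑ j ∈ Finset.range n,
      (if i < j ∧ ¬ (i = a ∧ j = b) then |Mhop n k i j a b| else 0) ≤ Mhop n k a b a b / 4) ∧
    (∀ a b, a < n → b < n → 1 / (n0' n k : ℝ) ^ C ≤ Mhop n k a b a b) ∧
    (∀ i j a b, i < n → j < n → a < n → b < n → |Mhop n k i j a b| ≤ 1) := by
  refine ⟨12000, by norm_num, fun n k hn hk => ⟨fun a b h1 h2 => Mhop_row hn hk h1 h2,
    fun a b h1 h2 => ?_, fun i j a b h1 h2 h3 h4 => abs_Mhop_le_one hn hk h1 h2 h3 h4⟩⟩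
  refine le_trans ?_ (Mhop_diag_ge' hn hk h1 h2)
  have hB := big_of hn hk
  have hbt : (10 : ℝ) ^ 11 ≤ tS n k := le_trans hB (le_tS (by omega) hB.pos)
  have h5 : (1 : ℝ) ≤ n0' n k := by rw [n0'_eq]; nlinarith
  apply one_div_le_one_div_of_le (by positivity)
  exact pow_le_pow_right₀ h5 (by norm_num)

end Crest.Agent.R338.HK
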