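import Crest.Agent.R338.HO1a

/-!
# Row 338, node HL (helper272), part 1: integer Hermite polynomials, linearisation, Gaussian integrals

`HH n`    the physicists' Hermite polynomial `H_n`
`hf_eq`   `hf m x = π^(-1/4) / √(2^m m!) * H_m(x) e^{-x²/2}`
`HH_mul`  `H_a H_b = ∑_j C(a,j) C(b,j) j! 2^j H_{a+b-2j}`
`gm n z`  `= [n = 2r] (-z)^r (2r-1)!!`
`integral_HH`  `∫ H_n e^{-x²} e^{-b x²} = gm n (2b/(1+b)) √(π/(1+b))`
`integral_HH_HH` `∫∫ H_n(x) e^{-x²} H_m(y) e^{-y²} e^{-τ(x-y)²} = (-1)^m gm (n+m) (2τ/(1+2τ)) π/√(1+2τ)`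
-/

set_option autoImplicit false

open MeasureTheory Polynomial Real Finset

noncomputable section

namespace Crest.Agent.R338.HL

open Crest.Agent.R338.HO

/-- physicists' Hermite polynomials -/
def HH : ℕ → ℝ[X]
  | 0 => 1
  | (m + 1) => 2 * X * HH m - derivative (HH m)

theorem HH_zero : HH 0 = 1 := rfl
theorem HH_succ (m : ℕ) : HH (m + 1) = 2 * X * HH m - derivative (HH m) := rfl

theorem derivative_HH (m : ℕ) : derivative (HH (m + 1)) = C (2 * ((m : ℝ) + 1)) * HH m := by
  have e1 : derivative (2 * X : ℝ[X]) = C 2 := by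
    rw [derivative_mul]
    simp only [derivative_ofNat, zero_mul, derivative_X, mul_one, zero_add]
    rfl
  induction m with
  | zero =>
    rw [HH_succ, HH_zero, derivative_one, sub_zero, mul_one, e1]
    simp
  | succ m ih =>
    rw [HH_succ (m + 1), derivative_sub, derivative_mul, e1, ih, derivative_mul, derivative_C,
      zero_mul, zero_add]
    have e2 : 2 * X * (C (2 * ((m : ℝ) + 1)) * HH m) - C (2 * ((m : ℝ) + 1)) * derivative (HH m)
        = C (2 * ((m : ℝ) + 1)) * HH (m + 1) := by rw [HH_succ]; ring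
    rw [add_sub_assoc, e2, ← add_mul, ← C_add]
    congr 2
    push_cast; ring

/-- creation operator -/
theorem HH_succ_mul (a : ℕ) (g : ℝ[X]) :
    HH (a + 1) * g = (2 * X * (HH a * g) - derivative (HH a * g)) + HH a * derivative g := by
  rw [HH_succ, derivative_mul]; ring

/-- coefficients of the linearisation -/
def kap (a b j : ℕ) : ℕ := a.choose j * b.choose j * j.factorial * 2 ^ j

theorem kap_zero (a b : ℕ) : kap a b 0 = 1 := by simp [kap]

theorem kap_succ (a b j : ℕ) : kap (a + 1) (b + 1) (j + 1) =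
    kap a (b + 1) (j + 1) + 2 * (b + 1) * kap a b j := by
  unfold kap
  have h1 : (b + 1) * b.choose j = (b + 1).choose (j + 1) * (j + 1) := Nat.add_one_mul_choose_eq b j
  rw [Nat.choose_succ_succ a j, Nat.factorial_succ, pow_succ]
  have h2 : 2 * (b + 1) * (a.choose j * b.choose j * j.factorial * 2 ^ j) =
      2 * (a.choose j * ((b + 1) * b.choose j) * j.factorial * 2 ^ j) := by ring
  rw [h2, h1]
  ring

theorem kap_eq_zero {a b j : ℕ} (h : b < j) : kap a b j = 0 := by
  unfold kap; rw [Nat.choose_eq_zero_of_lt h]; simp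

theorem kap_eq_zero' {a b j : ℕ} (h : a < j) : kap a b j = 0 := by
  unfold kap; rw [Nat.choose_eq_zero_of_lt h]; simp

/-- linearisation of products of Hermite polynomials -/
theorem HH_mul (a b : ℕ) : HH a * HH b =
    ∑ j ∈ range (a + 1), C ((kap a b j : ℕ) : ℝ) * HH (a + b - 2 * j) := by
  induction a generalizing b with
  | zero => simp [HH_zero, kap_zero]
  | succ a ih =>
    rw [HH_succ_mul, ih b]
    -- the creation operator applied to the sum
    have hA : 2 * X * (∑ j ∈ range (a + 1), C ((kap a b j : ℕ) : ℝ) * HH (a + b - 2 * j)) -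
        derivative (∑ j ∈ range (a + 1), C ((kap a b j : ℕ) : ℝ) * HH (a + b - 2 * j)) =
        ∑ j ∈ range (a + 1), C ((kap a b j : ℕ) : ℝ) * HH (a + b - 2 * j + 1) := by
      rw [derivative_sum, Finset.mul_sum, ← Finset.sum_sub_distrib]
      refine Finset.sum_congr rfl fun j _ => ?_
      rw [derivative_mul, derivative_C, HH_succ]; ring
    rw [hA]
    cases b with
    | zero =>
      rw [HH_zero, derivative_one, mul_zero, add_zero]
      rw [Finset.sum_range_succ' _ a, Finset.sum_range_succ' _ (a + 1)]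
      rw [Finset.sum_eq_zero, Finset.sum_eq_zero (s := range (a + 1))]
      · simp [kap_zero]
      · intro j _; rw [kap_eq_zero (by omega)]; simp
      · intro j _; rw [kap_eq_zero (by omega)]; simp
    | succ b =>
      rw [derivative_HH, mul_left_comm, ih b, Finset.mul_sum]
      rw [Finset.sum_range_succ' _ (a + 1), kap_zero]
      have h1 : ∑ j ∈ range (a + 1), C ((kap a (b + 1) j : ℕ) : ℝ) * HH (a + (b + 1) - 2 * j + 1) =
          (∑ j ∈ range (a + 1), C ((kap a (b + 1) (j + 1) : ℕ) : ℝ) * HH (a + b - 2 * j)) +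
          HH (a + b + 2) := by
        rw [Finset.sum_range_succ' _ a, kap_zero]
        rw [Finset.sum_range_succ _ a, kap_eq_zero' (show a < a + 1 by omega)]
        simp only [Nat.cast_one, C_1, one_mul, Nat.cast_zero, C_0, zero_mul, add_zero, mul_zero,
          Nat.sub_zero]
        congr 1
        refine Finset.sum_congr rfl fun j hj => ?_
        rw [Finset.mem_range] at hj
        by_cases hb : b < j
        · rw [kap_eq_zero (by omega)]; simp
        · congr 2
          omega
      rw [h1]
      have h2 : ∀ j ∈ range (a + 1), C ((kap (a + 1) (b + 1) (j + 1) : ℕ) : ℝ) *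
          HH (a + 1 + (b + 1) - 2 * (j + 1)) =
          C ((kap a (b + 1) (j + 1) : ℕ) : ℝ) * HH (a + b - 2 * j) +
          C (2 * ((b : ℝ) + 1)) * (C ((kap a b j : ℕ) : ℝ) * HH (a + b - 2 * j)) := by
        intro j _
        have : a + 1 + (b + 1) - 2 * (j + 1) = a + b - 2 * j := by omega
        rw [this, kap_succ]
        push_cast
        simp only [C_add, C_mul]
        ring
      rw [Finset.sum_congr rfl h2, Finset.sum_add_distrib]
      have : a + 1 + (b + 1) - 2 * 0 = a + b + 2 := by omega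
      rw [this]
      simp only [Nat.cast_one, C_1, one_mul]
      ring

/-- normalisation constants -/
def nrm (m : ℕ) : ℝ := π ^ (-(1 / 4) : ℝ) / √(2 ^ m * m.factorial)

theorem nrm_pos (m : ℕ) : 0 < nrm m := by
  unfold nrm
  have := Real.pi_pos
  positivity

theorem hP_eq (m : ℕ) : hP m = C (nrm m) * HH m := by
  induction m with
  | zero => rw [hP_zero, HH_zero, mul_one]; unfold nrm; simp
  | succ m ih =>
    rw [hP_succ, ih, HH_succ, derivative_mul, derivative_C, zero_mul, zero_add]
    have e : C (nrm (m + 1)) = C (1 / √(2 * ((m : ℝ) + 1))) * C (nrm m) := by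
      rw [← C_mul]
      congr 1
      unfold nrm
      have h : (2 : ℝ) ^ (m + 1) * ((m + 1).factorial : ℝ) =
          (2 * ((m : ℝ) + 1)) * (2 ^ m * m.factorial) := by
        rw [Nat.factorial_succ]; push_cast; ring
      rw [h, Real.sqrt_mul (by positivity)]
      field_simp
    rw [e]
    ring

theorem hf_eq (m : ℕ) (x : ℝ) : hf m x = nrm m * ((HH m).eval x * Real.exp (-(x ^ 2) / 2)) := by
  unfold hf; rw [hP_eq, eval_mul, eval_C]; ring

theorem hf_mul_hf' (a b : ℕ) (x : ℝ) : hf a x * hf b x =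
    nrm a * nrm b * ∑ j ∈ range (a + 1), (kap a b j : ℝ) *
      ((HH (a + b - 2 * j)).eval x * Real.exp (-x ^ 2)) := by
  have h := congrArg (Polynomial.eval x) (HH_mul a b)
  rw [eval_mul, eval_finsetSum] at h
  simp only [eval_mul, eval_C] at h
  have e : Real.exp (-x ^ 2) = Real.exp (-(x ^ 2) / 2) * Real.exp (-(x ^ 2) / 2) := by
    rw [← Real.exp_add]; ring_nf
  rw [hf_eq, hf_eq]
  have : nrm a * ((HH a).eval x * rexp (-x ^ 2 / 2)) * (nrm b * ((HH b).eval x * rexp (-x ^ 2 / 2))) =
      nrm a * nrm b * (((HH a).eval x * (HH b).eval x) * rexp (-x ^ 2)) := by rw [e]; ring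
  rw [this, h, Finset.sum_mul]
  congr 1
  refine Finset.sum_congr rfl fun j _ => ?_
  ring

end Crest.Agent.R338.HL
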