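import Crest.Agent.R338.HL1

/-!
# Row 338, node HL (helper272), part 2: Gaussian integrals of Hermite polynomials
-/

set_option autoImplicit false

open MeasureTheory Polynomial Real Finset

noncomputable section

namespace Crest.Agent.R338.HL

open Crest.Agent.R338.HO

/-- `(2r-1)!! = ∏_{i<r} (2i+1)` -/
def df (r : ℕ) : ℕ := ∏ i ∈ range r, (2 * i + 1)

theorem df_zero : df 0 = 1 := rfl
theorem df_succ (r : ℕ) : df (r + 1) = df r * (2 * r + 1) := by
  unfold df; rw [Finset.prod_range_succ]

/-- Gaussian moments: `gm n z = [n = 2r] (-z)^r (2r-1)!!` -/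
def gm (n : ℕ) (z : ℝ) : ℝ := if Even n then (-z) ^ (n / 2) * (df (n / 2) : ℝ) else 0

theorem gm_zero (z : ℝ) : gm 0 z = 1 := by simp [gm, df_zero]
theorem gm_one (z : ℝ) : gm 1 z = 0 := by simp [gm]

theorem gm_add_two (n : ℕ) (z : ℝ) : gm (n + 2) z = -z * (n + 1) * gm n z := by
  unfold gm
  by_cases h : Even n
  · obtain ⟨r, rfl⟩ := h
    have h1 : Even (r + r + 2) := ⟨r + 1, by ring⟩
    have h2 : Even (r + r) := ⟨r, rfl⟩
    rw [if_pos h1, if_pos h2]
    have e1 : (r + r + 2) / 2 = r + 1 := by omega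
    have e2 : (r + r) / 2 = r := by omega
    rw [e1, e2, df_succ, pow_succ]
    push_cast; ring
  · have h1 : ¬ Even (n + 2) := by
      intro h2; apply h
      rw [Nat.even_add] at h2
      exact h2.2 (by decide)
    rw [if_neg h, if_neg h1, mul_zero]

theorem gm_odd {n : ℕ} (h : ¬ Even n) (z : ℝ) : gm n z = 0 := by unfold gm; rw [if_neg h]

theorem gm_even (r : ℕ) (z : ℝ) : gm (2 * r) z = (-z) ^ r * df r := by
  unfold gm
  rw [if_pos (even_two_mul r), Nat.mul_div_cancel_left r (by norm_num)]

/-- integration by parts against a Gaussian -/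
theorem integral_derivative_gauss (P : ℝ[X]) {c : ℝ} (hc : 0 < c) :
    ∫ x, (derivative P).eval x * rexp (-c * x ^ 2) = 2 * c * ∫ x, (X * P).eval x * rexp (-c * x ^ 2) := by
  have hd : ∀ x : ℝ, HasDerivAt (fun x => P.eval x * rexp (-c * x ^ 2))
      ((derivative P).eval x * rexp (-c * x ^ 2) - 2 * c * ((X * P).eval x * rexp (-c * x ^ 2))) x := by
    intro x
    have h1 : HasDerivAt (fun x : ℝ => -c * x ^ 2) (-c * (2 * x)) x := by
      have := (hasDerivAt_pow 2 x).const_mul (-c)
      simpa using this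
    have h2 := (Polynomial.hasDerivAt P x).mul h1.exp
    refine h2.congr_deriv ?_
    rw [eval_mul, eval_X]; ring
  have hi1 := integrable_poly_gauss (derivative P) hc
  have hi2 := (integrable_poly_gauss (X * P) hc).const_mul (2 * c)
  have h := integral_eq_zero_of_hasDerivAt_of_integrable hd (hi1.sub hi2)
    (integrable_poly_gauss P hc)
  rw [integral_sub hi1 hi2, integral_const_mul] at h
  linarith

/-- Gaussian integral of `H_n`, `c = 1 + b` -/
theorem integral_HH (n : ℕ) {c : ℝ} (hc : 0 < c) :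
    ∫ x, (HH n).eval x * rexp (-c * x ^ 2) = gm n (2 * (c - 1) / c) * √(π / c) := by
  induction n using Nat.twoStepInduction with
  | zero =>
    simp only [HH_zero, eval_one, one_mul, gm_zero]
    exact integral_gaussian c
  | one =>
    have h := integral_derivative_gauss (1 : ℝ[X]) hc
    rw [derivative_one] at h
    simp only [eval_zero, zero_mul, integral_zero, mul_one] at h
    have h1 : HH 1 = 2 * X := by rw [HH_succ, HH_zero, derivative_one]; ring
    have h2 : ∫ x, (X : ℝ[X]).eval x * rexp (-c * x ^ 2) = 0 := by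
      have hne : 2 * c ≠ 0 := by positivity
      exact (mul_eq_zero.1 h.symm).resolve_left hne
    rw [gm_one, zero_mul, h1]
    have e : ∀ x : ℝ, (2 * X : ℝ[X]).eval x * rexp (-c * x ^ 2) =
        2 * ((X : ℝ[X]).eval x * rexp (-c * x ^ 2)) := by
      intro x; rw [eval_mul]; simp; ring
    simp only [e]
    rw [integral_const_mul, h2, mul_zero]
  | more n ih0 ih1 =>
    have h := integral_derivative_gauss (HH (n + 1)) hc
    have hx : X * HH (n + 1) = C (1 / 2) * HH (n + 2) + C ((n : ℝ) + 1) * HH n := by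
      rw [HH_succ (n + 1), derivative_HH, mul_sub, ← mul_assoc (C (1 / 2)) (C _) (HH n), ← C_mul]
      have e1 : (1 / 2 : ℝ) * (2 * ((n : ℝ) + 1)) = (n : ℝ) + 1 := by ring
      have e2 : C (1 / 2 : ℝ) * (2 * X * HH (n + 1)) = X * HH (n + 1) := by
        have : (C (1 / 2 : ℝ) * 2 : ℝ[X]) = 1 := by
          rw [show (2 : ℝ[X]) = C 2 from rfl, ← C_mul]; norm_num
        calc C (1 / 2 : ℝ) * (2 * X * HH (n + 1)) = (C (1 / 2 : ℝ) * 2) * (X * HH (n + 1)) := by ring
          _ = _ := by rw [this, one_mul]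
      rw [e1, e2]; ring
    rw [hx, derivative_HH] at h
    obtain ⟨N, hN⟩ : ∃ N : ℝ, N = (n : ℝ) + 1 := ⟨_, rfl⟩
    rw [gm_add_two]
    rw [← hN] at h ⊢
    simp only [eval_mul, eval_add, eval_C, add_mul, mul_assoc] at h
    rw [integral_const_mul, integral_const_mul, integral_add ((integrable_poly_gauss (HH (n + 2)) hc).const_mul _)
      ((integrable_poly_gauss (HH n) hc).const_mul _), integral_const_mul, integral_const_mul] at h
    rw [ih0] at h
    have hs : (c : ℝ) ≠ 0 := hc.ne'
    have h3 : c * ∫ x, (HH (n + 2)).eval x * rexp (-c * x ^ 2) =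
        c * (-(2 * (c - 1) / c) * N * gm n (2 * (c - 1) / c) * √(π / c)) := by
      have : c * (-(2 * (c - 1) / c) * N * gm n (2 * (c - 1) / c) * √(π / c)) =
          -(2 * (c - 1)) * N * (gm n (2 * (c - 1) / c) * √(π / c)) := by
        field_simp
      rw [this]
      linarith
    exact mul_left_cancel₀ hs h3

end Crest.Agent.R338.HL
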