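import Crest.Agent.R338.HL2

/-!
# Row 338, node HL (helper272), part 3: the 1D Gaussian interaction integral
-/

set_option autoImplicit false

open MeasureTheory Polynomial Real Finset

noncomputable section

namespace Crest.Agent.R338.HL

open Crest.Agent.R338.HO

/-- `G_n(x) = H_n(x) e^{-x²}` -/
def G (n : ℕ) (x : ℝ) : ℝ := (HH n).eval x * rexp (-x ^ 2)

theorem G_eq (n : ℕ) (x : ℝ) : G n x = (HH n).eval x * rexp (-1 * x ^ 2) := by
  unfold G; rw [neg_one_mul]

theorem continuous_G (n : ℕ) : Continuous (G n) := by unfold G; fun_prop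

theorem integrable_G (n : ℕ) : Integrable (G n) := by
  simp only [funext (G_eq n)]
  exact integrable_poly_gauss _ one_pos

theorem integrable_x_mul_G (n : ℕ) : Integrable (fun x => x * G n x) := by
  have h := integrable_poly_gauss (X * HH n) one_pos
  refine h.congr (Filter.Eventually.of_forall fun x => ?_)
  simp only [G_eq, eval_mul, eval_X]; ring

theorem hasDerivAt_G (n : ℕ) (x : ℝ) : HasDerivAt (G n) (-G (n + 1) x) x := by
  have h1 : HasDerivAt (fun x : ℝ => -x ^ 2) (-(2 * x)) x := by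
    refine HasDerivAt.congr_deriv (f := fun x : ℝ => -x ^ 2) (hasDerivAt_pow 2 x).neg ?_
    norm_num
  have h2 := (Polynomial.hasDerivAt (HH n) x).mul h1.exp
  refine HasDerivAt.congr_deriv (f := G n) h2 ?_
  unfold G
  rw [HH_succ, eval_sub, eval_mul, eval_mul, eval_X, eval_ofNat]
  ring

/-- the Gaussian kernel -/
def E (τ x y : ℝ) : ℝ := rexp (-τ * (x - y) ^ 2)

theorem E_comm (τ x y : ℝ) : E τ x y = E τ y x := by
  unfold E; congr 2; ring

theorem E_pos (τ x y : ℝ) : 0 < E τ x y := Real.exp_pos _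

theorem E_le_one {τ : ℝ} (hτ : 0 ≤ τ) (x y : ℝ) : E τ x y ≤ 1 := by
  unfold E
  rw [Real.exp_le_one_iff]
  nlinarith [sq_nonneg (x - y), mul_nonneg hτ (sq_nonneg (x - y))]

theorem abs_E_le_one {τ : ℝ} (hτ : 0 ≤ τ) (x y : ℝ) : |E τ x y| ≤ 1 := by
  rw [abs_of_pos (E_pos τ x y)]; exact E_le_one hτ x y

theorem hasDerivAt_E (τ x y : ℝ) : HasDerivAt (fun x => E τ x y) (-(2 * τ * (x - y)) * E τ x y) x := by
  have h1 : HasDerivAt (fun x : ℝ => -τ * (x - y) ^ 2) (-(2 * τ * (x - y))) x := by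
    have := (((hasDerivAt_id x).sub_const y).pow 2).const_mul (-τ)
    refine this.congr_deriv ?_
    simp; ring
  refine HasDerivAt.congr_deriv (f := fun x => E τ x y) h1.exp ?_
  unfold E; ring

theorem continuous_E (τ : ℝ) : Continuous (fun p : ℝ × ℝ => E τ p.1 p.2) := by unfold E; fun_prop

/-- integration by parts in the first variable -/
theorem ibp_G {τ : ℝ} (hτ : 0 ≤ τ) (n : ℕ) (y : ℝ) :
    ∫ x, G (n + 1) x * E τ x y = -∫ x, G n x * (2 * τ * (x - y)) * E τ x y := by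
  have hE : ∀ y : ℝ, Continuous (fun x => E τ x y) := fun y => by unfold E; fun_prop
  have hi1 : Integrable (fun x => G (n + 1) x * E τ x y) := by
    refine (integrable_G (n + 1)).mul_bdd (c := 1) (hE y).aestronglyMeasurable
      (Filter.Eventually.of_forall fun x => ?_)
    rw [Real.norm_eq_abs]; exact abs_E_le_one hτ x y
  have hi2 : Integrable (fun x => G n x * (2 * τ * (x - y)) * E τ x y) := by
    have h0 : Integrable (fun x => G n x * (2 * τ * (x - y))) := by
      have := ((integrable_x_mul_G n).const_mul (2 * τ)).sub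
        ((integrable_G n).const_mul (2 * τ * y))
      refine this.congr (Filter.Eventually.of_forall fun x => ?_)
      simp only [Pi.sub_apply]; ring
    refine h0.mul_bdd (c := 1) (hE y).aestronglyMeasurable
      (Filter.Eventually.of_forall fun x => ?_)
    rw [Real.norm_eq_abs]; exact abs_E_le_one hτ x y
  have hi3 : Integrable (fun x => G n x * E τ x y) := by
    refine (integrable_G n).mul_bdd (c := 1) (hE y).aestronglyMeasurable
      (Filter.Eventually.of_forall fun x => ?_)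
    rw [Real.norm_eq_abs]; exact abs_E_le_one hτ x y
  have hd : ∀ x, HasDerivAt (fun x => G n x * E τ x y)
      (-(G (n + 1) x * E τ x y) - G n x * (2 * τ * (x - y)) * E τ x y) x := by
    intro x
    refine ((hasDerivAt_G n x).mul (hasDerivAt_E τ x y)).congr_deriv ?_
    ring
  have h := integral_eq_zero_of_hasDerivAt_of_integrable hd (hi1.neg.sub hi2) hi3
  have h2 : ∫ x, (-(G (n + 1) x * E τ x y) - G n x * (2 * τ * (x - y)) * E τ x y) =
      -(∫ x, G (n + 1) x * E τ x y) - ∫ x, G n x * (2 * τ * (x - y)) * E τ x y := by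
    have hn : Integrable (fun x => -(G (n + 1) x * E τ x y)) := hi1.neg
    rw [integral_sub hn hi2]
    congr 1
    exact integral_neg _
  rw [h2] at h
  linarith

/-- the interaction integral -/
def K (τ : ℝ) (n m : ℕ) : ℝ := ∫ p : ℝ × ℝ, G n p.1 * G m p.2 * E τ p.1 p.2

theorem integrable_K {τ : ℝ} (hτ : 0 ≤ τ) (n m : ℕ) :
    Integrable (fun p : ℝ × ℝ => G n p.1 * G m p.2 * E τ p.1 p.2) := by
  refine ((integrable_G n).mul_prod (integrable_G m)).mul_bdd (c := 1)
    (continuous_E τ).aestronglyMeasurable (Filter.Eventually.of_forall fun p => ?_)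
  rw [Real.norm_eq_abs]; exact abs_E_le_one hτ _ _

theorem integrable_L {τ : ℝ} (hτ : 0 ≤ τ) (n m : ℕ) :
    Integrable (fun p : ℝ × ℝ => G n p.1 * G m p.2 * (2 * τ * (p.1 - p.2)) * E τ p.1 p.2) := by
  have h0 : Integrable (fun p : ℝ × ℝ => G n p.1 * G m p.2 * (2 * τ * (p.1 - p.2))) := by
    have h1 := ((integrable_x_mul_G n).mul_prod (integrable_G m)).const_mul (2 * τ)
    have h2 := ((integrable_G n).mul_prod (integrable_x_mul_G m)).const_mul (2 * τ)
    refine (h1.sub h2).congr (Filter.Eventually.of_forall fun p => ?_)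
    simp only [Pi.sub_apply]; ring
  refine h0.mul_bdd (c := 1)
    (continuous_E τ).aestronglyMeasurable (Filter.Eventually.of_forall fun p => ?_)
  rw [Real.norm_eq_abs]; exact abs_E_le_one hτ _ _

theorem K_succ_left {τ : ℝ} (hτ : 0 ≤ τ) (n m : ℕ) :
    K τ (n + 1) m = -∫ p : ℝ × ℝ, G n p.1 * G m p.2 * (2 * τ * (p.1 - p.2)) * E τ p.1 p.2 := by
  unfold K
  rw [Measure.volume_eq_prod, integral_prod_symm _ (integrable_K hτ (n + 1) m),
    integral_prod_symm _ (integrable_L hτ n m), ← integral_neg]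
  congr 1
  ext y
  have e1 : ∫ x, G (n + 1) x * G m y * E τ x y = G m y * ∫ x, G (n + 1) x * E τ x y := by
    rw [← integral_const_mul]; congr 1; ext x; ring
  have e2 : ∫ x, G n x * G m y * (2 * τ * (x - y)) * E τ x y =
      G m y * ∫ x, G n x * (2 * τ * (x - y)) * E τ x y := by
    rw [← integral_const_mul]; congr 1; ext x; ring
  simp only [e1, e2, ibp_G hτ]
  ring

theorem K_comm (τ : ℝ) (n m : ℕ) : K τ n m = K τ m n := by
  unfold K
  rw [Measure.volume_eq_prod, ← integral_prod_swap]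
  congr 1
  ext p
  simp only [Prod.fst_swap, Prod.snd_swap]
  rw [E_comm]; ring

theorem K_succ_right {τ : ℝ} (hτ : 0 ≤ τ) (n m : ℕ) : K τ n (m + 1) = -K τ (n + 1) m := by
  rw [K_comm, K_succ_left hτ m n, K_succ_left hτ n m, neg_neg]
  rw [Measure.volume_eq_prod, ← integral_prod_swap, ← integral_neg]
  congr 1
  ext p
  simp only [Prod.fst_swap, Prod.snd_swap]
  rw [E_comm]; ring

theorem K_eq_left {τ : ℝ} (hτ : 0 ≤ τ) (n m : ℕ) : K τ n m = (-1) ^ m * K τ (n + m) 0 := by
  induction m generalizing n with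
  | zero => simp
  | succ m ih =>
    rw [K_succ_right hτ, ih (n + 1), pow_succ]
    have : n + 1 + m = n + (m + 1) := by ring
    rw [this]; ring

theorem inner_gauss {τ : ℝ} (hτ : 0 ≤ τ) (x : ℝ) :
    ∫ y, G 0 y * E τ x y = √(π / (1 + τ)) * rexp (-(τ / (1 + τ)) * x ^ 2) := by
  have hc : 0 < 1 + τ := by linarith
  have e : ∀ y, G 0 y * E τ x y = rexp (-(τ / (1 + τ)) * x ^ 2) *
      rexp (-(1 + τ) * (y - τ * x / (1 + τ)) ^ 2) := by
    intro y
    unfold G E
    rw [HH_zero, eval_one, one_mul, ← Real.exp_add, ← Real.exp_add]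
    congr 1
    field_simp
    ring
  simp only [e]
  rw [integral_const_mul, integral_sub_right_eq_self (fun y => rexp (-(1 + τ) * y ^ 2)),
    integral_gaussian]
  ring

theorem K_zero_right {τ : ℝ} (hτ : 0 ≤ τ) (n : ℕ) :
    K τ n 0 = gm n (2 * τ / (1 + 2 * τ)) * (π / √(1 + 2 * τ)) := by
  have hc : 0 < 1 + τ := by linarith
  have hc2 : 0 < 1 + 2 * τ := by linarith
  unfold K
  rw [Measure.volume_eq_prod, integral_prod _ (integrable_K hτ n 0)]
  have e1 : ∀ x, ∫ y, G n x * G 0 y * E τ x y = √(π / (1 + τ)) *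
      ((HH n).eval x * rexp (-((1 + 2 * τ) / (1 + τ)) * x ^ 2)) := by
    intro x
    have : ∫ y, G n x * G 0 y * E τ x y = G n x * ∫ y, G 0 y * E τ x y := by
      rw [← integral_const_mul]; congr 1; ext y; ring
    rw [this, inner_gauss hτ]
    unfold G
    have h2 : rexp (-((1 + 2 * τ) / (1 + τ)) * x ^ 2) =
        rexp (-x ^ 2) * rexp (-(τ / (1 + τ)) * x ^ 2) := by
      rw [← Real.exp_add]; congr 1; field_simp; ring
    rw [h2]; ring
  simp only [e1]
  rw [integral_const_mul, integral_HH n (by positivity : 0 < (1 + 2 * τ) / (1 + τ))]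
  have h3 : 2 * ((1 + 2 * τ) / (1 + τ) - 1) / ((1 + 2 * τ) / (1 + τ)) = 2 * τ / (1 + 2 * τ) := by
    field_simp; ring
  have h4 : √(π / (1 + τ)) * √(π / ((1 + 2 * τ) / (1 + τ))) = π / √(1 + 2 * τ) := by
    rw [← Real.sqrt_mul (by positivity)]
    have : π / (1 + τ) * (π / ((1 + 2 * τ) / (1 + τ))) = π ^ 2 / (1 + 2 * τ) := by
      field_simp
    rw [this, Real.sqrt_div (by positivity), Real.sqrt_sq Real.pi_pos.le]
  rw [h3, mul_left_comm, h4]

/-- **1D interaction integral** -/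
theorem K_eq {τ : ℝ} (hτ : 0 ≤ τ) (n m : ℕ) :
    K τ n m = (-1) ^ m * gm (n + m) (2 * τ / (1 + 2 * τ)) * (π / √(1 + 2 * τ)) := by
  rw [K_eq_left hτ, K_zero_right hτ]; ring

/-- normalisation without the power of `π` -/
def nr (m : ℕ) : ℝ := 1 / √(2 ^ m * m.factorial)

theorem nrm_eq (m : ℕ) : nrm m = π ^ (-(1 / 4) : ℝ) * nr m := by unfold nrm nr; ring

theorem nrm4 (a b c d : ℕ) : nrm a * nrm b * (nrm c * nrm d) = (nr a * nr b * (nr c * nr d)) / π := by
  simp only [nrm_eq]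
  have h : (π ^ (-(1 / 4) : ℝ)) * (π ^ (-(1 / 4) : ℝ)) * ((π ^ (-(1 / 4) : ℝ)) * (π ^ (-(1 / 4) : ℝ))) =
      1 / π := by
    rw [← Real.rpow_add Real.pi_pos, ← Real.rpow_add Real.pi_pos]
    norm_num
    rw [Real.rpow_neg_one]
  calc _ = ((π ^ (-(1 / 4) : ℝ)) * (π ^ (-(1 / 4) : ℝ)) * ((π ^ (-(1 / 4) : ℝ)) * (π ^ (-(1 / 4) : ℝ)))) *
        (nr a * nr b * (nr c * nr d)) := by ring
    _ = _ := by rw [h]; ring

theorem hf_mul_hf_G (a b : ℕ) (x : ℝ) : hf a x * hf b x =
    nrm a * nrm b * ∑ j ∈ range (a + 1), (kap a b j : ℝ) * G (a + b - 2 * j) x := hf_mul_hf' a b x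

theorem integrable_hf4 {τ : ℝ} (hτ : 0 ≤ τ) (a b c d : ℕ) :
    Integrable (fun p : ℝ × ℝ => (hf a p.1 * hf b p.1) * (hf c p.2 * hf d p.2) * E τ p.1 p.2) := by
  refine ((integrable_hf_mul_hf a b).mul_prod (integrable_hf_mul_hf c d)).mul_bdd (c := 1)
    (continuous_E τ).aestronglyMeasurable (Filter.Eventually.of_forall fun p => ?_)
  rw [Real.norm_eq_abs]; exact abs_E_le_one hτ _ _

/-- the polynomial (in `z = 2τ/(1+2τ)`) of the four-function interaction integral -/
def P4 (a b c d : ℕ) (z : ℝ) : ℝ := ∑ j ∈ range (a + 1), ∑ k ∈ range (c + 1),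
  (kap a b j : ℝ) * (kap c d k : ℝ) * ((-1) ^ (c + d) *
    gm (a + b - 2 * j + (c + d - 2 * k)) z)

/-- **one-dimensional Coulomb factor**:
`∫∫ h_a h_b(x) h_c h_d(y) e^{-τ(x-y)²} = (1+2τ)^{-1/2} nr_a nr_b nr_c nr_d P4(2τ/(1+2τ))` -/
theorem integral_hf4 {τ : ℝ} (hτ : 0 ≤ τ) (a b c d : ℕ) :
    ∫ p : ℝ × ℝ, (hf a p.1 * hf b p.1) * (hf c p.2 * hf d p.2) * E τ p.1 p.2 =
      nr a * nr b * (nr c * nr d) * P4 a b c d (2 * τ / (1 + 2 * τ)) / √(1 + 2 * τ) := by
  have e1 : ∀ p : ℝ × ℝ, (hf a p.1 * hf b p.1) * (hf c p.2 * hf d p.2) * E τ p.1 p.2 =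
      ∑ j ∈ range (a + 1), ∑ k ∈ range (c + 1),
        (nrm a * nrm b * (nrm c * nrm d) * ((kap a b j : ℝ) * (kap c d k : ℝ))) *
          (G (a + b - 2 * j) p.1 * G (c + d - 2 * k) p.2 * E τ p.1 p.2) := by
    intro p
    rw [hf_mul_hf_G, hf_mul_hf_G]
    rw [mul_mul_mul_comm, Finset.sum_mul_sum, mul_assoc, Finset.sum_mul, Finset.mul_sum]
    refine Finset.sum_congr rfl fun j _ => ?_
    rw [Finset.sum_mul, Finset.mul_sum]
    refine Finset.sum_congr rfl fun k _ => ?_
    ring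
  simp only [e1]
  rw [integral_finsetSum _ fun j _ => integrable_finsetSum _ fun k _ =>
    (integrable_K hτ _ _).const_mul _]
  have e2 : ∀ j ∈ range (a + 1), ∫ p : ℝ × ℝ, ∑ k ∈ range (c + 1),
        (nrm a * nrm b * (nrm c * nrm d) * ((kap a b j : ℝ) * (kap c d k : ℝ))) *
          (G (a + b - 2 * j) p.1 * G (c + d - 2 * k) p.2 * E τ p.1 p.2) =
      ∑ k ∈ range (c + 1), (nr a * nr b * (nr c * nr d) / √(1 + 2 * τ)) *
        ((kap a b j : ℝ) * (kap c d k : ℝ) * ((-1) ^ (c + d) *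
          gm (a + b - 2 * j + (c + d - 2 * k)) (2 * τ / (1 + 2 * τ)))) := by
    intro j _
    rw [integral_finsetSum _ fun k _ => (integrable_K hτ _ _).const_mul _]
    refine Finset.sum_congr rfl fun k _ => ?_
    rw [integral_const_mul]
    have h := K_eq hτ (a + b - 2 * j) (c + d - 2 * k)
    unfold K at h
    rw [h, nrm4]
    by_cases hk : kap c d k = 0
    · rw [hk]; simp
    · have hk1 : k ≤ c := by
        by_contra hc; exact hk (kap_eq_zero' (by omega))
      have hk2 : k ≤ d := by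
        by_contra hc; exact hk (kap_eq_zero (by omega))
      have hs : ((-1 : ℝ)) ^ (c + d - 2 * k) = (-1) ^ (c + d) := by
        have : c + d = (c + d - 2 * k) + 2 * k := by omega
        conv_rhs => rw [this, pow_add, pow_mul]
        simp
      rw [hs]
      have hpi : (π : ℝ) ≠ 0 := Real.pi_ne_zero
      field_simp
  rw [Finset.sum_congr rfl e2]
  unfold P4
  rw [Finset.mul_sum, Finset.sum_div]
  refine Finset.sum_congr rfl fun j _ => ?_
  rw [Finset.mul_sum, Finset.sum_div]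
  refine Finset.sum_congr rfl fun k _ => ?_
  ring

end Crest.Agent.R338.HL
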