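import Crest.Agent.R338.HO1b

/-!
# Row 338, module HO1c (helper789): completeness of the product Hermite functions in `L²`

* `ae_zero_of_fourier` : an integrable function with vanishing Fourier transform is `0` a.e.
* `ae_zero_of_ortho` : `f ∈ L²` with `∫ Φ_α f = 0` for all `α` is `0` a.e.
-/

set_option autoImplicit false

open MeasureTheory Real SchwartzMap Filter Topology
open scoped Nat ContDiff FourierTransform

noncomputable section

namespace Crest.Agent.R338.HO

open Crest.Agent.R335.HF (E)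

section Fourier

variable {V : Type*} [NormedAddCommGroup V] [InnerProductSpace ℝ V] [FiniteDimensional ℝ V]
  [MeasurableSpace V] [BorelSpace V]

/-- injectivity of the Fourier transform on `L¹` -/
theorem ae_zero_of_fourier {G : V → ℂ} (hG : Integrable G) (h : ∀ ξ, 𝓕 G ξ = 0) :
    ∀ᵐ x, G x = 0 := by
  refine ae_eq_zero_of_integral_contDiff_smul_eq_zero hG.locallyIntegrable fun g hg hc => ?_
  have hg' : ContDiff ℝ ∞ (fun x => (g x : ℂ)) := Complex.ofRealCLM.contDiff.comp hg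
  have hc' : HasCompactSupport (fun x => (g x : ℂ)) := hc.comp_left (g := fun r : ℝ => (r : ℂ)) (by simp)
  let S : 𝓢(V, ℂ) := hc'.toSchwartzMap hg'
  have hS : ∀ x, S x = (g x : ℂ) := fun x => rfl
  have key := VectorFourier.integral_fourierIntegral_smul_eq_flip (L := innerₗ V) (μ := volume)
      (ν := volume) (f := fun x => (𝓕⁻ S : 𝓢(V, ℂ)) x) (g := G)
      Real.continuous_fourierChar continuous_inner (𝓕⁻ S : 𝓢(V, ℂ)).integrable hG
  have e1 : ∀ ξ, VectorFourier.fourierIntegral 𝐞 volume (innerₗ V)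
      (fun x => (𝓕⁻ S : 𝓢(V, ℂ)) x) ξ = S ξ := by
    intro ξ
    have h2 : 𝓕 (𝓕⁻ S : 𝓢(V, ℂ)) = S := FourierTransform.fourier_fourierInv_eq S
    have h3 : (𝓕 (𝓕⁻ S : 𝓢(V, ℂ)) : 𝓢(V, ℂ)) ξ = 𝓕 (fun x => (𝓕⁻ S : 𝓢(V, ℂ)) x) ξ := by
      rw [SchwartzMap.fourier_coe]
    rw [h2] at h3
    exact h3.symm
  have e2 : ∀ ξ, VectorFourier.fourierIntegral 𝐞 volume (innerₗ V).flip G ξ = 0 := by
    intro ξ
    have h4 : (innerₗ V).flip = innerₗ V := by
      ext x y; simp
    rw [h4]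
    exact h ξ
  simp only [e1, e2, smul_zero, integral_zero] at key
  rw [← key]
  refine integral_congr_ae (Eventually.of_forall fun x => ?_)
  simp [hS]

end Fourier

variable {ι : Type*} [Fintype ι] [DecidableEq ι]

/-- the functions `u` with `∫ u f = 0` -/
def Ann (f : E ι → ℂ) (u : E ι → ℝ) : Prop :=
  Integrable (fun x => (u x : ℂ) * f x) ∧ ∫ x, (u x : ℂ) * f x = 0

omit [DecidableEq ι] in
theorem Ann.add {f : E ι → ℂ} {u v : E ι → ℝ} (hu : Ann f u) (hv : Ann f v) : Ann f (u + v) := by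
  have e : (fun x => ((u + v) x : ℂ) * f x) = fun x => (u x : ℂ) * f x + (v x : ℂ) * f x := by
    ext x; simp [add_mul]
  refine ⟨by rw [e]; exact hu.1.add hv.1, ?_⟩
  rw [e, integral_add hu.1 hv.1, hu.2, hv.2, add_zero]

omit [DecidableEq ι] in
theorem Ann.smul {f : E ι → ℂ} {u : E ι → ℝ} (hu : Ann f u) (c : ℝ) : Ann f (c • u) := by
  have e : (fun x => ((c • u) x : ℂ) * f x) = fun x => (c : ℂ) * ((u x : ℂ) * f x) := by
    ext x; simp [mul_assoc]
  refine ⟨by rw [e]; exact hu.1.const_mul _, ?_⟩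
  rw [e, integral_const_mul, hu.2, mul_zero]

/-- span of the Hermite functions -/
def HV (ι : Type*) [Fintype ι] : Submodule ℝ (E ι → ℝ) := Submodule.span ℝ (Set.range Phi)

theorem mul_coord_mem {u : E ι → ℝ} (hu : u ∈ HV ι) (j : ι) : (fun x => x j * u x) ∈ HV ι := by
  induction hu using Submodule.span_induction with
  | mem u hu =>
    obtain ⟨α, rfl⟩ := hu
    have e : (fun x : E ι => x j * Phi α x) =
        √(((α j : ℝ) + 1) / 2) • Phi (Function.update α j (α j + 1)) +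
        √((α j : ℝ) / 2) • Phi (Function.update α j (α j - 1)) := by
      ext x; rw [x_mul_Phi]; simp
    rw [e]
    exact (HV ι).add_mem ((HV ι).smul_mem _ (Submodule.subset_span ⟨_, rfl⟩))
      ((HV ι).smul_mem _ (Submodule.subset_span ⟨_, rfl⟩))
  | zero =>
    have : (fun x : E ι => x j * (0 : E ι → ℝ) x) = 0 := by ext x; simp
    rw [this]; exact (HV ι).zero_mem
  | add u v _ _ hu hv =>
    have : (fun x : E ι => x j * (u + v) x) = (fun x => x j * u x) + fun x => x j * v x := by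
      ext x; simp [mul_add]
    rw [this]; exact (HV ι).add_mem hu hv
  | smul c u _ hu =>
    have : (fun x : E ι => x j * (c • u) x) = c • fun x => x j * u x := by
      ext x; simp; ring
    rw [this]; exact (HV ι).smul_mem c hu

theorem mul_inner_mem {u : E ι → ℝ} (hu : u ∈ HV ι) (ξ : E ι) :
    (fun x => inner ℝ x ξ * u x) ∈ HV ι := by
  have e : (fun x : E ι => inner ℝ x ξ * u x) = ∑ j, ξ j • fun x : E ι => x j * u x := by
    ext x
    simp only [PiLp.inner_apply, Finset.sum_apply, Pi.smul_apply, Finset.sum_mul, smul_eq_mul,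
      RCLike.inner_apply, conj_trivial]
    refine Finset.sum_congr rfl fun j _ => by ring
  rw [e]
  exact (HV ι).sum_mem fun j _ => (HV ι).smul_mem _ (mul_coord_mem hu j)

theorem inner_pow_mem (ξ : E ι) (k : ℕ) :
    (fun x => inner ℝ x ξ ^ k * Phi (0 : ι → ℕ) x) ∈ HV ι := by
  induction k with
  | zero =>
    have : (fun x : E ι => inner ℝ x ξ ^ 0 * Phi (0 : ι → ℕ) x) = Phi 0 := by ext x; simp
    rw [this]
    exact Submodule.subset_span (Set.mem_range_self (0 : ι → ℕ))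
  | succ k ih =>
    have := mul_inner_mem ih ξ
    convert this using 1
    ext x; ring

omit [DecidableEq ι] in
theorem ann_of_mem {f : E ι → ℂ} (hf : MemLp f 2 volume)
    (h : ∀ α : ι → ℕ, ∫ x, (Phi α x : ℂ) * f x = 0) {u : E ι → ℝ} (hu : u ∈ HV ι) : Ann f u := by
  induction hu using Submodule.span_induction with
  | mem u hu =>
    obtain ⟨α, rfl⟩ := hu
    exact ⟨(memLp_Phi α 2).integrable_mul hf, h α⟩
  | zero => exact ⟨by simp, by simp⟩
  | add u v _ _ hu hv => exact hu.add hv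
  | smul c u _ hu => exact hu.smul c

omit [DecidableEq ι] in
theorem Phi_zero_eq (x : E ι) : Phi (0 : ι → ℕ) x =
    (π ^ (-(1 / 4) : ℝ)) ^ Fintype.card ι * Real.exp (-(‖x‖ ^ 2) / 2) := by
  rw [Phi_eq]
  simp [hP_zero]

omit [DecidableEq ι] in
theorem Phi_zero_pos (x : E ι) : 0 < Phi (0 : ι → ℕ) x := by
  rw [Phi_zero_eq]; positivity

omit [DecidableEq ι] in
/-- `exp (c‖x‖) Φ_0 ∈ L²` -/
theorem memLp_exp_mul_Phi (c : ℝ) :
    MemLp (fun x : E ι => Real.exp (c * ‖x‖) * Phi (0 : ι → ℕ) x) 2 volume := by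
  have hcont : Continuous (fun x : E ι => Real.exp (c * ‖x‖) * Phi (0 : ι → ℕ) x) :=
    (Real.continuous_exp.comp (continuous_const.mul continuous_norm)).mul (continuous_Phi 0)
  set K : ℝ := (π ^ (-(1 / 4) : ℝ)) ^ Fintype.card ι with hK
  have hK0 : 0 < K := by positivity
  have hb : ∀ x : E ι, (Real.exp (c * ‖x‖) * Phi (0 : ι → ℕ) x) ^ 2 ≤
      (K * Real.exp (c ^ 2)) ^ 2 * Real.exp (-(‖x‖ ^ 2) / 2) := by
    intro x
    rw [Phi_zero_eq]
    have e1 : (Real.exp (c * ‖x‖) * (K * Real.exp (-(‖x‖ ^ 2) / 2))) ^ 2 =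
        K ^ 2 * Real.exp (2 * (c * ‖x‖) - ‖x‖ ^ 2) := by
      rw [mul_pow, mul_pow, ← Real.exp_nat_mul, ← Real.exp_nat_mul, mul_left_comm, ← Real.exp_add]
      congr 2
      push_cast; ring
    have e2 : (K * Real.exp (c ^ 2)) ^ 2 * Real.exp (-(‖x‖ ^ 2) / 2) =
        K ^ 2 * Real.exp (2 * c ^ 2 - ‖x‖ ^ 2 / 2) := by
      rw [mul_pow, ← Real.exp_nat_mul, mul_assoc, ← Real.exp_add]
      congr 2
      push_cast; ring
    rw [e1, e2]
    refine mul_le_mul_of_nonneg_left (Real.exp_le_exp.2 ?_) (by positivity)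
    nlinarith [sq_nonneg (2 * c - ‖x‖)]
  rw [memLp_two_iff_integrable_sq hcont.aestronglyMeasurable]
  have hi : Integrable (fun x : E ι => (K * Real.exp (c ^ 2)) ^ 2 * Real.exp (-(‖x‖ ^ 2) / 2)) :=
    ((gaussRS (E ι)).integrable (μ := volume)).const_mul _
  refine hi.mono' (hcont.pow 2).aestronglyMeasurable (Eventually.of_forall fun x => ?_)
  rw [Real.norm_eq_abs, abs_of_nonneg (by positivity)]
  exact hb x

theorem fourier_Phi_mul {f : E ι → ℂ} (hf : MemLp f 2 volume)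
    (h : ∀ α : ι → ℕ, ∫ x, (Phi α x : ℂ) * f x = 0) (ξ : E ι) :
    𝓕 (fun x => (Phi (0 : ι → ℕ) x : ℂ) * f x) ξ = 0 := by
  rw [Real.fourier_eq']
  -- partial sums
  let z : E ι → ℂ := fun x => ((-2 * π * inner ℝ x ξ : ℝ) : ℂ) * Complex.I
  have hz : ∀ x, ‖z x‖ ≤ (2 * π * ‖ξ‖) * ‖x‖ := by
    intro x
    simp only [z, norm_mul, Complex.norm_I, mul_one, Complex.norm_real, Real.norm_eq_abs]
    have h1 := abs_real_inner_le_norm x ξ
    have h2 : |(-2 : ℝ)| * |π| * |inner ℝ x ξ| = 2 * π * |inner ℝ x ξ| := by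
      rw [abs_of_pos Real.pi_pos]; norm_num
    rw [h2]
    have h3 : 2 * π * |inner ℝ x ξ| ≤ 2 * π * (‖x‖ * ‖ξ‖) :=
      mul_le_mul_of_nonneg_left h1 (by positivity)
    linarith
  have hann : ∀ k : ℕ, Ann f (fun x => inner ℝ x ξ ^ k * Phi (0 : ι → ℕ) x) :=
    fun k => ann_of_mem hf h (inner_pow_mem ξ k)
  have hterm : ∀ k : ℕ, Integrable (fun x => z x ^ k / k ! * ((Phi (0 : ι → ℕ) x : ℂ) * f x)) ∧
      ∫ x, z x ^ k / k ! * ((Phi (0 : ι → ℕ) x : ℂ) * f x) = 0 := by
    intro k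
    have e : (fun x => z x ^ k / k ! * ((Phi (0 : ι → ℕ) x : ℂ) * f x)) =
        fun x => ((-2 * π * Complex.I) ^ k / k !) *
          (((inner ℝ x ξ ^ k * Phi (0 : ι → ℕ) x : ℝ) : ℂ) * f x) := by
      ext x
      simp only [z]
      push_cast
      ring
    rw [e]
    exact ⟨(hann k).1.const_mul _, by rw [integral_const_mul, (hann k).2, mul_zero]⟩
  have hdom : Integrable (fun x => Real.exp ((2 * π * ‖ξ‖) * ‖x‖) * Phi (0 : ι → ℕ) x * ‖f x‖) :=
    (memLp_exp_mul_Phi (2 * π * ‖ξ‖)).integrable_mul hf.norm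
  have lim : Tendsto (fun n : ℕ => ∫ x, (∑ k ∈ Finset.range n, z x ^ k / k !) *
      ((Phi (0 : ι → ℕ) x : ℂ) * f x)) atTop
      (𝓝 (∫ x, Complex.exp (z x) * ((Phi (0 : ι → ℕ) x : ℂ) * f x))) := by
    refine tendsto_integral_of_dominated_convergence _ (fun n => ?_) hdom
      (fun n => Eventually.of_forall fun x => ?_) (Eventually.of_forall fun x => ?_)
    · have : (fun x => (∑ k ∈ Finset.range n, z x ^ k / k !) * ((Phi (0 : ι → ℕ) x : ℂ) * f x)) =
        fun x => ∑ k ∈ Finset.range n, z x ^ k / k ! * ((Phi (0 : ι → ℕ) x : ℂ) * f x) := by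
        ext x; rw [Finset.sum_mul]
      rw [this]
      exact (integrable_finsetSum _ fun k _ => (hterm k).1).aestronglyMeasurable
    · rw [norm_mul, norm_mul, Complex.norm_real, Real.norm_eq_abs, abs_of_pos (Phi_zero_pos x),
        mul_assoc]
      refine mul_le_mul_of_nonneg_right ?_ (mul_nonneg (Phi_zero_pos x).le (norm_nonneg _))
      calc ‖∑ k ∈ Finset.range n, z x ^ k / (k.factorial : ℂ)‖
          ≤ ∑ k ∈ Finset.range n, ‖z x ^ k / (k.factorial : ℂ)‖ := norm_sum_le _ _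
        _ = ∑ k ∈ Finset.range n, ‖z x‖ ^ k / (k.factorial : ℝ) := by simp
        _ ≤ Real.exp ‖z x‖ := Real.sum_le_exp_of_nonneg (norm_nonneg _) n
        _ ≤ _ := Real.exp_le_exp.2 (hz x)
    · refine Tendsto.mul_const _ ?_
      have := NormedSpace.expSeries_div_hasSum_exp (𝔸 := ℂ) (z x)
      rw [← Complex.exp_eq_exp_ℂ] at this
      exact this.tendsto_sum_nat
  have hzero : ∀ n : ℕ, ∫ x, (∑ k ∈ Finset.range n, z x ^ k / k !) *
      ((Phi (0 : ι → ℕ) x : ℂ) * f x) = 0 := by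
    intro n
    simp only [Finset.sum_mul]
    rw [integral_finsetSum _ fun k _ => (hterm k).1]
    exact Finset.sum_eq_zero fun k _ => (hterm k).2
  simp only [hzero] at lim
  have := tendsto_nhds_unique tendsto_const_nhds lim
  rw [this]
  refine integral_congr_ae (Eventually.of_forall fun x => ?_)
  simp [z]

/-- completeness of the Hermite functions -/
theorem ae_zero_of_ortho {f : E ι → ℂ} (hf : MemLp f 2 volume)
    (h : ∀ α : ι → ℕ, ∫ x, (Phi α x : ℂ) * f x = 0) : f =ᵐ[volume] 0 := by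
  have hG : Integrable (fun x => (Phi (0 : ι → ℕ) x : ℂ) * f x) := (memLp_Phi 0 2).integrable_mul hf
  have := ae_zero_of_fourier hG (fourier_Phi_mul hf h)
  filter_upwards [this] with x hx
  rcases mul_eq_zero.1 hx with h1 | h1
  · exact absurd (Complex.ofReal_eq_zero.1 h1) (Phi_zero_pos x).ne'
  · exact h1

end Crest.Agent.R338.HO
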