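import Crest.Agent.R338.HO1c

/-!
# Row 338, module HO2 (helper789): Hermite expansion and the harmonic oscillator form

`cf f α = ∫ Φ_α f` (Hermite coefficients).

* `hasSum_parseval`, `hasSum_cf_inner` : Parseval
* `cf_coord`, `cf_grad` : coefficients of `x_j f` and of the weak derivative `∂_j f`
* `hasSum_osc` : `½∫|∇f|² + ½∫|x|²|f|² = ∑_α (|α| + d/2) |c_α|²`
-/

set_option autoImplicit false

open MeasureTheory Real SchwartzMap Filter Topology
open scoped Nat ContDiff FourierTransform ComplexConjugate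

noncomputable section

namespace Crest.Agent.R338.HO

open Crest.Agent.R335.HF

variable {ι : Type*} [Fintype ι]

/-- Hermite coefficient -/
def cf (f : E ι → ℂ) (α : ι → ℕ) : ℂ := ∫ x, (Phi α x : ℂ) * f x

/-- Hermite functions as elements of `L²` -/
def PhiL (α : ι → ℕ) : Lp ℂ 2 (volume : Measure (E ι)) := (PhiS α).toLp 2

section
variable [DecidableEq ι]

theorem inner_PhiL (α : ι → ℕ) {f : E ι → ℂ} (hf : MemLp f 2 volume) :
    inner ℂ (PhiL α) (hf.toLp f) = cf f α := by
  unfold PhiL cf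
  rw [inner_schw]
  simp

theorem inner_PhiL' (α : ι → ℕ) (u : Lp ℂ 2 (volume : Measure (E ι))) :
    inner ℂ (PhiL α) u = cf (fun x => u x) α := by
  unfold PhiL cf
  rw [inner_schw']
  simp

omit [DecidableEq ι] in
theorem cf_Phi (α β : ι → ℕ) : cf (fun x => (Phi β x : ℂ)) α = if α = β then 1 else 0 := by
  unfold cf
  have := integral_Phi_mul_Phi α β
  have h2 : ∫ x : E ι, (Phi α x : ℂ) * (Phi β x : ℂ) = ((∫ x : E ι, Phi α x * Phi β x : ℝ) : ℂ) := by
    rw [← integral_complex_ofReal]; simp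
  rw [h2, this]; split_ifs <;> simp

theorem orthonormal_PhiL : Orthonormal ℂ (PhiL (ι := ι)) := by
  rw [orthonormal_iff_ite]
  intro α β
  have e : PhiL β = (memLp_Phi β 2).toLp (fun x => (Phi β x : ℂ)) := by
    unfold PhiL
    refine Lp.ext ?_
    filter_upwards [(PhiS β).coeFn_toLp 2 (volume : Measure (E ι)),
      (memLp_Phi β 2).coeFn_toLp] with x h1 h2
    rw [h1, h2, PhiS_apply]
  rw [e, inner_PhiL, cf_Phi]

theorem orthogonal_PhiL : (Submodule.span ℂ (Set.range (PhiL (ι := ι))))ᗮ = ⊥ := by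
  rw [Submodule.eq_bot_iff]
  intro u hu
  have h : ∀ α : ι → ℕ, cf (fun x => u x) α = 0 := by
    intro α
    rw [← inner_PhiL']
    exact (Submodule.mem_orthogonal _ _).1 hu _ (Submodule.subset_span ⟨α, rfl⟩)
  have := ae_zero_of_ortho (Lp.memLp u) h
  exact (Lp.eq_zero_iff_ae_eq_zero).2 this

/-- the Hermite basis of `L²` -/
def hermBasis (ι : Type*) [Fintype ι] [DecidableEq ι] :
    HilbertBasis (ι → ℕ) ℂ (Lp ℂ 2 (volume : Measure (E ι))) :=
  HilbertBasis.mkOfOrthogonalEqBot orthonormal_PhiL orthogonal_PhiL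

theorem coe_hermBasis : ⇑(hermBasis ι) = PhiL := HilbertBasis.coe_mkOfOrthogonalEqBot _ _

/-- polarized Parseval -/
theorem hasSum_cf_inner {f g : E ι → ℂ} (hf : MemLp f 2 volume) (hg : MemLp g 2 volume) :
    HasSum (fun α => conj (cf f α) * cf g α) (∫ x, conj (f x) * g x) := by
  have h := (hermBasis ι).hasSum_inner_mul_inner (hf.toLp f) (hg.toLp g)
  rw [inner_toLp, coe_hermBasis] at h
  refine h.congr_fun ?_ |> fun h => h
  intro α
  rw [inner_PhiL, ← inner_conj_symm, inner_PhiL]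

/-- Parseval -/
theorem hasSum_parseval {f : E ι → ℂ} (hf : MemLp f 2 volume) :
    HasSum (fun α => ‖cf f α‖ ^ 2) (∫ x, ‖f x‖ ^ 2) := by
  have h := hasSum_cf_inner hf hf
  have e : ∀ z : ℂ, conj z * z = ((‖z‖ ^ 2 : ℝ) : ℂ) := by
    intro z; rw [mul_comm, Complex.mul_conj, Complex.normSq_eq_norm_sq]
  simp only [e] at h
  rw [integral_complex_ofReal] at h
  exact (Complex.hasSum_ofReal).1 h

/-- coefficients of `x_j f` -/
theorem cf_coord {f : E ι → ℂ} (hf : MemLp f 2 volume) (j : ι) (α : ι → ℕ) :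
    cf (fun x => (x j : ℂ) * f x) α =
      √(((α j : ℝ) + 1) / 2) * cf f (Function.update α j (α j + 1)) +
      √((α j : ℝ) / 2) * cf f (Function.update α j (α j - 1)) := by
  unfold cf
  rw [← integral_const_mul, ← integral_const_mul, ← integral_add]
  · refine integral_congr_ae (Eventually.of_forall fun x => ?_)
    have := x_mul_Phi α j x
    have h2 : (x j : ℂ) * (Phi α x : ℂ) = ((x j * Phi α x : ℝ) : ℂ) := by push_cast; ring
    simp only
    rw [show (Phi α x : ℂ) * ((x j : ℂ) * f x) = ((x j : ℂ) * (Phi α x : ℂ)) * f x by ring, h2, this]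
    push_cast; ring
  · exact ((memLp_Phi _ 2).integrable_mul hf).const_mul _
  · exact ((memLp_Phi _ 2).integrable_mul hf).const_mul _

/-- coefficients of the weak derivative -/
theorem cf_grad {f : E ι → ℂ} {g : E ι → Gr ι ℂ} (h : IsH1 f g) (j : ι) (α : ι → ℕ) :
    cf (fun x => g x j) α =
      √(((α j : ℝ) + 1) / 2) * cf f (Function.update α j (α j + 1)) -
      √((α j : ℝ) / 2) * cf f (Function.update α j (α j - 1)) := by
  have key := h.ibp_schwartz (PhiS α) j
  simp only [fderiv_PhiS, PhiS_apply, Complex.conj_ofReal] at key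
  have e : cf (fun x => g x j) α = - ∫ x, ((√((α j : ℝ) / 2) * Phi (Function.update α j (α j - 1)) x -
      √(((α j : ℝ) + 1) / 2) * Phi (Function.update α j (α j + 1)) x : ℝ) : ℂ) * f x := by
    rw [key]; simp [cf]
  rw [e]
  unfold cf
  rw [← integral_const_mul, ← integral_const_mul, ← integral_sub, ← integral_neg]
  · refine integral_congr_ae (Eventually.of_forall fun x => ?_)
    simp only
    push_cast; ring
  · exact ((memLp_Phi _ 2).integrable_mul h.memf).const_mul _
  · exact ((memLp_Phi _ 2).integrable_mul h.memf).const_mul _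

theorem norm_parallel (a b : ℝ) (z w : ℂ) :
    ‖(a : ℂ) * z + b * w‖ ^ 2 + ‖(a : ℂ) * z - b * w‖ ^ 2 =
      2 * (a ^ 2 * ‖z‖ ^ 2 + b ^ 2 * ‖w‖ ^ 2) := by
  have := parallelogram_law_with_norm ℝ ((a : ℂ) * z) (b * w)
  rw [norm_mul, norm_mul, Complex.norm_real, Complex.norm_real, Real.norm_eq_abs,
    Real.norm_eq_abs] at this
  rw [this, mul_pow, mul_pow, sq_abs, sq_abs]

omit [Fintype ι] in
theorem update_inj (j : ι) : Function.Injective (fun α : ι → ℕ => Function.update α j (α j + 1)) := by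
  intro α β h
  simp only at h
  ext i
  by_cases hi : i = j
  · subst hi
    have := congrFun h i
    simp at this; exact this
  · have := congrFun h i
    simpa [hi] using this

/-- one coordinate of the oscillator: `∫|x_j f|² + ∫|∂_j f|² = ∑_α (2α_j+1)|c_α|²` -/
theorem hasSum_osc_coord {f : E ι → ℂ} {g : E ι → Gr ι ℂ} (h : IsH1 f g) (j : ι)
    (hx : MemLp (fun x => (x j : ℂ) * f x) 2 volume) :
    HasSum (fun α : ι → ℕ => (2 * (α j : ℝ) + 1) * ‖cf f α‖ ^ 2)
      ((∫ x, ‖(x j : ℂ) * f x‖ ^ 2) + ∫ x, ‖g x j‖ ^ 2) := by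
  have h1 := (hasSum_parseval hx).add (hasSum_parseval (h.memgi j))
  simp only [cf_coord h.memf, cf_grad h, norm_parallel] at h1
  have s1 : ∀ α : ι → ℕ, √(((α j : ℝ) + 1) / 2) ^ 2 = ((α j : ℝ) + 1) / 2 := fun α =>
    Real.sq_sqrt (by positivity)
  have s2 : ∀ α : ι → ℕ, √((α j : ℝ) / 2) ^ 2 = (α j : ℝ) / 2 := fun α =>
    Real.sq_sqrt (by positivity)
  simp only [s1, s2] at h1
  let A : (ι → ℕ) → ℝ := fun α => ((α j : ℝ) + 1) * ‖cf f (Function.update α j (α j + 1))‖ ^ 2
  let B : (ι → ℕ) → ℝ := fun α => (α j : ℝ) * ‖cf f (Function.update α j (α j - 1))‖ ^ 2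
  have hAB : HasSum (fun α => A α + B α) ((∫ x, ‖(x j : ℂ) * f x‖ ^ 2) + ∫ x, ‖g x j‖ ^ 2) := by
    refine h1.congr_fun ?_ |> fun h => h
    intro α
    simp only [A, B]; ring
  have hA0 : ∀ α, 0 ≤ A α := fun α => by positivity
  have hB0 : ∀ α, 0 ≤ B α := fun α => by positivity
  have sA : Summable A := Summable.of_nonneg_of_le hA0 (fun α => le_add_of_nonneg_right (hB0 α))
    hAB.summable
  have sB : Summable B := Summable.of_nonneg_of_le hB0 (fun α => le_add_of_nonneg_left (hA0 α))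
    hAB.summable
  have hA : HasSum (fun β : ι → ℕ => (β j : ℝ) * ‖cf f β‖ ^ 2) (∑' α, A α) := by
    rw [← (update_inj j).hasSum_iff]
    · refine sA.hasSum.congr_fun ?_ |> fun h => h
      intro α
      simp [A]
    · intro β hβ
      have : β j = 0 := by
        by_contra hne
        apply hβ
        refine ⟨Function.update β j (β j - 1), ?_⟩
        ext i
        by_cases hi : i = j
        · subst hi; simp; omega
        · simp [hi]
      simp [this]
  have hB : HasSum (fun β : ι → ℕ => ((β j : ℝ) + 1) * ‖cf f β‖ ^ 2) (∑' α, B α) := by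
    have h2 : HasSum B (∑' α, B α) := sB.hasSum
    rw [← (update_inj j).hasSum_iff] at h2
    · refine h2.congr_fun ?_ |> fun h => h
      intro α
      simp [B]
    · intro β hβ
      have : β j = 0 := by
        by_contra hne
        apply hβ
        refine ⟨Function.update β j (β j - 1), ?_⟩
        ext i
        by_cases hi : i = j
        · subst hi; simp; omega
        · simp [hi]
      simp [B, this]
  have h3 := hA.add hB
  have e : (∑' α, A α) + ∑' α, B α = (∫ x, ‖(x j : ℂ) * f x‖ ^ 2) + ∫ x, ‖g x j‖ ^ 2 := by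
    rw [← sA.tsum_add sB]; exact hAB.tsum_eq
  rw [e] at h3
  refine h3.congr_fun ?_ |> fun h => h
  intro α; ring

/-- the oscillator form of a pair `(f, ∇f)` -/
def osc (f : E ι → ℂ) (g : E ι → Gr ι ℂ) : ℝ :=
  (1 / 2) * (∫ x, ‖g x‖ ^ 2) + (1 / 2) * ∫ x, ‖x‖ ^ 2 * ‖f x‖ ^ 2

/-- class of functions with `f, ∇f, x f ∈ L²` -/
structure IsOsc (f : E ι → ℂ) (g : E ι → Gr ι ℂ) : Prop where
  h1 : IsH1 f g
  hx : ∀ j, MemLp (fun x => (x j : ℂ) * f x) 2 volume

theorem osc_eq {f : E ι → ℂ} {g : E ι → Gr ι ℂ} (h : IsOsc f g) :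
    osc f g = ∑ j, (1 / 2) * ((∫ x, ‖(x j : ℂ) * f x‖ ^ 2) + ∫ x, ‖g x j‖ ^ 2) := by
  unfold osc
  rw [← Finset.mul_sum, Finset.sum_add_distrib]
  have e1 : ∫ x, ‖g x‖ ^ 2 = ∑ j, ∫ x, ‖g x j‖ ^ 2 := by
    rw [← integral_finsetSum _ fun j _ => (h.h1.memgi j).integrable_norm_pow (by norm_num) |> fun h => by simpa using h]
    refine integral_congr_ae (Eventually.of_forall fun x => ?_)
    simp only
    rw [PiLp.norm_sq_eq_of_L2]
  have e2 : ∫ x, ‖x‖ ^ 2 * ‖f x‖ ^ 2 = ∑ j, ∫ x, ‖(x j : ℂ) * f x‖ ^ 2 := by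
    rw [← integral_finsetSum _ fun j _ => (h.hx j).integrable_norm_pow (by norm_num) |> fun h => by simpa using h]
    refine integral_congr_ae (Eventually.of_forall fun x => ?_)
    simp only
    rw [EuclideanSpace.norm_sq_eq, Finset.sum_mul]
    refine Finset.sum_congr rfl fun j _ => ?_
    rw [norm_mul, mul_pow, Complex.norm_real]
  rw [e1, e2]; ring

/-- **the oscillator form in the Hermite basis** -/
theorem hasSum_osc {f : E ι → ℂ} {g : E ι → Gr ι ℂ} (h : IsOsc f g) :
    HasSum (fun α : ι → ℕ => ((∑ j, (α j : ℝ)) + (Fintype.card ι : ℝ) / 2) * ‖cf f α‖ ^ 2)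
      (osc f g) := by
  rw [osc_eq h]
  have h1 := hasSum_sum (s := Finset.univ) fun j _ => (hasSum_osc_coord h.h1 j (h.hx j)).mul_left (1 / 2)
  refine h1.congr_fun ?_ |> fun h => h
  intro α
  rw [Finset.sum_congr rfl fun j _ => show (1 / 2 : ℝ) * ((2 * (α j : ℝ) + 1) * ‖cf f α‖ ^ 2) =
    (α j : ℝ) * ‖cf f α‖ ^ 2 + 1 / 2 * ‖cf f α‖ ^ 2 by ring]
  rw [Finset.sum_add_distrib, ← Finset.sum_mul, Finset.sum_const, Finset.card_univ, nsmul_eq_mul]
  ring

end

end Crest.Agent.R338.HO
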