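import Crest.Agent.R338.TA0

/-!
# Row 338, module HO3b (helper789): index combinatorics of the unperturbed problem

For an injective `ω : Fin N → Fin 2 × (Fin 3 → ℕ)` with `N = Nel n0 Nv` the total oscillator energy
`∑ (deg + 3/2)` is `EN n0 Nv` if the core is full and all degrees are `≤ n0`, and `≥ EN n0 Nv + 1`
otherwise.
-/

set_option autoImplicit false

open Finset

noncomputable section

namespace Crest.Agent.R338.HO

open Crest.Agent.R338.TA

/-- all spin orbitals -/
abbrev OrbI := Fin 2 × (Fin 3 → ℕ)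

/-- degree of an orbital -/
def odeg (o : OrbI) : ℕ := deg3 o.2

/-- spatial shell -/
def shell (n : ℕ) : Finset (Fin 3 → ℕ) :=
  ((Finset.univ : Finset (Sp n)).image Subtype.val).filter (fun m => deg3 m = n)

theorem mem_shell {n : ℕ} {m : Fin 3 → ℕ} : m ∈ shell n ↔ deg3 m = n := by
  unfold shell
  simp only [Finset.mem_filter, Finset.mem_image, Finset.mem_univ, true_and, Subtype.exists,
    exists_prop, exists_eq_right]
  constructor
  · exact fun h => h.2
  · exact fun h => ⟨h.le, h⟩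

theorem card_shell (n : ℕ) : (shell n).card = (n + 2).choose 2 := by
  have h1 := Finset.card_finsuppAntidiag_nat_eq_choose (s := (Finset.univ : Finset (Fin 3))) n
  have h2 : (shell n).card = ((Finset.univ : Finset (Fin 3)).finsuppAntidiag n).card := by
    refine Finset.card_nbij' (fun m => Finsupp.equivFunOnFinite.symm m) (fun f => ⇑f) ?_ ?_ ?_ ?_
    · intro m hm
      have := mem_shell.1 (Finset.mem_coe.1 hm)
      rw [Finset.mem_coe, Finset.mem_finsuppAntidiag]
      refine ⟨?_, by simp⟩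
      simp only [Finsupp.equivFunOnFinite_symm_apply_apply, Fin.sum_univ_three]
      exact this
    · intro f hf
      rw [Finset.mem_coe, Finset.mem_finsuppAntidiag] at hf
      rw [Finset.mem_coe, mem_shell]
      have := hf.1
      rw [Fin.sum_univ_three] at this
      exact this
    · intro m _; ext i; simp
    · intro f _; ext i; simp
  rw [h2, h1]
  simp only [Finset.card_univ, Fintype.card_fin]
  have : 3 + n - 1 = n + 2 := by omega
  rw [this]
  exact Nat.choose_symm_add (a := n) (b := 2)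

/-- the core orbitals -/
def core (n0 : ℕ) : Finset OrbI := Finset.univ ×ˢ ((Finset.range n0).biUnion shell)

theorem mem_core {n0 : ℕ} {o : OrbI} : o ∈ core n0 ↔ odeg o < n0 := by
  unfold core odeg
  simp [mem_shell]

theorem sum_core (n0 : ℕ) (f : ℕ → ℕ) :
    ∑ o ∈ core n0, f (odeg o) = ∑ n ∈ Finset.range n0, f n * (2 * (n + 2).choose 2) := by
  unfold core
  rw [Finset.sum_product]
  have e : ∀ s : Fin 2, ∑ m ∈ (Finset.range n0).biUnion shell, f (odeg (s, m)) =
      ∑ n ∈ Finset.range n0, f n * (n + 2).choose 2 := by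
    intro s
    rw [Finset.sum_biUnion]
    · refine Finset.sum_congr rfl fun n _ => ?_
      rw [← card_shell, Finset.sum_congr rfl fun m hm => show f (odeg (s, m)) = f n by
        rw [show odeg (s, m) = n from mem_shell.1 hm]]
      rw [Finset.sum_const, smul_eq_mul, mul_comm]
    · intro a _ b _ hab
      rw [Function.onFun, Finset.disjoint_left]
      intro m hm hm'
      exact hab ((mem_shell.1 hm).symm.trans (mem_shell.1 hm'))
  simp only [e, Finset.sum_const, Finset.card_univ, Fintype.card_fin, smul_eq_mul]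
  rw [Finset.mul_sum]
  refine Finset.sum_congr rfl fun n _ => by ring

theorem two_choose (n : ℕ) : 2 * (n + 2).choose 2 = (n + 1) * (n + 2) := by
  rw [Nat.choose_two_right]
  have : 2 ∣ (n + 2) * (n + 2 - 1) := by
    have := Nat.even_mul_pred_self (n + 2)
    exact this.two_dvd
  rw [Nat.mul_div_cancel' this]
  have : n + 2 - 1 = n + 1 := rfl
  rw [this]; ring

theorem sum_two_choose (n0 : ℕ) :
    ∑ n ∈ Finset.range n0, (n + 1) * (n + 2) = 2 * (n0 + 2).choose 3 := by
  induction n0 with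
  | zero => simp [Nat.choose]
  | succ n ih =>
    rw [Finset.sum_range_succ, ih, ← two_choose]
    have : (n + 1 + 2).choose 3 = (n + 2).choose 2 + (n + 2).choose 3 := Nat.choose_succ_succ _ _
    rw [this]; ring

theorem Nel_eq (n0 Nv : ℕ) : Nel n0 Nv = ∑ n ∈ Finset.range n0, (n + 1) * (n + 2) + Nv := by
  unfold Nel; rw [sum_two_choose]

/-- integer part of the unperturbed energy -/
def M0 (n0 Nv : ℕ) : ℕ := ∑ n ∈ Finset.range n0, n * ((n + 1) * (n + 2)) + Nv * n0

/-- the deficit of the core -/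
def K0 (n0 : ℕ) : ℕ := ∑ n ∈ Finset.range n0, (n0 - n) * ((n + 1) * (n + 2))

theorem Nel_mul (n0 Nv : ℕ) : Nel n0 Nv * n0 = K0 n0 + M0 n0 Nv := by
  rw [Nel_eq, K0, M0, ← add_assoc, ← Finset.sum_add_distrib, add_mul, Finset.sum_mul]
  congr 1
  refine Finset.sum_congr rfl fun n hn => ?_
  rw [← add_mul, Nat.sub_add_cancel (Finset.mem_range.1 hn).le]; ring

theorem sum_core_deficit (n0 : ℕ) : ∑ o ∈ core n0, (n0 - odeg o) = K0 n0 := by
  rw [sum_core n0 (fun n => n0 - n), K0]
  refine Finset.sum_congr rfl fun n _ => ?_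
  rw [two_choose]

theorem EN_eq (n0 Nv : ℕ) : EN n0 Nv = (M0 n0 Nv : ℝ) + (Nel n0 Nv : ℝ) * (3 / 2) := by
  rw [Nel_eq, M0, EN]
  push_cast
  rw [add_mul, Finset.sum_mul]
  have : ∀ n : ℕ, ((n : ℝ) + 3 / 2) * (n + 1) * (n + 2) =
      (n : ℝ) * (((n : ℝ) + 1) * (n + 2)) + (((n : ℝ) + 1) * (n + 2)) * (3 / 2) := fun n => by ring
  simp only [this, Finset.sum_add_distrib]
  ring

variable {N : ℕ}

/-- ground configurations: full core and all degrees `≤ n0` -/
def Ground (n0 : ℕ) (ω : Fin N → OrbI) : Prop :=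
  (∀ o : OrbI, odeg o < n0 → ∃ i, ω i = o) ∧ ∀ i, odeg (ω i) ≤ n0

theorem sum_deg_add (n0 : ℕ) (ω : Fin N → OrbI) :
    ∑ i, odeg (ω i) + ∑ i, (n0 - odeg (ω i)) = N * n0 + ∑ i, (odeg (ω i) - n0) := by
  rw [← Finset.sum_add_distrib]
  have : N * n0 = ∑ _i : Fin N, n0 := by simp
  rw [this, ← Finset.sum_add_distrib]
  refine Finset.sum_congr rfl fun i _ => by omega

theorem deficit_le (n0 : ℕ) {ω : Fin N → OrbI} (hω : Function.Injective ω) :
    ∑ i, (n0 - odeg (ω i)) ≤ K0 n0 := by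
  rw [← sum_core_deficit]
  have h1 : ∑ i, (n0 - odeg (ω i)) = ∑ o ∈ Finset.univ.image ω, (n0 - odeg o) := by
    rw [Finset.sum_image (fun a _ b _ h => hω h)]
  rw [h1, ← Finset.sum_filter_add_sum_filter_not _ (fun o => odeg o < n0)]
  have h2 : ∑ o ∈ (Finset.univ.image ω).filter (fun o => ¬ odeg o < n0), (n0 - odeg o) = 0 := by
    refine Finset.sum_eq_zero fun o ho => ?_
    have := (Finset.mem_filter.1 ho).2
    omega
  rw [h2, add_zero]
  refine Finset.sum_le_sum_of_subset fun o ho => ?_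
  exact mem_core.2 (Finset.mem_filter.1 ho).2

theorem deficit_lt (n0 : ℕ) {ω : Fin N → OrbI} (hω : Function.Injective ω) {o' : OrbI}
    (ho' : odeg o' < n0) (hn : ∀ i, ω i ≠ o') : ∑ i, (n0 - odeg (ω i)) < K0 n0 := by
  rw [← sum_core_deficit]
  have h1 : ∑ i, (n0 - odeg (ω i)) = ∑ o ∈ Finset.univ.image ω, (n0 - odeg o) := by
    rw [Finset.sum_image (fun a _ b _ h => hω h)]
  rw [h1, ← Finset.sum_filter_add_sum_filter_not _ (fun o => odeg o < n0)]
  have h2 : ∑ o ∈ (Finset.univ.image ω).filter (fun o => ¬ odeg o < n0), (n0 - odeg o) = 0 := by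
    refine Finset.sum_eq_zero fun o ho => ?_
    have := (Finset.mem_filter.1 ho).2
    omega
  rw [h2, add_zero]
  refine Finset.sum_lt_sum_of_subset (i := o') (fun o ho => ?_) (mem_core.2 ho') ?_ ?_ ?_
  · exact mem_core.2 (Finset.mem_filter.1 ho).2
  · intro hmem
    obtain ⟨i, _, hi⟩ := Finset.mem_image.1 (Finset.mem_filter.1 hmem).1
    exact hn i hi
  · omega
  · intro j _ _; exact Nat.zero_le _

theorem sum_deg_ground {n0 Nv : ℕ} {ω : Fin (Nel n0 Nv) → OrbI} (hω : Function.Injective ω)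
    (hg : Ground n0 ω) : ∑ i, odeg (ω i) = M0 n0 Nv := by
  have h1 := sum_deg_add n0 ω
  have h2 : ∑ i, (odeg (ω i) - n0) = 0 := Finset.sum_eq_zero fun i _ => by
    have := hg.2 i; omega
  have h3 : ∑ i, (n0 - odeg (ω i)) = K0 n0 := by
    rw [← sum_core_deficit]
    have h1 : ∑ i, (n0 - odeg (ω i)) = ∑ o ∈ Finset.univ.image ω, (n0 - odeg o) := by
      rw [Finset.sum_image (fun a _ b _ h => hω h)]
    rw [h1]
    symm
    refine Finset.sum_subset ?_ ?_
    · intro o ho
      obtain ⟨i, hi⟩ := hg.1 o (mem_core.1 ho)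
      exact Finset.mem_image.2 ⟨i, Finset.mem_univ i, hi⟩
    · intro o _ ho
      have : ¬ odeg o < n0 := fun h => ho (mem_core.2 h)
      omega
  have h4 := Nel_mul n0 Nv
  omega

theorem sum_deg_not_ground {n0 Nv : ℕ} {ω : Fin (Nel n0 Nv) → OrbI} (hω : Function.Injective ω)
    (hg : ¬ Ground n0 ω) : M0 n0 Nv + 1 ≤ ∑ i, odeg (ω i) := by
  have h1 := sum_deg_add n0 ω
  have h4 := Nel_mul n0 Nv
  unfold Ground at hg
  rw [not_and_or] at hg
  rcases hg with hg | hg
  · push Not at hg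
    obtain ⟨o, ho, hn⟩ := hg
    have h3 := deficit_lt n0 hω ho hn
    omega
  · push Not at hg
    obtain ⟨i, hi⟩ := hg
    have h3 := deficit_le n0 hω
    have h5 : odeg (ω i) - n0 ≤ ∑ i, (odeg (ω i) - n0) :=
      Finset.single_le_sum (f := fun i => odeg (ω i) - n0) (fun _ _ => Nat.zero_le _)
        (Finset.mem_univ i)
    omega

/-- energy of a configuration -/
def econf (ω : Fin N → OrbI) : ℝ := ((∑ i, odeg (ω i) : ℕ) : ℝ) + (N : ℝ) * (3 / 2)

theorem econf_ground {n0 Nv : ℕ} {ω : Fin (Nel n0 Nv) → OrbI} (hω : Function.Injective ω)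
    (hg : Ground n0 ω) : econf ω = EN n0 Nv := by
  rw [econf, sum_deg_ground hω hg, EN_eq]

theorem econf_not_ground {n0 Nv : ℕ} {ω : Fin (Nel n0 Nv) → OrbI} (hω : Function.Injective ω)
    (hg : ¬ Ground n0 ω) : EN n0 Nv + 1 ≤ econf ω := by
  have h : ((M0 n0 Nv + 1 : ℕ) : ℝ) ≤ ((∑ i, odeg (ω i) : ℕ) : ℝ) :=
    Nat.cast_le.2 (sum_deg_not_ground hω hg)
  rw [econf, EN_eq]
  push_cast at h ⊢
  linarith

end Crest.Agent.R338.HO
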