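import Crest.Agent.R338.HO2
import Crest.Agent.R338.HO3b
import Crest.Agent.R338.Fm1

/-!
# Row 338, module HO3 (helper789): the N-body oscillator, antisymmetry and the gap

See `osc_split`, `hosc_wav`, `nsq_wav`.
-/

set_option autoImplicit false

open MeasureTheory Filter Topology
open scoped ENNReal ComplexConjugate

noncomputable section

namespace Crest.Agent.R338.HO

open Crest.Agent.R338.TA Crest.Agent.R338.Fm
open Crest.MathPhysics.ElectronicCoulomb
open Crest.Agent.R335.HF (IsH1 Gr cgrad IsH1.sub isH1_of_contDiff isH1_of_contDiff_compact)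

variable {N n0 : ℕ}

/-! ### permutations -/

/-- relabelling as a linear isometry -/
def permL (σ : Equiv.Perm (Fin N)) : Config N ≃ₗᵢ[ℝ] Config N :=
  LinearIsometryEquiv.piLpCongrLeft 2 ℝ ℝ (Equiv.prodCongr σ (Equiv.refl (Fin 3))).symm

theorem permL_apply (σ : Equiv.Perm (Fin N)) (x : Config N) : permL σ x = permConfig σ x := by
  unfold permL permConfig
  ext ic
  rw [LinearIsometryEquiv.piLpCongrLeft_apply]
  rfl

theorem integral_perm (σ : Equiv.Perm (Fin N)) (g : Config N → ℂ) :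
    ∫ x, g (permConfig σ x) = ∫ x, g x := by
  have h := (permL σ).measurePreserving
  have h2 := h.integral_comp (permL σ).toHomeomorph.measurableEmbedding g
  simp only [permL_apply] at h2
  exact h2

/-- the multi-index of a tuple of orbitals -/
def aidx (m : Fin N → Fin 3 → ℕ) : Fin N × Fin 3 → ℕ := fun ic => m ic.1 ic.2

theorem Phi_perm (σ : Equiv.Perm (Fin N)) (α : Fin N × Fin 3 → ℕ) (x : Config N) :
    Phi (fun ic => α (σ ic.1, ic.2)) (permConfig σ x) = Phi α x := by
  unfold Phi permConfig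
  simp only
  exact Fintype.prod_equiv (Equiv.prodCongr σ (Equiv.refl (Fin 3))) _ _ (fun ic => rfl)

/-- antisymmetry of the coefficients -/
theorem cf_perm {Ψ : Wave N} (h : IsFermionic Ψ) (σ : Equiv.Perm (Fin N)) (s : Spin N)
    (α : Fin N × Fin 3 → ℕ) :
    cf (Ψ (fun i => s (σ i))) (fun ic => α (σ ic.1, ic.2)) =
      ((Equiv.Perm.sign σ : ℤ) : ℂ) * cf (Ψ s) α := by
  unfold cf
  rw [← integral_perm σ, ← integral_const_mul]
  refine integral_congr_ae (Eventually.of_forall fun x => ?_)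
  simp only
  rw [Phi_perm, h.2 σ s x]
  ring

/-- coefficients at repeated orbitals vanish -/
theorem cf_eq_zero_of_rep {Ψ : Wave N} (h : IsFermionic Ψ) (s : Spin N) (m : Fin N → Fin 3 → ℕ)
    (hn : ¬ Function.Injective (fun i => (s i, m i))) : cf (Ψ s) (aidx m) = 0 := by
  unfold Function.Injective at hn
  push Not at hn
  obtain ⟨i, j, hij, hne⟩ := hn
  have hs : s i = s j := (Prod.ext_iff.1 hij).1
  have hm : m i = m j := (Prod.ext_iff.1 hij).2
  have key := cf_perm h (Equiv.swap i j) s (aidx m)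
  have e1 : (fun k => s (Equiv.swap i j k)) = s := by
    funext k
    by_cases h1 : k = i
    · subst h1; rw [Equiv.swap_apply_left]; exact hs.symm
    · by_cases h2 : k = j
      · subst h2; rw [Equiv.swap_apply_right]; exact hs
      · rw [Equiv.swap_apply_of_ne_of_ne h1 h2]
  have e2 : (fun ic : Fin N × Fin 3 => aidx m (Equiv.swap i j ic.1, ic.2)) = aidx m := by
    funext ic
    obtain ⟨k, c⟩ := ic
    unfold aidx
    simp only
    by_cases h1 : k = i
    · subst h1; rw [Equiv.swap_apply_left, hm]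
    · by_cases h2 : k = j
      · subst h2; rw [Equiv.swap_apply_right, hm]
      · rw [Equiv.swap_apply_of_ne_of_ne h1 h2]
  rw [e1, e2, Equiv.Perm.sign_swap hne] at key
  simp only [Units.val_neg, Units.val_one, Int.cast_neg, Int.cast_one, neg_mul, one_mul] at key
  exact self_eq_neg.1 key

/-! ### waves in the oscillator class -/

/-- waves with weak gradient and `x Ψ ∈ L²` -/
def WaveOsc (Ψ : Wave N) (Γ : Spin N → Config N → CG N) : Prop := ∀ s, IsOsc (Ψ s) (Γ s)

/-- the oscillator form of a wave -/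
def hosc (Ψ : Wave N) (Γ : Spin N → Config N → CG N) : ℝ := ∑ s, osc (Ψ s) (Γ s)

theorem hosc_eq (Ψ : Wave N) (Γ : Spin N → Config N → CG N) :
    hosc Ψ Γ = (1 / 2) * dir Γ + (1 / 2) * ∑ s, ∫ x, ‖x‖ ^ 2 * ‖Ψ s x‖ ^ 2 := by
  unfold hosc osc dir
  rw [Finset.sum_add_distrib, Finset.mul_sum, Finset.mul_sum]

theorem WaveOsc.waveH1 {Ψ : Wave N} {Γ : Spin N → Config N → CG N} (h : WaveOsc Ψ Γ) :
    WaveH1 Ψ Γ := fun s => (h s).h1

theorem IsOsc.sub {ι : Type*} [Fintype ι] [DecidableEq ι]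
    {f f' : EuclideanSpace ℝ ι → ℂ} {g g' : EuclideanSpace ℝ ι → Gr ι ℂ}
    (h : IsOsc f g) (h' : IsOsc f' g') :
    IsOsc (fun x => f x - f' x) (fun x => g x - g' x) where
  h1 := h.h1.sub h'.h1
  hx j := by
    have := (h.hx j).sub (h'.hx j)
    refine this.congr_norm ?_ (Eventually.of_forall fun x => ?_)
    · have e : (fun x : EuclideanSpace ℝ ι => (x j : ℂ) * (f x - f' x)) =
        (fun x => (x j : ℂ) * f x) - fun x => (x j : ℂ) * f' x := by
        funext x; simp [mul_sub]
      rw [e]; exact this.aestronglyMeasurable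
    · simp [mul_sub]

theorem WaveOsc.sub {Ψ Ψ' : Wave N} {Γ Γ' : Spin N → Config N → CG N} (h : WaveOsc Ψ Γ)
    (h' : WaveOsc Ψ' Γ') :
    WaveOsc (fun s x => Ψ s x - Ψ' s x) (fun s x => Γ s x - Γ' s x) := fun s => (h s).sub (h' s)

/-- expansion of the norm -/
theorem hasSum_nsq {Ψ : Wave N} (h : ∀ s, MemLp (Ψ s) 2 volume) :
    HasSum (fun α : Fin N × Fin 3 → ℕ => ∑ s, ‖cf (Ψ s) α‖ ^ 2) (nsq Ψ) := by
  unfold nsq
  exact hasSum_sum fun s _ => hasSum_parseval (h s)

/-- energy of a multi-index -/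
def ea (α : Fin N × Fin 3 → ℕ) : ℝ := (∑ j, (α j : ℝ)) + (Fintype.card (Fin N × Fin 3) : ℝ) / 2

/-- expansion of the oscillator form -/
theorem hasSum_hosc {Ψ : Wave N} {Γ : Spin N → Config N → CG N} (h : WaveOsc Ψ Γ) :
    HasSum (fun α : Fin N × Fin 3 → ℕ => ea α * ∑ s, ‖cf (Ψ s) α‖ ^ 2) (hosc Ψ Γ) := by
  unfold hosc
  have := hasSum_sum (s := Finset.univ) fun s _ => hasSum_osc (h s)
  refine this.congr_fun ?_ |> fun h => h
  intro α
  rw [Finset.mul_sum]; rfl

/-- the tuple of orbitals of `(s, α)` -/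
def orb (s : Spin N) (α : Fin N × Fin 3 → ℕ) : Fin N → OrbI := fun i => (s i, fun c => α (i, c))

theorem ea_eq (s : Spin N) (α : Fin N × Fin 3 → ℕ) : ea α = econf (orb s α) := by
  unfold ea econf orb odeg deg3
  rw [Fintype.sum_prod_type]
  simp only [Fin.sum_univ_three, Fintype.card_prod, Fintype.card_fin]
  push_cast
  ring

theorem aidx_orb (α : Fin N × Fin 3 → ℕ) : aidx (fun i c => α (i, c)) = α := rfl

theorem cf_eq_zero_of_not_inj {Ψ : Wave N} (h : IsFermionic Ψ) (s : Spin N)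
    (α : Fin N × Fin 3 → ℕ) (hn : ¬ Function.Injective (orb s α)) : cf (Ψ s) α = 0 :=
  cf_eq_zero_of_rep h s (fun i c => α (i, c)) hn

/-! ### waves of tensors -/

/-- all degrees are `≤ n0` -/
def Low (n0 : ℕ) (α : Fin N × Fin 3 → ℕ) : Prop := ∀ i : Fin N, deg3 (fun c => α (i, c)) ≤ n0

open Classical in
/-- extension of a tensor to all multi-indices by zero -/
def ext (C : Ten N n0) (s : Spin N) (α : Fin N × Fin 3 → ℕ) : ℂ :=
  if h : Low n0 α then C (fun i => (s i, ⟨fun c => α (i, c), h i⟩)) else 0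

/-- multi-index of low orbitals -/
def lidx (m : Fin N → Sp n0) : Fin N × Fin 3 → ℕ := fun ic => (m ic.1).1 ic.2

theorem lidx_low (m : Fin N → Sp n0) : Low n0 (lidx m) := fun i => (m i).2

theorem lidx_injective : Function.Injective (lidx : (Fin N → Sp n0) → _) := by
  intro m m' h
  funext i
  apply Subtype.ext
  funext c
  exact congrFun h (i, c)

theorem exists_lidx {α : Fin N × Fin 3 → ℕ} (h : Low n0 α) : ∃ m : Fin N → Sp n0, lidx m = α :=
  ⟨fun i => ⟨fun c => α (i, c), h i⟩, rfl⟩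

theorem ext_lidx (C : Ten N n0) (s : Spin N) (m : Fin N → Sp n0) :
    ext C s (lidx m) = C (fun i => (s i, m i)) := by
  unfold ext
  rw [dif_pos (lidx_low m)]
  rfl

theorem ext_not_low (C : Ten N n0) (s : Spin N) {α : Fin N × Fin 3 → ℕ} (h : ¬ Low n0 α) :
    ext C s α = 0 := by
  unfold ext
  rw [dif_neg h]

theorem wav_eq (C : Ten N n0) (s : Spin N) :
    wav C s = fun x => ∑ m : Fin N → Sp n0, C (fun i => (s i, m i)) * (Phi (lidx m) x : ℂ) := rfl

theorem integrable_Phi_mul {ι : Type*} [Fintype ι] (α : ι → ℕ) {f : EuclideanSpace ℝ ι → ℂ}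
    (hf : MemLp f 2 volume) : Integrable (fun x => (Phi α x : ℂ) * f x) :=
  (memLp_Phi α 2).integrable_mul hf

theorem cf_wav (C : Ten N n0) (s : Spin N) (α : Fin N × Fin 3 → ℕ) :
    cf (wav C s) α = ext C s α := by
  rw [wav_eq]
  unfold cf
  have e : ∀ x, (Phi α x : ℂ) * ∑ m : Fin N → Sp n0, C (fun i => (s i, m i)) * (Phi (lidx m) x : ℂ) =
      ∑ m : Fin N → Sp n0, C (fun i => (s i, m i)) * ((Phi α x : ℂ) * (Phi (lidx m) x : ℂ)) := by
    intro x
    rw [Finset.mul_sum]
    refine Finset.sum_congr rfl fun m _ => by ring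
  simp only [e]
  rw [integral_finsetSum _ fun m _ => (integrable_Phi_mul α (memLp_Phi (lidx m) 2)).const_mul _]
  have e2 : ∀ m : Fin N → Sp n0, ∫ x, C (fun i => (s i, m i)) * ((Phi α x : ℂ) * (Phi (lidx m) x : ℂ)) =
      C (fun i => (s i, m i)) * (if α = lidx m then 1 else 0) := by
    intro m
    rw [integral_const_mul]
    congr 1
    exact cf_Phi α (lidx m)
  simp only [e2]
  by_cases h : Low n0 α
  · obtain ⟨m, rfl⟩ := exists_lidx h
    rw [ext_lidx, Finset.sum_eq_single m]
    · simp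
    · intro m' _ hne
      rw [if_neg (fun h => hne (lidx_injective h).symm), mul_zero]
    · simp
  · rw [ext_not_low C s h]
    refine Finset.sum_eq_zero fun m _ => ?_
    rw [if_neg (fun h' => h (by rw [h']; exact lidx_low m)), mul_zero]

/-- classical gradient of a tensor wave -/
def gwav (C : Ten N n0) : Spin N → Config N → CG N := fun s => cgrad (wav C s)

/-- Schwartz function of a tensor wave -/
def wavS (C : Ten N n0) (s : Spin N) : SchwartzMap (Config N) ℂ :=
  ∑ m : Fin N → Sp n0, C (fun i => (s i, m i)) • PhiS (lidx m)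

theorem wavS_coe (C : Ten N n0) (s : Spin N) : (wavS C s : Config N → ℂ) = wav C s := by
  rw [wav_eq]
  funext x
  unfold wavS
  rw [sum_apply]
  simp

/-- Schwartz functions are in the oscillator class -/
theorem isOsc_schwartz {ι : Type*} [Fintype ι] [DecidableEq ι]
    (f : SchwartzMap (EuclideanSpace ℝ ι) ℂ) : IsOsc (f : EuclideanSpace ℝ ι → ℂ) (cgrad f) where
  h1 := by
    refine isH1_of_contDiff (f.smooth 1) (f.memLp 2 volume) ?_
    refine Crest.Agent.R335.HF.memLp_of_comp fun i => ?_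
    have := (LineDeriv.lineDerivOp (EuclideanSpace.single i (1 : ℝ) : EuclideanSpace ℝ ι) f :
      SchwartzMap (EuclideanSpace ℝ ι) ℂ).memLp 2 (volume : Measure (EuclideanSpace ℝ ι))
    have e : ((LineDeriv.lineDerivOp (EuclideanSpace.single i (1 : ℝ) : EuclideanSpace ℝ ι) f :
      SchwartzMap (EuclideanSpace ℝ ι) ℂ) : EuclideanSpace ℝ ι → ℂ) =
        fun x => fderiv ℝ f x (EuclideanSpace.single i (1 : ℝ)) := by
      ext x; exact SchwartzMap.lineDerivOp_apply_eq_fderiv _ _ _
    rw [e] at this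
    exact this
  hx j := by
    have htg : Function.HasTemperateGrowth (fun x : EuclideanSpace ℝ ι => (x j : ℂ)) :=
      Function.Complex.hasTemperateGrowth_ofReal.comp (htg_coord j)
    have := (SchwartzMap.smulLeftCLM ℂ (fun x : EuclideanSpace ℝ ι => (x j : ℂ)) f).memLp 2
      (volume : Measure (EuclideanSpace ℝ ι))
    have e : (SchwartzMap.smulLeftCLM ℂ (fun x : EuclideanSpace ℝ ι => (x j : ℂ)) f :
        EuclideanSpace ℝ ι → ℂ) = fun x => (x j : ℂ) * f x := by
      ext x; rw [SchwartzMap.smulLeftCLM_apply_apply htg]; rfl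
    rwa [e] at this

theorem isOsc_of_contDiff_compact {ι : Type*} [Fintype ι] [DecidableEq ι]
    {f : EuclideanSpace ℝ ι → ℂ} (hf : ContDiff ℝ 1 f) (hc : HasCompactSupport f) :
    IsOsc f (cgrad f) where
  h1 := isH1_of_contDiff_compact hf hc
  hx j := by
    have h1 : Continuous (fun x : EuclideanSpace ℝ ι => (x j : ℂ) * f x) := by
      have := hf.continuous
      fun_prop
    exact h1.memLp_of_hasCompactSupport hc.mul_left

theorem isOsc_of_bdd {ι : Type*} [Fintype ι] [DecidableEq ι]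
    {f : EuclideanSpace ℝ ι → ℂ} {g : EuclideanSpace ℝ ι → Gr ι ℂ} (h : IsH1 f g) {R : ℝ}
    (hR : ∀ x, R < ‖x‖ → f x = 0) : IsOsc f g where
  h1 := h
  hx j := by
    have hm : AEStronglyMeasurable (fun x : EuclideanSpace ℝ ι => (x j : ℂ) * f x) volume := by
      have : Continuous (fun x : EuclideanSpace ℝ ι => (x j : ℂ)) := by fun_prop
      exact this.aestronglyMeasurable.mul h.memf.aestronglyMeasurable
    refine (h.memf.const_smul (|R| : ℝ)).mono hm (Eventually.of_forall fun x => ?_)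
    simp only [Pi.smul_apply]
    rw [norm_mul, norm_smul, Complex.norm_real, Real.norm_eq_abs, Real.norm_eq_abs, abs_abs]
    by_cases hx : R < ‖x‖
    · rw [hR x hx]; simp
    · refine mul_le_mul_of_nonneg_right ?_ (norm_nonneg _)
      have h1 : |x j| ≤ ‖x‖ := by
        have := PiLp.norm_apply_le x j
        simpa using this
      exact (h1.trans (not_lt.1 hx)).trans (le_abs_self R)

theorem waveOsc_wav (C : Ten N n0) : WaveOsc (wav C) (gwav C) := by
  intro s
  have := isOsc_schwartz (wavS C s)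
  rw [wavS_coe] at this
  exact this

theorem sum_tensor {β : Type*} [AddCommMonoid β] (F : (Fin N → Orb n0) → β) :
    ∑ ω, F ω = ∑ s : Spin N, ∑ m : Fin N → Sp n0, F (fun i => (s i, m i)) := by
  rw [← Fintype.sum_prod_type' (f := fun (s : Spin N) (m : Fin N → Sp n0) => F (fun i => (s i, m i)))]
  refine Fintype.sum_equiv (Equiv.arrowProdEquivProdArrow (Fin N) (fun _ => Fin 2) (fun _ => Sp n0))
    _ _ (fun ω => rfl)

/-- a function of `(s, α)` supported on low multi-indices sums to the finite sum -/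
theorem hasSum_low (G : Spin N → (Fin N × Fin 3 → ℕ) → ℝ)
    (h : ∀ s α, ¬ Low n0 α → G s α = 0) :
    HasSum (fun α => ∑ s, G s α) (∑ s : Spin N, ∑ m : Fin N → Sp n0, G s (lidx m)) := by
  refine hasSum_sum fun s _ => ?_
  rw [← lidx_injective.hasSum_iff (f := G s)]
  · exact hasSum_fintype _
  · intro α hα
    exact h s α fun hl => hα (exists_lidx hl)

theorem memLp_wav (C : Ten N n0) (s : Spin N) : MemLp (wav C s) 2 volume :=
  (waveOsc_wav C s).h1.memf

theorem hasSum_ext_sq (C : Ten N n0) :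
    HasSum (fun α : Fin N × Fin 3 → ℕ => ∑ s, ‖ext C s α‖ ^ 2) (tsq C) := by
  have := hasSum_low (n0 := n0) (fun s α => ‖ext C s α‖ ^ 2) (fun s α h => by
    simp [ext_not_low C s h])
  unfold tsq
  rw [sum_tensor]
  simp only [ext_lidx] at this
  exact this

/-- the norm of a tensor wave -/
theorem nsq_wav (C : Ten N n0) : nsq (wav C) = tsq C := by
  have h1 := hasSum_nsq (memLp_wav C)
  simp only [cf_wav] at h1
  exact h1.unique (hasSum_ext_sq C)

/-! ### antisymmetric, full core -/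

theorem anti_rep {C : Ten N n0} (hA : Anti C) {ω : Fin N → Orb n0}
    (hn : ¬ Function.Injective ω) : C ω = 0 := by
  unfold Function.Injective at hn
  push Not at hn
  obtain ⟨i, j, hij, hne⟩ := hn
  have key := hA (Equiv.swap i j) ω
  have e1 : (fun k => ω (Equiv.swap i j k)) = ω := by
    funext k
    by_cases h1 : k = i
    · subst h1; rw [Equiv.swap_apply_left]; exact hij.symm
    · by_cases h2 : k = j
      · subst h2; rw [Equiv.swap_apply_right]; exact hij
      · rw [Equiv.swap_apply_of_ne_of_ne h1 h2]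
  rw [e1, Equiv.Perm.sign_swap hne] at key
  simp only [Units.val_neg, Units.val_one, Int.cast_neg, Int.cast_one, neg_mul, one_mul] at key
  exact self_eq_neg.1 key

/-- inclusion of low orbitals in all orbitals -/
def up (o : Orb n0) : OrbI := (o.1, o.2.1)

theorem up_injective : Function.Injective (up : Orb n0 → OrbI) := by
  intro a b h
  have h1 := (Prod.ext_iff.1 h).1
  have h2 := (Prod.ext_iff.1 h).2
  exact Prod.ext h1 (Subtype.ext h2)

theorem orb_lidx (s : Spin N) (m : Fin N → Sp n0) :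
    orb s (lidx m) = fun i => up (s i, m i) := rfl

theorem ground_of_core {ω : Fin N → Orb n0}
    (h : ∀ o : Orb n0, deg3 o.2.1 < n0 → ∃ i, ω i = o) : Ground n0 (fun i => up (ω i)) := by
  constructor
  · intro o ho
    obtain ⟨i, hi⟩ := h (o.1, ⟨o.2, (show deg3 o.2 < n0 from ho).le⟩) ho
    refine ⟨i, ?_⟩
    simp only [hi]; rfl
  · intro i
    exact (ω i).2.2

theorem core_of_ground {ω : Fin N → Orb n0} (h : Ground n0 (fun i => up (ω i))) :
    ∀ o : Orb n0, deg3 o.2.1 < n0 → ∃ i, ω i = o := by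
  intro o ho
  obtain ⟨i, hi⟩ := h.1 (up o) ho
  exact ⟨i, up_injective hi⟩

/-- where the extension is nonzero the configuration is injective and ground -/
theorem ext_ne_zero {C : Ten N n0} (hA : Anti C) (hC : CoreFull C) {s : Spin N}
    {α : Fin N × Fin 3 → ℕ} (h : ext C s α ≠ 0) :
    Function.Injective (orb s α) ∧ Ground n0 (orb s α) := by
  have hl : Low n0 α := by
    by_contra hl; exact h (ext_not_low C s hl)
  obtain ⟨m, rfl⟩ := exists_lidx hl
  rw [ext_lidx] at h
  rw [orb_lidx]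
  constructor
  · have : Function.Injective (fun i => (s i, m i)) := by
      by_contra hn; exact h (anti_rep hA hn)
    exact up_injective.comp this
  · exact ground_of_core (hC _ h)

/-- energy of a full-core tensor wave -/
theorem hosc_wav {n0 Nv : ℕ} {C : Ten (Nel n0 Nv) n0} (hA : Anti C) (hC : CoreFull C) :
    hosc (wav C) (gwav C) = EN n0 Nv * tsq C := by
  have h1 := hasSum_hosc (waveOsc_wav C)
  simp only [cf_wav] at h1
  have h2 := (hasSum_ext_sq C).mul_left (EN n0 Nv)
  refine h1.unique (h2.congr_fun ?_ |> fun h => h)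
  intro α
  rw [Finset.mul_sum, Finset.mul_sum]
  refine Finset.sum_congr rfl fun s _ => ?_
  by_cases h : ext C s α = 0
  · simp [h]
  · obtain ⟨hi, hg⟩ := ext_ne_zero hA hC h
    rw [ea_eq s α, econf_ground hi hg]

/-! ### the ground part of a fermionic wave -/

open Classical in
/-- the ground part of a wave as a tensor -/
def gsT (Ψ : Wave N) (n0 : ℕ) : Ten N n0 := fun ω =>
  if (∀ o : Orb n0, deg3 o.2.1 < n0 → ∃ i, ω i = o) then
    cf (Ψ (fun i => (ω i).1)) (lidx (fun i => (ω i).2)) else 0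

theorem coreFull_gsT (Ψ : Wave N) (n0 : ℕ) : CoreFull (gsT Ψ n0) := by
  intro ω hω
  by_contra hn
  exact hω (by unfold gsT; rw [if_neg hn])

theorem anti_gsT {Ψ : Wave N} (h : IsFermionic Ψ) (n0 : ℕ) : Anti (gsT Ψ n0) := by
  intro σ ω
  have hiff : (∀ o : Orb n0, deg3 o.2.1 < n0 → ∃ i, ω (σ i) = o) ↔
      (∀ o : Orb n0, deg3 o.2.1 < n0 → ∃ i, ω i = o) := by
    constructor
    · intro h1 o ho
      obtain ⟨i, hi⟩ := h1 o ho
      exact ⟨σ i, hi⟩
    · intro h1 o ho
      obtain ⟨i, hi⟩ := h1 o ho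
      exact ⟨σ.symm i, by simpa using hi⟩
  unfold gsT
  by_cases hc : ∀ o : Orb n0, deg3 o.2.1 < n0 → ∃ i, ω i = o
  · rw [if_pos hc, if_pos (hiff.2 hc)]
    exact cf_perm h σ (fun i => (ω i).1) (lidx (fun i => (ω i).2))
  · rw [if_neg hc, if_neg (fun h' => hc (hiff.1 h')), mul_zero]

theorem ext_gsT_ground (Ψ : Wave N) {s : Spin N} {α : Fin N × Fin 3 → ℕ}
    (hg : Ground n0 (orb s α)) : ext (gsT Ψ n0) s α = cf (Ψ s) α := by
  have hl : Low n0 α := hg.2
  obtain ⟨m, rfl⟩ := exists_lidx hl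
  rw [ext_lidx]
  unfold gsT
  rw [if_pos]
  exact core_of_ground hg

theorem ext_gsT_not_ground (Ψ : Wave N) {s : Spin N} {α : Fin N × Fin 3 → ℕ}
    (hg : ¬ Ground n0 (orb s α)) : ext (gsT Ψ n0) s α = 0 := by
  by_cases hl : Low n0 α
  · obtain ⟨m, rfl⟩ := exists_lidx hl
    rw [ext_lidx]
    unfold gsT
    rw [if_neg]
    intro hc
    exact hg (ground_of_core hc)
  · exact ext_not_low _ _ hl

theorem cf_sub {f f' : Config N → ℂ} (h : MemLp f 2 volume) (h' : MemLp f' 2 volume)
    (α : Fin N × Fin 3 → ℕ) : cf (fun x => f x - f' x) α = cf f α - cf f' α := by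
  unfold cf
  rw [← integral_sub (integrable_Phi_mul α h) (integrable_Phi_mul α h')]
  refine integral_congr_ae (Eventually.of_forall fun x => ?_)
  simp only [mul_sub]

/-- **splitting of a fermionic wave into ground part and rest; the gap is `1`** -/
theorem osc_split {n0 Nv : ℕ} {Ψ : Wave (Nel n0 Nv)}
    {Γ : Spin (Nel n0 Nv) → Config (Nel n0 Nv) → CG (Nel n0 Nv)}
    (hF : IsFermionic Ψ) (h : WaveOsc Ψ Γ) :
    WaveOsc (fun s x => Ψ s x - wav (gsT Ψ n0) s x) (fun s x => Γ s x - gwav (gsT Ψ n0) s x) ∧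
    nsq Ψ = tsq (gsT Ψ n0) + nsq (fun s x => Ψ s x - wav (gsT Ψ n0) s x) ∧
    hosc Ψ Γ = EN n0 Nv * tsq (gsT Ψ n0) +
      hosc (fun s x => Ψ s x - wav (gsT Ψ n0) s x) (fun s x => Γ s x - gwav (gsT Ψ n0) s x) ∧
    (EN n0 Nv + 1) * nsq (fun s x => Ψ s x - wav (gsT Ψ n0) s x) ≤
      hosc (fun s x => Ψ s x - wav (gsT Ψ n0) s x) (fun s x => Γ s x - gwav (gsT Ψ n0) s x) := by
  set C := gsT Ψ n0 with hCdef
  have hq : WaveOsc (fun s x => Ψ s x - wav C s x) (fun s x => Γ s x - gwav C s x) :=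
    h.sub (waveOsc_wav C)
  have hcq : ∀ s α, cf (fun x => Ψ s x - wav C s x) α = cf (Ψ s) α - ext C s α := by
    intro s α
    rw [cf_sub (h s).h1.memf (memLp_wav C s), cf_wav]
  have hsplit : ∀ s α, ‖cf (Ψ s) α‖ ^ 2 = ‖ext C s α‖ ^ 2 + ‖cf (Ψ s) α - ext C s α‖ ^ 2 := by
    intro s α
    by_cases hg : Ground n0 (orb s α)
    · rw [hCdef, ext_gsT_ground Ψ hg]; simp
    · rw [hCdef, ext_gsT_not_ground Ψ hg]; simp
  have s1 := hasSum_nsq (fun s => (h s).h1.memf)
  have s2 := hasSum_ext_sq C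
  have s3 := hasSum_nsq (Ψ := fun s x => Ψ s x - wav C s x) (fun s => (hq s).h1.memf)
  simp only [hcq] at s3
  have t1 := hasSum_hosc h
  have t2 := hasSum_hosc (waveOsc_wav C)
  simp only [cf_wav] at t2
  have t3 := hasSum_hosc hq
  simp only [hcq] at t3
  refine ⟨hq, ?_, ?_, ?_⟩
  · refine s1.unique ((s2.add s3).congr_fun ?_ |> fun h => h)
    intro α
    rw [← Finset.sum_add_distrib]
    exact Finset.sum_congr rfl fun s _ => hsplit s α
  · rw [← hosc_wav (anti_gsT hF n0) (coreFull_gsT Ψ n0)]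
    refine t1.unique ((t2.add t3).congr_fun ?_ |> fun h => h)
    intro α
    rw [← mul_add, ← Finset.sum_add_distrib]
    congr 1
    exact Finset.sum_congr rfl fun s _ => hsplit s α
  · refine hasSum_le (fun α => ?_) (s3.mul_left (EN n0 Nv + 1)) t3
    rw [Finset.mul_sum, Finset.mul_sum]
    refine Finset.sum_le_sum fun s _ => ?_
    by_cases hg : Ground n0 (orb s α)
    · rw [hCdef, ext_gsT_ground Ψ hg]; simp
    · by_cases hi : Function.Injective (orb s α)
      · refine mul_le_mul_of_nonneg_right ?_ (by positivity)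
        rw [ea_eq s α]
        exact econf_not_ground hi hg
      · have h0 := cf_eq_zero_of_not_inj hF s α hi
        rw [h0, hCdef, ext_gsT_not_ground Ψ hg]; simp

end Crest.Agent.R338.HO
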