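import Crest.Agent.R338.WKB3

/-!
Row 338, node WKB, part 4 (D.1, D.3, D.4, D.5 of the blueprint): energy as a tail integral, tail
masses beyond the turning point, edge masses, interior masses.
-/

set_option autoImplicit false

noncomputable section

open Set MeasureTheory Real Filter Topology
open Crest.Agent.R338.HO

namespace Crest.Agent.R338.WKB

lemma integrable_hf_sq (m : ℕ) : Integrable (fun x => hf m x ^ 2) := by
  refine (integrable_hf_mul_hf m m).congr (Eventually.of_forall fun x => ?_)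
  simp only; ring

lemma integral_hf_sq (m : ℕ) : ∫ x, hf m x ^ 2 = 1 := by
  have := integral_hf_mul_hf m m
  rw [if_pos rfl] at this
  rw [← this]
  congr 1; ext x; ring

lemma setIntegral_hf_sq_le_one (m : ℕ) (S : Set ℝ) : ∫ x in S, hf m x ^ 2 ≤ 1 := by
  rw [← integral_hf_sq m]
  exact setIntegral_le_integral (integrable_hf_sq m) (Eventually.of_forall fun x => sq_nonneg _)

/-- two-sided integrals of even functions -/
lemma integral_abs_gt {a : ℝ} (ha : 0 ≤ a) (f : ℝ → ℝ) (hf : ∀ x, f |x| = f x) :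
    ∫ x in {x : ℝ | a < |x|}, f x = 2 * ∫ x in Ioi a, f x := by
  have h1 := integral_comp_abs (f := (Ioi a).indicator f)
  have e1 : ∫ x, (Ioi a).indicator f |x| = ∫ x in {x : ℝ | a < |x|}, f x := by
    rw [← integral_indicator (measurableSet_lt measurable_const continuous_abs.measurable)]
    congr 1; ext x
    by_cases hx : a < |x|
    · rw [indicator_of_mem (show |x| ∈ Ioi a from hx), indicator_of_mem (show x ∈ {x : ℝ | a < |x|} from hx), hf]
    · rw [indicator_of_notMem (show |x| ∉ Ioi a from hx), indicator_of_notMem (show x ∉ {x : ℝ | a < |x|} from hx)]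
  have e2 : ∫ x in Ioi (0:ℝ), (Ioi a).indicator f x = ∫ x in Ioi a, f x := by
    rw [setIntegral_indicator measurableSet_Ioi]
    congr 2
    ext x; simp only [mem_inter_iff, mem_Ioi]
    exact ⟨fun h => h.2, fun h => ⟨lt_of_le_of_lt ha h, h⟩⟩
  rw [← e1, h1, e2]

lemma integral_abs_ge {a : ℝ} (ha : 0 ≤ a) (f : ℝ → ℝ) (hf : ∀ x, f |x| = f x) :
    ∫ x in {x : ℝ | a ≤ |x|}, f x = 2 * ∫ x in Ioi a, f x := by
  rw [← integral_abs_gt ha f hf]
  apply setIntegral_congr_set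
  have h1 : ({x : ℝ | a ≤ |x|} \ {x : ℝ | a < |x|}) ⊆ {a, -a} := by
    intro x hx
    simp only [Set.mem_sdiff, mem_ofPred_eq, not_lt] at hx
    have : |x| = a := le_antisymm hx.2 hx.1
    rcases abs_choice x with h | h
    · left; rw [← this, h]
    · right; simp only [mem_singleton_iff]; rw [← this, h]; ring
  have h2 : volume ({a, -a} : Set ℝ) = 0 := (Set.toFinite _).measure_zero _
  have h3 : volume ({x : ℝ | a ≤ |x|} \ {x : ℝ | a < |x|}) = 0 := measure_mono_null h1 h2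
  rw [ae_eq_set]
  refine ⟨h3, ?_⟩
  have h4 : ({x : ℝ | a < |x|} \ {x : ℝ | a ≤ |x|}) = ∅ := by
    ext x
    simp only [Set.mem_sdiff, mem_ofPred_eq, not_le, mem_empty_iff_false, iff_false, not_and, not_lt]
    exact fun h => h.le
  rw [h4]; simp

lemma integrable_two_mul (m : ℕ) : Integrable (fun x => 2 * x * hf m x ^ 2) := by
  refine (integrable_poly_hf_hf (2 * Polynomial.X) m m).congr (Eventually.of_forall fun x => ?_)
  simp only [Polynomial.eval_mul, Polynomial.eval_ofNat, Polynomial.eval_X]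
  ring

/-- (D.1) `A(s) = ∫_s^∞ 2 t h(t)² dt`. -/
theorem Eh_eq_integral (m : ℕ) (s : ℝ) : Eh m s = ∫ t in Ioi s, 2 * t * hf m t ^ 2 := by
  have hlim : Tendsto (Eh m) atTop (𝓝 0) := by
    have h1 : Tendsto (fun s => hfd m s * hfd m s) atTop (𝓝 (0 * 0)) := (tendsto_hfd m).mul (tendsto_hfd m)
    have h2 : Tendsto (fun s => (Polynomial.C (kap m ^ 2) - Polynomial.X ^ 2 : Polynomial ℝ).eval s
        * hf m s * hf m s) atTop (𝓝 (0 * 0)) := (tendsto_poly_hf _ m).mul (tendsto_hf m)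
    have h3 := h1.add h2
    simp only [mul_zero, add_zero] at h3
    refine h3.congr (fun x => ?_)
    unfold Eh
    simp
    ring
  have h := integral_Ioi_of_hasDerivAt_of_tendsto' (f := Eh m) (f' := fun s => -(2 * s * hf m s ^ 2))
    (a := s) (m := 0) (fun x _ => (hsol m).hasDerivAt_En x)
    ((integrable_two_mul m).neg.integrableOn) hlim
  rw [integral_neg] at h
  linarith

lemma Eh_nonneg (m : ℕ) {s : ℝ} (hs : 0 ≤ s) : 0 ≤ Eh m s := by
  rw [Eh_eq_integral]
  apply setIntegral_nonneg measurableSet_Ioi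
  intro t ht
  have : 0 < t := lt_of_le_of_lt hs ht
  positivity

/-- (D.1) `A(s) ≥ A(0) (1 - s²/κ²)`. -/
theorem Eh_ge (m : ℕ) {s : ℝ} (hs0 : 0 ≤ s) (hs : s < kap m) :
    Eh m 0 * (1 - s ^ 2 / kap m ^ 2) ≤ Eh m s := by
  have hk := kap_pos m
  -- `F = E/(κ² - s²)` is monotone on `[0, s]`
  have hlt : ∀ t ∈ Icc 0 s, t ^ 2 < kap m ^ 2 := by
    intro t ht
    have : t ^ 2 ≤ s ^ 2 := pow_le_pow_left₀ ht.1 ht.2 2
    have h2 : s ^ 2 < kap m ^ 2 := pow_lt_pow_left₀ hs hs0 (by norm_num)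
    linarith
  have hder : ∀ t ∈ Icc 0 s, HasDerivAt (fun t => Eh m t / (kap m ^ 2 - t ^ 2))
      (((-(2 * t * hf m t ^ 2)) * (kap m ^ 2 - t ^ 2) - Eh m t * (-(2 * t)))
        / (kap m ^ 2 - t ^ 2) ^ 2) t := by
    intro t ht
    have e3 : HasDerivAt (fun s : ℝ => kap m ^ 2 - s ^ 2) (-(2 * t)) t := by
      have := ((hasDerivAt_id t).pow 2).const_sub (kap m ^ 2)
      simpa using this
    exact ((hsol m).hasDerivAt_En t).div e3 (by have := hlt t ht; linarith)
  have hmono : MonotoneOn (fun t => Eh m t / (kap m ^ 2 - t ^ 2)) (Icc 0 s) := by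
    apply monotoneOn_of_deriv_nonneg (convex_Icc 0 s)
    · exact fun t ht => (hder t ht).continuousAt.continuousWithinAt
    · exact fun t ht => (hder t (interior_subset ht)).differentiableAt.differentiableWithinAt
    · intro t ht
      have ht' := interior_subset ht
      rw [(hder t ht').deriv]
      apply div_nonneg _ (sq_nonneg _)
      have e : -(2 * t * hf m t ^ 2) * (kap m ^ 2 - t ^ 2) - Eh m t * (-(2 * t))
          = 2 * t * hfd m t ^ 2 := by unfold Eh; ring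
      rw [e]
      have := ht'.1
      positivity
  have h1 := hmono ⟨le_rfl, hs0⟩ ⟨hs0, le_rfl⟩ hs0
  simp only [ne_eq, OfNat.ofNat_ne_zero, not_false_eq_true, zero_pow, sub_zero] at h1
  have hpos : 0 < kap m ^ 2 - s ^ 2 := by have := hlt s ⟨hs0, le_rfl⟩; linarith
  rw [div_le_div_iff₀ (by positivity) hpos] at h1
  have e : Eh m 0 * (1 - s ^ 2 / kap m ^ 2) = Eh m 0 * (kap m ^ 2 - s ^ 2) / kap m ^ 2 := by
    field_simp
  rw [e, div_le_iff₀ (by positivity)]
  exact h1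

/-- The mass beyond the turning point. -/
def Mt (m : ℕ) : ℝ := ∫ t in Ioi (kap m), hf m t ^ 2

lemma Mt_nonneg (m : ℕ) : 0 ≤ Mt m :=
  setIntegral_nonneg measurableSet_Ioi fun _ _ => sq_nonneg _

lemma Mt_le_one (m : ℕ) : Mt m ≤ 1 := setIntegral_hf_sq_le_one m _

lemma integrable_tail (m : ℕ) : Integrable (fun s : ℝ =>
    (s - kap m) ^ 2 * (hfd m s ^ 2 + (s ^ 2 - kap m ^ 2) * hf m s ^ 2)) := by
  have h1 := integrable_poly_hfd_hfd ((Polynomial.X - Polynomial.C (kap m)) ^ 2) m m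
  have h2 := integrable_poly_hf_hf ((Polynomial.X - Polynomial.C (kap m)) ^ 2
    * (Polynomial.X ^ 2 - Polynomial.C (kap m ^ 2))) m m
  refine (h1.add h2).congr (Eventually.of_forall fun x => ?_)
  simp
  ring

/-- (D.3) the virial identity beyond the turning point. -/
theorem tail_identity (m : ℕ) : ∫ s in Ioi (kap m),
    (s - kap m) ^ 2 * (hfd m s ^ 2 + (s ^ 2 - kap m ^ 2) * hf m s ^ 2) = Mt m := by
  set κ := kap m with hκ
  have hder : ∀ s : ℝ, HasDerivAt (fun s => (s - κ) ^ 2 * (hf m s * hfd m s) - (s - κ) * hf m s ^ 2)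
      ((s - κ) ^ 2 * (hfd m s ^ 2 + (s ^ 2 - κ ^ 2) * hf m s ^ 2) - hf m s ^ 2) s := by
    intro s
    have e1 : HasDerivAt (fun s : ℝ => (s - κ)) 1 s := (hasDerivAt_id s).sub_const κ
    have e2 := (e1.pow 2).mul (hasDerivAt_hf_mul_hfd m s)
    have e3 := e1.mul ((hf_deriv m s).pow 2)
    refine (e2.sub e3).congr_deriv ?_
    simp
    ring
  have hlim : Tendsto (fun s => (s - κ) ^ 2 * (hf m s * hfd m s) - (s - κ) * hf m s ^ 2) atTop (𝓝 0) := by
    have h1 := (tendsto_poly_hf ((Polynomial.X - Polynomial.C κ) ^ 2) m).mul (tendsto_hfd m)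
    have h2 := (tendsto_poly_hf (Polynomial.X - Polynomial.C κ) m).mul (tendsto_hf m)
    have h3 := h1.sub h2
    simp only [mul_zero, sub_zero] at h3
    refine h3.congr (fun x => ?_)
    simp
    ring
  have hint : Integrable (fun s => (s - κ) ^ 2 * (hfd m s ^ 2 + (s ^ 2 - κ ^ 2) * hf m s ^ 2)
      - hf m s ^ 2) := (integrable_tail m).sub (integrable_hf_sq m)
  have h := integral_Ioi_of_hasDerivAt_of_tendsto' (a := κ) (m := 0) (fun x _ => hder x)
    hint.integrableOn hlim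
  rw [integral_sub (integrable_tail m).integrableOn (integrable_hf_sq m).integrableOn] at h
  simp only [sub_self, ne_eq, OfNat.ofNat_ne_zero, not_false_eq_true, zero_pow, zero_mul] at h
  have : ∫ t in Ioi κ, hf m t ^ 2 = Mt m := rfl
  linarith

/-- (D.3) weighted tail bound: if `w (s) ≤ c (s-κ)²(s²-κ²)` for `s > κ + a` then
`∫_{κ+a}^∞ w h² ≤ c M`. -/
theorem tail_general (m : ℕ) {a c : ℝ} (ha : 0 ≤ a) (hc : 0 ≤ c) (w : ℝ → ℝ)
    (hw : ∀ s, kap m + a < s → w s ≤ c * ((s - kap m) ^ 2 * (s ^ 2 - kap m ^ 2)))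
    (hwi : IntegrableOn (fun s => w s * hf m s ^ 2) (Ioi (kap m + a))) :
    ∫ s in Ioi (kap m + a), w s * hf m s ^ 2 ≤ c * Mt m := by
  have hk := kap_pos m
  have hsub : Ioi (kap m + a) ⊆ Ioi (kap m) := Ioi_subset_Ioi (by linarith)
  rw [← tail_identity, ← integral_const_mul]
  have hi : IntegrableOn (fun s => c * ((s - kap m) ^ 2 *
      (hfd m s ^ 2 + (s ^ 2 - kap m ^ 2) * hf m s ^ 2))) (Ioi (kap m)) :=
    ((integrable_tail m).const_mul c).integrableOn
  have hnn : ∀ s ∈ Ioi (kap m), 0 ≤ c * ((s - kap m) ^ 2 *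
      (hfd m s ^ 2 + (s ^ 2 - kap m ^ 2) * hf m s ^ 2)) := by
    intro s hs
    have h1 : kap m < s := hs
    have h2 : 0 ≤ s ^ 2 - kap m ^ 2 := by nlinarith
    positivity
  calc ∫ s in Ioi (kap m + a), w s * hf m s ^ 2
      ≤ ∫ s in Ioi (kap m + a), c * ((s - kap m) ^ 2 *
          (hfd m s ^ 2 + (s ^ 2 - kap m ^ 2) * hf m s ^ 2)) := by
        apply setIntegral_mono_on hwi (hi.mono_set hsub) measurableSet_Ioi
        intro s hs
        have h1 : kap m + a < s := hs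
        have h2 := hw s h1
        have h3 : 0 ≤ hf m s ^ 2 := sq_nonneg _
        calc w s * hf m s ^ 2 ≤ (c * ((s - kap m) ^ 2 * (s ^ 2 - kap m ^ 2))) * hf m s ^ 2 :=
              mul_le_mul_of_nonneg_right h2 h3
          _ ≤ _ := by
            have : 0 ≤ c * ((s - kap m) ^ 2 * hfd m s ^ 2) := by positivity
            nlinarith
    _ ≤ _ := by
        apply setIntegral_mono_set hi _ (LE.le.eventuallyLE hsub)
        exact (ae_restrict_iff' measurableSet_Ioi).mpr (Eventually.of_forall hnn)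

/-- (D.3) `∫_{κ+a}^∞ h² ≤ M/(2κa³)`. -/
theorem tail_mass (m : ℕ) {a : ℝ} (ha : 0 < a) :
    ∫ s in Ioi (kap m + a), hf m s ^ 2 ≤ 1 / (2 * kap m * a ^ 3) * Mt m := by
  have hk := kap_pos m
  have := tail_general m ha.le (c := 1 / (2 * kap m * a ^ 3)) (by positivity) (fun _ => 1) ?_ ?_
  · simpa using this
  · intro s hs
    rw [div_mul_eq_mul_div, one_mul, le_div_iff₀ (by positivity), one_mul]
    have h1 : a < s - kap m := by linarith
    have h2 : a ^ 2 ≤ (s - kap m) ^ 2 := pow_le_pow_left₀ ha.le h1.le 2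
    have h3 : 2 * kap m * a ≤ s ^ 2 - kap m ^ 2 := by nlinarith
    calc 2 * kap m * a ^ 3 = a ^ 2 * (2 * kap m * a) := by ring
      _ ≤ (s - kap m) ^ 2 * (s ^ 2 - kap m ^ 2) := by
        apply mul_le_mul h2 h3 (by positivity) (by positivity)
  · simpa using (integrable_hf_sq m).integrableOn

/-- (D.3) `∫_{κ+a}^∞ 2 s h² ≤ 2M/a³`. -/
theorem tail_moment (m : ℕ) {a : ℝ} (ha : 0 < a) :
    ∫ s in Ioi (kap m + a), 2 * s * hf m s ^ 2 ≤ 2 / a ^ 3 * Mt m := by
  have hk := kap_pos m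
  have := tail_general m ha.le (c := 2 / a ^ 3) (by positivity) (fun s => 2 * s) ?_ ?_
  · simpa using this
  · intro s hs
    have h1 : a < s - kap m := by linarith
    have h2 : a ^ 3 ≤ (s - kap m) ^ 3 := pow_le_pow_left₀ ha.le h1.le 3
    have e : (s - kap m) ^ 2 * (s ^ 2 - kap m ^ 2) = (s - kap m) ^ 3 * (s + kap m) := by ring
    rw [e, div_mul_eq_mul_div, le_div_iff₀ (by positivity)]
    have h3 : s * a ^ 3 ≤ (s + kap m) * (s - kap m) ^ 3 := by
      apply mul_le_mul (by linarith) h2 (by positivity) (by linarith)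
    nlinarith
  · exact (integrable_two_mul m).integrableOn

/-! ### edge and interior -/

lemma kap_sub_mul_le {m : ℕ} {s : ℝ} (hs0 : 0 ≤ s) (hs : s < kap m) :
    √(kap m * (kap m - s)) ≤ rr (kap m) s := by
  unfold rr
  apply Real.sqrt_le_sqrt
  nlinarith [kap_pos m]

/-- pointwise bound up to the turning point -/
theorem hf_sq_le_edge (m : ℕ) {s : ℝ} (hs0 : 0 ≤ s) (hs : s < kap m) :
    hf m s ^ 2 ≤ 18 / √(kap m * (kap m - s)) := by
  have hk := kap_pos m
  have hL := LL_pos m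
  have hs2 : s ^ 2 < kap m ^ 2 := pow_lt_pow_left₀ hs hs0 (by norm_num)
  have hr := rr_pos hs2
  have h1 := kap_sub_mul_le hs0 hs
  have hsq : 0 < √(kap m * (kap m - s)) := Real.sqrt_pos.mpr (mul_pos hk (by linarith))
  have hfin : 18 / rr (kap m) s ≤ 18 / √(kap m * (kap m - s)) :=
    div_le_div_of_nonneg_left (by norm_num) hsq h1
  refine le_trans ?_ hfin
  rcases le_total (LL m) (rr (kap m) s) with h | h
  · have hc : 2 * |s| ≤ rr (kap m) s ^ 3 := by
      rw [abs_of_nonneg hs0]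
      calc 2 * s ≤ 2 * kap m := by linarith
        _ = LL m ^ 3 := (LL_cube m).symm
        _ ≤ rr (kap m) s ^ 3 := pow_le_pow_left₀ hL.le h 3
    calc hf m s ^ 2 ≤ 2 / rr (kap m) s := hf_sq_le_two_div m hs2 hc
      _ ≤ 18 / rr (kap m) s := div_le_div_of_nonneg_right (by norm_num) hr.le
  · calc hf m s ^ 2 ≤ 18 / LL m := hf_sq_le m s
      _ ≤ 18 / rr (kap m) s := div_le_div_of_nonneg_left (by norm_num) hr h

/-- (D.4) bulk bound: `h² ≤ 18/√(κ a)` for `|s| ≤ κ - a`. -/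
theorem hf_sq_le_bulk (m : ℕ) {a s : ℝ} (ha : 0 < a) (hs : |s| ≤ kap m - a) :
    hf m s ^ 2 ≤ 18 / √(kap m * a) := by
  have hk := kap_pos m
  rw [← hf_abs_sq]
  refine (hf_sq_le_edge m (abs_nonneg s) (by linarith)).trans ?_
  apply div_le_div_of_nonneg_left (by norm_num) (Real.sqrt_pos.mpr (by positivity))
  apply Real.sqrt_le_sqrt
  apply mul_le_mul_of_nonneg_left (by linarith) hk.le

/-- (D.3/D.4) the mass beyond the turning point is `O(κ^{-2/3})`. -/
theorem Mt_le (m : ℕ) : Mt m ≤ 42 / LL m ^ 2 := by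
  have hk := kap_pos m
  have hL := LL_pos m
  set a : ℝ := 2 / LL m with ha
  have ha0 : 0 < a := by positivity
  have hsplit : Mt m = (∫ t in Ioc (kap m) (kap m + a), hf m t ^ 2)
      + ∫ t in Ioi (kap m + a), hf m t ^ 2 := by
    unfold Mt
    rw [← setIntegral_union (Ioc_disjoint_Ioi le_rfl) measurableSet_Ioi
      (integrable_hf_sq m).integrableOn (integrable_hf_sq m).integrableOn,
      Ioc_union_Ioi_eq_Ioi (by linarith)]
  have h1 : ∫ t in Ioc (kap m) (kap m + a), hf m t ^ 2 ≤ a * (18 / LL m) := by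
    have h2 : ∫ t in Ioc (kap m) (kap m + a), hf m t ^ 2
        ≤ ∫ _t in Ioc (kap m) (kap m + a), (18 / LL m : ℝ) := by
      apply setIntegral_mono_on (integrable_hf_sq m).integrableOn
        (integrableOn_const (by simp) (by simp)) measurableSet_Ioc
      exact fun t _ => hf_sq_le m t
    refine h2.trans (le_of_eq ?_)
    rw [setIntegral_const]
    simp [ha0.le]
  have h3 := tail_mass m ha0
  have h4 : 1 / (2 * kap m * a ^ 3) = 1 / 8 := by
    rw [← LL_cube, ha]; field_simp; norm_num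
  rw [h4] at h3
  have h5 : a * (18 / LL m) = 36 / LL m ^ 2 := by rw [ha]; field_simp; norm_num
  rw [h5] at h1
  have h6 : Mt m ≤ 36 / LL m ^ 2 + 1 / 8 * Mt m := by
    calc Mt m = _ := hsplit
      _ ≤ _ := add_le_add h1 h3
  have h7 : 42 / LL m ^ 2 = 36 / LL m ^ 2 * (7 / 6) := by ring
  rw [h7]
  have h8 : 0 ≤ 36 / LL m ^ 2 := by positivity
  nlinarith

/-- (D.4) mass near and beyond the turning point. -/
theorem edge_mass (m : ℕ) {a : ℝ} (ha : 0 ≤ a) (hak : a ≤ kap m) :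
    ∫ s in Ioi (kap m - a), hf m s ^ 2 ≤ 36 * √(a / kap m) + 42 / LL m ^ 2 := by
  have hk := kap_pos m
  have hsplit : ∫ s in Ioi (kap m - a), hf m s ^ 2 = (∫ t in Ioc (kap m - a) (kap m), hf m t ^ 2)
      + Mt m := by
    unfold Mt
    rw [← setIntegral_union (Ioc_disjoint_Ioi le_rfl) measurableSet_Ioi
      (integrable_hf_sq m).integrableOn (integrable_hf_sq m).integrableOn,
      Ioc_union_Ioi_eq_Ioi (by linarith)]
  rw [hsplit]
  refine add_le_add ?_ (Mt_le m)
  rw [← intervalIntegral.integral_of_le (by linarith)]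
  -- the dominating integral
  have hI : ∫ s in (kap m - a)..(kap m), 18 / √(kap m) * (kap m - s) ^ (-(1/2) : ℝ)
      = 36 * √(a / kap m) := by
    rw [intervalIntegral.integral_const_mul,
      intervalIntegral.integral_comp_sub_left (fun x => x ^ (-(1/2) : ℝ)) (kap m)]
    rw [sub_self, sub_sub_cancel, integral_rpow (Or.inl (by norm_num))]
    rw [Real.zero_rpow (by norm_num)]
    have : (-(1/2) : ℝ) + 1 = 1 / 2 := by norm_num
    rw [this, ← Real.sqrt_eq_rpow, Real.sqrt_div' _ hk.le]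
    field_simp
    ring
  rw [← hI]
  apply intervalIntegral.integral_mono_on_of_le_Ioo (by linarith)
  · exact ((continuous_hf m).pow 2).intervalIntegrable _ _
  · apply IntervalIntegrable.const_mul
    have h := (intervalIntegral.intervalIntegrable_rpow' (a := a) (b := 0) (r := -(1/2)) (by norm_num)).comp_sub_left
      (kap m)
    simpa using h
  · intro s hs
    have hs0 : 0 ≤ s := by linarith [hs.1]
    have h1 := hf_sq_le_edge m hs0 hs.2
    refine h1.trans (le_of_eq ?_)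
    rw [Real.sqrt_mul hk.le, Real.rpow_neg (by linarith [hs.2]), ← Real.sqrt_eq_rpow]
    field_simp

/-- (D.5) interior mass. -/
theorem interior_mass (m : ℕ) {a ε : ℝ} (ha0 : 0 ≤ a) (ha1 : a < 1) (hε : 0 < ε) :
    (kap m / 2 * (1 - a ^ 2) - 2 / (ε * kap m) ^ 3 * Mt m) / (2 * (1 + ε) * kap m)
      ≤ ∫ s in Ioc (a * kap m) ((1 + ε) * kap m), hf m s ^ 2 := by
  have hk := kap_pos m
  rw [div_le_iff₀ (by positivity)]
  have h1 := Eh_ge m (s := a * kap m) (by positivity) (by nlinarith)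
  have e1 : (a * kap m) ^ 2 / kap m ^ 2 = a ^ 2 := by field_simp
  rw [e1] at h1
  have h2 : kap m / 2 * (1 - a ^ 2) ≤ Eh m 0 * (1 - a ^ 2) :=
    mul_le_mul_of_nonneg_right (Eh_zero_bounds m).1 (by nlinarith)
  have hle : a * kap m ≤ (1 + ε) * kap m := by nlinarith
  have hsplit : Eh m (a * kap m) = (∫ t in Ioc (a * kap m) ((1 + ε) * kap m), 2 * t * hf m t ^ 2)
      + ∫ t in Ioi ((1 + ε) * kap m), 2 * t * hf m t ^ 2 := by
    rw [Eh_eq_integral, ← setIntegral_union (Ioc_disjoint_Ioi le_rfl) measurableSet_Ioi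
      (integrable_two_mul m).integrableOn (integrable_two_mul m).integrableOn,
      Ioc_union_Ioi_eq_Ioi hle]
  have h3 : ∫ t in Ioc (a * kap m) ((1 + ε) * kap m), 2 * t * hf m t ^ 2
      ≤ ∫ t in Ioc (a * kap m) ((1 + ε) * kap m), (2 * (1 + ε) * kap m) * hf m t ^ 2 := by
    apply setIntegral_mono_on (integrable_two_mul m).integrableOn
      ((integrable_hf_sq m).const_mul _).integrableOn measurableSet_Ioc
    intro t ht
    apply mul_le_mul_of_nonneg_right _ (sq_nonneg _)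
    have := ht.2
    nlinarith
  rw [integral_const_mul] at h3
  have e2 : (1 + ε) * kap m = kap m + ε * kap m := by ring
  have h4 := tail_moment m (a := ε * kap m) (by positivity)
  rw [← e2] at h4
  nlinarith

/-! ### statements with explicit powers of `κ` and `m` -/

lemma inv_LL_le (m : ℕ) : 1 / LL m ≤ kap m ^ (-(1/3) : ℝ) := by
  have hk := kap_pos m
  unfold LL
  rw [Real.mul_rpow (by norm_num) hk.le, Real.rpow_neg hk.le, one_div]
  apply inv_anti₀ (Real.rpow_pos_of_pos hk _)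
  have : (1:ℝ) ≤ 2 ^ ((1:ℝ) / 3) := Real.one_le_rpow (by norm_num) (by norm_num)
  have h2 := Real.rpow_pos_of_pos hk ((1:ℝ)/3)
  norm_num at *
  nlinarith

/-- `sup h² ≤ 18 κ^{-1/3}`. -/
theorem hf_sq_le_kap (m : ℕ) (s : ℝ) : hf m s ^ 2 ≤ 18 * kap m ^ (-(1/3) : ℝ) := by
  calc hf m s ^ 2 ≤ 18 / LL m := hf_sq_le m s
    _ = 18 * (1 / LL m) := by ring
    _ ≤ _ := mul_le_mul_of_nonneg_left (inv_LL_le m) (by norm_num)

/-- `κ^{-1/3} ≤ m^{-1/6}`. -/
lemma kap_rpow_le (m : ℕ) (hm : 1 ≤ m) : kap m ^ (-(1/3) : ℝ) ≤ (m : ℝ) ^ (-(1/6) : ℝ) := by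
  have hm' : (0:ℝ) < m := by exact_mod_cast hm
  have h1 : kap m ^ (-(1/3) : ℝ) = (kap m ^ 2) ^ (-(1/6) : ℝ) := by
    rw [← Real.rpow_natCast, ← Real.rpow_mul (kap_pos m).le]; norm_num
  rw [h1, kap_sq]
  apply Real.rpow_le_rpow_of_nonpos hm' _ (by norm_num)
  linarith

/-- `sup h_m² ≤ 18 m^{-1/6}`, `m ≥ 1`. -/
theorem hf_sq_le_rpow (m : ℕ) (hm : 1 ≤ m) (s : ℝ) : hf m s ^ 2 ≤ 18 * (m : ℝ) ^ (-(1/6) : ℝ) :=
  (hf_sq_le_kap m s).trans (mul_le_mul_of_nonneg_left (kap_rpow_le m hm) (by norm_num))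

/-- (D.4) `h² ≤ 18 κ^{-2/3}` for `|s| ≤ κ - κ^{1/3}`. -/
theorem hf_sq_le_bulk_kap (m : ℕ) {s : ℝ} (hs : |s| ≤ kap m - kap m ^ ((1:ℝ)/3)) :
    hf m s ^ 2 ≤ 18 * kap m ^ (-(2/3) : ℝ) := by
  have hk := kap_pos m
  have h := hf_sq_le_bulk m (Real.rpow_pos_of_pos hk _) hs
  refine h.trans (le_of_eq ?_)
  have e : kap m * kap m ^ ((1:ℝ)/3) = kap m ^ ((4:ℝ)/3) := by
    nth_rw 1 [← Real.rpow_one (kap m)]
    rw [← Real.rpow_add hk]; norm_num
  rw [e, Real.sqrt_eq_rpow, ← Real.rpow_mul hk.le, Real.rpow_neg hk.le, div_eq_mul_inv]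
  norm_num

/-- (D.4) `∫_{|s| ≥ κ - κ^{1/3}} h² ≤ 156 κ^{-1/3}`. -/
theorem edge_mass_kap (m : ℕ) :
    ∫ s in {s : ℝ | kap m - kap m ^ ((1:ℝ)/3) ≤ |s|}, hf m s ^ 2 ≤ 156 * kap m ^ (-(1/3) : ℝ) := by
  have hk := kap_pos m
  have hk1 := one_le_kap m
  have hle : kap m ^ ((1:ℝ)/3) ≤ kap m := by
    calc kap m ^ ((1:ℝ)/3) ≤ kap m ^ (1:ℝ) := Real.rpow_le_rpow_of_exponent_le hk1 (by norm_num)
      _ = kap m := Real.rpow_one _
  have hp := Real.rpow_pos_of_pos hk ((1:ℝ)/3)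
  rw [integral_abs_ge (by linarith) (fun s => hf m s ^ 2) (hf_abs_sq m)]
  have h := edge_mass m hp.le hle
  have h1 : √(kap m ^ ((1:ℝ)/3) / kap m) = kap m ^ (-(1/3) : ℝ) := by
    have e : kap m ^ ((1:ℝ)/3) / kap m = kap m ^ (-(2/3) : ℝ) := by
      nth_rw 2 [← Real.rpow_one (kap m)]
      rw [← Real.rpow_sub hk]; norm_num
    rw [e, Real.sqrt_eq_rpow, ← Real.rpow_mul hk.le]; norm_num
  have h2 : 42 / LL m ^ 2 ≤ 42 * kap m ^ (-(1/3) : ℝ) := by
    have h3 : 1 / LL m ≤ 1 := by rw [div_le_one (LL_pos m)]; exact one_le_LL m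
    have h4 := inv_LL_le m
    have h5 : 0 < 1 / LL m := by have := LL_pos m; positivity
    have e : 42 / LL m ^ 2 = 42 * ((1 / LL m) * (1 / LL m)) := by field_simp
    rw [e]
    nlinarith
  rw [h1] at h
  linarith

end Crest.Agent.R338.WKB

end
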