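import Crest.Agent.R338.HO1b
import Crest.Agent.R338.WKB4
import Crest.Agent.R338.LatDefs
import Crest.Agent.R338.TA0

/-!
# Row 338, module HO6 (helper789): decay and smoothness of orbital products (input of C.2 / N3)
-/

set_option autoImplicit false

open MeasureTheory Real

noncomputable section

namespace Crest.Agent.R338.HO

/-! ### one-dimensional bounds -/

theorem abs_hf_le (m : ℕ) (x : ℝ) : |hf m x| ≤ 5 := by
  have h := Crest.Agent.R338.WKB.hf_sq_le_kap m x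
  have h1 : (1 : ℝ) ≤ Crest.Agent.R338.WKB.kap m := Crest.Agent.R338.WKB.one_le_kap m
  have h2 : Crest.Agent.R338.WKB.kap m ^ (-(1/3) : ℝ) ≤ 1 :=
    Real.rpow_le_one_of_one_le_of_nonpos h1 (by norm_num)
  have h3 : hf m x ^ 2 ≤ 5 ^ 2 := by nlinarith
  exact abs_le_of_sq_le_sq' h3 (by norm_num) |> fun h => abs_le.2 h

theorem sqrt_half_le (m : ℕ) : √(((m : ℝ) + 1) / 2) ≤ (m : ℝ) + 1 := by
  rw [Real.sqrt_le_left (by positivity)]
  have : (0 : ℝ) ≤ m := m.cast_nonneg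
  nlinarith

theorem sqrt_half_le' (m : ℕ) : √((m : ℝ) / 2) ≤ (m : ℝ) + 1 :=
  (Real.sqrt_le_sqrt (by linarith)).trans (sqrt_half_le m)

theorem abs_pow_mul_hf_le (k m : ℕ) (x : ℝ) :
    |x| ^ k * |hf m x| ≤ 5 * (2 * ((m : ℝ) + k)) ^ k := by
  induction k generalizing m with
  | zero => simpa using abs_hf_le m x
  | succ k ih =>
    have h0 : |x| ^ (k + 1) * |hf m x| = |x| ^ k * |x * hf m x| := by
      rw [abs_mul]; ring
    rw [h0, x_mul_hf]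
    have i1 := ih (m + 1)
    have i2 := ih (m - 1)
    have hm1 : ((m - 1 : ℕ) : ℝ) ≤ m := by exact_mod_cast Nat.sub_le m 1
    have hk : (0 : ℝ) ≤ k := k.cast_nonneg
    have hm : (0 : ℝ) ≤ m := m.cast_nonneg
    have i2' : |x| ^ k * |hf (m - 1) x| ≤ 5 * (2 * ((m : ℝ) + 1 + k)) ^ k := by
      refine i2.trans ?_
      gcongr
      linarith
    have i1' : |x| ^ k * |hf (m + 1) x| ≤ 5 * (2 * ((m : ℝ) + 1 + k)) ^ k := by
      push_cast at i1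
      exact i1
    calc |x| ^ k * |√(((m : ℝ) + 1) / 2) * hf (m + 1) x + √((m : ℝ) / 2) * hf (m - 1) x|
        ≤ |x| ^ k * (√(((m : ℝ) + 1) / 2) * |hf (m + 1) x| + √((m : ℝ) / 2) * |hf (m - 1) x|) := by
          refine mul_le_mul_of_nonneg_left ?_ (by positivity)
          refine (abs_add_le _ _).trans ?_
          rw [abs_mul, abs_mul, abs_of_nonneg (Real.sqrt_nonneg _),
            abs_of_nonneg (Real.sqrt_nonneg _)]
      _ = √(((m : ℝ) + 1) / 2) * (|x| ^ k * |hf (m + 1) x|) +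
          √((m : ℝ) / 2) * (|x| ^ k * |hf (m - 1) x|) := by ring
      _ ≤ ((m : ℝ) + 1) * (5 * (2 * ((m : ℝ) + 1 + k)) ^ k) +
          ((m : ℝ) + 1) * (5 * (2 * ((m : ℝ) + 1 + k)) ^ k) := by
          refine add_le_add ?_ ?_
          · exact mul_le_mul (sqrt_half_le m) i1' (by positivity) (by positivity)
          · exact mul_le_mul (sqrt_half_le' m) i2' (by positivity) (by positivity)
      _ = (2 * ((m : ℝ) + 1)) * (5 * (2 * ((m : ℝ) + 1 + k)) ^ k) := by ring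
      _ ≤ (2 * ((m : ℝ) + 1 + k)) * (5 * (2 * ((m : ℝ) + 1 + k)) ^ k) := by
          refine mul_le_mul_of_nonneg_right ?_ (by positivity)
          linarith
      _ = 5 * (2 * ((m : ℝ) + ((k + 1 : ℕ) : ℝ))) ^ (k + 1) := by
          push_cast; rw [pow_succ]; ring

/-- common bound -/
def BB (n : ℝ) : ℝ := 40 * (1 + (2 * (n + 4)) ^ 4)

theorem BB_mono {a b : ℝ} (ha : 0 ≤ a) (h : a ≤ b) : BB a ≤ BB b := by
  unfold BB
  gcongr

theorem BB_nonneg {a : ℝ} (ha : 0 ≤ a) : 0 ≤ BB a := by unfold BB; positivity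

theorem one_add_pow_four_le {t : ℝ} (ht : 0 ≤ t) : (1 + t) ^ 4 ≤ 8 * (1 + t ^ 4) := by
  have _h := ht
  nlinarith [sq_nonneg (t - 1), sq_nonneg (t ^ 2 - 1), mul_nonneg ht (sq_nonneg (t - 1)),
    mul_nonneg ht ht]

theorem wt_hf_le (m : ℕ) (x : ℝ) : (1 + |x|) ^ 4 * |hf m x| ≤ BB m := by
  have h1 := one_add_pow_four_le (abs_nonneg x)
  have h2 := abs_pow_mul_hf_le 4 m x
  have h3 := abs_hf_le m x
  push_cast at h2
  unfold BB
  calc (1 + |x|) ^ 4 * |hf m x| ≤ (8 * (1 + |x| ^ 4)) * |hf m x| :=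
        mul_le_mul_of_nonneg_right h1 (abs_nonneg _)
    _ = 8 * (|hf m x| + |x| ^ 4 * |hf m x|) := by ring
    _ ≤ 8 * (5 + 5 * (2 * ((m : ℝ) + 4)) ^ 4) := by gcongr
    _ = _ := by ring

/-- first derivative of `hf` as a function -/
def hf1 (m : ℕ) (x : ℝ) : ℝ := √((m : ℝ) / 2) * hf (m - 1) x - √(((m : ℝ) + 1) / 2) * hf (m + 1) x

/-- second derivative of `hf` as a function -/
def hf2 (m : ℕ) (x : ℝ) : ℝ := √((m : ℝ) / 2) * hf1 (m - 1) x - √(((m : ℝ) + 1) / 2) * hf1 (m + 1) x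

theorem hasDerivAt_hf1 (m : ℕ) (x : ℝ) : HasDerivAt (hf1 m) (hf2 m x) x :=
  ((hasDerivAt_hf (m - 1) x).const_mul _).sub ((hasDerivAt_hf (m + 1) x).const_mul _)

theorem wt_comb {u v : ℝ} {m : ℕ} {w B : ℝ} (hw : 0 ≤ w) (hu : w * |u| ≤ B) (hv : w * |v| ≤ B)
    (hB : 0 ≤ B) :
    w * |√((m : ℝ) / 2) * u - √(((m : ℝ) + 1) / 2) * v| ≤ 2 * ((m : ℝ) + 1) * B := by
  have hm : (0 : ℝ) ≤ m := m.cast_nonneg
  calc w * |√((m : ℝ) / 2) * u - √(((m : ℝ) + 1) / 2) * v|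
      ≤ w * (√((m : ℝ) / 2) * |u| + √(((m : ℝ) + 1) / 2) * |v|) := by
        refine mul_le_mul_of_nonneg_left ?_ hw
        refine (abs_sub _ _).trans ?_
        rw [abs_mul, abs_mul, abs_of_nonneg (Real.sqrt_nonneg _),
          abs_of_nonneg (Real.sqrt_nonneg _)]
    _ = √((m : ℝ) / 2) * (w * |u|) + √(((m : ℝ) + 1) / 2) * (w * |v|) := by ring
    _ ≤ ((m : ℝ) + 1) * B + ((m : ℝ) + 1) * B := by
        refine add_le_add ?_ ?_
        · exact mul_le_mul (sqrt_half_le' m) hu (by positivity) (by positivity)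
        · exact mul_le_mul (sqrt_half_le m) hv (by positivity) (by positivity)
    _ = _ := by ring

theorem wt_hf1_le (m : ℕ) (x : ℝ) :
    (1 + |x|) ^ 4 * |hf1 m x| ≤ 2 * ((m : ℝ) + 1) * BB (m + 1) := by
  have hm : (0 : ℝ) ≤ m := m.cast_nonneg
  have hm1 : ((m - 1 : ℕ) : ℝ) ≤ (m : ℝ) + 1 := by
    have : ((m - 1 : ℕ) : ℝ) ≤ m := by exact_mod_cast Nat.sub_le m 1
    linarith
  refine wt_comb (by positivity) ((wt_hf_le (m - 1) x).trans (BB_mono (Nat.cast_nonneg _) hm1)) ?_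
    (BB_nonneg (by positivity))
  have := wt_hf_le (m + 1) x
  push_cast at this
  exact this

theorem wt_hf2_le (m : ℕ) (x : ℝ) :
    (1 + |x|) ^ 4 * |hf2 m x| ≤ 2 * ((m : ℝ) + 1) * (2 * ((m : ℝ) + 2) * BB (m + 2)) := by
  have hm : (0 : ℝ) ≤ m := m.cast_nonneg
  have hm1 : ((m - 1 : ℕ) : ℝ) ≤ (m : ℝ) := by exact_mod_cast Nat.sub_le m 1
  have h0 : (0 : ℝ) ≤ ((m - 1 : ℕ) : ℝ) := Nat.cast_nonneg _
  refine wt_comb (by positivity) ?_ ?_ (by have := BB_nonneg (a := (m : ℝ) + 2) (by positivity); positivity)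
  · refine (wt_hf1_le (m - 1) x).trans ?_
    have h1 : BB (((m - 1 : ℕ) : ℝ) + 1) ≤ BB ((m : ℝ) + 2) := BB_mono (by positivity) (by linarith)
    have h2 := BB_nonneg (a := ((m - 1 : ℕ) : ℝ) + 1) (by positivity)
    exact mul_le_mul (by linarith) h1 h2 (by positivity)
  · have := wt_hf1_le (m + 1) x
    push_cast at this
    have e : (m : ℝ) + 1 + 1 = m + 2 := by ring
    rw [e] at this
    exact this

/-- uniform bound for all three -/
def CB (n : ℝ) : ℝ := 4 * (n + 2) ^ 2 * BB (n + 2)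

theorem CB_nonneg {n : ℝ} (hn : 0 ≤ n) : 0 ≤ CB n := by
  unfold CB; have := BB_nonneg (a := n + 2) (by positivity); positivity

theorem wt_all {m : ℕ} {n : ℝ} (h : (m : ℝ) ≤ n) (x : ℝ) :
    (1 + |x|) ^ 4 * |hf m x| ≤ CB n ∧ (1 + |x|) ^ 4 * |hf1 m x| ≤ CB n ∧
    (1 + |x|) ^ 4 * |hf2 m x| ≤ CB n := by
  have hm : (0 : ℝ) ≤ m := m.cast_nonneg
  have hn : 0 ≤ n := hm.trans h
  have b0 : BB m ≤ BB (n + 2) := BB_mono hm (by linarith)
  have b1 : BB (m + 1) ≤ BB (n + 2) := BB_mono (by positivity) (by linarith)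
  have b2 : BB (m + 2) ≤ BB (n + 2) := BB_mono (by positivity) (by linarith)
  have hB := BB_nonneg (a := n + 2) (by positivity)
  unfold CB
  refine ⟨(wt_hf_le m x).trans (b0.trans ?_), (wt_hf1_le m x).trans ?_, (wt_hf2_le m x).trans ?_⟩
  · refine le_mul_of_one_le_left hB ?_
    nlinarith
  · calc 2 * ((m : ℝ) + 1) * BB (m + 1) ≤ 2 * (n + 2) * BB (n + 2) := by
          refine mul_le_mul (by linarith) b1 (BB_nonneg (by positivity)) (by positivity)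
      _ ≤ 4 * (n + 2) ^ 2 * BB (n + 2) := by
          refine mul_le_mul_of_nonneg_right ?_ hB
          nlinarith
  · calc 2 * ((m : ℝ) + 1) * (2 * ((m : ℝ) + 2) * BB (m + 2))
        ≤ 2 * (n + 2) * (2 * (n + 2) * BB (n + 2)) := by
          refine mul_le_mul (by linarith) ?_ ?_ (by positivity)
          · exact mul_le_mul (by linarith) b2 (BB_nonneg (by positivity)) (by positivity)
          · have := BB_nonneg (a := (m : ℝ) + 2) (by positivity)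
            positivity
      _ = _ := by ring

/-! ### products of two -/

/-- data of a function with two derivatives and weight-4 bounds -/
structure W4B (u u1 u2 : ℝ → ℝ) (B : ℝ) : Prop where
  d1 : ∀ x, HasDerivAt u (u1 x) x
  d2 : ∀ x, HasDerivAt u1 (u2 x) x
  b0 : ∀ x, (1 + |x|) ^ 4 * |u x| ≤ B
  b1 : ∀ x, (1 + |x|) ^ 4 * |u1 x| ≤ B
  b2 : ∀ x, (1 + |x|) ^ 4 * |u2 x| ≤ B

theorem w4b_hf {m : ℕ} {n : ℝ} (h : (m : ℝ) ≤ n) : W4B (hf m) (hf1 m) (hf2 m) (CB n) where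
  d1 := hasDerivAt_hf m
  d2 := hasDerivAt_hf1 m
  b0 x := (wt_all h x).1
  b1 x := (wt_all h x).2.1
  b2 x := (wt_all h x).2.2

theorem one_le_wt (x : ℝ) : (1 : ℝ) ≤ (1 + |x|) ^ 4 :=
  one_le_pow₀ (by linarith [abs_nonneg x])

theorem W4B.mul {u u1 u2 v v1 v2 : ℝ → ℝ} {B : ℝ} (hu : W4B u u1 u2 B) (hv : W4B v v1 v2 B) :
    W4B (fun x => u x * v x) (fun x => u1 x * v x + u x * v1 x)
      (fun x => (u2 x * v x + u1 x * v1 x) + (u1 x * v1 x + u x * v2 x)) (4 * B ^ 2) where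
  d1 x := (hu.d1 x).mul (hv.d1 x)
  d2 x := ((hu.d2 x).mul (hv.d1 x)).add ((hu.d1 x).mul (hv.d2 x))
  b0 x := by
    have h1 := hu.b0 x
    have h2 : |v x| ≤ B := (le_mul_of_one_le_left (abs_nonneg _) (one_le_wt x)).trans (hv.b0 x)
    have hB : 0 ≤ B := (abs_nonneg _).trans h2
    rw [abs_mul, ← mul_assoc]
    have := mul_le_mul h1 h2 (abs_nonneg _) hB
    nlinarith
  b1 x := by
    have bd : ∀ {p q : ℝ → ℝ}, (∀ x, (1 + |x|) ^ 4 * |p x| ≤ B) → (∀ x, (1 + |x|) ^ 4 * |q x| ≤ B) →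
        (1 + |x|) ^ 4 * |p x * q x| ≤ B ^ 2 := by
      intro p q hp hq
      have h2 : |q x| ≤ B := (le_mul_of_one_le_left (abs_nonneg _) (one_le_wt x)).trans (hq x)
      have hB : 0 ≤ B := (abs_nonneg _).trans h2
      rw [abs_mul, ← mul_assoc, sq]
      exact mul_le_mul (hp x) h2 (abs_nonneg _) hB
    have e1 := bd hu.b1 hv.b0
    have e2 := bd hu.b0 hv.b1
    have hw : (0 : ℝ) ≤ (1 + |x|) ^ 4 := by positivity
    have := mul_le_mul_of_nonneg_left (abs_add_le (u1 x * v x) (u x * v1 x)) hw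
    nlinarith [sq_nonneg B]
  b2 x := by
    have bd : ∀ {p q : ℝ → ℝ}, (∀ x, (1 + |x|) ^ 4 * |p x| ≤ B) → (∀ x, (1 + |x|) ^ 4 * |q x| ≤ B) →
        (1 + |x|) ^ 4 * |p x * q x| ≤ B ^ 2 := by
      intro p q hp hq
      have h2 : |q x| ≤ B := (le_mul_of_one_le_left (abs_nonneg _) (one_le_wt x)).trans (hq x)
      have hB : 0 ≤ B := (abs_nonneg _).trans h2
      rw [abs_mul, ← mul_assoc, sq]
      exact mul_le_mul (hp x) h2 (abs_nonneg _) hB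
    have e1 := bd hu.b2 hv.b0
    have e2 := bd hu.b1 hv.b1
    have e3 := bd hu.b0 hv.b2
    have hw : (0 : ℝ) ≤ (1 + |x|) ^ 4 := by positivity
    have t1 := mul_le_mul_of_nonneg_left (abs_add_le (u2 x * v x + u1 x * v1 x)
      (u1 x * v1 x + u x * v2 x)) hw
    have t2 := mul_le_mul_of_nonneg_left (abs_add_le (u2 x * v x) (u1 x * v1 x)) hw
    have t3 := mul_le_mul_of_nonneg_left (abs_add_le (u1 x * v1 x) (u x * v2 x)) hw
    nlinarith

/-! ### products over coordinates -/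

/-- product function on `ℝ³` -/
def PR (g : Fin 3 → ℝ → ℝ) (x : EuclideanSpace ℝ (Fin 3)) : ℝ := ∏ c, g c (x c)

theorem one_add_norm_le (x : EuclideanSpace ℝ (Fin 3)) : 1 + ‖x‖ ≤ ∏ c, (1 + |x c|) := by
  have h1 : ‖x‖ ≤ |x 0| + |x 1| + |x 2| := by
    rw [EuclideanSpace.norm_eq, Real.sqrt_le_left (by positivity), Fin.sum_univ_three]
    simp only [Real.norm_eq_abs, sq_abs]
    have a0 := abs_nonneg (x 0); have a1 := abs_nonneg (x 1); have a2 := abs_nonneg (x 2)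
    have e0 := sq_abs (x 0); have e1 := sq_abs (x 1); have e2 := sq_abs (x 2)
    nlinarith [mul_nonneg a0 a1, mul_nonneg a0 a2, mul_nonneg a1 a2]
  rw [Fin.prod_univ_three]
  have a0 := abs_nonneg (x 0); have a1 := abs_nonneg (x 1); have a2 := abs_nonneg (x 2)
  nlinarith [mul_nonneg a0 a1, mul_nonneg a0 a2, mul_nonneg a1 a2, mul_nonneg (mul_nonneg a0 a1) a2]

theorem PR_bound {g : Fin 3 → ℝ → ℝ} {B : ℝ} (h : ∀ c t, (1 + |t|) ^ 4 * |g c t| ≤ B)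
    (x : EuclideanSpace ℝ (Fin 3)) : (1 + ‖x‖) ^ 4 * |PR g x| ≤ B ^ 3 := by
  unfold PR
  calc (1 + ‖x‖) ^ 4 * |∏ c, g c (x c)| ≤ (∏ c, (1 + |x c|)) ^ 4 * |∏ c, g c (x c)| := by
        gcongr; exact one_add_norm_le x
    _ = ∏ c, ((1 + |x c|) ^ 4 * |g c (x c)|) := by
        rw [Finset.prod_mul_distrib, Finset.prod_pow, Finset.abs_prod]
    _ ≤ ∏ _c : Fin 3, B := Finset.prod_le_prod (fun c _ => by positivity) (fun c _ => h c _)
    _ = B ^ 3 := by simp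

theorem PR_bound_div {g : Fin 3 → ℝ → ℝ} {B : ℝ} (h : ∀ c t, (1 + |t|) ^ 4 * |g c t| ≤ B)
    (x : EuclideanSpace ℝ (Fin 3)) : |PR g x| ≤ B ^ 3 / (1 + ‖x‖) ^ 4 := by
  rw [le_div_iff₀ (by positivity)]
  have := PR_bound h x
  linarith

theorem hasFDerivAt_PR {g g1 : Fin 3 → ℝ → ℝ} (h : ∀ c t, HasDerivAt (g c) (g1 c t) t)
    (x : EuclideanSpace ℝ (Fin 3)) :
    HasFDerivAt (PR g) (∑ c, PR (Function.update g c (g1 c)) x •
      (EuclideanSpace.proj c : EuclideanSpace ℝ (Fin 3) →L[ℝ] ℝ)) x := by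
  have h1 : ∀ c ∈ (Finset.univ : Finset (Fin 3)), HasFDerivAt
      (fun x : EuclideanSpace ℝ (Fin 3) => g c (x c))
      (g1 c (x c) • (EuclideanSpace.proj c : EuclideanSpace ℝ (Fin 3) →L[ℝ] ℝ)) x := by
    intro c _
    have hp : HasFDerivAt (fun x : EuclideanSpace ℝ (Fin 3) => x c)
        (EuclideanSpace.proj c : EuclideanSpace ℝ (Fin 3) →L[ℝ] ℝ) x :=
      (EuclideanSpace.proj c : EuclideanSpace ℝ (Fin 3) →L[ℝ] ℝ).hasFDerivAt
    exact (h c (x c)).comp_hasFDerivAt x hp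
  have h2 := HasFDerivAt.finsetProd h1
  have e : PR g = fun x : EuclideanSpace ℝ (Fin 3) => ∏ c, g c (x c) := rfl
  rw [e]
  refine HasFDerivAt.congr_fderiv h2 ?_
  refine Finset.sum_congr rfl fun c _ => ?_
  rw [smul_smul]
  congr 1
  unfold PR
  rw [← Finset.prod_erase_mul _ _ (Finset.mem_univ c)]
  congr 1
  · refine Finset.prod_congr rfl fun c' hc' => ?_
    rw [Function.update_of_ne (Finset.ne_of_mem_erase hc')]
  · rw [Function.update_self]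

theorem norm_proj_le (c : Fin 3) :
    ‖(EuclideanSpace.proj c : EuclideanSpace ℝ (Fin 3) →L[ℝ] ℝ)‖ ≤ 1 := by
  refine ContinuousLinearMap.opNorm_le_bound _ zero_le_one fun x => ?_
  rw [one_mul]
  exact PiLp.norm_apply_le x c

theorem norm_sum_proj_le (a : Fin 3 → ℝ) {B : ℝ} (h : ∀ c, |a c| ≤ B) :
    ‖∑ c, a c • (EuclideanSpace.proj c : EuclideanSpace ℝ (Fin 3) →L[ℝ] ℝ)‖ ≤ 3 * B := by
  refine (norm_sum_le _ _).trans ?_
  calc ∑ c : Fin 3, ‖a c • (EuclideanSpace.proj c : EuclideanSpace ℝ (Fin 3) →L[ℝ] ℝ)‖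
      ≤ ∑ _c : Fin 3, B := by
        refine Finset.sum_le_sum fun c _ => ?_
        rw [norm_smul, Real.norm_eq_abs]
        calc |a c| * ‖(EuclideanSpace.proj c : EuclideanSpace ℝ (Fin 3) →L[ℝ] ℝ)‖
            ≤ |a c| * 1 := mul_le_mul_of_nonneg_left (norm_proj_le c) (abs_nonneg _)
          _ ≤ B := by rw [mul_one]; exact h c
    _ = 3 * B := by simp

theorem upd_bound {g g1 : Fin 3 → ℝ → ℝ} {B : ℝ} (h : ∀ c t, (1 + |t|) ^ 4 * |g c t| ≤ B)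
    (h1 : ∀ c t, (1 + |t|) ^ 4 * |g1 c t| ≤ B) (c : Fin 3) :
    ∀ c' t, (1 + |t|) ^ 4 * |Function.update g c (g1 c) c' t| ≤ B := by
  intro c' t
  by_cases hc : c' = c
  · subst hc; rw [Function.update_self]; exact h1 _ t
  · rw [Function.update_of_ne hc]; exact h c' t

theorem norm_fderiv_PR_le {g g1 : Fin 3 → ℝ → ℝ} {B : ℝ} (hd : ∀ c t, HasDerivAt (g c) (g1 c t) t)
    (h : ∀ c t, (1 + |t|) ^ 4 * |g c t| ≤ B) (h1 : ∀ c t, (1 + |t|) ^ 4 * |g1 c t| ≤ B)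
    (x : EuclideanSpace ℝ (Fin 3)) : ‖fderiv ℝ (PR g) x‖ ≤ 3 * B ^ 3 / (1 + ‖x‖) ^ 4 := by
  rw [(hasFDerivAt_PR hd x).fderiv, mul_div_assoc]
  exact norm_sum_proj_le _ fun c => PR_bound_div (upd_bound h h1 c) x

theorem wt_shift {x y : EuclideanSpace ℝ (Fin 3)} (h : ‖y - x‖ ≤ 1) :
    1 / (1 + ‖y‖) ^ 4 ≤ 16 / (1 + ‖x‖) ^ 4 := by
  have h1 : ‖x‖ ≤ ‖y‖ + 1 := by
    have := norm_sub_norm_le x y
    rw [norm_sub_rev] at this
    linarith
  rw [div_le_div_iff₀ (by positivity) (by positivity), one_mul]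
  have h2 : 1 + ‖x‖ ≤ 2 * (1 + ‖y‖) := by linarith [norm_nonneg y]
  calc (1 + ‖x‖) ^ 4 ≤ (2 * (1 + ‖y‖)) ^ 4 := by gcongr
    _ = 16 * (1 + ‖y‖) ^ 4 := by ring

theorem PR_lip {g g1 : Fin 3 → ℝ → ℝ} {B : ℝ} (hB : 0 ≤ B)
    (hd : ∀ c t, HasDerivAt (g c) (g1 c t) t)
    (h : ∀ c t, (1 + |t|) ^ 4 * |g c t| ≤ B) (h1 : ∀ c t, (1 + |t|) ^ 4 * |g1 c t| ≤ B)
    (x v : EuclideanSpace ℝ (Fin 3)) (hv : ‖v‖ ≤ 1) :
    |PR g (x + v) - PR g x| ≤ 48 * B ^ 3 * ‖v‖ / (1 + ‖x‖) ^ 4 := by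
  have hseg : ∀ y ∈ segment ℝ x (x + v), ‖fderiv ℝ (PR g) y‖ ≤ 48 * B ^ 3 / (1 + ‖x‖) ^ 4 := by
    intro y hy
    have hyx : ‖y - x‖ ≤ 1 := by
      obtain ⟨a, b, ha, hb, hab, rfl⟩ := hy
      have : a • x + b • (x + v) - x = b • v := by
        rw [smul_add, ← add_assoc, ← add_smul, hab, one_smul, add_sub_cancel_left]
      rw [this, norm_smul, Real.norm_eq_abs, abs_of_nonneg hb]
      have : b ≤ 1 := by linarith
      nlinarith [norm_nonneg v]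
    refine (norm_fderiv_PR_le hd h h1 y).trans ?_
    have := wt_shift hyx
    calc 3 * B ^ 3 / (1 + ‖y‖) ^ 4 = 3 * B ^ 3 * (1 / (1 + ‖y‖) ^ 4) := by ring
      _ ≤ 3 * B ^ 3 * (16 / (1 + ‖x‖) ^ 4) := by gcongr
      _ = _ := by ring
  have := (convex_segment x (x + v)).norm_image_sub_le_of_norm_fderiv_le (𝕜 := ℝ) (f := PR g)
    (fun y _ => (hasFDerivAt_PR hd y).differentiableAt) hseg
    (left_mem_segment ℝ x (x + v)) (right_mem_segment ℝ x (x + v))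
  rw [Real.norm_eq_abs, add_sub_cancel_left] at this
  calc _ ≤ _ := this
    _ = _ := by ring

theorem fderiv_PR_lip {g g1 g2 : Fin 3 → ℝ → ℝ} {B : ℝ} (hB : 0 ≤ B)
    (hd : ∀ c t, HasDerivAt (g c) (g1 c t) t) (hd1 : ∀ c t, HasDerivAt (g1 c) (g2 c t) t)
    (h : ∀ c t, (1 + |t|) ^ 4 * |g c t| ≤ B) (h1 : ∀ c t, (1 + |t|) ^ 4 * |g1 c t| ≤ B)
    (h2 : ∀ c t, (1 + |t|) ^ 4 * |g2 c t| ≤ B)
    (x v : EuclideanSpace ℝ (Fin 3)) (hv : ‖v‖ ≤ 1) :
    ‖fderiv ℝ (PR g) (x + v) - fderiv ℝ (PR g) x‖ ≤ 144 * B ^ 3 * ‖v‖ / (1 + ‖x‖) ^ 4 := by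
  rw [(hasFDerivAt_PR hd (x + v)).fderiv, (hasFDerivAt_PR hd x).fderiv, ← Finset.sum_sub_distrib]
  simp only [← sub_smul]
  have := norm_sum_proj_le (fun c => PR (Function.update g c (g1 c)) (x + v) -
    PR (Function.update g c (g1 c)) x) (B := 48 * B ^ 3 * ‖v‖ / (1 + ‖x‖) ^ 4) (fun c => by
      refine PR_lip (g1 := Function.update g1 c (g2 c)) hB ?_ (upd_bound h h1 c) ?_ x v hv
      · intro c' t
        by_cases hc : c' = c
        · subst hc; rw [Function.update_self, Function.update_self]; exact hd1 _ t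
        · rw [Function.update_of_ne hc, Function.update_of_ne hc]; exact hd c' t
      · exact upd_bound h1 h2 c)
  refine this.trans (le_of_eq ?_)
  ring

/-! ### the orbital products -/

/-- the function `Φ_a Φ_b` as a complex function -/
def ff (a b : Fin 3 → ℕ) (x : EuclideanSpace ℝ (Fin 3)) : ℂ := ((Phi a x * Phi b x : ℝ) : ℂ)

theorem Phi_mul_eq (a b : Fin 3 → ℕ) (x : EuclideanSpace ℝ (Fin 3)) :
    Phi a x * Phi b x = PR (fun c t => hf (a c) t * hf (b c) t) x := by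
  unfold Phi PR
  rw [Finset.prod_mul_distrib]

theorem ff_eq (a b : Fin 3 → ℕ) :
    ff a b = fun x => Complex.ofRealCLM (PR (fun c t => hf (a c) t * hf (b c) t) x) := by
  funext x
  unfold ff
  rw [Phi_mul_eq]; rfl

/-- bound constant -/
def MM (n : ℝ) : ℝ := 144 * (4 * CB n ^ 2) ^ 3

theorem fderiv_ff (a b : Fin 3 → ℕ) (x : EuclideanSpace ℝ (Fin 3)) :
    fderiv ℝ (ff a b) x =
      Complex.ofRealCLM ∘SL fderiv ℝ (PR (fun c t => hf (a c) t * hf (b c) t)) x := by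
  rw [ff_eq]
  have h1 := hasFDerivAt_PR (g := fun c t => hf (a c) t * hf (b c) t)
    (fun c t => (hasDerivAt_hf (a c) t).mul (hasDerivAt_hf (b c) t)) x
  have h2 := (Complex.ofRealCLM.hasFDerivAt
    (x := PR (fun c t => hf (a c) t * hf (b c) t) x)).comp x h1
  rw [h1.fderiv]
  exact h2.fderiv

theorem norm_ofReal_comp (L : EuclideanSpace ℝ (Fin 3) →L[ℝ] ℝ) :
    ‖Complex.ofRealCLM ∘SL L‖ ≤ ‖L‖ := by
  refine ContinuousLinearMap.opNorm_le_bound _ (norm_nonneg _) fun v => ?_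
  simp only [ContinuousLinearMap.comp_apply, Complex.ofRealCLM_apply, Complex.norm_real]
  exact L.le_opNorm v

theorem w4b_prod {a b : Fin 3 → ℕ} {n : ℝ} (ha : ∀ c, (a c : ℝ) ≤ n) (hb : ∀ c, (b c : ℝ) ≤ n)
    (c : Fin 3) : W4B (fun x => hf (a c) x * hf (b c) x)
      (fun x => hf1 (a c) x * hf (b c) x + hf (a c) x * hf1 (b c) x)
      (fun x => (hf2 (a c) x * hf (b c) x + hf1 (a c) x * hf1 (b c) x) +
        (hf1 (a c) x * hf1 (b c) x + hf (a c) x * hf2 (b c) x)) (4 * CB n ^ 2) :=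
  (w4b_hf (ha c)).mul (w4b_hf (hb c))

theorem CB_nonneg' {a : Fin 3 → ℕ} {n : ℝ} (ha : ∀ c, (a c : ℝ) ≤ n) : 0 ≤ n :=
  (Nat.cast_nonneg _).trans (ha 0)

theorem norm_fderiv_ff_le {a b : Fin 3 → ℕ} {n : ℝ} (ha : ∀ c, (a c : ℝ) ≤ n)
    (hb : ∀ c, (b c : ℝ) ≤ n) (x : EuclideanSpace ℝ (Fin 3)) :
    ‖fderiv ℝ (ff a b) x‖ ≤ MM n / (1 + ‖x‖) ^ 4 := by
  rw [fderiv_ff]
  refine (norm_ofReal_comp _).trans ?_
  have hw := w4b_prod ha hb
  have hCB := CB_nonneg (CB_nonneg' ha)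
  refine (norm_fderiv_PR_le (B := 4 * CB n ^ 2) (fun c t => (hw c).d1 t) (fun c t => (hw c).b0 t)
    (fun c t => (hw c).b1 t) x).trans ?_
  unfold MM
  gcongr
  norm_num

theorem fderiv_ff_lip {a b : Fin 3 → ℕ} {n : ℝ} (ha : ∀ c, (a c : ℝ) ≤ n)
    (hb : ∀ c, (b c : ℝ) ≤ n) (x v : EuclideanSpace ℝ (Fin 3)) (hv : ‖v‖ ≤ 1) :
    ‖fderiv ℝ (ff a b) (x + v) - fderiv ℝ (ff a b) x‖ ≤ MM n * ‖v‖ / (1 + ‖x‖) ^ 4 := by
  rw [fderiv_ff, fderiv_ff, ← ContinuousLinearMap.comp_sub]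
  refine (norm_ofReal_comp _).trans ?_
  have hw := w4b_prod ha hb
  have hCB := CB_nonneg (CB_nonneg' ha)
  exact fderiv_PR_lip (B := 4 * CB n ^ 2) (by positivity) (fun c t => (hw c).d1 t)
    (fun c t => (hw c).d2 t) (fun c t => (hw c).b0 t) (fun c t => (hw c).b1 t)
    (fun c t => (hw c).b2 t) x v hv

theorem contDiff_ff (a b : Fin 3 → ℕ) : ContDiff ℝ 1 (ff a b) := by
  have h : ContDiff ℝ 1 (fun x : EuclideanSpace ℝ (Fin 3) => Phi a x * Phi b x) :=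
    ((contDiff_Phi a).of_le (by simp)).mul ((contDiff_Phi b).of_le (by simp))
  exact Complex.ofRealCLM.contDiff.comp h

theorem integrable_ff (a b : Fin 3 → ℕ) : Integrable (ff a b) := by
  have := (memLp_Phi a 2).integrable_mul (memLp_Phi b 2)
  refine this.congr (Filter.Eventually.of_forall fun x => ?_)
  simp [ff]

theorem integrable_fderiv_ff (a b : Fin 3 → ℕ) : Integrable (fderiv ℝ (ff a b)) := by
  set n : ℝ := ∑ c, ((a c : ℝ) + b c) with hn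
  have ha : ∀ c, (a c : ℝ) ≤ n := fun c => by
    have : (a c : ℝ) + b c ≤ n := Finset.single_le_sum (f := fun c => (a c : ℝ) + b c)
      (fun _ _ => by positivity) (Finset.mem_univ c)
    have hb : (0 : ℝ) ≤ b c := Nat.cast_nonneg _
    linarith
  have hb : ∀ c, (b c : ℝ) ≤ n := fun c => by
    have : (a c : ℝ) + b c ≤ n := Finset.single_le_sum (f := fun c => (a c : ℝ) + b c)
      (fun _ _ => by positivity) (Finset.mem_univ c)
    have ha : (0 : ℝ) ≤ a c := Nat.cast_nonneg _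
    linarith
  have hi : Integrable (fun x : EuclideanSpace ℝ (Fin 3) => MM n * (1 + ‖x‖) ^ (-(4 : ℝ))) :=
    (integrable_one_add_norm (by simp; norm_num)).const_mul _
  refine hi.mono' ((contDiff_ff a b).continuous_fderiv (by simp)).aestronglyMeasurable
    (Filter.Eventually.of_forall fun x => ?_)
  refine (norm_fderiv_ff_le ha hb x).trans (le_of_eq ?_)
  rw [Real.rpow_neg (by positivity), div_eq_mul_inv]
  congr 2
  norm_cast

/-- polynomial bound of the constant -/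
theorem MM_le (n0 : ℕ) : MM (n0 : ℝ) ≤
    144 * (4 * (4 * 4 * 40 * 20737) ^ 2) ^ 3 * ((n0 : ℝ) + 1) ^ 36 := by
  have hn : (0 : ℝ) ≤ n0 := Nat.cast_nonneg _
  have h1 : CB (n0 : ℝ) ≤ (4 * 4 * 40 * 20737) * ((n0 : ℝ) + 1) ^ 6 := by
    unfold CB BB
    have e1 : ((n0 : ℝ) + 2) ^ 2 ≤ (2 * ((n0 : ℝ) + 1)) ^ 2 :=
      pow_le_pow_left₀ (by positivity) (by linarith) 2
    have e2 : (2 * ((n0 : ℝ) + 2 + 4)) ^ 4 ≤ (12 * ((n0 : ℝ) + 1)) ^ 4 :=
      pow_le_pow_left₀ (by positivity) (by linarith) 4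
    have e3 : (1 : ℝ) ≤ ((n0 : ℝ) + 1) ^ 4 := one_le_pow₀ (by linarith)
    calc 4 * ((n0 : ℝ) + 2) ^ 2 * (40 * (1 + (2 * ((n0 : ℝ) + 2 + 4)) ^ 4))
        ≤ 4 * (2 * ((n0 : ℝ) + 1)) ^ 2 * (40 * (((n0 : ℝ) + 1) ^ 4 + (12 * ((n0 : ℝ) + 1)) ^ 4)) := by
          gcongr
      _ = (4 * 4 * 40 * 20737) * ((n0 : ℝ) + 1) ^ 6 := by ring
  have h0 := CB_nonneg hn
  unfold MM
  calc 144 * (4 * CB (n0 : ℝ) ^ 2) ^ 3
      ≤ 144 * (4 * ((4 * 4 * 40 * 20737) * ((n0 : ℝ) + 1) ^ 6) ^ 2) ^ 3 := by gcongr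
    _ = _ := by ring

theorem coord_le_deg3 (p : Fin 3 → ℕ) {n0 : ℕ} (h : Crest.Agent.R338.TA.deg3 p ≤ n0) (c : Fin 3) :
    (p c : ℝ) ≤ (n0 : ℝ) := by
  unfold Crest.Agent.R338.TA.deg3 at h
  have : p c ≤ n0 := by fin_cases c <;> simp <;> omega
  exact_mod_cast this

/-- **(N3) from node C.2** -/
theorem N3_of_C2 (h : Crest.Agent.R338.Lat.C2Stmt) : ∃ C : ℝ, 0 ≤ C ∧
    ∀ (lam s K a : ℝ) (nL : ℕ) (d : (Fin 3 → ℤ) → EuclideanSpace ℝ (Fin 3)),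
    0 ≤ lam → 0 < s → 1 ≤ K → K * s ≤ 1 → a = 1 / (K * s) ^ 2 → (∀ α, ‖d α‖ ≤ s / 4) →
    ∀ (n0 : ℕ) (p q : Fin 3 → ℕ), Crest.Agent.R338.TA.deg3 p ≤ n0 →
      Crest.Agent.R338.TA.deg3 q ≤ n0 →
      |∫ x, Crest.Agent.R338.Lat.kk lam s a nL d x * (Phi p x * Phi q x)| ≤
        C * lam * ((n0 : ℝ) + 1) ^ 36 * K ^ 4 * s := by
  obtain ⟨C, hC⟩ := h
  refine ⟨|C| * (144 * (4 * (4 * 4 * 40 * 20737) ^ 2) ^ 3), by positivity, ?_⟩
  intro lam s K a nL d hl hs hK hKs ha hd n0 p q hp hq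
  have hp' := coord_le_deg3 p hp
  have hq' := coord_le_deg3 q hq
  have key := hC lam s K a nL d hl hs hK hKs ha hd (ff p q) (MM n0) (contDiff_ff p q)
    (integrable_ff p q) (integrable_fderiv_ff p q) (fderiv_ff_lip hp' hq')
    (norm_fderiv_ff_le hp' hq')
  have e : ∫ x, (Crest.Agent.R338.Lat.kk lam s a nL d x : ℂ) * ff p q x =
      ((∫ x, Crest.Agent.R338.Lat.kk lam s a nL d x * (Phi p x * Phi q x) : ℝ) : ℂ) := by
    rw [← integral_complex_ofReal]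
    refine integral_congr_ae (Filter.Eventually.of_forall fun x => ?_)
    simp [ff]
  rw [e, Complex.norm_real, Real.norm_eq_abs] at key
  refine key.trans ?_
  have hM := MM_le n0
  have hM0 : 0 ≤ MM (n0 : ℝ) := by
    unfold MM; have := CB_nonneg (Nat.cast_nonneg (α := ℝ) n0); positivity
  calc C * lam * MM (n0 : ℝ) * K ^ 4 * s ≤ |C| * lam * MM (n0 : ℝ) * K ^ 4 * s := by
        gcongr; exact le_abs_self C
    _ ≤ |C| * lam * (144 * (4 * (4 * 4 * 40 * 20737) ^ 2) ^ 3 * ((n0 : ℝ) + 1) ^ 36) * K ^ 4 * s := by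
        gcongr
    _ = _ := by ring

end Crest.Agent.R338.HO
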