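import Crest.Agent.R338.RCGate

/-!
# Row 338, node I.1: acceptance transfer (`YesSpec`, `NoSpec`), isometry, well-formedness of the word
-/

set_option autoImplicit false

namespace Crest.Agent.R338.RC

open Function Crest.Quantum.GateCircuit Crest.Quantum.QMA

/-! ### gates are symmetric isometries -/

section iso

variable {W : Type} [Fintype W] [DecidableEq W]

theorem rmat_symm (k : Fin 3) (x y : Bool) : rmat k x y = rmat k y x := by
  rcases x with _ | _ <;> rcases y with _ | _ <;> rfl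

/-- the involution `(σ, b) ↦ (σ[a := b], σ a)` -/
def swp (a : W) (p : (W → Bool) × Bool) : (W → Bool) × Bool := (update p.1 a p.2, p.1 a)

theorem swp_swp (a : W) : Function.Involutive (swp a) := by
  rintro ⟨σ, b⟩
  simp [swp]

theorem ip_act (g : EG W) (Ψ Φ : RVec W) : ip (g.act Ψ) Φ = ip Ψ (g.act Φ) := by
  rcases g with ⟨k, a⟩ | ⟨a, b⟩
  · have h1 : ∀ Ψ Φ : RVec W, ip ((EG.rot k a).act Ψ) Φ =
        ∑ p : (W → Bool) × Bool, rmat k (p.1 a) p.2 * Ψ (update p.1 a p.2) * Φ p.1 := by
      intro Ψ Φ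
      rw [Fintype.sum_prod_type]
      refine Finset.sum_congr rfl fun σ _ => ?_
      rw [Fintype.sum_bool]
      simp only [EG.act]
      ring
    have h2 : ip Ψ ((EG.rot k a).act Φ) = ip ((EG.rot k a).act Φ) Ψ :=
      Finset.sum_congr rfl fun σ _ => mul_comm _ _
    rw [h2, h1, h1, ← Equiv.sum_comp (swp_swp a).toPerm]
    refine Finset.sum_congr rfl fun p _ => ?_
    simp only [Function.Involutive.coe_toPerm, swp, update_self, update_idem, update_eq_self]
    rw [rmat_symm]
    ring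
  · refine Finset.sum_congr rfl fun σ _ => ?_
    simp only [EG.act]
    split_ifs <;> ring

theorem nsq_eq_ip (Ψ : RVec W) : nsq Ψ = ip Ψ Ψ :=
  Finset.sum_congr rfl fun σ _ => sq _

theorem nsq_act (g : EG W) (hg : g.WF) (Ψ : RVec W) : nsq (g.act Ψ) = nsq Ψ := by
  rw [nsq_eq_ip, ip_act, act_act g hg, ← nsq_eq_ip]

theorem nsq_run (w : List (EG W)) (hw : ∀ g ∈ w, g.WF) (Ψ : RVec W) : nsq (run w Ψ) = nsq Ψ := by
  induction w generalizing Ψ with
  | nil => rfl
  | cons g w ih =>
    rw [run_cons, ih (fun g' h' => hw g' (List.mem_cons_of_mem _ h')),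
      nsq_act g (hw g List.mem_cons_self)]

theorem wt_add_wt (o : W) (Ψ : RVec W) : wt o false Ψ + wt o true Ψ = nsq Ψ := by
  rw [wt, wt, nsq, ← Finset.sum_add_distrib]
  refine Finset.sum_congr rfl fun σ _ => ?_
  rcases σ o with _ | _ <;> simp

end iso

/-! ### the sum over configurations -/

section sums

variable {N K : ℕ}

/-- configuration with data `τ`, re/im bit `r`, dummy bit `d`, no ancilla -/
def cfg (K : ℕ) (τ : Fin N → Bool) (r d : Bool) : Fin (N + K + 4) → Bool := fun a =>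
  if h : (a : ℕ) < N then τ ⟨a, h⟩ else if (a : ℕ) = N then r else if (a : ℕ) = N + 1 then d else false

theorem cfg_q (τ : Fin N → Bool) (r d : Bool) (i : Fin N) : cfg K τ r d (qw N K i) = τ i := by
  simp [cfg, qw]
theorem cfg_r (τ : Fin N → Bool) (r d : Bool) : cfg K τ r d (rw' N K) = r := by
  simp [cfg, rw']
theorem cfg_d (τ : Fin N → Bool) (r d : Bool) : cfg K τ r d (dw N K) = d := by
  simp [cfg, dw]
theorem dat_cfg (τ : Fin N → Bool) (r d : Bool) : dat (cfg K τ r d) = τ := by
  funext i; exact cfg_q τ r d i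
theorem cfg_y (τ : Fin N → Bool) (r d : Bool) : cfg K τ r d (yw N K) = false := by
  simp [cfg, yw]
theorem cfg_z (τ : Fin N → Bool) (r d : Bool) (j : ℕ) : cfg K τ r d (zw N K j) = false := by
  have h1 : ¬ (N + 3 + min j K < N) := by omega
  have h2 : ¬ (N + 3 + min j K = N) := by omega
  have h3 : ¬ (N + 3 + min j K = N + 1) := by omega
  simp only [cfg, zw, h1, h2, h3, dite_false, if_false]

theorem anc_cfg (τ : Fin N → Bool) (r d : Bool) :
    Anc (K := K) (fun _ _ => false) (fun _ => false) (cfg K τ r d) :=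
  ⟨fun j _ => cfg_z τ r d j, cfg_y τ r d⟩

theorem cfg_of_anc {σ : Fin (N + K + 4) → Bool}
    (h : Anc (K := K) (fun _ _ => false) (fun _ => false) σ) :
    cfg K (dat σ) (σ (rw' N K)) (σ (dw N K)) = σ := by
  funext a
  unfold cfg
  split_ifs with h1 h2 h3
  · rfl
  · congr 1; exact Fin.ext h2.symm
  · congr 1; exact Fin.ext h3.symm
  · by_cases h4 : (a : ℕ) = N + 2
    · have : a = yw N K := Fin.ext h4
      rw [this, h.2]
    · have ha := a.2
      have : a = zw N K ((a : ℕ) - (N + 3)) := by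
        apply Fin.ext
        simp only [zw]
        omega
      rw [this, h.1 _ (by omega)]

theorem sum_cfg (F : (Fin (N + K + 4) → Bool) → ℝ)
    (hF : ∀ σ, ¬ Anc (K := K) (fun _ _ => false) (fun _ => false) σ → F σ = 0) :
    ∑ σ, F σ = ∑ d : Bool, ∑ τ : Fin N → Bool, ∑ r : Bool, F (cfg K τ r d) := by
  rw [← Fintype.sum_prod_type', ← Fintype.sum_prod_type']
  symm
  refine Finset.sum_of_injOn (fun p => cfg K p.1.2 p.2 p.1.1) ?_ ?_ ?_ ?_
  · rintro ⟨⟨d, τ⟩, r⟩ _ ⟨⟨d', τ'⟩, r'⟩ _ h
    simp only at h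
    have h1 : τ = τ' := by rw [← dat_cfg (K := K) τ r d, h, dat_cfg]
    have h2 : r = r' := by rw [← cfg_r (K := K) τ r d, h, cfg_r]
    have h3 : d = d' := by rw [← cfg_d (K := K) τ r d, h, cfg_d]
    rw [h1, h2, h3]
  · intro _ _; simp
  · intro σ _ hσ
    refine hF σ (fun hA => hσ ⟨⟨⟨σ (dw N K), dat σ⟩, σ (rw' N K)⟩, by simp, cfg_of_anc hA⟩)
  · intro _ _; rfl

theorem part_sq (z : ℂ) : part false z ^ 2 + part true z ^ 2 = ‖z‖ ^ 2 := by
  rw [Complex.sq_norm, Complex.normSq_apply]
  simp only [part]; ring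

theorem E0_cfg (Φ : Bool → QVec N) (τ : Fin N → Bool) (r d : Bool) :
    E0 K Φ (cfg K τ r d) = part r (Φ d τ) := by
  rw [E0, ES_of_anc (anc_cfg τ r d), cfg_r, cfg_d, dat_cfg]

theorem wt_E0 (Φ : Bool → QVec N) (o : Fin N) (b : Bool) :
    wt (qw N K o) b (E0 K Φ) = ∑ d : Bool, ∑ τ : Fin N → Bool, if τ o = b then ‖Φ d τ‖ ^ 2 else 0 := by
  rw [wt, sum_cfg (K := K)]
  · refine Finset.sum_congr rfl fun d _ => Finset.sum_congr rfl fun τ _ => ?_
    rw [Fintype.sum_bool, cfg_q, cfg_q, E0_cfg, E0_cfg, ← part_sq]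
    split_ifs <;> ring
  · intro σ hσ
    rw [E0, ES_of_not hσ]
    simp

theorem nsq_E0 (Φ : Bool → QVec N) :
    nsq (E0 K Φ) = ∑ d : Bool, ∑ τ : Fin N → Bool, ‖Φ d τ‖ ^ 2 := by
  rw [nsq, sum_cfg (K := K)]
  · refine Finset.sum_congr rfl fun d _ => Finset.sum_congr rfl fun τ _ => ?_
    rw [Fintype.sum_bool, E0_cfg, E0_cfg, ← part_sq]
    ring
  · intro σ hσ
    rw [E0, ES_of_not hσ]
    simp

end sums

/-! ### running the whole word -/

section whole

theorem rotD_E0 {N K : ℕ} (Ψ : Bool → QVec N) :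
    (EG.rot 2 (dw N K)).act (E0 K Ψ) = E0 K (fun d => Ψ (!d)) := by
  funext σ
  rw [rot2_act]
  have key : Anc (fun _ _ => false) (fun _ => false) (update σ (dw N K) (!σ (dw N K))) ↔
      Anc (fun _ _ => false) (fun _ => false) σ := by
    unfold Anc
    rw [update_of_ne yw_ne_dw]
    refine and_congr_left (fun _ => forall_congr' fun j => forall_congr' fun hj => ?_)
    rw [update_of_ne (zw_ne_dw j)]
  unfold E0
  by_cases hA : Anc (K := K) (fun _ _ => false) (fun _ => false) σ
  · rw [ES_of_anc hA, ES_of_anc (key.2 hA), dat_update_d, update_of_ne rw_ne_dw, update_self]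
  · rw [ES_of_not hA, ES_of_not (fun h => hA (key.1 h))]

theorem run_flat {N K : ℕ} (gs : List (Gate N 0)) (h1 : ∀ g ∈ gs, IsCtrlGate g)
    (h2 : ∀ g ∈ gs, ctrlLen g ≤ K) (f : (Fin 0 → Bool) → Bool) (Ψ : Bool → QVec N) :
    run (gs.flatMap (gword N K)) (E0 K Ψ) = E0 K (fun d => runGates f gs (Ψ d)) := by
  induction gs generalizing Ψ with
  | nil => rfl
  | cons g gs ih =>
    rw [List.flatMap_cons, run_append, run_gword g (h1 g List.mem_cons_self)
      (h2 g List.mem_cons_self) f, ih (fun g' h' => h1 g' (List.mem_cons_of_mem _ h'))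
      (fun g' h' => h2 g' (List.mem_cons_of_mem _ h'))]
    rfl

theorem ctrlLen_le (V : VCirc) : ∀ g ∈ V.gates, ctrlLen g ≤ VK V := fun g hg =>
  List.single_le_sum (fun _ _ => Nat.zero_le _) _ (List.mem_map_of_mem hg)

theorem run_word (V : VCirc) (h : V.WellFormed) (f : (Fin 0 → Bool) → Bool)
    (Ψ : Bool → QVec V.N) :
    run (word V) (E0 (VK V) Ψ) = E0 (VK V) (fun d => runGates f V.gates (Ψ d)) := by
  rw [word, run_cons, rotD_E0, run_append, run_flat V.gates h.2 (ctrlLen_le V) f, run_cons,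
    rotD_E0, run_nil]
  simp only [Bool.not_not]

theorem wt_run_word (V : VCirc) (h : V.WellFormed) (ψ : Bool → QVec V.w) :
    wt (outW V) true (run (word V) (E0 (VK V) (fun d => startState V h.1 (ψ d)))) =
      ∑ d : Bool, acceptProb V h.1 (ψ d) := by
  rw [run_word V h (fun _ => false), outW, wt_E0]
  rfl

/-! ### well-formedness of the compiled word -/

theorem gword_WF {N K : ℕ} (G : Gate N 0) (hK : ctrlLen G ≤ K) : ∀ g ∈ gword N K G, g.WF := by
  rcases G with ⟨g, cs, t⟩ | ⟨q, t⟩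
  · have hK' : cs.length ≤ K := hK
    intro e he
    simp only [gword, gateW, List.mem_append, List.mem_reverse] at he
    rcases he with (he | he) | he
    · exact pre_WF cs hK' e he
    · exact primW_WF g _ t e he
    · exact pre_WF cs hK' e he
  · intro e he; simp [gword] at he

theorem word_WF (V : VCirc) : ∀ g ∈ word V, g.WF := by
  intro g hg
  simp only [word, List.mem_cons, List.mem_append, List.mem_flatMap, List.not_mem_nil, or_false] at hg
  rcases hg with h | ⟨G, hG, h⟩ | h
  · subst h; trivial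
  · exact gword_WF G (ctrlLen_le V G hG) g h
  · subst h; trivial

/-! ### start states -/

theorem sum_startState (V : VCirc) (h : V.w ≤ V.N) (ψ : QVec V.w) :
    ∑ σ : Fin V.N → Bool, ‖startState V h ψ σ‖ ^ 2 = ∑ τ : Fin V.w → Bool, ‖ψ τ‖ ^ 2 := by
  symm
  refine Finset.sum_of_injOn (fun τ : Fin V.w → Bool => fun i : Fin V.N =>
    if h' : (i : ℕ) < V.w then τ ⟨i, h'⟩ else false) ?_ ?_ ?_ ?_
  · intro τ _ τ' _ e
    funext i
    have := congrFun e (Fin.castLE h i)
    simpa using this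
  · intro _ _; simp
  · intro σ _ hσ
    rw [startState, if_neg, norm_zero, zero_pow two_ne_zero]
    intro h'
    refine hσ ⟨fun j => σ (Fin.castLE h j), by simp, ?_⟩
    funext i
    by_cases hi : (i : ℕ) < V.w
    · simp only [hi, dite_true]; rfl
    · simp only [hi, dite_false]
      exact (h' i (by omega)).symm
  · intro τ _
    rw [startState, if_pos]
    · congr 2
      congr 1
      funext j
      simp
    · intro i hi
      simp only [dif_neg (Nat.not_lt.2 hi)]

theorem apply_smul {N : ℕ} (f : (Fin 0 → Bool) → Bool) (g : Gate N 0) (c : ℂ) (ψ : QVec N) :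
    g.apply f (fun σ => c * ψ σ) = fun σ => c * g.apply f ψ σ := by
  rcases g with ⟨g, cs, t⟩ | ⟨q, t⟩
  · funext σ
    simp only [Gate.apply]
    split_ifs
    · rw [Finset.mul_sum]
      refine Finset.sum_congr rfl fun b _ => ?_
      ring
    · rfl
  · rfl

theorem runGates_smul {N : ℕ} (f : (Fin 0 → Bool) → Bool) (gs : List (Gate N 0)) (c : ℂ)
    (ψ : QVec N) : runGates f gs (fun σ => c * ψ σ) = fun σ => c * runGates f gs ψ σ := by
  induction gs generalizing ψ with
  | nil => rfl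
  | cons g gs ih =>
    simp only [runGates, List.foldl_cons] at ih ⊢
    rw [apply_smul, ih]

theorem acceptProb_smul (V : VCirc) (h : V.w ≤ V.N) (c : ℂ) (ψ : QVec V.w) :
    acceptProb V h (fun τ => c * ψ τ) = ‖c‖ ^ 2 * acceptProb V h ψ := by
  have h1 : startState V h (fun τ => c * ψ τ) = fun σ => c * startState V h ψ σ := by
    funext σ
    simp only [startState]
    split_ifs <;> simp
  rw [acceptProb, acceptProb, h1, runGates_smul, Finset.mul_sum]
  refine Finset.sum_congr rfl fun σ _ => ?_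
  split_ifs
  · rw [norm_mul, mul_pow]
  · rw [mul_zero]

theorem acceptProb_le (V : VCirc) (h : V.w ≤ V.N)
    (hno : ∀ ψ : QVec V.w, IsWitness ψ → acceptProb V h ψ ≤ 1 / 3) (ψ : QVec V.w) :
    acceptProb V h ψ ≤ 1 / 3 * ∑ τ, ‖ψ τ‖ ^ 2 := by
  set S := ∑ τ, ‖ψ τ‖ ^ 2 with hS
  have hS0 : 0 ≤ S := Finset.sum_nonneg fun _ _ => by positivity
  rcases hS0.eq_or_lt with h0 | h0
  · have hz : ψ = fun τ => (0 : ℂ) * ψ τ := by
      funext τ
      have := (Finset.sum_eq_zero_iff_of_nonneg (fun τ _ => by positivity)).1 h0.symm τ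
        (Finset.mem_univ _)
      rw [zero_mul]
      simpa using this
    rw [hz, acceptProb_smul]
    simp [← h0]
  · set c : ℂ := (((Real.sqrt S)⁻¹ : ℝ) : ℂ) with hc
    have hcn : ‖c‖ ^ 2 = S⁻¹ := by
      rw [hc, Complex.norm_real, Real.norm_eq_abs, sq_abs, inv_pow, Real.sq_sqrt hS0]
    have h1 := hno (fun τ => c * ψ τ) (by
      unfold IsWitness
      simp only [norm_mul, mul_pow]
      rw [← Finset.mul_sum, hcn, ← hS, inv_mul_cancel₀ h0.ne'])
    rw [acceptProb_smul, hcn] at h1
    rw [inv_mul_le_iff₀ h0] at h1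
    linarith

/-- configuration of a witness string -/
theorem valid_eq (V : VCirc) (h : V.w ≤ V.N) (χ : RVec (Fin (VM V))) (hχ : Valid V χ) :
    ∃ ψ : Bool → QVec V.w, χ = E0 (VK V) (fun d => startState V h (ψ d)) := by
  refine ⟨fun d τ => ⟨χ (cfg (VK V) (fun i => if h' : (i : ℕ) < V.w then τ ⟨i, h'⟩ else false) false d),
    χ (cfg (VK V) (fun i => if h' : (i : ℕ) < V.w then τ ⟨i, h'⟩ else false) true d)⟩, ?_⟩
  funext σ
  by_cases hA : Anc (K := VK V) (fun _ _ => false) (fun _ => false) σ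
  · rw [E0, ES_of_anc hA]
    by_cases hs : ∀ i : Fin V.N, V.w ≤ (i : ℕ) → dat σ i = false
    · have h1 : (fun i : Fin V.N => if h' : (i : ℕ) < V.w then dat σ (Fin.castLE h ⟨i, h'⟩) else false) =
          dat σ := by
        funext i
        by_cases hi : (i : ℕ) < V.w
        · simp only [hi, dite_true]; rfl
        · simp only [hi, dite_false]
          exact (hs i (by omega)).symm
      simp only [startState]
      rw [if_pos hs]
      simp only [h1]
      have h2 := cfg_of_anc hA
      conv_lhs => rw [← h2]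
      rcases σ (rw' V.N (VK V)) with _ | _ <;> rfl
    · simp only [startState]
      rw [if_neg hs, part_zero]
      push Not at hs
      obtain ⟨i, hi, hi'⟩ := hs
      refine hχ σ ⟨qw V.N (VK V) i, Or.inl ⟨hi, i.2⟩, ?_⟩
      have h3 : dat σ i = true := by simpa using hi'
      exact h3
  · rw [E0, ES_of_not hA]
    unfold Anc at hA
    rw [not_and_or] at hA
    rcases hA with hA | hA
    · push Not at hA
      obtain ⟨j, hj, hj'⟩ := hA
      exact hχ σ ⟨zw V.N (VK V) j, Or.inr (by simp [zw]; omega), by simpa using hj'⟩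
    · exact hχ σ ⟨yw V.N (VK V), Or.inr (by simp [yw]), by simpa using hA⟩

theorem valid_E0 (V : VCirc) (h : V.w ≤ V.N) (ψ : Bool → QVec V.w) :
    Valid V (E0 (VK V) (fun d => startState V h (ψ d))) := by
  rintro σ ⟨a, ha, ha'⟩
  by_cases hA : Anc (K := VK V) (fun _ _ => false) (fun _ => false) σ
  · rw [E0, ES_of_anc hA]
    simp only [startState]
    rw [if_neg, part_zero]
    intro hs
    rcases ha with ha | ha
    · have := hs ⟨a, ha.2⟩ ha.1
      have h2 : σ a = false := this
      rw [ha'] at h2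
      exact Bool.noConfusion h2
    · have h2 : σ a = false := by
        by_cases h4 : (a : ℕ) = V.N + 2
        · have : a = yw V.N (VK V) := Fin.ext h4
          rw [this, hA.2]
        · have ha2 : (a : ℕ) < V.N + VK V + 4 := a.2
          have : a = zw V.N (VK V) ((a : ℕ) - (V.N + 3)) := by
            apply Fin.ext
            simp only [zw]
            omega
          rw [this, hA.1 _ (by omega)]
      rw [ha'] at h2
      exact Bool.noConfusion h2
  · rw [E0, ES_of_not hA]

theorem nsq_start (V : VCirc) (h : V.w ≤ V.N) (ψ : Bool → QVec V.w) :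
    nsq (E0 (VK V) (fun d => startState V h (ψ d))) = ∑ d, ∑ τ, ‖ψ d τ‖ ^ 2 := by
  rw [nsq_E0]
  exact Finset.sum_congr rfl fun d _ => sum_startState V h (ψ d)

theorem yesSpec : YesSpec := by
  intro V h ⟨ψ, hψ, hacc⟩
  set Ψ : Bool → QVec V.w := fun d τ => (if d = true then (0 : ℂ) else 1) * ψ τ with hΨ
  have hT : Ψ true = fun τ => (0 : ℂ) * ψ τ := by funext τ; simp [hΨ]
  have hF : Ψ false = fun τ => (1 : ℂ) * ψ τ := by funext τ; simp [hΨ]
  have hn : nsq (E0 (VK V) (fun d => startState V h.1 (Ψ d))) = 1 := by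
    rw [nsq_start, Fintype.sum_bool, hT, hF]
    simp only [zero_mul, norm_zero, one_mul]
    rw [show ∑ τ, ‖ψ τ‖ ^ 2 = 1 from hψ]
    simp
  refine ⟨_, hn, valid_E0 V h.1 Ψ, ?_⟩
  have h1 := wt_add_wt (outW V) (run (word V) (E0 (VK V) (fun d => startState V h.1 (Ψ d))))
  rw [nsq_run _ (word_WF V), hn, wt_run_word V h, Fintype.sum_bool, hT, hF, acceptProb_smul,
    acceptProb_smul] at h1
  simp only [norm_zero, norm_one, one_pow, one_mul, zero_mul, zero_add, ne_eq, OfNat.ofNat_ne_zero,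
    not_false_eq_true, zero_pow] at h1
  linarith

theorem noSpec : NoSpec := by
  intro V h hno χ hn hχ
  obtain ⟨ψ, rfl⟩ := valid_eq V h.1 χ hχ
  have h1 := wt_add_wt (outW V) (run (word V) (E0 (VK V) (fun d => startState V h.1 (ψ d))))
  rw [nsq_run _ (word_WF V), hn, wt_run_word V h, Fintype.sum_bool] at h1
  rw [nsq_start, Fintype.sum_bool] at hn
  have h2 := acceptProb_le V h.1 hno (ψ true)
  have h3 := acceptProb_le V h.1 hno (ψ false)
  linarith

end whole

end Crest.Agent.R338.RC
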