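import Crest.Agent.R338.RCParse
import Crest.Agent.R338.RCMain

/-!
# Row 338, node I.5a: the compiled word is poly-time (`PTSpec`)
-/

set_option autoImplicit false

namespace Crest.Agent.R338.RC

open Function Crest.Quantum.GateCircuit Crest.Quantum.QMA Crest.Agent.Lib.PT RCP

/-! ### the words on natural numbers -/

/-- numerical AND -/
def andN (a b c : ℕ) : List (ℕ × ℕ × ℕ) :=
  [(0, c, c), (3, b, c), (0, c, c), (3, a, c), (0, c, c), (3, b, c), (0, c, c)]

/-- ancilla wire -/
def zN (N K j : ℕ) : ℕ := N + 3 + min j K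

/-- chain of ANDs -/
def chainN (N K : ℕ) (cs : List ℕ) : List (ℕ × ℕ × ℕ) :=
  ((List.range cs.length).zip cs).flatMap fun p => andN (zN N K p.1) p.2 (zN N K (p.1 + 1))

/-- phase word -/
def phN (k y r : ℕ) : List (ℕ × ℕ × ℕ) := [(3, y, r), (k, r, r), (3, y, r), (k, r, r)]

/-- reversed phase word -/
def phN' (k y r : ℕ) : List (ℕ × ℕ × ℕ) := [(k, r, r), (3, y, r), (k, r, r), (3, y, r)]

/-- primitive -/
def primN (g c t y r : ℕ) : List (ℕ × ℕ × ℕ) :=
  if g = 0 then [(1, t, t), (3, c, t), (1, t, t)] else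
  if g = 1 then [(0, t, t), (3, c, t), (0, t, t)] else
  if g = 2 then andN c t y ++ phN 1 y r ++ andN c t y else
  if g = 3 then andN c t y ++ phN' 1 y r ++ andN c t y else
  if g = 4 then andN c t y ++ phN 0 y r ++ andN c t y else
  andN c t y ++ phN' 0 y r ++ andN c t y

/-- control computation -/
def preN (N K : ℕ) (cs : List ℕ) : List (ℕ × ℕ × ℕ) := (2, zN N K 0, zN N K 0) :: chainN N K cs

/-- word of a gate -/
def gwordN (N K : ℕ) (g : GD) : List (ℕ × ℕ × ℕ) :=
  preN N K g.2.1 ++ primN g.1 (zN N K g.2.1.length) g.2.2 (N + 2) N ++ (preN N K g.2.1).reverse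

/-- word of a gate list -/
def wordNN (N K : ℕ) (gs : List GD) : List (ℕ × ℕ × ℕ) :=
  (2, N + 1, N + 1) :: (gs.flatMap (gwordN N K) ++ [(2, N + 1, N + 1)])

/-- numerical form of a gate on `Fin M` -/
def nm {M : ℕ} (g : EG (Fin M)) : ℕ × ℕ × ℕ := (g.map fun a : Fin M => (a : ℕ)).num

theorem nm_rot {M : ℕ} (k : Fin 3) (a : Fin M) : nm (EG.rot k a) = ((k : ℕ), (a : ℕ), (a : ℕ)) := rfl
theorem nm_cz {M : ℕ} (a b : Fin M) : nm (EG.cz a b) = (3, (a : ℕ), (b : ℕ)) := rfl

theorem map_andW {M : ℕ} (a b c : Fin M) : (andW a b c).map nm = andN a b c := rfl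

theorem zw_val (N K j : ℕ) : ((zw N K j : Fin (N + K + 4)) : ℕ) = zN N K j := rfl

theorem map_chainW (N K : ℕ) (cs : List (Fin N)) (j : ℕ) :
    (chainW (zw N K) j (cs.map (qw N K))).map nm =
      ((List.range' j cs.length).zip (cs.map (fun c : Fin N => (c : ℕ)))).flatMap
        fun p => andN (zN N K p.1) p.2 (zN N K (p.1 + 1)) := by
  induction cs generalizing j with
  | nil => rfl
  | cons c cs ih =>
    simp only [List.map_cons, chainW, List.map_append, List.length_cons, List.range'_succ,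
      List.zip_cons_cons, List.flatMap_cons, map_andW]
    rw [ih]
    rfl

theorem map_preW (N K : ℕ) (cs : List (Fin N)) :
    (preW (zw N K) (cs.map (qw N K))).map nm = preN N K (cs.map (fun c : Fin N => (c : ℕ))) := by
  simp only [preW, List.map_cons, map_chainW, preN, chainN, List.length_map, List.range_eq_range']
  rfl

theorem map_primW (N K : ℕ) (g : Prim) (j : ℕ) (t : Fin N) :
    (primW g (zw N K j) (qw N K t) (yw N K) (rw' N K)).map nm =
      primN (primIdx g) (zN N K j) t (N + 2) N := by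
  cases g <;> rfl

theorem map_gword (N K : ℕ) (G : Gate N 0) (hG : IsCtrlGate G) :
    (gword N K G).map nm = gwordN N K (gdat G) := by
  rcases G with ⟨g, cs, t⟩ | ⟨q, t⟩
  · simp only [gword, gateW, List.map_append, List.map_reverse, map_preW, map_primW, gwordN, gdat,
      List.length_map]
  · exact absurd hG (fun h => h)

theorem wordN_eq (V : VCirc) (hV : ∀ g ∈ V.gates, IsCtrlGate g) :
    wordN V = wordNN V.N (VK V) (V.gates.map gdat) := by
  have h : ∀ gs : List (Gate V.N 0), (∀ g ∈ gs, IsCtrlGate g) →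
      (gs.flatMap (gword V.N (VK V))).map nm = (gs.map gdat).flatMap (gwordN V.N (VK V)) := by
    intro gs
    induction gs with
    | nil => intro _; rfl
    | cons g gs ih =>
      intro h
      simp only [List.flatMap_cons, List.map_append, List.map_cons]
      rw [map_gword _ _ g (h g (by simp)), ih (fun g' h' => h g' (by simp [h']))]
  show (word V).map nm = _
  simp only [word, List.map_cons, List.map_append, List.map_nil, wordNN]
  rw [h V.gates hV]
  rfl

theorem VK_eq (V : VCirc) : VK V = ((V.gates.map gdat).flatMap fun g => g.2.1).length := by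
  unfold VK
  generalize V.gates = gs
  induction gs with
  | nil => rfl
  | cons g gs ih =>
    simp only [List.map_cons, List.sum_cons, ih, List.flatMap_cons, List.length_append]
    congr 1
    rcases g with ⟨g, cs, t⟩ | ⟨q, t⟩
    · simp [ctrlLen, gdat]
    · simp [ctrlLen, gdat]

/-! ### poly-time -/

section ptf

variable {γ : Type} [PTCode γ]

theorem ptf_zN {N K j : γ → ℕ} (hN : PTF N) (hK : PTF K) (hj : PTF j) :
    PTF (fun c => zN (N c) (K c) (j c)) := by
  unfold zN; fun_prop

theorem ptf_andN {a b c : γ → ℕ} (ha : PTF a) (hb : PTF b) (hc : PTF c) :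
    PTF (fun x => andN (a x) (b x) (c x)) := by
  unfold andN; fun_prop

theorem ptf_phN (k : ℕ) {y r : γ → ℕ} (hy : PTF y) (hr : PTF r) :
    PTF (fun x => phN k (y x) (r x)) := by
  unfold phN; fun_prop

theorem ptf_phN' (k : ℕ) {y r : γ → ℕ} (hy : PTF y) (hr : PTF r) :
    PTF (fun x => phN' k (y x) (r x)) := by
  unfold phN'; fun_prop

theorem ptf_primN {g c t y r : γ → ℕ} (hg : PTF g) (hc : PTF c) (ht : PTF t) (hy : PTF y)
    (hr : PTF r) : PTF (fun x => primN (g x) (c x) (t x) (y x) (r x)) := by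
  have h1 := ptf_andN hc ht hy
  have hp := fun k => ptf_phN k hy hr
  have hp' := fun k => ptf_phN' k hy hr
  have e : ∀ n : ℕ, PTPred (fun x => g x = n) := fun n => PTPred.natEq hg (PTF.const n)
  unfold primN
  refine PTF.ite (e 0) (by fun_prop) (PTF.ite (e 1) (by fun_prop) (PTF.ite (e 2) ?_ (PTF.ite (e 3) ?_
    (PTF.ite (e 4) ?_ ?_))))
  · exact PTF.append (PTF.append h1 (hp 1)) h1
  · exact PTF.append (PTF.append h1 (hp' 1)) h1
  · exact PTF.append (PTF.append h1 (hp 0)) h1
  · exact PTF.append (PTF.append h1 (hp' 0)) h1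

theorem ptf_chainN {N K : γ → ℕ} {cs : γ → List ℕ} (hN : PTF N) (hK : PTF K) (hcs : PTF cs) :
    PTF (fun c => chainN (N c) (K c) (cs c)) := by
  unfold chainN
  refine PTF.flatMap (f := fun c (p : ℕ × ℕ) => andN (zN (N c) (K c) p.1) p.2 (zN (N c) (K c) (p.1 + 1)))
    (PTF.zip (PTF.range (PTU.length hcs)) hcs) ?_
  have h1 : PTF (fun q : γ × ℕ × ℕ => N q.1) := PTF.comp hN PTF.fst
  have h2 : PTF (fun q : γ × ℕ × ℕ => K q.1) := PTF.comp hK PTF.fst
  exact ptf_andN (ptf_zN h1 h2 (by fun_prop)) (by fun_prop) (ptf_zN h1 h2 (by fun_prop))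

theorem ptf_preN {N K : γ → ℕ} {cs : γ → List ℕ} (hN : PTF N) (hK : PTF K) (hcs : PTF cs) :
    PTF (fun c => preN (N c) (K c) (cs c)) := by
  have h1 := ptf_chainN hN hK hcs
  have h2 := ptf_zN hN hK (PTF.const 0)
  unfold preN
  fun_prop

theorem ptf_gwordN {N K : γ → ℕ} {g : γ → GD} (hN : PTF N) (hK : PTF K) (hg : PTF g) :
    PTF (fun c => gwordN (N c) (K c) (g c)) := by
  have h1 : PTF (fun c => (g c).2.1) := by fun_prop
  have h2 := ptf_preN hN hK h1
  have h3 : PTF (fun c => (g c).2.1.length) := (PTU.length h1).toPTF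
  have h4 : PTF (fun c => primN (g c).1 (zN (N c) (K c) (g c).2.1.length) (g c).2.2 (N c + 2) (N c)) :=
    ptf_primN (by fun_prop) (ptf_zN hN hK h3) (by fun_prop) (by fun_prop) hN
  unfold gwordN
  exact PTF.append (PTF.append h2 h4) (PTF.reverse h2)

theorem ptf_wordNN {N K : γ → ℕ} {gs : γ → List GD} (hN : PTF N) (hK : PTF K) (hg : PTF gs) :
    PTF (fun c => wordNN (N c) (K c) (gs c)) := by
  have h1 : PTF (fun c => (gs c).flatMap (gwordN (N c) (K c))) :=
    PTF.flatMap (f := fun c g => gwordN (N c) (K c) g) hg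
      (ptf_gwordN (PTF.comp hN PTF.fst) (PTF.comp hK PTF.fst) PTF.snd)
  unfold wordNN
  fun_prop

theorem ptf_conNat {N w K : γ → ℕ} (hN : PTU N) (hw : PTF w) (hK : PTU K) :
    PTF (fun c => conNat (N c) (w c) (K c)) := by
  unfold conNat
  refine PTF.filter (l := fun c => List.range (N c + K c + 4))
    (p := fun c a => decide ((w c ≤ a ∧ a < N c) ∨ N c + 2 ≤ a))
    (PTF.range (by fun_prop)) ?_
  have h1 : PTF (fun q : γ × ℕ => N q.1) := PTF.comp hN.toPTF PTF.fst
  have h2 : PTF (fun q : γ × ℕ => w q.1) := PTF.comp hw PTF.fst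
  have : PTPred (fun q : γ × ℕ => (w q.1 ≤ q.2 ∧ q.2 < N q.1) ∨ N q.1 + 2 ≤ q.2) := by
    refine PTPred.or (PTPred.and (PTPred.natLe h2 PTF.snd) (PTPred.natLt PTF.snd h1))
      (PTPred.natLe (PTF.natAdd h1 (PTF.const 2)) PTF.snd)
  exact this.toPTF

end ptf

theorem ptSpec' (V : List Bool → VCirc) (hV : ∀ x, (V x).WellFormed)
    (gen : List Bool → List Bool) (hgen : Crest.Complexity.PolyTime gen)
    (h : ∀ x, gen x = vcode (V x))
    (hp : ∃ p : Polynomial ℕ, ∀ x, (V x).N + (V x).gates.length ≤ p.eval x.length) :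
    PTF (fun x : Bits => (Un.mk (VM (V x.val)), wordN (V x.val), conN (V x.val),
      ((outW (V x.val) : ℕ), (dumW (V x.val) : ℕ)))) := by
  have hd : PTF (fun x : Bits => vdat (V x.val)) := ptf_vdat V (fun x => (hV x).2) gen hgen h
  have hN : PTF (fun x : Bits => (V x.val).N) := PTF.comp (g := fun d : VD => d.1) (by fun_prop) hd
  have hw : PTF (fun x : Bits => (V x.val).w) := PTF.comp (g := fun d : VD => d.2.1) (by fun_prop) hd
  have hgs : PTF (fun x : Bits => (V x.val).gates.map gdat) :=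
    PTF.comp (g := fun d : VD => d.2.2.1) (by fun_prop) hd
  have ho : PTF (fun x : Bits => ((V x.val).out : ℕ)) :=
    PTF.comp (g := fun d : VD => d.2.2.2) (by fun_prop) hd
  have hNU : PTU (fun x : Bits => (V x.val).N) := by
    refine PTF.toPTU hN ?_
    obtain ⟨p, hp⟩ := hp
    refine ⟨p, fun x => ?_⟩
    have := hp x.val
    have h2 : sz x = x.val.length := rfl
    rw [h2]
    show (V x.val).N ≤ _
    omega
  have hKU : PTU (fun x : Bits => VK (V x.val)) := by
    refine PTU.of_eq (PTU.length (PTF.flatMap (f := fun (_ : Bits) (g : GD) => g.2.1) hgs ?_))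
      (fun x => (VK_eq _).symm)
    pt_prop
  have h1 : PTF (fun x : Bits => Un.mk (VM (V x.val))) := by
    have : PTU (fun x : Bits => (V x.val).N + VK (V x.val) + 4) := by fun_prop
    exact this
  have h2 : PTF (fun x : Bits => wordN (V x.val)) :=
    PTF.of_eq (ptf_wordNN hN hKU.toPTF hgs) (fun x => (wordN_eq _ (hV x.val).2).symm)
  have h3 : PTF (fun x : Bits => conN (V x.val)) := ptf_conNat hNU hw hKU
  have h4 : PTF (fun x : Bits => (dumW (V x.val) : ℕ)) := by
    have : PTF (fun x : Bits => (V x.val).N + 1) := by fun_prop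
    exact this
  exact PTF.prodMk h1 (PTF.prodMk h2 (PTF.prodMk h3 (PTF.prodMk ho h4)))

theorem ptSpec : PTSpec := ptSpec'

/-! ### shape of the word -/

theorem andW_avoids {W : Type} {a b c d : W} (ha : a ≠ d) (hb : b ≠ d) (hc : c ≠ d) :
    ∀ g ∈ andW a b c, g.Avoids d := by
  intro g hg
  simp only [andW, List.mem_cons, List.not_mem_nil, or_false] at hg
  rcases hg with h | h | h | h | h | h | h <;> subst h <;> simp [EG.Avoids, ha, hb, hc]

theorem chain_avoids {N K : ℕ} (cs : List (Fin N)) (j : ℕ) :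
    ∀ g ∈ chainW (zw N K) j (cs.map (qw N K)), g.Avoids (dw N K) := by
  induction cs generalizing j with
  | nil => intro g hg; simp [chainW] at hg
  | cons c cs ih =>
    intro g hg
    simp only [List.map_cons, chainW, List.mem_append] at hg
    rcases hg with hg | hg
    · exact andW_avoids (zw_ne_dw _) (dw_ne_qw _).symm (zw_ne_dw _) g hg
    · exact ih (j + 1) g hg

theorem pre_avoids {N K : ℕ} (cs : List (Fin N)) :
    ∀ g ∈ preW (zw N K) (cs.map (qw N K)), g.Avoids (dw N K) := by
  intro g hg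
  simp only [preW, List.mem_cons] at hg
  rcases hg with hg | hg
  · subst hg; exact zw_ne_dw _
  · exact chain_avoids cs 0 g hg

theorem phW_avoids {W : Type} (k : Fin 3) {y r d : W} (hy : y ≠ d) (hr : r ≠ d) :
    ∀ g ∈ phW k y r, g.Avoids d := by
  intro g hg
  simp only [phW, List.mem_cons, List.not_mem_nil, or_false] at hg
  rcases hg with h' | h' | h' | h' <;> subst h' <;> simp [EG.Avoids, hy, hr]

theorem primW_avoids {N K : ℕ} (g : Prim) (j : ℕ) (t : Fin N) :
    ∀ e ∈ primW g (zw N K j) (qw N K t) (yw N K) (rw' N K), e.Avoids (dw N K) := by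
  intro e he
  have hq : qw N K t ≠ dw N K := (dw_ne_qw t).symm
  have hz : zw N K j ≠ dw N K := zw_ne_dw j
  have hA := andW_avoids (W := Fin (N + K + 4)) hz hq (yw_ne_dw (N := N) (K := K))
  have hP := fun k => phW_avoids (W := Fin (N + K + 4)) k (yw_ne_dw (N := N) (K := K))
    (rw_ne_dw (N := N) (K := K))
  rcases g <;> simp only [primW, List.mem_append, List.mem_cons, List.not_mem_nil, or_false,
    List.mem_reverse] at he
  · rcases he with h | h | h <;> subst h <;> simp [EG.Avoids, hq, hz]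
  · rcases he with h | h | h <;> subst h <;> simp [EG.Avoids, hq, hz]
  all_goals
    rcases he with (h | h) | h
    · exact hA _ h
    · exact hP _ _ h
    · exact hA _ h

theorem gword_avoids {N K : ℕ} (G : Gate N 0) : ∀ g ∈ gword N K G, g.Avoids (dw N K) := by
  rcases G with ⟨g, cs, t⟩ | ⟨q, t⟩
  · intro e he
    simp only [gword, gateW, List.mem_append, List.mem_reverse] at he
    rcases he with (he | he) | he
    · exact pre_avoids cs e he
    · exact primW_avoids g _ t e he
    · exact pre_avoids cs e he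
  · intro e he; simp [gword] at he

/-- the word starts and ends with the flip of the dummy wire and avoids it in between -/
theorem word_shape (V : VCirc) : ∃ inner : List (EG (Fin (VM V))),
    word V = EG.rot 2 (dumW V) :: (inner ++ [EG.rot 2 (dumW V)]) ∧
    ∀ g ∈ inner, g.Avoids (dumW V) := by
  refine ⟨V.gates.flatMap (gword V.N (VK V)), rfl, ?_⟩
  intro g hg
  obtain ⟨G, _, h⟩ := List.mem_flatMap.1 hg
  exact gword_avoids G g h

theorem two_le_length_word (V : VCirc) : 2 ≤ (word V).length := by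
  obtain ⟨inner, h, _⟩ := word_shape V
  rw [h]
  simp

theorem dumW_ne_outW (V : VCirc) : dumW V ≠ outW V := dw_ne_qw _

theorem not_isCon_dumW (V : VCirc) : ¬ IsCon V (dumW V) := by
  unfold IsCon dumW dw
  simp

/-- the numerical list of constrained wires is the set of constrained wires -/
theorem mem_conN (V : VCirc) (a : ℕ) :
    a ∈ conN V ↔ ∃ h : a < VM V, IsCon V ⟨a, h⟩ := by
  simp only [conN, conNat, List.mem_filter, List.mem_range, decide_eq_true_eq, IsCon]
  constructor
  · rintro ⟨h1, h2⟩; exact ⟨h1, h2⟩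
  · rintro ⟨h1, h2⟩; exact ⟨h1, h2⟩

theorem nodup_conN (V : VCirc) : (conN V).Nodup := (List.nodup_range).filter _

end Crest.Agent.R338.RC
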