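import Crest.Agent.R338.PTab3
import Crest.Agent.R338.ClockOp
import Crest.Agent.R338.RCMain
import Crest.Agent.R338.RCPT

/-!
# Row 338: composition I.1 + I.2 + I.3: verifier circuit to XZ instance (exact real arrays)
(helper896)
-/

set_option autoImplicit false
set_option linter.unusedSectionVars false
set_option linter.unusedSimpArgs false

namespace Crest.Agent.R338.PTab

open Crest.Agent.R338 RC Crest.Quantum.QMA

/-! ### parameters -/

/-- `J_prop = 128 T` -/
def JpN (T : ℕ) : ℕ := 128 * T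
/-- `J_clk = 2^19 T^5` -/
def JkN (T : ℕ) : ℕ := 524288 * T ^ 5
/-- form bound of `H_K` -/
def LamN (M T : ℕ) : ℕ := 1 + 64 * M + 128 * T + 524288 * T ^ 5 * T ^ 2 + 64 * T * T
/-- the mediator scale -/
def delN (M T : ℕ) : ℕ :=
  32 * LamN M T + 2 * T * (T + 1) * (128 * T) ^ 2 + 1552 * T * (T + 1)

/-! ### form bound of `H_K` -/

section bound

variable {ι : Type} [DecidableEq ι] [Fintype ι]

theorem FB_mul_invol' {A B : Op ι} (hA : Sym A) (hB : Sym B) (hA2 : A * A = 1) (hB2 : B * B = 1)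
    (hc : Commute A B) : FB (A * B) 1 := by
  refine FB_invol (hA.mul hB hc) ?_
  rw [mul_assoc, ← mul_assoc B A B, ← hc.eq, mul_assoc A B B, hB2, mul_one, hA2]

theorem comm_gop_X {W : Type} (f : W → ι) (g : EG W) (x : ι) (hx : ∀ a, x ≠ f a) :
    Commute (gop f g) (X x) := by
  have hZ : ∀ a, Commute (Z (f a)) (X x) := fun a => (X_Z_comm (hx a)).symm
  cases g with
  | rot k a =>
    exact ((hZ a).smul_left _).add_left ((X_comm _ _).smul_left _)
  | cz a b =>
    exact ((((Commute.one_left _).add_left (hZ a)).add_left (hZ b)).sub_left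
      ((hZ a).mul_left (hZ b))).smul_left _

theorem rej_mem (d : CD) (x : Fin d.M → Bool) : 0 ≤ d.rej x ∧ d.rej x ≤ 1 := by
  unfold CD.rej; split_ifs <;> norm_num

theorem cnt_mem (d : CD) (x : Fin d.M → Bool) : 0 ≤ d.cnt x ∧ d.cnt x ≤ d.M := by
  unfold CD.cnt
  constructor
  · exact Finset.sum_nonneg fun a _ => by split_ifs <;> norm_num
  · calc (∑ a : Fin d.M, if d.con a = true then (if x a = true then (1 : ℝ) else 0) else 0)
        ≤ ∑ _a : Fin d.M, (1 : ℝ) := Finset.sum_le_sum fun a _ => by split_ifs <;> norm_num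
      _ = d.M := by simp

theorem viol_le {T : ℕ} (y : Fin T → Bool) : Clock.viol y ≤ (T : ℝ) ^ 2 := by
  unfold Clock.viol
  calc (∑ i : Fin T, ∑ j : Fin T,
        if (j : ℕ) = i + 1 ∧ y i = false ∧ y j = true then (1 : ℝ) else 0)
      ≤ ∑ _i : Fin T, ∑ _j : Fin T, (1 : ℝ) :=
        Finset.sum_le_sum fun i _ => Finset.sum_le_sum fun j _ => by split_ifs <;> norm_num
    _ = (T : ℝ) ^ 2 := by simp [sq]

theorem abs_hd_le (d : CD) {Jin Jp Jk : ℝ} (h1 : 0 ≤ Jin) (h2 : 0 ≤ Jp) (h3 : 0 ≤ Jk)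
    (first last : Fin d.T) (x : Fin d.M → Bool) (y : Fin d.T → Bool) :
    |hd d Jin Jp Jk first last x y| ≤ 1 + Jin * d.M + Jp + Jk * (d.T : ℝ) ^ 2 := by
  have a1 := rej_mem d x
  have a2 := cnt_mem d x
  have a3 := Clock.wt_nonneg first last y
  have a4 : Clock.wt first last y ≤ 1 := by unfold Clock.wt; split_ifs <;> norm_num
  have a5 := Clock.viol_nonneg y
  have a6 := viol_le y
  have b1 : 0 ≤ (if y last then d.rej x else 0) ∧ (if y last then d.rej x else 0) ≤ 1 := by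
    split_ifs
    · exact a1
    · norm_num
  have b2 : 0 ≤ (if y first then 0 else d.cnt x) ∧ (if y first then 0 else d.cnt x) ≤ d.M := by
    split_ifs
    · exact ⟨le_rfl, Nat.cast_nonneg _⟩
    · exact a2
  have c1 : 0 ≤ Jin * (if y first then 0 else d.cnt x) := mul_nonneg h1 b2.1
  have c2 : Jin * (if y first then 0 else d.cnt x) ≤ Jin * d.M := mul_le_mul_of_nonneg_left b2.2 h1
  have c3 : 0 ≤ Jp * Clock.wt first last y := mul_nonneg h2 a3
  have c4 : Jp * Clock.wt first last y ≤ Jp * 1 := mul_le_mul_of_nonneg_left a4 h2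
  have c5 : 0 ≤ Jk * Clock.viol y := mul_nonneg h3 a5
  have c6 : Jk * Clock.viol y ≤ Jk * (d.T : ℝ) ^ 2 := mul_le_mul_of_nonneg_left a6 h3
  unfold hd
  rw [abs_le]
  constructor
  · linarith [b1.1]
  · linarith [b1.2]

theorem FB_HK (d : CD) (hT : 1 ≤ d.T) {Jin Jp Jk : ℝ} (h1 : 0 ≤ Jin) (h2 : 0 ≤ Jp) (h3 : 0 ≤ Jk)
    (w : Fin d.M → ι) (c : Fin d.T → ι) (hwc : ∀ a t, c t ≠ w a) :
    FB (d.HK w c Jin Jp Jk) (1 + Jin * d.M + Jp + Jk * (d.T : ℝ) ^ 2 + Jp / 2 * d.T) := by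
  unfold CD.HK
  refine FB.sub ?_ ?_
  · intro ψ
    let first : Fin d.T := ⟨0, by omega⟩
    let last : Fin d.T := ⟨d.T - 1, by omega⟩
    have hf : (first : ℕ) = 0 := rfl
    have hl : (last : ℕ) + 1 = d.T := by change d.T - 1 + 1 = d.T; omega
    have e : E (d.Hdiag w c Jin Jp Jk) ψ =
        ∑ σ, hd d Jin Jp Jk first last (σ ∘ w) (σ ∘ c) * ψ σ ^ 2 := by
      unfold E
      simp only [dotProduct]
      refine Finset.sum_congr rfl fun σ _ => ?_
      rw [Hdiag_apply d w c Jin Jp Jk first last hf hl]; ring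
    rw [e, nsq_eq_sum, Finset.mul_sum]
    refine (Finset.abs_sum_le_sum_abs _ _).trans (Finset.sum_le_sum fun σ _ => ?_)
    rw [abs_mul, abs_of_nonneg (sq_nonneg (ψ σ))]
    exact mul_le_mul_of_nonneg_right (abs_hd_le d h1 h2 h3 first last _ _) (sq_nonneg _)
  · have h := FB.smul (Jp / 2) (FB.sum (s := Finset.univ) (A := fun t : Fin d.T =>
      gop w (d.g t) * X (c t)) (a := fun _ => (1 : ℝ)) (fun t _ =>
        FB_mul_invol' (gop_sym w (d.g t)) (sym_X (c t)) (gop_mul_self w (d.g t)) (X_mul_self (c t))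
          (comm_gop_X w (d.g t) (c t) (fun a => hwc a t))))
    refine h.mono ?_
    rw [abs_of_nonneg (by linarith)]
    simp

end bound

/-! ### the reindexed form -/

section reindex

variable (d : CD) (Jin Jp Jk δ : ℝ)

/-- the XZ operator of `d` -/
noncomputable def CD.xz : Op (Fin (d.M + d.T + d.T)) :=
  XZop (d.nd.fx Jp δ) (d.nd.fz Jin Jp Jk δ) d.nd.ax d.nd.az (d.nd.bx Jp δ) (d.nd.bz Jin Jp Jk δ)

theorem E_xz (hd : d.Ok) (Ψ : Q ((Fin d.M ⊕ Fin d.T) ⊕ Fin d.T)) :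
    E (d.xz Jin Jp Jk δ) (reQ (lay d.M d.T) Ψ) =
      E (Med.H2 (d.HL Sum.inl Sum.inr Jin Jp Jk) d.term (d.cc Jp) δ) Ψ
        - d.nd.c0 Jin Jp Jk δ * R338.nsq Ψ := by
  have h1 := E_reA (lay d.M d.T)
    (Med.H2 (d.HL Sum.inl Sum.inr Jin Jp Jk) d.term (d.cc Jp) δ) Ψ
  rw [CD.H2_eq, H2_emb (reA_emb (lay d.M d.T))] at h1
  have e1 : (⇑(lay d.M d.T) ∘ Sum.inl ∘ Sum.inl : Fin d.M → _) = iw d.M d.T := rfl
  have e2 : (⇑(lay d.M d.T) ∘ Sum.inl ∘ Sum.inr : Fin d.T → _) = ic d.M d.T := rfl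
  have e3 : (⇑(lay d.M d.T) ∘ Sum.inr : Fin d.T → _) = im d.M d.T := rfl
  rw [e1, e2, e3, H2_eq_XZ d Jin Jp Jk δ hd, E_add, E_smul, E_one, nsq_reQ] at h1
  rw [CD.H2_eq, ← h1]
  unfold CD.xz
  ring

/-- YES side of the mediator step, reindexed -/
theorem xz_upper (hd : d.Ok) {Jin Jp Jk δ Λ e : ℝ} (hδ : 0 < δ) (hJp : 0 ≤ Jp) (hJδ : Jp / 4 ≤ δ)
    (hΛ : FB (d.HK Sum.inl Sum.inr Jin Jp Jk) Λ) {ψ : Q (Fin d.M ⊕ Fin d.T)}
    (hψ : R338.nsq ψ = 1) (h : E (d.HK Sum.inl Sum.inr Jin Jp Jk) ψ ≤ e) :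
    ∃ φ : Q (Fin (d.M + d.T + d.T)), R338.nsq φ = 1 ∧
      E (d.xz Jin Jp Jk δ) φ ≤
        e + d.T * (32 * Λ / δ ^ 2 + 96 / δ) - d.nd.c0 Jin Jp Jk δ := by
  rw [CD.HK_eq_H3] at hΛ h
  have hc0 : ∀ t, 0 ≤ d.cc Jp t := fun t => by
    unfold CD.cc; split_ifs
    · linarith
    · exact le_rfl
  have hcδ : ∀ t, d.cc Jp t ≤ δ := fun t => by
    unfold CD.cc; split_ifs
    · exact hJδ
    · exact hδ.le
  have hk : ∀ s t, (d.term s).k ≠ (d.term t).a ∧ (d.term s).k ≠ (d.term t).b := by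
    intro s t
    unfold CD.term
    cases d.g s <;> cases d.g t <;> simp
  obtain ⟨Ψ, h1, h2⟩ := Med.med_upper hδ hc0 hcδ hk hΛ hψ h
  refine ⟨reQ (lay d.M d.T) Ψ, by rw [nsq_reQ, h1], ?_⟩
  rw [E_xz d Jin Jp Jk δ hd, h1, mul_one]
  rw [Fintype.card_fin] at h2
  linarith

/-- NO side of the mediator step, reindexed -/
theorem xz_lower (hd : d.Ok) {Jin Jp Jk δ μ : ℝ} (hδ : 0 < δ) (hJp : 0 ≤ Jp) (hJδ : Jp / 4 ≤ δ)
    (h : ∀ ψ, μ * R338.nsq ψ ≤ E (d.HK Sum.inl Sum.inr Jin Jp Jk) ψ)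
    (φ : Q (Fin (d.M + d.T + d.T))) :
    (μ - d.T * Jp ^ 2 / (8 * δ) - d.nd.c0 Jin Jp Jk δ) * R338.nsq φ ≤ E (d.xz Jin Jp Jk δ) φ := by
  rw [CD.HK_eq_H3] at h
  have hc0 : ∀ t, 0 ≤ d.cc Jp t := fun t => by
    unfold CD.cc; split_ifs
    · linarith
    · exact le_rfl
  have hcδ : ∀ t, d.cc Jp t ≤ δ := fun t => by
    unfold CD.cc; split_ifs
    · exact hJδ
    · exact hδ.le
  obtain ⟨Ψ, rfl⟩ := (reQ (lay d.M d.T)).surjective φ
  have h2 := Med.med_lower hδ hc0 hcδ h Ψ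
  rw [E_xz d Jin Jp Jk δ hd, nsq_reQ]
  have h3 : ∑ t, d.cc Jp t ^ 2 ≤ d.T * (Jp / 4) ^ 2 := by
    calc ∑ t, d.cc Jp t ^ 2 ≤ ∑ _t : Fin d.T, (Jp / 4) ^ 2 := Finset.sum_le_sum fun t _ => by
          unfold CD.cc; split_ifs
          · exact le_rfl
          · rw [zero_pow two_ne_zero]; positivity
      _ = d.T * (Jp / 4) ^ 2 := by simp
  have h4 : 2 * (∑ t, d.cc Jp t ^ 2) / δ ≤ d.T * Jp ^ 2 / (8 * δ) := by
    have : d.T * Jp ^ 2 / (8 * δ) = 2 * (d.T * (Jp / 4) ^ 2) / δ := by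
      field_simp; ring
    rw [this]
    gcongr
  have h5 : (2 * (∑ t, d.cc Jp t ^ 2) / δ) * R338.nsq Ψ ≤
      (d.T * Jp ^ 2 / (8 * δ)) * R338.nsq Ψ :=
    mul_le_mul_of_nonneg_right h4 (nsq_nonneg Ψ)
  linarith

end reindex

/-! ### the clock data of a verifier -/

/-- clock data of a verifier -/
def cdV (V : VCirc) : CD where
  M := VM V
  T := (word V).length
  g t := (word V).get t
  con a := decide (IsCon V a)
  out := outW V
  D := dumW V

theorem get_first' {α : Type} {l inner : List α} {x : α} (h : l = x :: (inner ++ [x])) (i : ℕ)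
    (hi : i < l.length) (h0 : i = 0) : l.get ⟨i, hi⟩ = x := by
  subst h; subst h0; rfl

theorem get_last' {α : Type} {l inner : List α} {x : α} (h : l = x :: (inner ++ [x])) (i : ℕ)
    (hi : i < l.length) (h0 : i + 1 = l.length) : l.get ⟨i, hi⟩ = x := by
  subst h
  have ht : i = inner.length + 1 := by simp at h0; omega
  subst ht
  simp

theorem cdV_ok (V : VCirc) : (cdV V).Ok where
  hT := two_le_length_word V
  wf t := word_WF V _ (List.get_mem _ _)
  first t ht := by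
    obtain ⟨inner, h, _⟩ := word_shape V
    exact get_first' h t t.2 ht
  last t ht := by
    obtain ⟨inner, h, _⟩ := word_shape V
    exact get_last' h t t.2 ht
  conD := by
    change decide (IsCon V (dumW V)) = false
    exact decide_eq_false (not_isCon_dumW V)
  outD := (dumW_ne_outW V).symm

/-- numerical data of a verifier -/
def ndV (V : VCirc) : ND where
  M := VM V
  T := (wordN V).length
  kd t := ((wordN V).getD t (0, 0, 0)).1
  ga t := ((wordN V).getD t (0, 0, 0)).2.1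
  gb t := ((wordN V).getD t (0, 0, 0)).2.2
  con a := decide (a ∈ conN V)
  nc := (conN V).length
  out := outW V

theorem length_wordN (V : VCirc) : (wordN V).length = (word V).length := by
  unfold wordN; simp

theorem wordN_getD (V : VCirc) (t : ℕ) : (wordN V).getD t (0, 0, 0) =
    if h : t < (word V).length then gnum ((word V).get ⟨t, h⟩) else (0, 0, 0) := by
  by_cases h : t < (word V).length
  · rw [dif_pos h, List.getD_eq_getElem _ _ (by rw [length_wordN]; exact h)]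
    unfold wordN gnum
    simp
  · rw [dif_neg h, List.getD_eq_default]
    rw [length_wordN]; omega

theorem nd_eq (V : VCirc) : (cdV V).nd = ndV V := by
  have h1 : (fun t => if h : t < (cdV V).T then (gnum ((cdV V).g ⟨t, h⟩)).1 else 0) =
      fun t => ((wordN V).getD t (0, 0, 0)).1 := by
    funext t
    rw [wordN_getD]
    by_cases h : t < (word V).length
    · rw [dif_pos h, dif_pos (show t < (cdV V).T from h)]; rfl
    · rw [dif_neg h, dif_neg (show ¬ t < (cdV V).T from h)]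
  have h2 : (fun t => if h : t < (cdV V).T then (gnum ((cdV V).g ⟨t, h⟩)).2.1 else 0) =
      fun t => ((wordN V).getD t (0, 0, 0)).2.1 := by
    funext t
    rw [wordN_getD]
    by_cases h : t < (word V).length
    · rw [dif_pos h, dif_pos (show t < (cdV V).T from h)]; rfl
    · rw [dif_neg h, dif_neg (show ¬ t < (cdV V).T from h)]
  have h3 : (fun t => if h : t < (cdV V).T then (gnum ((cdV V).g ⟨t, h⟩)).2.2 else 0) =
      fun t => ((wordN V).getD t (0, 0, 0)).2.2 := by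
    funext t
    rw [wordN_getD]
    by_cases h : t < (word V).length
    · rw [dif_pos h, dif_pos (show t < (cdV V).T from h)]; rfl
    · rw [dif_neg h, dif_neg (show ¬ t < (cdV V).T from h)]
  have h4 : (fun a => if h : a < (cdV V).M then (cdV V).con ⟨a, h⟩ else false) =
      fun a => decide (a ∈ conN V) := by
    funext a
    by_cases h : a < VM V
    · rw [dif_pos (show a < (cdV V).M from h)]
      change decide (IsCon V ⟨a, h⟩) = _
      rw [decide_eq_decide, mem_conN]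
      exact ⟨fun h' => ⟨h, h'⟩, fun ⟨_, h'⟩ => h'⟩
    · rw [dif_neg (show ¬ a < (cdV V).M from h)]
      symm
      rw [decide_eq_false_iff_not, mem_conN]
      rintro ⟨h', _⟩
      exact h h'
  have h5 : (Finset.univ.filter fun a => (cdV V).con a = true).card = (conN V).length := by
    rw [← List.toFinset_card_of_nodup (nodup_conN V)]
    refine Finset.card_bij (fun a _ => (a : ℕ)) ?_ ?_ ?_
    · intro a ha
      rw [List.mem_toFinset, mem_conN]
      refine ⟨a.2, ?_⟩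
      have := (Finset.mem_filter.1 ha).2
      exact of_decide_eq_true this
    · intro a _ b _ h
      exact Fin.ext h
    · intro b hb
      rw [List.mem_toFinset, mem_conN] at hb
      obtain ⟨h, h'⟩ := hb
      have h'' : decide (IsCon V (⟨b, h⟩ : Fin (VM V))) = true := decide_eq_true h'
      exact ⟨⟨b, h⟩, Finset.mem_filter.2 ⟨Finset.mem_univ _, h''⟩, rfl⟩
  have h6 : (cdV V).T = (wordN V).length := (length_wordN V).symm
  unfold CD.nd ndV
  rw [h1, h2, h3, h4, h5, h6]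
  rfl

end Crest.Agent.R338.PTab
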