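import Crest.Agent.R338.I123

/-!
# Row 338: composition I.1 + I.2 + I.3: the theorem, and bounds of the arrays (helper896)
-/

set_option autoImplicit false
set_option linter.unusedSectionVars false
set_option linter.unusedSimpArgs false

namespace Crest.Agent.R338.PTab

open Crest.Agent.R338 RC Crest.Quantum.QMA Crest.Quantum.GateCircuit

/-! ### `H_K` in the form of `ClockOp` -/

theorem gop_eq_gOp {W : Type} [DecidableEq W] (g : EG W) : gop id g = (CK.gOp id g : Op W) := by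
  cases g <;> rfl

/-- the constrained wires -/
def conS (V : VCirc) : Finset (Fin (VM V)) := Finset.univ.filter fun a => IsCon V a

theorem cnt_eq_aux (V : VCirc) (w : Fin (VM V) → Bool) :
    (∑ a : Fin (VM V), if decide (IsCon V a) = true then (if w a = true then (1 : ℝ) else 0) else 0)
      = ∑ a ∈ conS V, if w a = true then (1 : ℝ) else 0 := by
  unfold conS
  rw [Finset.sum_filter]
  refine Finset.sum_congr rfl fun a _ => ?_
  by_cases h : IsCon V a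
  · rw [if_pos h, if_pos (decide_eq_true h)]
  · rw [if_neg h, if_neg (by rw [decide_eq_false h]; decide)]

theorem cnt_eq (V : VCirc) : (cdV V).cnt = CK.cntF (conS V) := by
  funext w
  exact cnt_eq_aux V w

theorem E_HK_CK (V : VCirc) (Jin Jp Jk : ℝ) (first last : Fin (word V).length)
    (hf : (first : ℕ) = 0) (hl : (last : ℕ) + 1 = (word V).length)
    (ψ : Q (Fin (VM V) ⊕ Fin (word V).length)) :
    E ((cdV V).HK Sum.inl Sum.inr Jin Jp Jk) ψ =
      E (CK.HKop (CK.gfam (word V)) first last (outW V) (conS V) Jin Jp Jk) ψ := by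
  rw [E_HK_eq (cdV V) Jin Jp Jk first last hf hl ψ, CK.E_HKop]
  have h1 : (cdV V).rej = CK.rejF (outW V) := rfl
  have h3 : (cdV V).U = fun t => (CK.gOp id (CK.gfam (word V) t) : Op (Fin (VM V))) := by
    funext t
    exact gop_eq_gOp _
  rw [h1, cnt_eq, h3]
  rfl

/-! ### the XZ instance of a verifier -/

/-- number of sites -/
def nV (V : VCirc) : ℕ := VM V + (word V).length + (word V).length

/-- `J_prop` -/
def JpV (V : VCirc) : ℕ := JpN (word V).length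
/-- `J_clk` -/
def JkV (V : VCirc) : ℕ := JkN (word V).length
/-- mediator scale -/
def delV (V : VCirc) : ℕ := delN (VM V) (word V).length

/-- arrays -/
noncomputable def fxV (V : VCirc) : ℕ → ℝ := (ndV V).fx (JpV V) (delV V)
/-- arrays -/
noncomputable def fzV (V : VCirc) : ℕ → ℝ := (ndV V).fz 64 (JpV V) (JkV V) (delV V)
/-- arrays -/
noncomputable def axV (V : VCirc) : ℕ → ℕ → ℝ := (ndV V).ax
/-- arrays -/
noncomputable def azV (V : VCirc) : ℕ → ℕ → ℝ := (ndV V).az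
/-- arrays -/
noncomputable def bxV (V : VCirc) : ℕ → ℕ → ℝ := (ndV V).bx (JpV V) (delV V)
/-- arrays -/
noncomputable def bzV (V : VCirc) : ℕ → ℕ → ℝ := (ndV V).bz 64 (JpV V) (JkV V) (delV V)
/-- the constant -/
noncomputable def c0V (V : VCirc) : ℝ := (ndV V).c0 64 (JpV V) (JkV V) (delV V)

/-- the XZ operator of a verifier -/
noncomputable def opV (V : VCirc) : Op (Fin (nV V)) :=
  XZop (fxV V) (fzV V) (axV V) (azV V) (bxV V) (bzV V)

/-- threshold -/
noncomputable def loV (V : VCirc) : ℝ := 19 / 48 / (((word V).length : ℝ) + 1) - c0V V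

theorem opV_eq (V : VCirc) : (cdV V).xz 64 (JpV V) (JkV V) (delV V) = opV V := by
  unfold CD.xz opV fxV fzV axV azV bxV bzV
  rw [nd_eq]
  rfl

theorem num_le {M T : ℕ} (hT : 1 ≤ T) :
    (0 : ℝ) < delN M T ∧ (0 : ℝ) ≤ LamN M T ∧ (JpN T : ℝ) / 4 ≤ delN M T ∧
      (T : ℝ) * (32 * LamN M T / (delN M T : ℝ) ^ 2 + 96 / delN M T) ≤ 1 / 16 / ((T : ℝ) + 1) ∧
      (T : ℝ) * (JpN T : ℝ) ^ 2 / (8 * delN M T) ≤ 1 / 16 / ((T : ℝ) + 1) := by
  have hT1 : (1 : ℝ) ≤ T := by exact_mod_cast hT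
  have hJp : ((JpN T : ℕ) : ℝ) = 128 * T := by unfold JpN; push_cast; ring
  have hδ : ((delN M T : ℕ) : ℝ) = 32 * LamN M T + 2 * T * (T + 1) * (128 * (T : ℝ)) ^ 2
      + 1552 * T * (T + 1) := by unfold delN; push_cast; ring
  have hΛ0 : (0 : ℝ) ≤ LamN M T := Nat.cast_nonneg _
  generalize ((LamN M T : ℕ) : ℝ) = Λ at *
  generalize ((delN M T : ℕ) : ℝ) = δ at *
  have h1 : 0 ≤ 2 * (T : ℝ) * (T + 1) * (128 * (T : ℝ)) ^ 2 := by positivity
  have h2 : 3104 ≤ 1552 * (T : ℝ) * (T + 1) := by nlinarith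
  have hδ0 : 0 < δ := by linarith
  have hδ1 : 32 * Λ ≤ δ := by linarith
  have hδ2 : 1552 * (T : ℝ) * (T + 1) ≤ δ := by linarith
  have hδ3 : 2 * (T : ℝ) * (T + 1) * (128 * (T : ℝ)) ^ 2 ≤ δ := by linarith
  refine ⟨hδ0, hΛ0, ?_, ?_, ?_⟩
  · rw [hJp]; nlinarith
  · have a1 : 32 * Λ / δ ^ 2 ≤ 1 / δ := by
      rw [div_le_div_iff₀ (by positivity) hδ0]
      nlinarith
    have a2 : 32 * Λ / δ ^ 2 + 96 / δ ≤ 97 / δ := by
      have : (97 : ℝ) / δ = 1 / δ + 96 / δ := by ring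
      linarith
    have a3 : (T : ℝ) * (32 * Λ / δ ^ 2 + 96 / δ) ≤ T * (97 / δ) :=
      mul_le_mul_of_nonneg_left a2 (by linarith)
    refine a3.trans ?_
    rw [div_div, ← mul_div_assoc, div_le_div_iff₀ hδ0 (by positivity)]
    nlinarith
  · rw [hJp, div_div, div_le_div_iff₀ (by positivity) (by positivity)]
    nlinarith

/-- **YES side** of I.1 + I.2 + I.3 -/
theorem xz_yes (V : VCirc) (h : V.WellFormed)
    (hy : ∃ ψ : QVec V.w, IsWitness ψ ∧ 2 / 3 ≤ acceptProb V h.1 ψ) :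
    ∃ φ : Q (Fin (nV V)), R338.nsq φ = 1 ∧ E (opV V) φ ≤ loV V := by
  obtain ⟨χ, h1, h2, h3⟩ := yesSpec V h hy
  have hT := two_le_length_word V
  have hT1 : 1 ≤ (word V).length := by omega
  let first : Fin (word V).length := ⟨0, by omega⟩
  let last : Fin (word V).length := ⟨(word V).length - 1, by omega⟩
  have hf : (first : ℕ) = 0 := rfl
  have hl : (last : ℕ) + 1 = (word V).length := by
    change (word V).length - 1 + 1 = (word V).length; omega
  obtain ⟨ψ, g1, g2⟩ := CK.clock_yes (w := word V) (first := first) (last := last)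
    (out := outW V) (con := conS V) (Jin := 64)
    (Jprop := JpV V) (Jclk := JkV V) hf hl
    ⟨χ, h1, fun σ ⟨a, ha, hs⟩ => h2 σ ⟨a, (Finset.mem_filter.1 ha).2, hs⟩, h3⟩
  rw [← E_HK_CK V 64 (JpV V) (JkV V) first last hf hl ψ] at g2
  obtain ⟨n1, n2, n3, n4, n5⟩ := num_le (M := VM V) hT1
  have hΛ := FB_HK (cdV V) hT1 (Jin := 64) (Jp := JpV V) (Jk := JkV V) (by norm_num)
    (Nat.cast_nonneg _) (Nat.cast_nonneg _) (Sum.inl : Fin (VM V) → Fin (VM V) ⊕ Fin (word V).length)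
    (Sum.inr : Fin (word V).length → Fin (VM V) ⊕ Fin (word V).length) (fun a t => by simp)
  have hΛ' : FB ((cdV V).HK Sum.inl Sum.inr 64 (JpV V) (JkV V)) (LamN (VM V) (word V).length) := by
    refine hΛ.mono (le_of_eq ?_)
    have e1 : ((cdV V).M : ℝ) = VM V := rfl
    have e2 : ((cdV V).T : ℝ) = (word V).length := rfl
    rw [e1, e2]
    unfold JpV JkV JpN JkN LamN
    push_cast
    ring
  obtain ⟨φ, k1, k2⟩ := xz_upper (cdV V) (cdV_ok V) (Jin := 64) (Jp := JpV V) (Jk := JkV V)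
    (δ := delV V) n1 (Nat.cast_nonneg _) n3 hΛ' g1 g2
  rw [opV_eq] at k2
  refine ⟨φ, k1, k2.trans ?_⟩
  unfold loV c0V
  rw [nd_eq]
  have e2 : ((cdV V).T : ℝ) = (word V).length := rfl
  rw [e2]
  have e3 : ((word V).length : ℝ) * (32 * (LamN (VM V) (word V).length : ℝ) / (delV V : ℝ) ^ 2
      + 96 / (delV V : ℝ)) ≤ 1 / 16 / (((word V).length : ℝ) + 1) := n4
  have e4 : (1 : ℝ) / 3 / (((word V).length : ℝ) + 1) + 1 / 16 / (((word V).length : ℝ) + 1) =
      19 / 48 / (((word V).length : ℝ) + 1) := by ring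
  linarith

/-- **NO side** of I.1 + I.2 + I.3 -/
theorem xz_no (V : VCirc) (h : V.WellFormed)
    (hn : ∀ ψ : QVec V.w, IsWitness ψ → acceptProb V h.1 ψ ≤ 1 / 3) (φ : Q (Fin (nV V))) :
    (loV V + 1 / (8 * (((word V).length : ℝ) + 1))) * R338.nsq φ ≤ E (opV V) φ := by
  have h1 := noSpec V h hn
  have hT := two_le_length_word V
  have hT1 : 1 ≤ (word V).length := by omega
  let first : Fin (word V).length := ⟨0, by omega⟩
  let last : Fin (word V).length := ⟨(word V).length - 1, by omega⟩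
  have hf : (first : ℕ) = 0 := rfl
  have hl : (last : ℕ) + 1 = (word V).length := by
    change (word V).length - 1 + 1 = (word V).length; omega
  have hpar : CK.Params (word V).length 64 (JpV V) (JkV V) := by
    have := CK.params_std hT1
    unfold JpV JkV JpN JkN
    push_cast
    exact this
  have g := CK.clock_no (w := word V) (first := first) (last := last)
    (out := outW V) (con := conS V) (Jin := 64)
    (Jprop := JpV V) (Jclk := JkV V) hf hl hpar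
    (fun χ c1 c2 => h1 χ c1 (fun σ ⟨a, ha, hs⟩ =>
      c2 σ ⟨a, Finset.mem_filter.2 ⟨Finset.mem_univ _, ha⟩, hs⟩))
  obtain ⟨n1, n2, n3, n4, n5⟩ := num_le (M := VM V) hT1
  have g' : ∀ ψ, 7 / 12 / (((word V).length : ℝ) + 1) * R338.nsq ψ ≤
      E ((cdV V).HK Sum.inl Sum.inr 64 (JpV V) (JkV V)) ψ := by
    intro ψ
    exact (g ψ).trans (le_of_eq (E_HK_CK V 64 (JpV V) (JkV V) first last hf hl ψ).symm)
  have k := xz_lower (cdV V) (cdV_ok V) (Jin := 64) (Jp := JpV V) (Jk := JkV V)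
    (δ := delV V) n1 (Nat.cast_nonneg _) n3 g' φ
  rw [opV_eq] at k
  refine le_trans (mul_le_mul_of_nonneg_right ?_ (nsq_nonneg φ)) k
  unfold loV c0V
  rw [nd_eq]
  have e2 : ((cdV V).T : ℝ) = (word V).length := rfl
  rw [e2]
  have e3 : ((word V).length : ℝ) * (JpV V : ℝ) ^ 2 / (8 * (delV V : ℝ)) ≤
      1 / 16 / (((word V).length : ℝ) + 1) := n5
  have e4 : (19 : ℝ) / 48 / (((word V).length : ℝ) + 1) + 1 / (8 * (((word V).length : ℝ) + 1)) =
      7 / 12 / (((word V).length : ℝ) + 1) - 1 / 16 / (((word V).length : ℝ) + 1) := by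
    have : ((word V).length : ℝ) + 1 ≠ 0 := by positivity
    field_simp
    ring
  linarith

/-! ### bounds of the arrays -/

section bounds

variable (N : ND) {Jin Jp Jk δ : ℝ}

/-- common bound -/
noncomputable def ND.B (Jin Jp Jk δ : ℝ) : ℝ :=
  1 + Jin * (N.nc + 1) + Jp + Jk + δ ^ 3 + Jp * δ ^ 2 + 2 * δ ^ 2 + 2 * δ * N.T

theorem abs_fx_le (h1 : 0 ≤ Jin) (h2 : 0 ≤ Jp) (h3 : 0 ≤ Jk) (h4 : 0 ≤ δ) (p : ℕ) :
    |N.fx Jp δ p| ≤ N.B Jin Jp Jk δ := by
  have e1 : 0 ≤ Jin * ((N.nc : ℝ) + 1) := by positivity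
  have e2 : 0 ≤ δ ^ 3 := by positivity
  have e3 : 0 ≤ Jp * δ ^ 2 := by positivity
  have e4 : 0 ≤ δ ^ 2 := by positivity
  have e5 : 0 ≤ 2 * δ * (N.T : ℝ) := by positivity
  unfold ND.fx ND.B
  split_ifs
  · rw [abs_neg, abs_of_nonneg (by positivity)]; linarith
  · rw [abs_zero]; linarith

theorem abs_fz_le (h1 : 0 ≤ Jin) (h2 : 0 ≤ Jp) (h3 : 0 ≤ Jk) (h4 : 0 ≤ δ) (p : ℕ) :
    |N.fz Jin Jp Jk δ p| ≤ N.B Jin Jp Jk δ := by
  have e1 : 0 ≤ Jin * (N.nc : ℝ) := by positivity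
  have e1' : Jin * ((N.nc : ℝ) + 1) = Jin * N.nc + Jin := by ring
  have e2 : 0 ≤ δ ^ 3 := by positivity
  have e3 : 0 ≤ Jp * δ ^ 2 := by positivity
  have e4 : 0 ≤ δ ^ 2 := by positivity
  have e5 : 0 ≤ 2 * δ * (N.T : ℝ) := by positivity
  have e6 : Jin / 4 * (N.nc : ℝ) = Jin * N.nc / 4 := by ring
  unfold ND.fz ND.B
  rw [e1', e6, abs_le]
  constructor <;> split_ifs <;> linarith

theorem abs_cosN_le (k : ℕ) : |cosN k| ≤ 1 := by
  unfold cosN; split_ifs <;> exact Real.abs_cos_le_one _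

theorem abs_sinN_le (k : ℕ) : |sinN k| ≤ 1 := by
  unfold sinN; split_ifs <;> exact Real.abs_sin_le_one _

theorem one_le_B (h1 : 0 ≤ Jin) (h2 : 0 ≤ Jp) (h3 : 0 ≤ Jk) (h4 : 0 ≤ δ) :
    1 ≤ N.B Jin Jp Jk δ := by
  have e1 : 0 ≤ Jin * ((N.nc : ℝ) + 1) := by positivity
  have e2 : 0 ≤ δ ^ 3 := by positivity
  have e3 : 0 ≤ Jp * δ ^ 2 := by positivity
  have e4 : 0 ≤ δ ^ 2 := by positivity
  have e5 : 0 ≤ 2 * δ * (N.T : ℝ) := by positivity
  unfold ND.B
  linarith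

theorem abs_ax_le (p q : ℕ) : |N.ax p q| ≤ 1 := by
  unfold ND.ax
  split_ifs
  · exact abs_sinN_le _
  · norm_num
  · norm_num

theorem abs_az_le (p q : ℕ) : |N.az p q| ≤ 1 := by
  unfold ND.az
  split_ifs
  · exact abs_cosN_le _
  · norm_num
  · norm_num

theorem abs_bx_le (h1 : 0 ≤ Jin) (h2 : 0 ≤ Jp) (h3 : 0 ≤ Jk) (h4 : 0 ≤ δ) (p q : ℕ) :
    |N.bx Jp δ p q| ≤ N.B Jin Jp Jk δ := by
  have e1 : 0 ≤ Jin * ((N.nc : ℝ) + 1) := by positivity
  have e2 : 0 ≤ δ ^ 3 := by positivity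
  have e3 : 0 ≤ Jp * δ ^ 2 := by positivity
  have e4 : 0 ≤ δ ^ 2 := by positivity
  have e5 : 0 ≤ 2 * δ * (N.T : ℝ) := by positivity
  unfold ND.bx ND.B
  rw [abs_le]
  constructor <;> split_ifs <;> linarith

theorem ncz_mem (p q : ℕ) : 0 ≤ N.ncz p q ∧ N.ncz p q ≤ N.T := by
  unfold ND.ncz
  constructor
  · exact Finset.sum_nonneg fun t _ => by split_ifs <;> norm_num
  · calc _ ≤ ∑ _t ∈ Finset.range N.T, (1 : ℝ) :=
          Finset.sum_le_sum fun t _ => by split_ifs <;> norm_num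
      _ = N.T := by simp

theorem abs_bz_le (h1 : 0 ≤ Jin) (h2 : 0 ≤ Jp) (h3 : 0 ≤ Jk) (h4 : 0 ≤ δ) (p q : ℕ) :
    |N.bz Jin Jp Jk δ p q| ≤ N.B Jin Jp Jk δ := by
  have e1 : 0 ≤ Jin * (N.nc : ℝ) := by positivity
  have e1' : Jin * ((N.nc : ℝ) + 1) = Jin * N.nc + Jin := by ring
  have e2 : 0 ≤ δ ^ 3 := by positivity
  have e3 : 0 ≤ Jp * δ ^ 2 := by positivity
  have e4 : 0 ≤ δ ^ 2 := by positivity
  have e5 : 0 ≤ 2 * δ * (N.T : ℝ) := by positivity
  have e6 := ncz_mem N p q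
  have e7 : 2 * δ * N.ncz p q ≤ 2 * δ * N.T := mul_le_mul_of_nonneg_left e6.2 (by linarith)
  have e8 : 0 ≤ 2 * δ * N.ncz p q := mul_nonneg (by linarith) e6.1
  have e9 : -(2 * δ) * N.ncz p q = -(2 * δ * N.ncz p q) := by ring
  unfold ND.bz ND.B
  rw [e1', e9, abs_le]
  constructor <;> split_ifs <;> linarith

end bounds

/-- bound of all the arrays of a verifier -/
def bV (V : VCirc) : ℕ :=
  1 + 64 * ((conN V).length + 1) + JpV V + JkV V + delV V ^ 3 + JpV V * delV V ^ 2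
    + 2 * delV V ^ 2 + 2 * delV V * (wordN V).length

theorem bV_eq (V : VCirc) : (ndV V).B 64 (JpV V) (JkV V) (delV V) = bV V := by
  unfold ND.B bV ndV
  push_cast
  ring

theorem abs_fxV_le (V : VCirc) (p : ℕ) : |fxV V p| ≤ bV V := by
  rw [← bV_eq]
  exact abs_fx_le _ (by norm_num) (Nat.cast_nonneg _) (Nat.cast_nonneg _) (Nat.cast_nonneg _) p

theorem abs_fzV_le (V : VCirc) (p : ℕ) : |fzV V p| ≤ bV V := by
  rw [← bV_eq]
  exact abs_fz_le _ (by norm_num) (Nat.cast_nonneg _) (Nat.cast_nonneg _) (Nat.cast_nonneg _) p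

theorem abs_axV_le (V : VCirc) (p q : ℕ) : |axV V p q| ≤ bV V := by
  rw [← bV_eq]
  exact (abs_ax_le _ p q).trans
    (one_le_B _ (by norm_num) (Nat.cast_nonneg _) (Nat.cast_nonneg _) (Nat.cast_nonneg _))

theorem abs_azV_le (V : VCirc) (p q : ℕ) : |azV V p q| ≤ bV V := by
  rw [← bV_eq]
  exact (abs_az_le _ p q).trans
    (one_le_B _ (by norm_num) (Nat.cast_nonneg _) (Nat.cast_nonneg _) (Nat.cast_nonneg _))

theorem abs_bxV_le (V : VCirc) (p q : ℕ) : |bxV V p q| ≤ bV V := by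
  rw [← bV_eq]
  exact abs_bx_le _ (by norm_num) (Nat.cast_nonneg _) (Nat.cast_nonneg _) (Nat.cast_nonneg _) p q

theorem abs_bzV_le (V : VCirc) (p q : ℕ) : |bzV V p q| ≤ bV V := by
  rw [← bV_eq]
  exact abs_bz_le _ (by norm_num) (Nat.cast_nonneg _) (Nat.cast_nonneg _) (Nat.cast_nonneg _) p q

end Crest.Agent.R338.PTab
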