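import Mathlib

/-!
Row 338, node B.3a (helper695): Laguerre polynomials `lag k t = ∑ j ≤ k, C(k,j) (-t)^j / j!`,
recursions and orthonormality on `(0, ∞)` for the weight `exp (-t)`.
-/

set_option autoImplicit false

open Finset MeasureTheory Set
open scoped Nat

noncomputable section
namespace Crest.Agent.R338.Lag

/-- Laguerre polynomials. -/
def lag (k : ℕ) (t : ℝ) : ℝ := ∑ j ∈ Finset.range (k + 1), (k.choose j : ℝ) * (-t) ^ j / (j ! : ℝ)

@[simp] theorem lag_zero (t : ℝ) : lag 0 t = 1 := by simp [lag]

theorem lag_one (t : ℝ) : lag 1 t = 1 - t := by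
  simp [lag, Finset.sum_range_succ]; ring

theorem lag_at_zero (k : ℕ) : lag k 0 = 1 := by
  unfold lag
  rw [Finset.sum_eq_single 0]
  · simp
  · intro b _ hb
    simp [hb]
  · simp

theorem sum_choose (j k : ℕ) : ∑ i ∈ Finset.range (k + 1), (i.choose j : ℝ) =
    ((k + 1).choose (j + 1) : ℝ) := by
  induction k with
  | zero =>
    cases j with
    | zero => simp
    | succ j => rw [Nat.choose_eq_zero_of_lt (by omega : 0 + 1 < j + 1 + 1)]; simp
  | succ k ih =>
    rw [Finset.sum_range_succ, ih, Nat.choose_succ_succ (k + 1) j]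
    push_cast
    ring

/-- the sum of the first Laguerre polynomials -/
theorem sum_lag (k : ℕ) (t : ℝ) :
    ∑ i ∈ Finset.range (k + 1), lag i t =
      ∑ j ∈ Finset.range (k + 1), ((k + 1).choose (j + 1) : ℝ) * (-t) ^ j / (j ! : ℝ) := by
  have h1 : ∀ i ∈ Finset.range (k + 1), lag i t =
      ∑ j ∈ Finset.range (k + 1), (i.choose j : ℝ) * (-t) ^ j / (j ! : ℝ) := by
    intro i hi
    unfold lag
    apply Finset.sum_subset
    · intro j hj
      simp only [Finset.mem_range] at hj hi ⊢
      omega
    · intro j _ hj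
      simp only [Finset.mem_range, not_lt] at hj
      rw [Nat.choose_eq_zero_of_lt (by omega)]
      simp
  rw [Finset.sum_congr rfl h1, Finset.sum_comm]
  apply Finset.sum_congr rfl
  intro j _
  rw [← Finset.sum_div, ← Finset.sum_mul, sum_choose]

/-- `(k+1) (L_{k+1} - L_k) = - t ∑_{i ≤ k} L_i` -/
theorem lag_succ_sub (k : ℕ) (t : ℝ) :
    ((k : ℝ) + 1) * (lag (k + 1) t - lag k t) = -t * ∑ i ∈ Finset.range (k + 1), lag i t := by
  rw [sum_lag]
  have h1 : lag k t = ∑ j ∈ Finset.range (k + 2), (k.choose j : ℝ) * (-t) ^ j / (j ! : ℝ) := by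
    rw [Finset.sum_range_succ, Nat.choose_succ_self]
    simp [lag]
  have h2 : lag (k + 1) t = ∑ j ∈ Finset.range (k + 2),
      ((k + 1).choose j : ℝ) * (-t) ^ j / (j ! : ℝ) := rfl
  rw [h1, h2, ← Finset.sum_sub_distrib, Finset.sum_range_succ']
  simp only [Nat.choose_zero_right, pow_zero, Nat.factorial_zero, Nat.cast_one, mul_one, div_one,
    sub_self, add_zero]
  rw [Finset.mul_sum, Finset.mul_sum]
  apply Finset.sum_congr rfl
  intro j _
  have h3 : ((k + 1).choose (j + 1) : ℝ) = (k.choose j : ℝ) + (k.choose (j + 1) : ℝ) := by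
    rw [Nat.choose_succ_succ]; push_cast; ring
  have h4 : ((k : ℝ) + 1) * (k.choose j : ℝ) = ((k + 1).choose (j + 1) : ℝ) * ((j : ℝ) + 1) := by
    have := Nat.add_one_mul_choose_eq k j
    exact_mod_cast this
  have h5 : ((j + 1)! : ℝ) = ((j : ℝ) + 1) * (j ! : ℝ) := by
    rw [Nat.factorial_succ]; push_cast; ring
  have h6 : (j ! : ℝ) ≠ 0 := by positivity
  have h7 : ((j : ℝ) + 1) ≠ 0 := by positivity
  calc ((k : ℝ) + 1) * (((k + 1).choose (j + 1) : ℝ) * (-t) ^ (j + 1) / ((j + 1)! : ℝ) -
        (k.choose (j + 1) : ℝ) * (-t) ^ (j + 1) / ((j + 1)! : ℝ))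
      = (((k : ℝ) + 1) * (k.choose j : ℝ)) * (-t) ^ (j + 1) / ((j + 1)! : ℝ) := by
        rw [h3]; ring
    _ = -t * (((k + 1).choose (j + 1) : ℝ) * (-t) ^ j / (j ! : ℝ)) := by
        rw [h4, h5]; field_simp; ring

/-- three-term recursion (also for `k = 0` with the convention `0 * lag (0-1)`) -/
theorem lag_rec (k : ℕ) (t : ℝ) :
    ((k : ℝ) + 1) * lag (k + 1) t = (2 * k + 1 - t) * lag k t - k * lag (k - 1) t := by
  cases k with
  | zero => simp [lag_one]
  | succ k =>
    have h1 := lag_succ_sub (k + 1) t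
    have h2 := lag_succ_sub k t
    rw [Finset.sum_range_succ] at h1
    simp only [Nat.add_sub_cancel]
    push_cast at h1 h2 ⊢
    linear_combination h1 - h2

theorem t_mul_lag (k : ℕ) (t : ℝ) :
    t * lag k t = (2 * k + 1) * lag k t - ((k : ℝ) + 1) * lag (k + 1) t - k * lag (k - 1) t := by
  have := lag_rec k t
  linear_combination this

/-! ### integrals against `exp (-t)` -/

theorem integrableOn_pow_exp (n : ℕ) :
    IntegrableOn (fun t : ℝ => t ^ n * Real.exp (-t)) (Ioi 0) := by
  have := Real.GammaIntegral_convergent (s := (n : ℝ) + 1) (by positivity)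
  refine this.congr_fun ?_ measurableSet_Ioi
  intro t _
  simp only [add_sub_cancel_right, Real.rpow_natCast]
  ring

theorem integral_pow_exp (n : ℕ) :
    ∫ t in Ioi (0 : ℝ), t ^ n * Real.exp (-t) = (n ! : ℝ) := by
  rw [← Real.Gamma_nat_eq_factorial, Real.Gamma_eq_integral (by positivity)]
  apply setIntegral_congr_fun measurableSet_Ioi
  intro t _
  simp only [add_sub_cancel_right, Real.rpow_natCast]
  ring

/-- functions which are polynomials -/
def IsPoly (f : ℝ → ℝ) : Prop := ∃ p : Polynomial ℝ, ∀ t, f t = p.eval t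

theorem IsPoly.mul {f g : ℝ → ℝ} (hf : IsPoly f) (hg : IsPoly g) :
    IsPoly (fun t => f t * g t) := by
  obtain ⟨p, hp⟩ := hf
  obtain ⟨q, hq⟩ := hg
  exact ⟨p * q, fun t => by simp [hp, hq]⟩

theorem IsPoly.add {f g : ℝ → ℝ} (hf : IsPoly f) (hg : IsPoly g) :
    IsPoly (fun t => f t + g t) := by
  obtain ⟨p, hp⟩ := hf
  obtain ⟨q, hq⟩ := hg
  exact ⟨p + q, fun t => by simp [hp, hq]⟩

theorem IsPoly.const_mul {f : ℝ → ℝ} (c : ℝ) (hf : IsPoly f) :
    IsPoly (fun t => c * f t) := by
  obtain ⟨p, hp⟩ := hf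
  exact ⟨Polynomial.C c * p, fun t => by simp [hp]⟩

theorem isPoly_pow (n : ℕ) : IsPoly (fun t => t ^ n) := ⟨Polynomial.X ^ n, fun t => by simp⟩

theorem isPoly_id : IsPoly (fun t => t) := ⟨Polynomial.X, fun t => by simp⟩

theorem isPoly_const (c : ℝ) : IsPoly (fun _ => c) := ⟨Polynomial.C c, fun t => by simp⟩

theorem isPoly_lag (k : ℕ) : IsPoly (lag k) := by
  refine ⟨∑ j ∈ Finset.range (k + 1), Polynomial.C ((k.choose j : ℝ) / (j ! : ℝ)) *
    (-Polynomial.X) ^ j, fun t => ?_⟩
  simp only [lag, Polynomial.eval_finsetSum, Polynomial.eval_mul, Polynomial.eval_C,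
    Polynomial.eval_pow, Polynomial.eval_neg, Polynomial.eval_X]
  apply Finset.sum_congr rfl
  intro j _
  ring

theorem IsPoly.continuous {f : ℝ → ℝ} (hf : IsPoly f) : Continuous f := by
  obtain ⟨p, hp⟩ := hf
  have : f = fun t => p.eval t := funext hp
  rw [this]
  exact p.continuous

theorem continuous_lag (k : ℕ) : Continuous (lag k) := (isPoly_lag k).continuous

theorem IsPoly.integrableOn_exp {f : ℝ → ℝ} (hf : IsPoly f) :
    IntegrableOn (fun t : ℝ => f t * Real.exp (-t)) (Ioi 0) := by
  obtain ⟨p, hp⟩ := hf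
  have : (fun t : ℝ => f t * Real.exp (-t)) =
      fun t => ∑ i ∈ p.support, p.coeff i * (t ^ i * Real.exp (-t)) := by
    funext t
    rw [hp, Polynomial.eval_eq_sum, Polynomial.sum, Finset.sum_mul]
    apply Finset.sum_congr rfl
    intro i _
    ring
  rw [this]
  apply integrable_finsetSum
  intro i _
  exact (integrableOn_pow_exp i).const_mul _

theorem integral_lag_exp (k : ℕ) :
    ∫ t in Ioi (0 : ℝ), lag k t * Real.exp (-t) = if k = 0 then 1 else 0 := by
  have h1 : (fun t : ℝ => lag k t * Real.exp (-t)) = fun t =>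
      ∑ j ∈ Finset.range (k + 1),
        ((k.choose j : ℝ) * (-1) ^ j / (j ! : ℝ)) * (t ^ j * Real.exp (-t)) := by
    funext t
    unfold lag
    rw [Finset.sum_mul]
    apply Finset.sum_congr rfl
    intro j _
    rw [neg_pow]
    ring
  rw [h1, integral_finsetSum]
  · simp_rw [integral_const_mul, integral_pow_exp]
    have h2 : ∀ j ∈ Finset.range (k + 1),
        ((k.choose j : ℝ) * (-1) ^ j / (j ! : ℝ)) * (j ! : ℝ) = (-1) ^ j * (k.choose j : ℝ) := by
      intro j _
      have : (j ! : ℝ) ≠ 0 := by positivity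
      field_simp
    rw [Finset.sum_congr rfl h2]
    have h3 := Int.alternating_sum_range_choose (n := k)
    have h4 : ((∑ i ∈ Finset.range (k + 1), (-1 : ℤ) ^ i * (k.choose i : ℤ) : ℤ) : ℝ) =
        ((if k = 0 then 1 else 0 : ℤ) : ℝ) := by rw [h3]
    push_cast at h4
    simpa using h4
  · intro j _
    exact (integrableOn_pow_exp j).const_mul _

/-- the inner product -/
def ip (f g : ℝ → ℝ) : ℝ := ∫ t in Ioi (0 : ℝ), f t * g t * Real.exp (-t)

/-- orthonormality of the Laguerre polynomials -/
theorem ip_lag (m k : ℕ) : ip (lag m) (lag k) = if m = k then 1 else 0 := by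
  have hint : ∀ m k, IntegrableOn (fun t : ℝ => lag m t * lag k t * Real.exp (-t)) (Ioi 0) :=
    fun m k => ((isPoly_lag m).mul (isPoly_lag k)).integrableOn_exp
  -- the two expansions of `∫ t L_m L_k e^{-t}`
  have hrel : ∀ m k : ℕ,
      (2 * m + 1) * ip (lag m) (lag k) - ((m : ℝ) + 1) * ip (lag (m + 1)) (lag k)
        - m * ip (lag (m - 1)) (lag k) =
      (2 * k + 1) * ip (lag m) (lag k) - ((k : ℝ) + 1) * ip (lag m) (lag (k + 1))
        - k * ip (lag m) (lag (k - 1)) := by
    intro m k
    unfold ip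
    rw [← integral_const_mul, ← integral_const_mul, ← integral_const_mul, ← integral_sub,
      ← integral_sub, ← integral_const_mul, ← integral_const_mul, ← integral_const_mul,
      ← integral_sub, ← integral_sub]
    · apply setIntegral_congr_fun measurableSet_Ioi
      intro t _
      have h1 := t_mul_lag m t
      have h2 := t_mul_lag k t
      simp only
      linear_combination (-(lag k t * Real.exp (-t))) * h1 + (lag m t * Real.exp (-t)) * h2
    all_goals first
      | exact (((hint _ _).const_mul _).sub ((hint _ _).const_mul _))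
      | exact (hint _ _).const_mul _
  induction k using Nat.strong_induction_on generalizing m with
  | _ k ih =>
    rcases Nat.eq_zero_or_pos k with rfl | hk
    · unfold ip
      simp only [lag_zero, mul_one]
      exact integral_lag_exp m
    · obtain ⟨k, rfl⟩ : ∃ k', k = k' + 1 := ⟨k - 1, by omega⟩
      have e := hrel m k
      have i0 : ip (lag m) (lag k) = if m = k then 1 else 0 := ih k (by omega) m
      have i1 : ip (lag (m + 1)) (lag k) = if m + 1 = k then 1 else 0 := ih k (by omega) (m + 1)
      have i2 : (m : ℝ) * ip (lag (m - 1)) (lag k) = if m = k + 1 then (m : ℝ) else 0 := by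
        rw [ih k (by omega) (m - 1)]
        rcases Nat.eq_zero_or_pos m with rfl | hm
        · simp
        · by_cases h : m = k + 1
          · subst h; simp
          · rw [if_neg h, if_neg (by omega)]; simp
      have i3 : (k : ℝ) * ip (lag m) (lag (k - 1)) = if m + 1 = k then (k : ℝ) else 0 := by
        rcases Nat.eq_zero_or_pos k with rfl | hk'
        · simp
        · rw [ih (k - 1) (by omega) m]
          by_cases h : m + 1 = k
          · rw [if_pos h, if_pos (by omega)]; simp
          · rw [if_neg h, if_neg (by omega)]; simp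
      rw [i0, i1, i2, i3] at e
      have hk1 : ((k : ℝ) + 1) ≠ 0 := by positivity
      apply mul_left_cancel₀ hk1
      by_cases a : m = k
      · subst a
        simp only [if_true, mul_one, Nat.succ_ne_self, if_false, mul_zero, sub_zero] at e
        rw [if_neg (by omega)] at e ⊢
        linarith
      · by_cases b : m = k + 1
        · subst b
          rw [if_neg (by omega), if_neg (by omega), if_pos rfl, if_neg (by omega)] at e
          rw [if_pos rfl]
          push_cast at e
          linarith
        · by_cases c : m + 1 = k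
          · subst c
            rw [if_neg (by omega), if_pos rfl, if_neg (by omega), if_pos rfl] at e
            rw [if_neg (by omega)]
            push_cast at e ⊢
            linarith
          · rw [if_neg a, if_neg c, if_neg b, if_neg c] at e
            rw [if_neg b]
            linarith

end Crest.Agent.R338.Lag
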