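import Crest.Agent.R338.Lag1
import Crest.Agent.R338.HO1a

/-!
Row 338, node B.3a (helper695): the Fourier integrals of `h_k ^ 2`:
`∫ h_k(x)^2 cos (q x) dx = exp (-q^2/4) L_k (q^2/2)`.
-/

set_option autoImplicit false

open Finset MeasureTheory Set
open scoped Nat

noncomputable section
namespace Crest.Agent.R338.Lag
open Crest.Agent.R338.HO

/-- `∫ h_j h_k e^{iqx} dx` -/
def FT (j k : ℕ) (q : ℝ) : ℂ :=
  ∫ x : ℝ, ((hf j x * hf k x : ℝ) : ℂ) * Complex.exp (Complex.I * q * x)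

theorem norm_cexp_I (q x : ℝ) : ‖Complex.exp (Complex.I * q * x)‖ = 1 := by
  have : Complex.I * (q : ℂ) * (x : ℂ) = ((q * x : ℝ) : ℂ) * Complex.I := by push_cast; ring
  rw [this, Complex.norm_exp_ofReal_mul_I]

theorem integrable_mul_cexp {f : ℝ → ℝ} (hf' : Integrable f) (q : ℝ) :
    Integrable (fun x : ℝ => ((f x : ℝ) : ℂ) * Complex.exp (Complex.I * q * x)) := by
  refine (hf'.ofReal (𝕜 := ℂ)).mul_bdd (c := 1) ?_ ?_
  · apply Continuous.aestronglyMeasurable
    fun_prop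
  · filter_upwards with x
    rw [norm_cexp_I]

theorem integrable_FT (j k : ℕ) (q : ℝ) :
    Integrable (fun x : ℝ => ((hf j x * hf k x : ℝ) : ℂ) * Complex.exp (Complex.I * q * x)) :=
  integrable_mul_cexp (integrable_hf_mul_hf j k) q

theorem FT_comm (j k : ℕ) (q : ℝ) : FT j k q = FT k j q := by
  unfold FT
  congr 1; ext x; rw [mul_comm (hf j x)]

/-- `a n = √(n/2)` -/
def aa (n : ℕ) : ℝ := √((n : ℝ) / 2)

theorem aa_sq (n : ℕ) : aa n * aa n = (n : ℝ) / 2 := Real.mul_self_sqrt (by positivity)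

theorem aa_zero : aa 0 = 0 := by simp [aa]

theorem aa_pos (n : ℕ) : 0 < aa (n + 1) := Real.sqrt_pos.2 (by positivity)

theorem x_mul_hf' (m : ℕ) (x : ℝ) :
    x * hf m x = aa (m + 1) * hf (m + 1) x + aa m * hf (m - 1) x := by
  have := x_mul_hf m x
  simpa [aa] using this

theorem hasDerivAt_hf' (m : ℕ) (x : ℝ) : HasDerivAt (hf m)
    (aa m * hf (m - 1) x - aa (m + 1) * hf (m + 1) x) x := by
  have := hasDerivAt_hf m x
  simpa [aa] using this

theorem FT_x (j k : ℕ) (q : ℝ) :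
    (aa (j + 1) : ℂ) * FT (j + 1) k q + (aa j : ℂ) * FT (j - 1) k q =
      (aa (k + 1) : ℂ) * FT j (k + 1) q + (aa k : ℂ) * FT j (k - 1) q := by
  unfold FT
  rw [← integral_const_mul, ← integral_const_mul, ← integral_const_mul, ← integral_const_mul,
    ← integral_add, ← integral_add]
  · congr 1; ext x
    have h1 := x_mul_hf' j x
    have h2 := x_mul_hf' k x
    have h3 : (aa (j + 1) * hf (j + 1) x + aa j * hf (j - 1) x) * hf k x =
      hf j x * (aa (k + 1) * hf (k + 1) x + aa k * hf (k - 1) x) := by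
      rw [← h1, ← h2]; ring
    have h4 := congrArg (fun r : ℝ => ((r : ℝ) : ℂ)) h3
    push_cast at h4 ⊢
    linear_combination (Complex.exp (Complex.I * q * x)) * h4
  all_goals exact (integrable_FT _ _ q).const_mul _

theorem FT_d (j k : ℕ) (q : ℝ) :
    (aa j : ℂ) * FT (j - 1) k q - (aa (j + 1) : ℂ) * FT (j + 1) k q +
      ((aa k : ℂ) * FT j (k - 1) q - (aa (k + 1) : ℂ) * FT j (k + 1) q) +
      Complex.I * q * FT j k q = 0 := by
  have hd : ∀ x : ℝ, HasDerivAt
      (fun x : ℝ => ((hf j x * hf k x : ℝ) : ℂ) * Complex.exp (Complex.I * q * x))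
      ((aa j : ℂ) * (((hf (j - 1) x * hf k x : ℝ) : ℂ) * Complex.exp (Complex.I * q * x))
        - (aa (j + 1) : ℂ) * (((hf (j + 1) x * hf k x : ℝ) : ℂ) * Complex.exp (Complex.I * q * x))
        + ((aa k : ℂ) * (((hf j x * hf (k - 1) x : ℝ) : ℂ) * Complex.exp (Complex.I * q * x))
        - (aa (k + 1) : ℂ) * (((hf j x * hf (k + 1) x : ℝ) : ℂ) * Complex.exp (Complex.I * q * x)))
        + Complex.I * q *
          (((hf j x * hf k x : ℝ) : ℂ) * Complex.exp (Complex.I * q * x))) x := by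
    intro x
    have h1 : HasDerivAt (fun x : ℝ => ((hf j x * hf k x : ℝ) : ℂ))
        ((((aa j * hf (j - 1) x - aa (j + 1) * hf (j + 1) x) * hf k x +
          hf j x * (aa k * hf (k - 1) x - aa (k + 1) * hf (k + 1) x) : ℝ)) : ℂ) x :=
      ((hasDerivAt_hf' j x).mul (hasDerivAt_hf' k x)).ofReal_comp
    have h2 : HasDerivAt (fun x : ℝ => Complex.exp (Complex.I * q * x))
        (Complex.exp (Complex.I * q * x) * (Complex.I * q)) x := by
      have h3 : HasDerivAt (fun x : ℝ => Complex.I * (q : ℂ) * (x : ℂ)) (Complex.I * q) x := by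
        have := (Complex.ofRealCLM.hasDerivAt (x := x)).const_mul (Complex.I * (q : ℂ))
        simpa using this
      exact h3.cexp
    refine (h1.mul h2).congr_deriv ?_
    push_cast
    ring
  have hi : ∀ a b : ℕ, ∀ c : ℂ, Integrable (fun x : ℝ =>
      c * (((hf a x * hf b x : ℝ) : ℂ) * Complex.exp (Complex.I * q * x))) :=
    fun a b c => (integrable_FT a b q).const_mul c
  have h0 := integral_eq_zero_of_hasDerivAt_of_integrable hd
    ((((hi _ _ _).sub (hi _ _ _)).add ((hi _ _ _).sub (hi _ _ _))).add (hi _ _ _))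
    (integrable_FT j k q)
  rw [← h0]
  unfold FT
  rw [← integral_const_mul, ← integral_const_mul, ← integral_const_mul, ← integral_const_mul,
    ← integral_const_mul, ← integral_sub (hi _ _ _) (hi _ _ _),
    ← integral_sub (hi _ _ _) (hi _ _ _), ← integral_add, ← integral_add]
  · exact ((hi _ _ _).sub (hi _ _ _)).add ((hi _ _ _).sub (hi _ _ _))
  · exact hi _ _ _
  · exact (hi _ _ _).sub (hi _ _ _)
  · exact (hi _ _ _).sub (hi _ _ _)

/-- the ladder recursion -/
theorem FT_rec (j k : ℕ) (q : ℝ) :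
    (aa (k + 1) : ℂ) * FT j (k + 1) q =
      (aa j : ℂ) * FT (j - 1) k q + Complex.I * q / 2 * FT j k q := by
  have h1 := FT_d j k q
  have h2 := FT_x j k q
  linear_combination (-1 / 2 : ℂ) * h1 - (1 / 2 : ℂ) * h2

theorem FT_zero_zero (q : ℝ) : FT 0 0 q = Real.exp (-(q ^ 2) / 4) := by
  have h := fourierIntegral_gaussian (b := 1) (by simp) (q : ℂ)
  unfold FT
  have h1 : ∀ x : ℝ, ((hf 0 x * hf 0 x : ℝ) : ℂ) * Complex.exp (Complex.I * q * x) =
      ((Real.pi ^ (-(1 / 2) : ℝ) : ℝ) : ℂ) *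
        (Complex.exp (Complex.I * q * x) * Complex.exp (-1 * (x : ℂ) ^ 2)) := by
    intro x
    have h2 : hf 0 x * hf 0 x = Real.pi ^ (-(1 / 2) : ℝ) * Real.exp (-1 * x ^ 2) := by
      rw [hf_mul_hf, hP_zero, ← Polynomial.C_mul, Polynomial.eval_C, ← Real.rpow_add Real.pi_pos]
      norm_num
    rw [h2]
    push_cast
    ring
  simp only [h1]
  rw [integral_const_mul, h]
  have h3 : ((Real.pi : ℂ) / 1) ^ (1 / 2 : ℂ) = ((Real.pi ^ (1 / 2 : ℝ) : ℝ) : ℂ) := by
    rw [div_one, Complex.ofReal_cpow Real.pi_pos.le]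
    norm_num
  rw [h3, ← mul_assoc, ← Complex.ofReal_mul, ← Real.rpow_add Real.pi_pos]
  norm_num

theorem FT_sum (k : ℕ) (q : ℝ) : (aa (k + 1) : ℂ) * FT k (k + 1) q =
    Complex.I * q / 2 * ∑ i ∈ Finset.range (k + 1), FT i i q := by
  induction k with
  | zero =>
    rw [FT_rec, aa_zero]
    simp
  | succ k ih =>
    rw [FT_rec, Nat.add_sub_cancel, ih, Finset.sum_range_succ _ (k + 1)]
    ring

theorem FT_diag_succ (k : ℕ) (q : ℝ) : ((k : ℂ) + 1) * (FT (k + 1) (k + 1) q - FT k k q) =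
    -((q : ℂ) ^ 2 / 2) * ∑ i ∈ Finset.range (k + 1), FT i i q := by
  have h1 := FT_rec (k + 1) k q
  rw [Nat.add_sub_cancel, FT_comm (k + 1) k] at h1
  have h2 := FT_sum k q
  have h3 : ((aa (k + 1) : ℝ) : ℂ) * ((aa (k + 1) : ℝ) : ℂ) = ((k : ℂ) + 1) / 2 := by
    rw [← Complex.ofReal_mul, aa_sq]; push_cast; ring
  have h4 : (Complex.I : ℂ) * Complex.I = -1 := Complex.I_mul_I
  linear_combination 2 * (aa (k + 1) : ℂ) * h1 + (Complex.I * q) * h2
    + (-2) * (FT (k + 1) (k + 1) q - FT k k q) * h3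
    + ((q : ℂ) ^ 2 / 2) * (∑ i ∈ Finset.range (k + 1), FT i i q) * h4

theorem FT_diag (k : ℕ) (q : ℝ) : FT k k q = ((Real.exp (-(q ^ 2) / 4) * lag k (q ^ 2 / 2) : ℝ) : ℂ) := by
  induction k using Nat.strong_induction_on with
  | _ k ih =>
    cases k with
    | zero => rw [FT_zero_zero]; simp
    | succ k =>
      have h1 := FT_diag_succ k q
      have h2 : ∑ i ∈ Finset.range (k + 1), FT i i q =
          ∑ i ∈ Finset.range (k + 1), ((Real.exp (-(q ^ 2) / 4) * lag i (q ^ 2 / 2) : ℝ) : ℂ) := by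
        apply Finset.sum_congr rfl
        intro i hi
        exact ih i (Finset.mem_range.1 hi)
      rw [h2, ih k (by omega)] at h1
      have h3 := lag_succ_sub k (q ^ 2 / 2)
      have h4 : ((k : ℂ) + 1) ≠ 0 := by
        have : ((k : ℝ) + 1) ≠ 0 := by positivity
        exact_mod_cast this
      apply mul_left_cancel₀ h4
      have h5 := congrArg (fun r : ℝ => ((Real.exp (-(q ^ 2) / 4) * r : ℝ) : ℂ)) h3
      rw [← Complex.ofReal_sum, ← Finset.mul_sum] at h1
      push_cast at h1 h5 ⊢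
      linear_combination h1 - h5

/-- `∫ h_k(x)^2 cos (q x) dx = exp (-q^2/4) L_k (q^2/2)` -/
theorem integral_hf_sq_cos (k : ℕ) (q : ℝ) :
    ∫ x : ℝ, hf k x * hf k x * Real.cos (q * x) = Real.exp (-(q ^ 2) / 4) * lag k (q ^ 2 / 2) := by
  have h1 := congrArg Complex.re (FT_diag k q)
  rw [Complex.ofReal_re] at h1
  rw [← h1]
  unfold FT
  have h2 : ∀ x : ℝ, hf k x * hf k x * Real.cos (q * x) =
      (((hf k x * hf k x : ℝ) : ℂ) * Complex.exp (Complex.I * q * x)).re := by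
    intro x
    have : Complex.I * (q : ℂ) * (x : ℂ) = ((q * x : ℝ) : ℂ) * Complex.I := by push_cast; ring
    rw [this, Complex.re_ofReal_mul, Complex.exp_ofReal_mul_I_re]
  simp only [h2]
  exact integral_re (integrable_FT k k q)

theorem integral_hf_sq_sin (k : ℕ) (q : ℝ) :
    ∫ x : ℝ, hf k x * hf k x * Real.sin (q * x) = 0 := by
  have h1 := congrArg Complex.im (FT_diag k q)
  rw [Complex.ofReal_im] at h1
  rw [← h1]
  unfold FT
  have h2 : ∀ x : ℝ, hf k x * hf k x * Real.sin (q * x) =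
      (((hf k x * hf k x : ℝ) : ℂ) * Complex.exp (Complex.I * q * x)).im := by
    intro x
    have : Complex.I * (q : ℂ) * (x : ℂ) = ((q * x : ℝ) : ℂ) * Complex.I := by push_cast; ring
    rw [this, Complex.im_ofReal_mul, Complex.exp_ofReal_mul_I_im]
  simp only [h2]
  exact integral_im (integrable_FT k k q)

end Crest.Agent.R338.Lag
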