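import Crest.Agent.R338.Lag3

/-!
Row 338, node B.3a / D.12 (helper695): polynomial bounds for all derivatives of `Dsel m`.
-/

set_option autoImplicit false

open MeasureTheory Set
open scoped Nat ContDiff

noncomputable section
namespace Crest.Agent.R338.Lag
open Crest.Agent.R338.HO

/-- moments of the Laguerre polynomials -/
def JJ (s m k : ℕ) : ℝ := ∫ t in Ioi (0 : ℝ), t ^ s * (lag m t * lag k t * Real.exp (-t))

theorem integrableOn_JJ (s m k : ℕ) :
    IntegrableOn (fun t : ℝ => t ^ s * (lag m t * lag k t * Real.exp (-t))) (Ioi 0) := by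
  have := ((isPoly_pow s).mul ((isPoly_lag m).mul (isPoly_lag k))).integrableOn_exp
  refine this.congr_fun (fun t _ => ?_) measurableSet_Ioi
  simp only
  ring

theorem JJ_zero (m k : ℕ) : JJ 0 m k = if m = k then 1 else 0 := by
  rw [← ip_lag m k]
  unfold JJ ip
  simp

theorem JJ_succ (s m k : ℕ) : JJ (s + 1) m k =
    (2 * m + 1) * JJ s m k - ((m : ℝ) + 1) * JJ s (m + 1) k - m * JJ s (m - 1) k := by
  unfold JJ
  rw [← integral_const_mul, ← integral_const_mul, ← integral_const_mul, ← integral_sub,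
    ← integral_sub]
  · apply setIntegral_congr_fun measurableSet_Ioi
    intro t _
    simp only
    have h := t_mul_lag m t
    rw [pow_succ]
    linear_combination (t ^ s * lag k t * Real.exp (-t)) * h
  · exact ((integrableOn_JJ _ _ _).const_mul _).sub ((integrableOn_JJ _ _ _).const_mul _)
  · exact (integrableOn_JJ _ _ _).const_mul _
  · exact (integrableOn_JJ _ _ _).const_mul _
  · exact (integrableOn_JJ _ _ _).const_mul _

theorem abs_JJ_le (s m k : ℕ) : |JJ s m k| ≤ (4 * ((m : ℝ) + s) + 2) ^ s := by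
  induction s generalizing m with
  | zero =>
    rw [JJ_zero]
    split_ifs <;> simp
  | succ s ih =>
    rw [JJ_succ]
    have h0 : (0 : ℝ) ≤ (m : ℝ) := Nat.cast_nonneg m
    have hs : (0 : ℝ) ≤ (s : ℝ) := Nat.cast_nonneg s
    have hB : ∀ c : ℝ, c ≤ (m : ℝ) + 1 → 0 ≤ c →
        (4 * (c + s) + 2) ^ s ≤ (4 * ((m : ℝ) + 1 + s) + 2) ^ s := by
      intro c hc hc0
      exact pow_le_pow_left₀ (by positivity) (by linarith) s
    have h1 : |JJ s m k| ≤ (4 * ((m : ℝ) + 1 + s) + 2) ^ s :=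
      (ih m).trans (hB _ (by linarith) h0)
    have h2 : |JJ s (m + 1) k| ≤ (4 * ((m : ℝ) + 1 + s) + 2) ^ s := by
      have := ih (m + 1)
      push_cast at this
      exact this
    have h3 : |JJ s (m - 1) k| ≤ (4 * ((m : ℝ) + 1 + s) + 2) ^ s := by
      refine (ih (m - 1)).trans (hB _ ?_ (Nat.cast_nonneg _))
      have : ((m - 1 : ℕ) : ℝ) ≤ (m : ℝ) := by exact_mod_cast Nat.sub_le m 1
      linarith
    set B := (4 * ((m : ℝ) + 1 + s) + 2) ^ s with hBdef
    have hB0 : 0 ≤ B := by positivity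
    have h4 : |(2 * (m : ℝ) + 1) * JJ s m k - ((m : ℝ) + 1) * JJ s (m + 1) k
        - m * JJ s (m - 1) k| ≤ (4 * (m : ℝ) + 2) * B := by
      have a1 : |(2 * (m : ℝ) + 1) * JJ s m k| ≤ (2 * (m : ℝ) + 1) * B := by
        rw [abs_mul, abs_of_nonneg (by positivity)]
        exact mul_le_mul_of_nonneg_left h1 (by positivity)
      have a2 : |((m : ℝ) + 1) * JJ s (m + 1) k| ≤ ((m : ℝ) + 1) * B := by
        rw [abs_mul, abs_of_nonneg (by positivity)]
        exact mul_le_mul_of_nonneg_left h2 (by positivity)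
      have a3 : |(m : ℝ) * JJ s (m - 1) k| ≤ (m : ℝ) * B := by
        rw [abs_mul, abs_of_nonneg h0]
        exact mul_le_mul_of_nonneg_left h3 h0
      calc |(2 * (m : ℝ) + 1) * JJ s m k - ((m : ℝ) + 1) * JJ s (m + 1) k - m * JJ s (m - 1) k|
          ≤ |(2 * (m : ℝ) + 1) * JJ s m k - ((m : ℝ) + 1) * JJ s (m + 1) k|
            + |m * JJ s (m - 1) k| := abs_sub _ _
        _ ≤ (|(2 * (m : ℝ) + 1) * JJ s m k| + |((m : ℝ) + 1) * JJ s (m + 1) k|)
            + |m * JJ s (m - 1) k| := by gcongr; exact abs_sub _ _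
        _ ≤ (4 * (m : ℝ) + 2) * B := by linarith
    refine h4.trans ?_
    rw [pow_succ]
    push_cast
    have h5 : (4 * (m : ℝ) + 2) ≤ 4 * ((m : ℝ) + ((s : ℝ) + 1)) + 2 := by linarith
    have h6 : B = (4 * ((m : ℝ) + ((s : ℝ) + 1)) + 2) ^ s := by rw [hBdef]; ring_nf
    rw [mul_comm, ← h6]
    exact mul_le_mul_of_nonneg_left h5 hB0

/-! ### the auxiliary weight `q / (1+q^2)^2` -/

theorem aux_hasDeriv (q : ℝ) :
    HasDerivAt (fun q : ℝ => -(1 / 2) * (1 + q ^ 2)⁻¹) (q / (1 + q ^ 2) ^ 2) q := by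
  have h0 : (1 + q ^ 2) ≠ 0 := by positivity
  have h1 : HasDerivAt (fun q : ℝ => 1 + q ^ 2) (2 * q) q := by
    have := (hasDerivAt_pow 2 q).const_add 1
    refine this.congr_deriv ?_
    norm_num
  have h2 := (h1.inv h0).const_mul (-(1 / 2) : ℝ)
  refine h2.congr_deriv ?_
  field_simp
  

theorem aux_tendsto :
    Filter.Tendsto (fun q : ℝ => -(1 / 2) * (1 + q ^ 2)⁻¹) Filter.atTop (nhds 0) := by
  have h1 : Filter.Tendsto (fun q : ℝ => 1 + q ^ 2) Filter.atTop Filter.atTop :=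
    Filter.tendsto_atTop_add_const_left _ _ (Filter.tendsto_pow_atTop (by norm_num))
  have h2 := (Filter.Tendsto.inv_tendsto_atTop h1).const_mul (-(1 / 2) : ℝ)
  simpa using h2

theorem aux_integrable : IntegrableOn (fun q : ℝ => q / (1 + q ^ 2) ^ 2) (Ioi 0) :=
  integrableOn_Ioi_deriv_of_nonneg' (fun q _ => aux_hasDeriv q)
    (fun q hq => by have : (0 : ℝ) < q := hq; positivity) aux_tendsto

theorem aux_integral : ∫ q in Ioi (0 : ℝ), q / (1 + q ^ 2) ^ 2 = 1 / 2 := by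
  rw [integral_Ioi_of_hasDerivAt_of_nonneg' (fun q _ => aux_hasDeriv q)
    (fun q hq => by have : (0 : ℝ) < q := hq; positivity) aux_tendsto]
  norm_num

/-- the bound for the `r`-th derivative -/
def BD (r m : ℕ) : ℝ := 5 * 2 ^ r * (4 * ((m : ℝ) + r) + 10) ^ (r + 2)

theorem BD_nonneg (r m : ℕ) : 0 ≤ BD r m := by unfold BD; positivity

theorem integral_abs_gw_le (r m : ℕ) : ∫ q in Ioi (0 : ℝ), |q ^ r * gw m q| ≤ BD r m := by
  set f : ℝ → ℝ := fun t => (2 * t) ^ r * (1 + 2 * t) ^ 2 * (lag m t * lag m t * Real.exp (-t))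
    with hf
  have hfexp : f = fun t => 2 ^ r * (t ^ r * (lag m t * lag m t * Real.exp (-t))) +
      4 * 2 ^ r * (t ^ (r + 1) * (lag m t * lag m t * Real.exp (-t))) +
      4 * 2 ^ r * (t ^ (r + 2) * (lag m t * lag m t * Real.exp (-t))) := by
    funext t
    rw [hf]
    simp only [mul_pow]
    ring
  have hfint : IntegrableOn f (Ioi 0) := by
    rw [hfexp]
    exact (((integrableOn_JJ _ _ _).const_mul _).add ((integrableOn_JJ _ _ _).const_mul _)).add
      ((integrableOn_JJ _ _ _).const_mul _)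
  have hfval : ∫ t in Ioi (0 : ℝ), f t =
      2 ^ r * JJ r m m + 4 * 2 ^ r * JJ (r + 1) m m + 4 * 2 ^ r * JJ (r + 2) m m := by
    rw [hfexp, integral_add, integral_add, integral_const_mul, integral_const_mul,
      integral_const_mul]
    · rfl
    · exact (integrableOn_JJ _ _ _).const_mul _
    · exact (integrableOn_JJ _ _ _).const_mul _
    · exact ((integrableOn_JJ _ _ _).const_mul _).add ((integrableOn_JJ _ _ _).const_mul _)
    · exact (integrableOn_JJ _ _ _).const_mul _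
  have hg2 := integrableOn_half_sq f hfint
  have hb : ∀ q ∈ Ioi (0 : ℝ), |q ^ r * gw m q| ≤
      (1 / 2) * (q / (1 + q ^ 2) ^ 2 + q * f (q ^ 2 / 2)) := by
    intro q hq
    have hq0 : (0 : ℝ) < q := hq
    have e1 : f (q ^ 2 / 2) = (q ^ r * (1 + q ^ 2) * (Real.exp (-(q ^ 2) / 4) *
        lag m (q ^ 2 / 2))) ^ 2 := by
      rw [hf]
      simp only
      have h5 : Real.exp (-(q ^ 2 / 2)) = Real.exp (-(q ^ 2) / 4) ^ 2 := by
        rw [← Real.exp_nat_mul]; ring_nf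
      have h6 : 2 * (q ^ 2 / 2) = q ^ 2 := by ring
      rw [h5, h6, ← pow_mul]
      ring
    set y := q ^ r * (1 + q ^ 2) * (Real.exp (-(q ^ 2) / 4) * lag m (q ^ 2 / 2)) with hy
    have e2 : q ^ r * gw m q = q * ((1 + q ^ 2)⁻¹ * y) := by
      unfold gw
      rw [hy]
      have : (1 + q ^ 2) ≠ 0 := by positivity
      field_simp
    rw [e1, e2, abs_mul, abs_of_pos hq0, abs_mul,
      abs_of_pos (show (0 : ℝ) < (1 + q ^ 2)⁻¹ by positivity)]
    have h7 : (1 + q ^ 2)⁻¹ * |y| ≤ (1 / 2) * (((1 + q ^ 2)⁻¹) ^ 2 + |y| ^ 2) := by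
      nlinarith [sq_nonneg ((1 + q ^ 2)⁻¹ - |y|)]
    rw [sq_abs] at h7
    have h8 : q / (1 + q ^ 2) ^ 2 = q * ((1 + q ^ 2)⁻¹) ^ 2 := by
      rw [inv_pow]; rfl
    rw [h8]
    nlinarith [mul_le_mul_of_nonneg_left h7 hq0.le]
  have hmono : ∫ q in Ioi (0 : ℝ), |q ^ r * gw m q| ≤
      ∫ q in Ioi (0 : ℝ), (1 / 2) * (q / (1 + q ^ 2) ^ 2 + q * f (q ^ 2 / 2)) := by
    apply setIntegral_mono_on _ _ measurableSet_Ioi hb
    · exact ((gm_gw m).2 r).abs
    · exact (aux_integrable.add hg2).const_mul _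
  refine hmono.trans ?_
  rw [integral_const_mul, integral_add aux_integrable hg2, aux_integral, integral_half_sq, hfval]
  have hs : (0 : ℝ) ≤ (r : ℝ) := Nat.cast_nonneg r
  have hm : (0 : ℝ) ≤ (m : ℝ) := Nat.cast_nonneg m
  set X : ℝ := 4 * ((m : ℝ) + r) + 10 with hX
  have hX1 : 1 ≤ X := by linarith
  have b0 : JJ r m m ≤ X ^ (r + 2) := by
    refine (le_abs_self _).trans ((abs_JJ_le r m m).trans ?_)
    calc (4 * ((m : ℝ) + r) + 2) ^ r ≤ X ^ r :=
          pow_le_pow_left₀ (by positivity) (by rw [hX]; linarith) r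
      _ ≤ X ^ (r + 2) := pow_le_pow_right₀ hX1 (by omega)
  have b1 : JJ (r + 1) m m ≤ X ^ (r + 2) := by
    refine (le_abs_self _).trans ((abs_JJ_le (r + 1) m m).trans ?_)
    calc (4 * ((m : ℝ) + ((r + 1 : ℕ) : ℝ)) + 2) ^ (r + 1) ≤ X ^ (r + 1) :=
          pow_le_pow_left₀ (by positivity) (by rw [hX]; push_cast; linarith) _
      _ ≤ X ^ (r + 2) := pow_le_pow_right₀ hX1 (by omega)
  have b2 : JJ (r + 2) m m ≤ X ^ (r + 2) := by
    refine (le_abs_self _).trans ((abs_JJ_le (r + 2) m m).trans ?_)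
    exact pow_le_pow_left₀ (by positivity) (by rw [hX]; push_cast; linarith) _
  have hp : (1 : ℝ) ≤ 2 ^ r * X ^ (r + 2) := by
    have a1 : (1 : ℝ) ≤ 2 ^ r := one_le_pow₀ (by norm_num)
    have a2 : (1 : ℝ) ≤ X ^ (r + 2) := one_le_pow₀ hX1
    nlinarith
  have h2r : (0 : ℝ) ≤ 2 ^ r := by positivity
  unfold BD
  rw [← hX]
  nlinarith [mul_le_mul_of_nonneg_left b0 h2r, mul_le_mul_of_nonneg_left b1 h2r,
    mul_le_mul_of_nonneg_left b2 h2r]

theorem iteratedDeriv_Dsel (r m : ℕ) :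
    iteratedDeriv r (Dsel m) = CT (fun q => q ^ r * gw m q) (0 + r * (Real.pi / 2)) := by
  rw [Dsel_eq, iteratedDeriv_CT (gm_gw m)]

theorem abs_iteratedDeriv_Dsel_le (r m : ℕ) (x : ℝ) :
    |iteratedDeriv r (Dsel m) x| ≤ BD r m := by
  rw [iteratedDeriv_Dsel]
  exact (abs_CT_le ((gm_gw m).pow_mul r) _ x).trans (integral_abs_gw_le r m)

theorem abs_Dsel_le (m : ℕ) (x : ℝ) : |Dsel m x| ≤ BD 0 m := by
  have := abs_iteratedDeriv_Dsel_le 0 m x
  rwa [iteratedDeriv_zero] at this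

theorem abs_deriv_Dsel_le (m : ℕ) (x : ℝ) : |deriv (Dsel m) x| ≤ BD 1 m := by
  have := abs_iteratedDeriv_Dsel_le 1 m x
  rwa [iteratedDeriv_one] at this

end Crest.Agent.R338.Lag
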