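import Crest.Agent.R338.Lag4

/-!
Row 338, node D.12 / G.6 (helper695): power series of `Dsel m` and `deriv (Dsel m)` with exact
rational coefficients and an explicit remainder bound.
-/

set_option autoImplicit false

open MeasureTheory Set
open scoped Nat ContDiff

noncomputable section
namespace Crest.Agent.R338.Lag
open Crest.Agent.R338.HO

/-! ### Taylor polynomials of `cos` and `sin` with the sharp remainder -/

def cosT (J : ℕ) (y : ℝ) : ℝ := ∑ j ∈ Finset.range J, (-1) ^ j * y ^ (2 * j) / ((2 * j)! : ℝ)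

def sinT (J : ℕ) (y : ℝ) : ℝ := ∑ j ∈ Finset.range J, (-1) ^ j * y ^ (2 * j + 1) / ((2 * j + 1)! : ℝ)

theorem hasDerivAt_monomial (n : ℕ) (c y : ℝ) :
    HasDerivAt (fun y : ℝ => c * y ^ (n + 1) / ((n + 1)! : ℝ)) (c * y ^ n / (n ! : ℝ)) y := by
  have h := ((hasDerivAt_pow (n + 1) y).const_mul c).div_const ((n + 1)! : ℝ)
  refine h.congr_deriv ?_
  have h5 : ((n + 1)! : ℝ) = ((n : ℝ) + 1) * (n ! : ℝ) := by
    rw [Nat.factorial_succ]; push_cast; ring
  have h6 : (n ! : ℝ) ≠ 0 := by positivity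
  have h7 : ((n : ℝ) + 1) ≠ 0 := by positivity
  rw [h5, Nat.add_sub_cancel]
  push_cast
  field_simp

theorem hasDerivAt_sinT (J : ℕ) (y : ℝ) : HasDerivAt (sinT J) (cosT J y) y := by
  unfold sinT cosT
  apply HasDerivAt.fun_sum
  intro j _
  exact hasDerivAt_monomial (2 * j) ((-1) ^ j) y

theorem hasDerivAt_cosT (J : ℕ) (y : ℝ) : HasDerivAt (cosT (J + 1)) (-sinT J y) y := by
  have h1 : cosT (J + 1) = fun y => (∑ j ∈ Finset.range J,
      (-1) ^ (j + 1) * y ^ (2 * j + 1 + 1) / ((2 * j + 1 + 1)! : ℝ)) + 1 := by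
    funext y
    unfold cosT
    rw [Finset.sum_range_succ']
    simp [mul_add]
  rw [h1]
  have h2 : -sinT J y = ∑ j ∈ Finset.range J, (-1) ^ (j + 1) * y ^ (2 * j + 1) / ((2 * j + 1)! : ℝ) := by
    unfold sinT
    rw [← Finset.sum_neg_distrib]
    apply Finset.sum_congr rfl
    intro j _
    rw [pow_succ]; ring
  rw [h2]
  apply HasDerivAt.add_const
  apply HasDerivAt.fun_sum
  intro j _
  exact hasDerivAt_monomial (2 * j + 1) ((-1) ^ (j + 1)) y

theorem step_bound {f f' : ℝ → ℝ} (hf : ∀ y, HasDerivAt f (f' y) y) (h0 : f 0 = 0) (n : ℕ)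
    (hb : ∀ y, 0 ≤ y → |f' y| ≤ y ^ n / (n ! : ℝ)) :
    ∀ y, 0 ≤ y → |f y| ≤ y ^ (n + 1) / ((n + 1)! : ℝ) := by
  intro y hy
  have key := image_norm_le_of_norm_deriv_right_le_deriv_boundary' (f := f) (a := 0) (b := y)
    (f' := f') (B := fun y : ℝ => 1 * y ^ (n + 1) / ((n + 1)! : ℝ))
    (B' := fun y : ℝ => 1 * y ^ n / (n ! : ℝ))
    (fun x _ => (hf x).continuousAt.continuousWithinAt)
    (fun x _ => (hf x).hasDerivWithinAt)
    (by simp [h0])
    (fun x _ => (hasDerivAt_monomial n 1 x).continuousAt.continuousWithinAt)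
    (fun x _ => (hasDerivAt_monomial n 1 x).hasDerivWithinAt)
    (fun x hx => by
      rw [Real.norm_eq_abs, one_mul]
      exact hb x hx.1)
    (right_mem_Icc.2 hy)
  simpa using key

theorem cos_sin_remainder (J : ℕ) : (∀ y : ℝ, 0 ≤ y → |Real.cos y - cosT J y| ≤ y ^ (2 * J) / ((2 * J)! : ℝ)) ∧
    (∀ y : ℝ, 0 ≤ y → |Real.sin y - sinT J y| ≤ y ^ (2 * J + 1) / ((2 * J + 1)! : ℝ)) := by
  have hstep : ∀ J : ℕ, (∀ y : ℝ, 0 ≤ y → |Real.cos y - cosT J y| ≤ y ^ (2 * J) / ((2 * J)! : ℝ)) →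
      (∀ y : ℝ, 0 ≤ y → |Real.sin y - sinT J y| ≤ y ^ (2 * J + 1) / ((2 * J + 1)! : ℝ)) := by
    intro J h
    apply step_bound (f := fun y => Real.sin y - sinT J y) (f' := fun y => Real.cos y - cosT J y)
    · intro y
      exact (Real.hasDerivAt_sin y).sub (hasDerivAt_sinT J y)
    · simp [sinT]
    · exact h
  induction J with
  | zero =>
    have h0 : ∀ y : ℝ, 0 ≤ y → |Real.cos y - cosT 0 y| ≤ y ^ (2 * 0) / ((2 * 0)! : ℝ) := by
      intro y _
      simp [cosT, Real.abs_cos_le_one]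
    exact ⟨h0, hstep 0 h0⟩
  | succ J ih =>
    have h1 : ∀ y : ℝ, 0 ≤ y → |Real.cos y - cosT (J + 1) y| ≤
        y ^ (2 * (J + 1)) / ((2 * (J + 1))! : ℝ) := by
      have := step_bound (f := fun y => Real.cos y - cosT (J + 1) y)
        (f' := fun y => -(Real.sin y - sinT J y)) (n := 2 * J + 1)
        (by
          intro y
          have := (Real.hasDerivAt_cos y).sub (hasDerivAt_cosT J y)
          refine this.congr_deriv ?_
          ring)
        (by
          simp only [Real.cos_zero]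
          unfold cosT
          rw [Finset.sum_range_succ']
          simp)
        (by
          intro y hy
          rw [abs_neg]
          exact ih.2 y hy)
      intro y hy
      have h2 := this y hy
      rw [show 2 * (J + 1) = 2 * J + 1 + 1 by ring]
      exact h2
    exact ⟨h1, hstep _ h1⟩

theorem cosT_neg (J : ℕ) (y : ℝ) : cosT J (-y) = cosT J y := by
  unfold cosT
  apply Finset.sum_congr rfl
  intro j _
  rw [pow_mul, pow_mul, neg_sq]

theorem sinT_neg (J : ℕ) (y : ℝ) : sinT J (-y) = -sinT J y := by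
  unfold sinT
  rw [← Finset.sum_neg_distrib]
  apply Finset.sum_congr rfl
  intro j _
  rw [pow_succ, pow_mul, neg_sq, ← pow_mul, pow_succ]
  ring

theorem abs_cos_sub_cosT (J : ℕ) (y : ℝ) :
    |Real.cos y - cosT J y| ≤ |y| ^ (2 * J) / ((2 * J)! : ℝ) := by
  rcases le_total 0 y with h | h
  · rw [abs_of_nonneg h]
    exact (cos_sin_remainder J).1 y h
  · rw [abs_of_nonpos h, ← Real.cos_neg, ← cosT_neg]
    exact (cos_sin_remainder J).1 (-y) (by linarith)

theorem abs_sin_sub_sinT (J : ℕ) (y : ℝ) :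
    |Real.sin y - sinT J y| ≤ |y| ^ (2 * J + 1) / ((2 * J + 1)! : ℝ) := by
  rcases le_total 0 y with h | h
  · rw [abs_of_nonneg h]
    exact (cos_sin_remainder J).2 y h
  · have h1 := (cos_sin_remainder J).2 (-y) (by linarith)
    rw [Real.sin_neg, sinT_neg] at h1
    rw [abs_of_nonpos h, abs_sub_comm]
    have : sinT J y - Real.sin y = -Real.sin y - -sinT J y := by ring
    rw [this]
    exact h1

/-! ### Gaussian moments -/

theorem integral_pow_exp_half (n : ℕ) :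
    ∫ t in Ioi (0 : ℝ), (2 * t) ^ n * Real.exp (-(t / 2)) = 2 * 4 ^ n * (n ! : ℝ) := by
  have h := Real.integral_rpow_mul_exp_neg_mul_Ioi (a := (n : ℝ) + 1) (r := 1 / 2)
    (by positivity) (by norm_num)
  have h1 : ∫ t in Ioi (0 : ℝ), (2 * t) ^ n * Real.exp (-(t / 2)) =
      2 ^ n * ∫ t in Ioi (0 : ℝ), t ^ ((n : ℝ) + 1 - 1) * Real.exp (-((1 / 2) * t)) := by
    rw [← integral_const_mul]
    apply setIntegral_congr_fun measurableSet_Ioi
    intro t _
    simp only [add_sub_cancel_right, Real.rpow_natCast]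
    rw [mul_pow, show (1 / 2) * t = t / 2 by ring]
    ring
  rw [h1, h, Real.Gamma_nat_eq_factorial]
  have h2 : (1 / (1 / 2 : ℝ)) ^ ((n : ℝ) + 1) = 2 * 2 ^ n := by
    rw [one_div_one_div, Real.rpow_add_one (by norm_num), Real.rpow_natCast]; ring
  rw [h2]
  have h3 : (4 : ℝ) ^ n = 2 ^ n * 2 ^ n := by rw [← mul_pow]; norm_num
  rw [h3]; ring

theorem integral_gauss_moment (n : ℕ) :
    ∫ q in Ioi (0 : ℝ), q ^ (2 * n + 1) * Real.exp (-(q ^ 2) / 4) = 2 * 4 ^ n * (n ! : ℝ) := by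
  rw [← integral_pow_exp_half, ← integral_half_sq (fun t => (2 * t) ^ n * Real.exp (-(t / 2)))]
  apply setIntegral_congr_fun measurableSet_Ioi
  intro q _
  simp only
  have h1 : 2 * (q ^ 2 / 2) = q ^ 2 := by ring
  have h2 : -(q ^ 2 / 2 / 2) = -(q ^ 2) / 4 := by ring
  rw [h1, h2, ← pow_mul, pow_succ]; ring

theorem integrable_gauss_moment (n : ℕ) :
    IntegrableOn (fun q : ℝ => q ^ n * Real.exp (-(q ^ 2) / 4)) (Ioi 0) := by
  have := ((isPoly_pow n).gm (b := 1 / 4) (by norm_num)).integrableOn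
  refine this.congr_fun (fun q _ => ?_) measurableSet_Ioi
  simp only
  rw [show -(1 / 4) * q ^ 2 = -(q ^ 2) / 4 by ring]

/-- expansion of `q^(2j) gw m q` -/
theorem pow_mul_gw (m j : ℕ) (q : ℝ) : q ^ (2 * j) * gw m q =
    ∑ i ∈ Finset.range (m + 1), ((m.choose i : ℝ) * (-1) ^ i / ((i ! : ℝ) * 2 ^ i)) *
      (q ^ (2 * (j + i) + 1) * Real.exp (-(q ^ 2) / 4)) := by
  unfold gw lag
  rw [Finset.mul_sum, Finset.mul_sum]
  apply Finset.sum_congr rfl
  intro i _
  have h1 : (-(q ^ 2 / 2)) ^ i = (-1) ^ i * q ^ (2 * i) / 2 ^ i := by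
    rw [pow_mul, neg_pow, div_pow]; ring
  have h2 : (i ! : ℝ) ≠ 0 := by positivity
  rw [h1, show 2 * (j + i) + 1 = 2 * j + 2 * i + 1 by ring, pow_succ, pow_add]
  field_simp
  ring

/-- the exact (rational) power series coefficients: `∫ q^(2j) gw m q = dco m j` -/
def dco (m j : ℕ) : ℚ :=
  ∑ i ∈ Finset.range (m + 1), (m.choose i : ℚ) * (-1) ^ i * 2 ^ (2 * j + i + 1) * ((j + i)! : ℚ) / (i ! : ℚ)

theorem integral_pow_gw (m j : ℕ) :
    ∫ q in Ioi (0 : ℝ), q ^ (2 * j) * gw m q = (dco m j : ℝ) := by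
  simp only [pow_mul_gw]
  rw [integral_finsetSum]
  · unfold dco
    push_cast
    apply Finset.sum_congr rfl
    intro i _
    rw [integral_const_mul, integral_gauss_moment]
    have h2 : (i ! : ℝ) ≠ 0 := by positivity
    have h3 : (4 : ℝ) ^ (j + i) = 2 ^ (2 * j + i) * 2 ^ i := by
      rw [← pow_add, show 2 * j + i + i = 2 * (j + i) by ring, pow_mul]; norm_num
    rw [h3, pow_succ (2 : ℝ) (2 * j + i)]
    field_simp
  · intro i _
    exact (integrable_gauss_moment _).const_mul _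

theorem fact_ratio (J i : ℕ) : ((J + i)! : ℝ) / (i ! : ℝ) ≤ (J ! : ℝ) * 2 ^ (J + i) := by
  have h1 : ((J + i).choose i : ℝ) ≤ 2 ^ (J + i) := by
    exact_mod_cast Nat.choose_le_two_pow (J + i) i
  have h2 : ((J + i)! : ℝ) = ((J + i).choose i : ℝ) * (J ! : ℝ) * (i ! : ℝ) := by
    have := Nat.add_choose_mul_factorial_mul_factorial J i
    exact_mod_cast this.symm
  rw [h2]
  have h3 : (0 : ℝ) < (i ! : ℝ) := by positivity
  rw [mul_div_assoc, div_self h3.ne', mul_one, mul_comm]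
  exact mul_le_mul_of_nonneg_left h1 (by positivity)

theorem integral_abs_pow_gw_le (m J : ℕ) :
    ∫ q in Ioi (0 : ℝ), |q ^ (2 * J) * gw m q| ≤ 2 * 6 ^ m * 8 ^ J * (J ! : ℝ) := by
  have hi : ∀ i, IntegrableOn (fun q : ℝ => ((m.choose i : ℝ) / ((i ! : ℝ) * 2 ^ i)) *
      (q ^ (2 * (J + i) + 1) * Real.exp (-(q ^ 2) / 4))) (Ioi 0) :=
    fun i => (integrable_gauss_moment _).const_mul _
  calc ∫ q in Ioi (0 : ℝ), |q ^ (2 * J) * gw m q|
      ≤ ∫ q in Ioi (0 : ℝ), ∑ i ∈ Finset.range (m + 1), ((m.choose i : ℝ) / ((i ! : ℝ) * 2 ^ i)) *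
      (q ^ (2 * (J + i) + 1) * Real.exp (-(q ^ 2) / 4)) := by
        apply setIntegral_mono_on _ _ measurableSet_Ioi
        · intro q hq
          have hq0 : (0 : ℝ) < q := hq
          rw [pow_mul_gw]
          refine (Finset.abs_sum_le_sum_abs _ _).trans (Finset.sum_le_sum fun i _ => le_of_eq ?_)
          rw [abs_mul, abs_div, abs_mul, abs_pow, abs_neg, abs_one, one_pow, mul_one,
            abs_of_nonneg (show (0 : ℝ) ≤ (m.choose i : ℝ) by positivity),
            abs_of_nonneg (show (0 : ℝ) ≤ (i ! : ℝ) * 2 ^ i by positivity),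
            abs_of_nonneg (show (0 : ℝ) ≤ q ^ (2 * (J + i) + 1) * Real.exp (-(q ^ 2) / 4) by positivity)]
        · exact ((gm_gw m).2 (2 * J)).abs
        · exact integrable_finsetSum _ fun i _ => hi i
    _ = ∑ i ∈ Finset.range (m + 1), ((m.choose i : ℝ) / ((i ! : ℝ) * 2 ^ i)) *
          (2 * 4 ^ (J + i) * ((J + i)! : ℝ)) := by
        rw [integral_finsetSum _ fun i _ => hi i]
        apply Finset.sum_congr rfl
        intro i _
        rw [integral_const_mul, integral_gauss_moment]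
    _ ≤ ∑ i ∈ Finset.range (m + 1), (2 * 2 ^ m * 8 ^ J * (J ! : ℝ)) * ((m.choose i : ℝ) * 2 ^ i) := by
        apply Finset.sum_le_sum
        intro i hi
        have him : i ≤ m := by simpa [Nat.lt_succ_iff] using hi
        have h1 := fact_ratio J i
        have h2 : ((m.choose i : ℝ) / ((i ! : ℝ) * 2 ^ i)) * (2 * 4 ^ (J + i) * ((J + i)! : ℝ)) =
            (2 * (m.choose i : ℝ) * 4 ^ J * 2 ^ i) * (((J + i)! : ℝ) / (i ! : ℝ)) := by
          have h3 : (4 : ℝ) ^ (J + i) = 4 ^ J * (2 ^ i * 2 ^ i) := by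
            rw [pow_add, ← mul_pow]; norm_num
          have h4 : (i ! : ℝ) ≠ 0 := by positivity
          rw [h3]
          field_simp
        rw [h2]
        refine (mul_le_mul_of_nonneg_left h1 (by positivity)).trans ?_
        have h5 : (2 : ℝ) ^ i ≤ 2 ^ m := pow_le_pow_right₀ (by norm_num) him
        have h6 : (8 : ℝ) ^ J = 4 ^ J * 2 ^ J := by rw [← mul_pow]; norm_num
        rw [pow_add, h6]
        have h7 : 0 ≤ 2 * (m.choose i : ℝ) * 4 ^ J * 2 ^ i * ((J ! : ℝ) * 2 ^ J) := by positivity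
        calc 2 * (m.choose i : ℝ) * 4 ^ J * 2 ^ i * ((J ! : ℝ) * (2 ^ J * 2 ^ i))
            = (2 * (m.choose i : ℝ) * 4 ^ J * 2 ^ i * ((J ! : ℝ) * 2 ^ J)) * 2 ^ i := by ring
          _ ≤ (2 * (m.choose i : ℝ) * 4 ^ J * 2 ^ i * ((J ! : ℝ) * 2 ^ J)) * 2 ^ m :=
              mul_le_mul_of_nonneg_left h5 h7
          _ = _ := by ring
    _ = 2 * 6 ^ m * 8 ^ J * (J ! : ℝ) := by
        rw [← Finset.mul_sum]
        have h8 : ∑ i ∈ Finset.range (m + 1), (m.choose i : ℝ) * 2 ^ i = 3 ^ m := by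
          have := add_pow (2 : ℝ) 1 m
          norm_num at this
          rw [this]
          apply Finset.sum_congr rfl
          intro i _
          ring
        rw [h8, show (6 : ℝ) ^ m = 2 ^ m * 3 ^ m by rw [← mul_pow]; norm_num]
        ring

/-! ### the series -/

/-- partial sums of the power series of `Dsel m` (rational function of a rational argument) -/
def serD (J m : ℕ) (x : ℚ) : ℚ :=
  ∑ j ∈ Finset.range J, (-1) ^ j * x ^ (2 * j) / ((2 * j)! : ℚ) * dco m j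

/-- partial sums of the power series of `deriv (Dsel m)` -/
def serD' (J m : ℕ) (x : ℚ) : ℚ :=
  ∑ j ∈ Finset.range J, -((-1) ^ j * x ^ (2 * j + 1) / ((2 * j + 1)! : ℚ) * dco m (j + 1))

def serR (J m : ℕ) (x : ℝ) : ℝ :=
  ∑ j ∈ Finset.range J, (-1) ^ j * x ^ (2 * j) / ((2 * j)! : ℝ) * (dco m j : ℝ)

def serR' (J m : ℕ) (x : ℝ) : ℝ :=
  ∑ j ∈ Finset.range J, -((-1) ^ j * x ^ (2 * j + 1) / ((2 * j + 1)! : ℝ) * (dco m (j + 1) : ℝ))

theorem serD_cast (J m : ℕ) (x : ℚ) : ((serD J m x : ℚ) : ℝ) = serR J m (x : ℝ) := by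
  unfold serD serR; push_cast; rfl

theorem serD'_cast (J m : ℕ) (x : ℚ) : ((serD' J m x : ℚ) : ℝ) = serR' J m (x : ℝ) := by
  unfold serD' serR'; push_cast; rfl

theorem serR_eq (J m : ℕ) (x : ℝ) :
    serR J m x = ∫ q in Ioi (0 : ℝ), gw m q * cosT J (q * x) := by
  have h1 : ∀ q : ℝ, gw m q * cosT J (q * x) =
      ∑ j ∈ Finset.range J, ((-1) ^ j * x ^ (2 * j) / ((2 * j)! : ℝ)) * (q ^ (2 * j) * gw m q) := by
    intro q
    unfold cosT
    rw [Finset.mul_sum]
    apply Finset.sum_congr rfl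
    intro j _
    rw [mul_pow]; ring
  simp only [h1]
  rw [integral_finsetSum _ fun j _ => ((gm_gw m).2 (2 * j)).const_mul _]
  unfold serR
  apply Finset.sum_congr rfl
  intro j _
  rw [integral_const_mul, integral_pow_gw]

theorem integrableOn_gw_cosT (J m : ℕ) (x : ℝ) :
    IntegrableOn (fun q => gw m q * cosT J (q * x)) (Ioi 0) := by
  have h1 : (fun q : ℝ => gw m q * cosT J (q * x)) = fun q =>
      ∑ j ∈ Finset.range J, ((-1) ^ j * x ^ (2 * j) / ((2 * j)! : ℝ)) * (q ^ (2 * j) * gw m q) := by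
    funext q
    unfold cosT
    rw [Finset.mul_sum]
    apply Finset.sum_congr rfl
    intro j _
    rw [mul_pow]; ring
  rw [h1]
  exact integrable_finsetSum _ fun j _ => ((gm_gw m).2 (2 * j)).const_mul _

theorem abs_Dsel_sub_serR (J m : ℕ) (x : ℝ) :
    |Dsel m x - serR J m x| ≤ 2 * 6 ^ m * (8 * x ^ 2 / ((J : ℝ) + 1)) ^ J := by
  have h0 : Dsel m x - serR J m x =
      ∫ q in Ioi (0 : ℝ), gw m q * (Real.cos (q * x) - cosT J (q * x)) := by
    rw [serR_eq]
    have h1 : Dsel m x = ∫ q in Ioi (0 : ℝ), gw m q * Real.cos (q * x) := rfl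
    rw [h1, ← integral_sub]
    · congr 1; ext q; ring
    · have := (gm_gw m).integrableOn_cos 0 x
      simp only [add_zero] at this
      exact this
    · exact integrableOn_gw_cosT J m x
  have hb : ∀ q ∈ Ioi (0 : ℝ), ‖gw m q * (Real.cos (q * x) - cosT J (q * x))‖ ≤
      (|x| ^ (2 * J) / ((2 * J)! : ℝ)) * |q ^ (2 * J) * gw m q| := by
    intro q hq
    have hq0 : (0 : ℝ) < q := hq
    rw [norm_mul, Real.norm_eq_abs, Real.norm_eq_abs]
    have h2 := abs_cos_sub_cosT J (q * x)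
    rw [abs_mul, mul_pow, abs_of_pos hq0] at h2
    have h3 : (|x| ^ (2 * J) / ((2 * J)! : ℝ)) * |q ^ (2 * J) * gw m q| =
        |gw m q| * (q ^ (2 * J) * |x| ^ (2 * J) / ((2 * J)! : ℝ)) := by
      rw [abs_mul, abs_pow, abs_of_pos hq0]; ring
    rw [h3]
    exact mul_le_mul_of_nonneg_left h2 (abs_nonneg _)
  rw [h0, ← Real.norm_eq_abs]
  refine (norm_integral_le_integral_norm _).trans ?_
  have h4 : ∫ q in Ioi (0 : ℝ), ‖gw m q * (Real.cos (q * x) - cosT J (q * x))‖ ≤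
      ∫ q in Ioi (0 : ℝ), (|x| ^ (2 * J) / ((2 * J)! : ℝ)) * |q ^ (2 * J) * gw m q| := by
    apply setIntegral_mono_on _ _ measurableSet_Ioi hb
    · apply Integrable.norm
      have a1 := (gm_gw m).integrableOn_cos 0 x
      simp only [add_zero] at a1
      refine (a1.sub (integrableOn_gw_cosT J m x)).congr ?_
      filter_upwards with q
      simp only [Pi.sub_apply]
      ring
    · exact ((gm_gw m).2 (2 * J)).abs.const_mul _
  refine h4.trans ?_
  rw [integral_const_mul]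
  have h5 := integral_abs_pow_gw_le m J
  have hx : |x| ^ (2 * J) = (x ^ 2) ^ J := by rw [pow_mul, sq_abs]
  refine (mul_le_mul_of_nonneg_left h5 (by positivity)).trans ?_
  rw [hx]
  have h6 : (J ! : ℝ) * ((J : ℝ) + 1) ^ J ≤ ((2 * J)! : ℝ) := by
    have := Nat.factorial_mul_pow_le_factorial (m := J) (n := J)
    rw [← two_mul] at this
    exact_mod_cast this
  rw [div_pow, mul_pow]
  have h7 : (0 : ℝ) < ((2 * J)! : ℝ) := by positivity
  have h8 : (0 : ℝ) < ((J : ℝ) + 1) ^ J := by positivity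
  rw [div_mul_eq_mul_div, div_le_iff₀ h7, mul_div_assoc', div_mul_eq_mul_div, le_div_iff₀ h8]
  have h9 : 0 ≤ (x ^ 2) ^ J * (2 * 6 ^ m * 8 ^ J) := by positivity
  nlinarith [mul_le_mul_of_nonneg_left h6 h9]

theorem deriv_Dsel_eq (m : ℕ) (x : ℝ) :
    deriv (Dsel m) x = -∫ q in Ioi (0 : ℝ), (q ^ 1 * gw m q) * Real.sin (q * x) := by
  rw [Dsel_eq, (hasDerivAt_CT (gm_gw m) 0 x).deriv, ← integral_neg]
  unfold CT
  apply setIntegral_congr_fun measurableSet_Ioi
  intro q _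
  simp only
  rw [zero_add, Real.cos_add_pi_div_two]
  ring

theorem gw_sinT (J m : ℕ) (x q : ℝ) : (q ^ 1 * gw m q) * sinT J (q * x) =
      ∑ j ∈ Finset.range J, ((-1) ^ j * x ^ (2 * j + 1) / ((2 * j + 1)! : ℝ)) *
        (q ^ (2 * (j + 1)) * gw m q) := by
  unfold sinT
  rw [Finset.mul_sum]
  apply Finset.sum_congr rfl
  intro j _
  rw [mul_pow, show 2 * (j + 1) = 2 * j + 1 + 1 by ring, pow_succ q (2 * j + 1)]; ring

theorem integrableOn_gw_sinT (J m : ℕ) (x : ℝ) :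
    IntegrableOn (fun q => (q ^ 1 * gw m q) * sinT J (q * x)) (Ioi 0) := by
  simp only [gw_sinT]
  exact integrable_finsetSum _ fun j _ => ((gm_gw m).2 (2 * (j + 1))).const_mul _

theorem serR'_eq (J m : ℕ) (x : ℝ) :
    serR' J m x = -∫ q in Ioi (0 : ℝ), (q ^ 1 * gw m q) * sinT J (q * x) := by
  simp only [gw_sinT]
  rw [integral_finsetSum _ fun j _ => ((gm_gw m).2 (2 * (j + 1))).const_mul _,
    ← Finset.sum_neg_distrib]
  unfold serR'
  apply Finset.sum_congr rfl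
  intro j _
  rw [integral_const_mul, integral_pow_gw]

theorem abs_deriv_Dsel_sub_serR' (J m : ℕ) (x : ℝ) :
    |deriv (Dsel m) x - serR' J m x| ≤ 16 * 6 ^ m * |x| * (8 * x ^ 2 / ((J : ℝ) + 1)) ^ J := by
  have isin : IntegrableOn (fun q => (q ^ 1 * gw m q) * Real.sin (q * x)) (Ioi 0) := by
    have a1 := ((gm_gw m).pow_mul 1).integrableOn_cos (-(Real.pi / 2)) x
    refine a1.congr_fun (fun q _ => ?_) measurableSet_Ioi
    simp only
    rw [← sub_eq_add_neg, Real.cos_sub_pi_div_two]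
  have h0 : deriv (Dsel m) x - serR' J m x =
      -∫ q in Ioi (0 : ℝ), (q ^ 1 * gw m q) * (Real.sin (q * x) - sinT J (q * x)) := by
    rw [serR'_eq, deriv_Dsel_eq]
    have : ∫ q in Ioi (0 : ℝ), (q ^ 1 * gw m q) * (Real.sin (q * x) - sinT J (q * x)) =
        (∫ q in Ioi (0 : ℝ), (q ^ 1 * gw m q) * Real.sin (q * x)) -
        ∫ q in Ioi (0 : ℝ), (q ^ 1 * gw m q) * sinT J (q * x) := by
      rw [← integral_sub isin (integrableOn_gw_sinT J m x)]
      congr 1; ext q; ring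
    rw [this]; ring
  have hb : ∀ q ∈ Ioi (0 : ℝ), ‖(q ^ 1 * gw m q) * (Real.sin (q * x) - sinT J (q * x))‖ ≤
      (|x| ^ (2 * J + 1) / ((2 * J + 1)! : ℝ)) * |q ^ (2 * (J + 1)) * gw m q| := by
    intro q hq
    have hq0 : (0 : ℝ) < q := hq
    rw [norm_mul, Real.norm_eq_abs, Real.norm_eq_abs]
    have h2 := abs_sin_sub_sinT J (q * x)
    rw [abs_mul, mul_pow, abs_of_pos hq0] at h2
    have h3 : (|x| ^ (2 * J + 1) / ((2 * J + 1)! : ℝ)) * |q ^ (2 * (J + 1)) * gw m q| =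
        |q ^ 1 * gw m q| * (q ^ (2 * J + 1) * |x| ^ (2 * J + 1) / ((2 * J + 1)! : ℝ)) := by
      rw [abs_mul, abs_pow, abs_of_pos hq0, abs_mul, abs_pow, abs_of_pos hq0,
        show 2 * (J + 1) = 2 * J + 1 + 1 by ring, pow_succ q (2 * J + 1)]; ring
    rw [h3]
    exact mul_le_mul_of_nonneg_left h2 (abs_nonneg _)
  rw [h0, abs_neg, ← Real.norm_eq_abs]
  refine (norm_integral_le_integral_norm _).trans ?_
  have h4 : ∫ q in Ioi (0 : ℝ), ‖(q ^ 1 * gw m q) * (Real.sin (q * x) - sinT J (q * x))‖ ≤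
      ∫ q in Ioi (0 : ℝ), (|x| ^ (2 * J + 1) / ((2 * J + 1)! : ℝ)) * |q ^ (2 * (J + 1)) * gw m q| := by
    apply setIntegral_mono_on _ _ measurableSet_Ioi hb
    · apply Integrable.norm
      refine (isin.sub (integrableOn_gw_sinT J m x)).congr ?_
      filter_upwards with q
      simp only [Pi.sub_apply]
      ring
    · exact ((gm_gw m).2 (2 * (J + 1))).abs.const_mul _
  refine h4.trans ?_
  rw [integral_const_mul]
  have h5 := integral_abs_pow_gw_le m (J + 1)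
  have hx : |x| ^ (2 * J + 1) = |x| * (x ^ 2) ^ J := by rw [pow_succ, pow_mul, sq_abs]; ring
  refine (mul_le_mul_of_nonneg_left h5 (by positivity)).trans ?_
  rw [hx]
  have h6 : ((J + 1)! : ℝ) * ((J : ℝ) + 1) ^ J ≤ ((2 * J + 1)! : ℝ) := by
    have a1 := Nat.factorial_mul_pow_le_factorial (m := J + 1) (n := J)
    have a2 : (J + 1)! * (J + 1) ^ J ≤ (J + 1)! * (J + 1 + 1) ^ J :=
      Nat.mul_le_mul_left _ (Nat.pow_le_pow_left (by omega) J)
    have a3 := a2.trans a1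
    rw [show J + 1 + J = 2 * J + 1 by ring] at a3
    exact_mod_cast a3
  rw [div_pow, mul_pow]
  have h7 : (0 : ℝ) < ((2 * J + 1)! : ℝ) := by positivity
  have h8 : (0 : ℝ) < ((J : ℝ) + 1) ^ J := by positivity
  rw [div_mul_eq_mul_div, div_le_iff₀ h7, mul_div_assoc', div_mul_eq_mul_div, le_div_iff₀ h8]
  have h9 : 0 ≤ |x| * (x ^ 2) ^ J * (2 * 6 ^ m * 8 ^ (J + 1)) := by positivity
  have h10 := mul_le_mul_of_nonneg_left h6 h9
  calc |x| * (x ^ 2) ^ J * (2 * 6 ^ m * 8 ^ (J + 1) * ((J + 1)! : ℝ)) * ((J : ℝ) + 1) ^ J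
      = |x| * (x ^ 2) ^ J * (2 * 6 ^ m * 8 ^ (J + 1)) * (((J + 1)! : ℝ) * ((J : ℝ) + 1) ^ J) := by ring
    _ ≤ |x| * (x ^ 2) ^ J * (2 * 6 ^ m * 8 ^ (J + 1)) * ((2 * J + 1)! : ℝ) := h10
    _ = _ := by rw [pow_succ]; ring

end Crest.Agent.R338.Lag
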