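import Crest.Agent.R338.Lag5
import Crest.Agent.R338.Nu1

/-!
Row 338, G.6 (helper695): `Dsel m x` and `deriv (Dsel m) x` are computable in polynomial time for
unary `m` and computable `x` with a unary bound.
-/

set_option autoImplicit false

open scoped Nat

noncomputable section
namespace Crest.Agent.R338.Lag
open Crest.Agent.Lib.PT Crest.Agent.R338.Nu

variable {α : Type} [PTCode α]

theorem dco_eq_real (m j : ℕ) : ((dco m j : ℚ) : ℝ) =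
    ∑ i ∈ Finset.range (m + 1), (m ! : ℝ) * (i ! : ℝ)⁻¹ * ((m - i)! : ℝ)⁻¹ * (-1) ^ i *
      2 ^ (2 * j + i + 1) * ((j + i)! : ℝ) * (i ! : ℝ)⁻¹ := by
  unfold dco
  push_cast
  apply Finset.sum_congr rfl
  intro i hi
  have him : i ≤ m := by simpa [Nat.lt_succ_iff] using hi
  have h1 : (m.choose i : ℝ) = (m ! : ℝ) * (i ! : ℝ)⁻¹ * ((m - i)! : ℝ)⁻¹ := by
    rw [Nat.cast_choose ℝ him, div_eq_mul_inv, mul_inv, mul_assoc]
  rw [h1]
  ring

theorem ptr_dco {m j : α → ℕ} (hm : PTU m) (hj : PTU j) :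
    PTR (fun a => ((dco (m a) (j a) : ℚ) : ℝ)) := by
  have hm1 : PTU (fun p : α × Un => m p.1) := PTU.comp hm PTF.fst
  have hj1 : PTU (fun p : α × Un => j p.1) := PTU.comp hj PTF.fst
  have hneg : PTR (fun _ : α × Un => (-1 : ℝ)) :=
    (PTR.constRat (-1)).of_eq (fun _ => by norm_num)
  have htwo : PTR (fun _ : α × Un => (2 : ℝ)) := PTR.ofNat 2
  have h := PTR.sumRange (n := fun a => m a + 1)
    (r := fun a i => ((m a)! : ℝ) * (i ! : ℝ)⁻¹ * ((m a - i)! : ℝ)⁻¹ * (-1) ^ i *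
      2 ^ (2 * j a + i + 1) * ((j a + i)! : ℝ) * (i ! : ℝ)⁻¹) (PTU.succ hm)
    ((((((((PTR.factorial hm1).mul (PTR.factorialInv ptu_snd)).mul
      (PTR.factorialInv (PTU.sub hm1 ptu_snd))).mul (PTR.pow hneg ptu_snd)).mul
      (PTR.pow htwo (PTU.succ (PTU.add (PTU.mul (PTU.const 2) hj1) ptu_snd)))).mul
      (PTR.factorial (PTU.add hj1 ptu_snd))).mul (PTR.factorialInv ptu_snd)))
  exact h.of_eq (fun a => (dco_eq_real _ _).symm)

theorem ptr_serR {J m : α → ℕ} {x : α → ℝ} (hJ : PTU J) (hm : PTU m) (hx : PTR x) :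
    PTR (fun a => serR (J a) (m a) (x a)) := by
  have hneg : PTR (fun _ : α × Un => (-1 : ℝ)) :=
    (PTR.constRat (-1)).of_eq (fun _ => by norm_num)
  have h2j : PTU (fun p : α × Un => 2 * p.2.val) := PTU.mul (PTU.const 2) ptu_snd
  have h := PTR.sumRange (n := J)
    (r := fun a j => (-1) ^ j * x a ^ (2 * j) * ((2 * j)! : ℝ)⁻¹ * (dco (m a) j : ℝ)) hJ
    ((((PTR.pow hneg ptu_snd).mul (PTR.pow (hx.comp PTF.fst) h2j)).mul
      (PTR.factorialInv h2j)).mul (ptr_dco (PTU.comp hm PTF.fst) ptu_snd))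
  refine h.of_eq (fun a => ?_)
  unfold serR
  apply Finset.sum_congr rfl
  intro j _
  rw [div_eq_mul_inv]

theorem ptr_serR' {J m : α → ℕ} {x : α → ℝ} (hJ : PTU J) (hm : PTU m) (hx : PTR x) :
    PTR (fun a => serR' (J a) (m a) (x a)) := by
  have hneg : PTR (fun _ : α × Un => (-1 : ℝ)) :=
    (PTR.constRat (-1)).of_eq (fun _ => by norm_num)
  have h2j : PTU (fun p : α × Un => 2 * p.2.val + 1) := PTU.succ (PTU.mul (PTU.const 2) ptu_snd)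
  have h := PTR.sumRange (n := J)
    (r := fun a j => -((-1) ^ j * x a ^ (2 * j + 1) * ((2 * j + 1)! : ℝ)⁻¹ *
      (dco (m a) (j + 1) : ℝ))) hJ
    ((((PTR.pow hneg ptu_snd).mul (PTR.pow (hx.comp PTF.fst) h2j)).mul
      (PTR.factorialInv h2j)).mul (ptr_dco (PTU.comp hm PTF.fst) (PTU.succ ptu_snd))).neg
  refine h.of_eq (fun a => ?_)
  unfold serR'
  apply Finset.sum_congr rfl
  intro j _
  rw [div_eq_mul_inv]

/-- the remainder with `J = 32 B^2 + 3 m + 3 + k` terms -/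
theorem rem_bound {x : ℝ} {B m k : ℕ} (hx : |x| ≤ B) :
    2 * 6 ^ m * (8 * x ^ 2 / (((32 * B ^ 2 + 3 * m + 3 + k : ℕ) : ℝ) + 1)) ^
      (32 * B ^ 2 + 3 * m + 3 + k) ≤ (1 / 2 : ℝ) ^ k := by
  set J := 32 * B ^ 2 + 3 * m + 3 + k with hJ
  have h1 : x ^ 2 ≤ (B : ℝ) ^ 2 := by
    rw [← sq_abs x]; exact pow_le_pow_left₀ (abs_nonneg _) hx 2
  have h2 : 8 * x ^ 2 / ((J : ℝ) + 1) ≤ 1 / 4 := by
    rw [div_le_iff₀ (by positivity)]
    have h3 : (32 : ℝ) * (B : ℝ) ^ 2 ≤ (J : ℝ) := by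
      rw [hJ]; push_cast
      have : (0 : ℝ) ≤ (m : ℝ) := Nat.cast_nonneg m
      have : (0 : ℝ) ≤ (k : ℝ) := Nat.cast_nonneg k
      linarith
    linarith
  have h0 : 0 ≤ 8 * x ^ 2 / ((J : ℝ) + 1) := by positivity
  have h4 : (8 * x ^ 2 / ((J : ℝ) + 1)) ^ J ≤ (1 / 4) ^ J := pow_le_pow_left₀ h0 h2 J
  have h5 : (6 : ℝ) ^ m ≤ 8 ^ m := pow_le_pow_left₀ (by norm_num) (by norm_num) m
  have h6 : (1 / 4 : ℝ) ^ J ≤ (1 / 2) ^ (3 * m + 3 + k) * (1 / 2) ^ (3 * m + 3) := by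
    rw [← pow_add, show (1 / 4 : ℝ) = (1 / 2) ^ 2 by norm_num, ← pow_mul]
    apply pow_le_pow_of_le_one (by norm_num) (by norm_num)
    omega
  have h7 : (8 : ℝ) ^ m * (1 / 2) ^ (3 * m) = 1 := by
    rw [pow_mul, ← mul_pow]; norm_num
  have h8 : (1 / 2 : ℝ) ^ (3 * m + 3 + k) ≤ (1 / 2) ^ k :=
    pow_le_pow_of_le_one (by norm_num) (by norm_num) (by omega)
  have h9 : (0 : ℝ) < (1 / 2) ^ k := by positivity
  calc 2 * 6 ^ m * (8 * x ^ 2 / ((J : ℝ) + 1)) ^ J ≤ 2 * 8 ^ m *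
        ((1 / 2) ^ (3 * m + 3 + k) * (1 / 2) ^ (3 * m + 3)) := by
        gcongr
        exact h4.trans h6
    _ = (8 ^ m * (1 / 2) ^ (3 * m)) * (2 * (1 / 2) ^ 3) * (1 / 2) ^ (3 * m + 3 + k) := by
        rw [pow_add (1 / 2 : ℝ) (3 * m) 3]; ring
    _ = (1 / 4) * (1 / 2) ^ (3 * m + 3 + k) := by rw [h7]; norm_num
    _ ≤ 1 * (1 / 2) ^ k := by
        apply mul_le_mul (by norm_num) h8 (by positivity) (by norm_num)
    _ = _ := one_mul _

/-- **`Dsel m x` is computable** -/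
theorem PTR.Dsel {m B : α → ℕ} {x : α → ℝ} (hm : PTU m) (hx : PTR x) (hB : PTU B)
    (h : ∀ a, |x a| ≤ B a) : PTR (fun a => Lag.Dsel (m a) (x a)) := by
  have hm1 : PTU (fun p : α × Un => m p.1) := PTU.comp hm PTF.fst
  have hB1 : PTU (fun p : α × Un => B p.1) := PTU.comp hB PTF.fst
  have hJ : PTU (fun p : α × Un => 32 * B p.1 ^ 2 + 3 * m p.1 + 3 + p.2.val) :=
    PTU.add (PTU.add (PTU.add (PTU.mul (PTU.const 32) (PTU.pow hB1 2))
      (PTU.mul (PTU.const 3) hm1)) (PTU.const 3)) ptu_snd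
  have hR := ptr_serR (α := α × Un) hJ hm1 (hx.comp PTF.fst)
  refine PTR.limit hR (fun p => ?_)
  rw [abs_sub_comm]
  exact (abs_Dsel_sub_serR _ _ _).trans (rem_bound (h p.1))

/-- **`deriv (Dsel m) x` is computable** -/
theorem PTR.derivDsel {m B : α → ℕ} {x : α → ℝ} (hm : PTU m) (hx : PTR x) (hB : PTU B)
    (h : ∀ a, |x a| ≤ B a) : PTR (fun a => deriv (Lag.Dsel (m a)) (x a)) := by
  have hm1 : PTU (fun p : α × Un => m p.1) := PTU.comp hm PTF.fst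
  have hB1 : PTU (fun p : α × Un => B p.1) := PTU.comp hB PTF.fst
  have hk : PTU (fun p : α × Un => p.2.val + (3 + B p.1)) :=
    PTU.add ptu_snd (PTU.add (PTU.const 3) hB1)
  have hJ : PTU (fun p : α × Un => 32 * B p.1 ^ 2 + 3 * m p.1 + 3 + (p.2.val + (3 + B p.1))) :=
    PTU.add (PTU.add (PTU.add (PTU.mul (PTU.const 32) (PTU.pow hB1 2))
      (PTU.mul (PTU.const 3) hm1)) (PTU.const 3)) hk
  have hR := ptr_serR' (α := α × Un) hJ hm1 (hx.comp PTF.fst)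
  refine PTR.limit hR (fun p => ?_)
  rw [abs_sub_comm]
  refine (abs_deriv_Dsel_sub_serR' _ _ _).trans ?_
  have h1 := rem_bound (m := m p.1) (k := p.2.val + (3 + B p.1)) (h p.1)
  set J := 32 * B p.1 ^ 2 + 3 * m p.1 + 3 + (p.2.val + (3 + B p.1)) with hJd
  have h2 : |x p.1| ≤ 2 ^ B p.1 := by
    refine (h p.1).trans ?_
    exact_mod_cast (Nat.lt_two_pow_self).le
  have h3 : 0 ≤ 2 * 6 ^ m p.1 * (8 * x p.1 ^ 2 / ((J : ℝ) + 1)) ^ J := by positivity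
  calc 16 * 6 ^ m p.1 * |x p.1| * (8 * x p.1 ^ 2 / ((J : ℝ) + 1)) ^ J
      = 8 * |x p.1| * (2 * 6 ^ m p.1 * (8 * x p.1 ^ 2 / ((J : ℝ) + 1)) ^ J) := by ring
    _ ≤ 8 * 2 ^ B p.1 * (1 / 2) ^ (p.2.val + (3 + B p.1)) := by
        apply mul_le_mul _ h1 h3 (by positivity)
        exact mul_le_mul_of_nonneg_left h2 (by norm_num)
    _ = (1 / 2) ^ p.2.val := by
        rw [pow_add, pow_add]
        have : (2 : ℝ) ^ B p.1 * (1 / 2) ^ B p.1 = 1 := by rw [← mul_pow]; norm_num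
        calc 8 * 2 ^ B p.1 * ((1 / 2) ^ p.2.val * ((1 / 2) ^ 3 * (1 / 2) ^ B p.1))
            = (8 * (1 / 2) ^ 3) * (2 ^ B p.1 * (1 / 2) ^ B p.1) * (1 / 2 : ℝ) ^ p.2.val := by ring
          _ = _ := by rw [this]; norm_num

end Crest.Agent.R338.Lag
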