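import Crest.Agent.R338.LatDefs

/-!
Row 338, node C.1: `‖F1‖ ≤ (λ/2) exp(-a r²)` and the weak form `k1 = div F1`.
-/

set_option autoImplicit false

noncomputable section
open MeasureTheory Real Set Filter Topology
open scoped ContDiff

namespace Crest.Agent.R338.Lat

theorem gau_pos (τ : ℝ) (x : P3) : 0 < gau τ x := Real.exp_pos _

theorem gau_le_one (τ : ℝ) (x : P3) : gau τ x ≤ 1 := by
  unfold gau
  rw [Real.exp_le_one_iff]
  have : 0 ≤ τ ^ 2 * ‖x‖ ^ 2 := by positivity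
  linarith

/-- Gaussian tail as a function of `r` -/
theorem integral_Ioi_exp (r : ℝ) (hr : 0 < r) :
    ∫ τ in Ioi (0 : ℝ), Real.exp (-(τ ^ 2 * r ^ 2)) = √π / (2 * r) := by
  have h := integral_gaussian_Ioi (r ^ 2)
  have e : (fun τ : ℝ => Real.exp (-(τ ^ 2 * r ^ 2))) = fun τ => Real.exp (-(r ^ 2) * τ ^ 2) := by
    ext τ; congr 1; ring
  rw [e, h, Real.sqrt_div' _ (by positivity), Real.sqrt_sq hr.le]
  field_simp

theorem integrableOn_exp (r c : ℝ) (hr : 0 < r) :
    IntegrableOn (fun τ : ℝ => Real.exp (-(τ ^ 2 * r ^ 2))) (Ioi c) := by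
  have h := integrable_exp_neg_mul_sq (b := r ^ 2) (by positivity)
  refine (h.congr (Eventually.of_forall fun τ => ?_)).integrableOn
  simp only; congr 1; ring

/-- tail representation of `SR` -/
theorem SR_eq (a : ℝ) (x : P3) (hx : x ≠ 0) :
    SR a x = 2 / √π * ∫ τ in Ioi (√a), gau τ x := by
  have hr : 0 < ‖x‖ := norm_pos_iff.2 hx
  have hpi : 0 < √π := Real.sqrt_pos.2 Real.pi_pos
  have h1 := integral_Ioi_exp ‖x‖ hr
  have h2 : ∫ τ in Ioi (0 : ℝ), Real.exp (-(τ ^ 2 * ‖x‖ ^ 2)) =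
      (∫ τ in (0 : ℝ)..√a, gau τ x) + ∫ τ in Ioi (√a), gau τ x := by
    have h3 := intervalIntegral.integral_Ioi_sub_Ioi
      (f := fun τ : ℝ => Real.exp (-(τ ^ 2 * ‖x‖ ^ 2))) (μ := volume) (a := 0) (b := √a)
      (integrableOn_exp ‖x‖ 0 hr) (Real.sqrt_nonneg a)
    unfold gau
    linarith
  unfold SR LR
  have h4 : 1 / ‖x‖ = 2 / √π * ∫ τ in Ioi (0 : ℝ), Real.exp (-(τ ^ 2 * ‖x‖ ^ 2)) := by
    rw [h1]; field_simp
  rw [h4, h2]; ring

theorem SR_nonneg (a : ℝ) (x : P3) (hx : x ≠ 0) : 0 ≤ SR a x := by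
  rw [SR_eq a x hx]
  have : 0 ≤ ∫ τ in Ioi (√a), gau τ x := setIntegral_nonneg measurableSet_Ioi fun τ _ => (gau_pos τ x).le
  positivity

theorem integral_Ioi_shift {F : Type*} [NormedAddCommGroup F] [NormedSpace ℝ F] (f : ℝ → F) (c : ℝ) :
    ∫ τ in Ioi (0 : ℝ), f (τ + c) = ∫ τ in Ioi c, f τ := by
  have h := (measurePreserving_add_right (volume : Measure ℝ) c).setIntegral_preimage_emb
    (measurableEmbedding_addRight c) f (Ioi c)
  have e : (fun x : ℝ => x + c) ⁻¹' Ioi c = Ioi 0 := by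
    ext τ; simp
  rw [e] at h
  exact h

theorem integrableOn_Ioi_shift {F : Type*} [NormedAddCommGroup F] {f : ℝ → F} {c : ℝ}
    (hf : IntegrableOn f (Ioi c)) : IntegrableOn (fun τ => f (τ + c)) (Ioi 0) := by
  have h := (measurePreserving_add_right (volume : Measure ℝ) c).integrableOn_comp_preimage
    (measurableEmbedding_addRight c) (f := f) (s := Ioi c)
  have e : (fun x : ℝ => x + c) ⁻¹' Ioi c = Ioi 0 := by
    ext τ; simp
  rw [e] at h
  exact h.2 hf

/-- `∫_{√a}^∞ exp(-τ² r²) ≤ exp(-a r²) √π/(2 r)` -/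
theorem tail_le (a : ℝ) (x : P3) (hx : x ≠ 0) :
    ∫ τ in Ioi (√a), gau τ x ≤ gau (√a) x * (√π / (2 * ‖x‖)) := by
  have hr : 0 < ‖x‖ := norm_pos_iff.2 hx
  have h1 := integral_Ioi_exp ‖x‖ hr
  have h2 : ∫ τ in Ioi (√a), gau τ x = ∫ τ in Ioi (0 : ℝ), gau (τ + √a) x :=
    (integral_Ioi_shift (fun τ => gau τ x) (√a)).symm
  rw [h2, ← h1, ← integral_const_mul]
  refine setIntegral_mono_on ?_ ?_ measurableSet_Ioi ?_
  · have h3 : IntegrableOn (fun τ => gau τ x) (Ioi (√a)) := integrableOn_exp ‖x‖ (√a) hr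
    exact integrableOn_Ioi_shift h3
  · exact (integrableOn_exp ‖x‖ 0 hr).const_mul _
  · intro τ hτ
    have hτ : 0 < τ := hτ
    unfold gau
    rw [← Real.exp_add]
    apply Real.exp_le_exp.2
    have : 0 ≤ 2 * τ * √a * ‖x‖ ^ 2 := by positivity
    nlinarith [this]

theorem norm_F1_le (lam a : ℝ) (hl : 0 ≤ lam) (x : P3) :
    ‖F1 lam a x‖ ≤ lam / 2 * gau (√a) x := by
  unfold F1
  rcases eq_or_ne x 0 with rfl | hx
  · simp
    have := (gau_pos (√a) (0 : P3)).le
    positivity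
  · have hr : 0 < ‖x‖ := norm_pos_iff.2 hx
    have hpi : 0 < √π := Real.sqrt_pos.2 Real.pi_pos
    rw [norm_smul, Real.norm_eq_abs, abs_mul, abs_of_nonneg (SR_nonneg a x hx), abs_neg,
      abs_of_nonneg (by positivity : (0 : ℝ) ≤ lam / 2), mul_assoc]
    refine mul_le_mul_of_nonneg_left ?_ (by positivity)
    rw [SR_eq a x hx]
    have h := tail_le a x hx
    calc 2 / √π * (∫ τ in Ioi (√a), gau τ x) * ‖x‖
        ≤ 2 / √π * (gau (√a) x * (√π / (2 * ‖x‖))) * ‖x‖ := by gcongr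
      _ = gau (√a) x := by field_simp

end Crest.Agent.R338.Lat

namespace Crest.Agent.R338.Lat

variable {F' : Type*} [NormedAddCommGroup F'] [NormedSpace ℝ F']

/-- bounded continuous multiplier -/
theorem int_smul {φ : P3 → ℝ} (hφ : Continuous φ) {B : ℝ} (hB : ∀ x, |φ x| ≤ B) {g : P3 → F'}
    (hg : Integrable g) : Integrable (fun x => φ x • g x) := by
  refine (hg.norm.const_mul B).mono' (hφ.aestronglyMeasurable.smul hg.1)
    (Eventually.of_forall fun x => ?_)
  rw [norm_smul, Real.norm_eq_abs]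
  exact mul_le_mul_of_nonneg_right (hB x) (norm_nonneg _)

theorem norm_mul_gau_le (τ : ℝ) (hτ : 0 < τ) (x : P3) : ‖x‖ * gau τ x ≤ 1 / τ := by
  unfold gau
  have h0 := Real.add_one_le_exp (τ ^ 2 * ‖x‖ ^ 2)
  have h1 : τ * ‖x‖ ≤ Real.exp (τ ^ 2 * ‖x‖ ^ 2) := by nlinarith [sq_nonneg (τ * ‖x‖ - 1)]
  rw [Real.exp_neg, ← div_eq_mul_inv, div_le_div_iff₀ (Real.exp_pos _) hτ]
  linarith

theorem sq_mul_gau_le (τ : ℝ) (x : P3) : τ ^ 2 * ‖x‖ ^ 2 * gau τ x ≤ 1 := by
  unfold gau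
  have h0 := Real.add_one_le_exp (τ ^ 2 * ‖x‖ ^ 2)
  rw [Real.exp_neg, ← div_eq_mul_inv, div_le_one (Real.exp_pos _)]
  linarith

theorem hasFDerivAt_gau (τ : ℝ) (x : P3) :
    HasFDerivAt (gau τ) (gau τ x • (-(τ ^ 2) • ((2 : ℝ) • innerSL ℝ x))) x := by
  unfold gau
  have h1 : HasFDerivAt (fun x : P3 => ‖x‖ ^ 2) ((2 : ℝ) • innerSL ℝ x) x := by
    have h := (hasStrictFDerivAt_norm_sq x).hasFDerivAt
    rw [← Nat.cast_smul_eq_nsmul ℝ] at h
    exact_mod_cast h
  have h2 : HasFDerivAt (fun x : P3 => -(τ ^ 2 * ‖x‖ ^ 2)) (-(τ ^ 2) • ((2 : ℝ) • innerSL ℝ x)) x := by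
    have := (h1.const_mul (-(τ ^ 2)))
    refine this.congr_of_eventuallyEq (Eventually.of_forall fun y => ?_)
    simp only; ring
  exact h2.exp


/-- standard basis vectors -/
def bas (c : Fin 3) : P3 := EuclideanSpace.single c (1 : ℝ)

theorem sum_bas (x : P3) : ∑ c, x c • bas c = x := by
  ext i
  fin_cases i <;> simp [bas, Fin.sum_univ_three]

theorem inner_bas (x : P3) (c : Fin 3) : inner ℝ x (bas c) = x c := by
  simp [bas, EuclideanSpace.inner_single_right]

theorem hasFDerivAt_coord (c : Fin 3) (x : P3) :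
    HasFDerivAt (fun y : P3 => y c) (EuclideanSpace.proj c : P3 →L[ℝ] ℝ) x :=
  (EuclideanSpace.proj c : P3 →L[ℝ] ℝ).hasFDerivAt

theorem fderiv_xgau (τ : ℝ) (c : Fin 3) (x : P3) :
    fderiv ℝ (fun y : P3 => y c * gau τ y) x (bas c) = (1 - 2 * τ ^ 2 * x c ^ 2) * gau τ x := by
  have h := (hasFDerivAt_coord c x).mul (hasFDerivAt_gau τ x)
  have h' : fderiv ℝ (fun y : P3 => y c * gau τ y) x = _ := h.fderiv
  rw [h']
  simp only [add_apply, smul_apply, smul_eq_mul,
    innerSL_apply_apply, inner_bas]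
  have : (EuclideanSpace.proj c : P3 →L[ℝ] ℝ) (bas c) = 1 := by simp [bas]
  rw [this]; ring

theorem abs_coord_le (x : P3) (c : Fin 3) : |x c| ≤ ‖x‖ := by
  have := EuclideanSpace.norm_eq x
  rw [this]
  apply Real.abs_le_sqrt
  have h := Finset.single_le_sum (f := fun i => ‖x i‖ ^ 2) (fun i _ => by positivity)
    (Finset.mem_univ c)
  simpa using h

theorem continuous_coord (c : Fin 3) : Continuous fun x : P3 => x c :=
  (EuclideanSpace.proj c : P3 →L[ℝ] ℝ).continuous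

/-- Gaussian integration by parts, one coordinate -/
theorem ibp_coord (τ : ℝ) (hτ : 0 < τ) (c : Fin 3) {f : P3 → F'} (hf : ContDiff ℝ 1 f)
    (hi : Integrable f) (hi' : Integrable (fderiv ℝ f)) :
    ∫ x, (x c * gau τ x) • fderiv ℝ f x (bas c) =
      - ∫ x, ((1 - 2 * τ ^ 2 * x c ^ 2) * gau τ x) • f x := by
  have hd : ∀ x : P3, DifferentiableAt ℝ (fun y : P3 => y c * gau τ y) x := fun x =>
    ((hasFDerivAt_coord c x).mul (hasFDerivAt_gau τ x)).differentiableAt
  have hcont : Continuous fun x : P3 => x c * gau τ x :=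
    (continuous_coord c).mul (continuous_gau τ)
  have hb : ∀ x : P3, |x c * gau τ x| ≤ 1 / τ := fun x => by
    rw [abs_mul, abs_of_nonneg (gau_pos τ x).le]
    exact (mul_le_mul_of_nonneg_right (abs_coord_le x c) (gau_pos τ x).le).trans
      (norm_mul_gau_le τ hτ x)
  have hcont2 : Continuous fun x : P3 => (1 - 2 * τ ^ 2 * x c ^ 2) * gau τ x := by
    have := continuous_coord c
    have := continuous_gau τ
    fun_prop
  have hb2 : ∀ x : P3, |(1 - 2 * τ ^ 2 * x c ^ 2) * gau τ x| ≤ 3 := fun x => by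
    rw [abs_mul, abs_of_nonneg (gau_pos τ x).le]
    have h1 := gau_le_one τ x
    have h2 := sq_mul_gau_le τ x
    have h3 : x c ^ 2 ≤ ‖x‖ ^ 2 := by
      rw [← sq_abs]; exact pow_le_pow_left₀ (abs_nonneg _) (abs_coord_le x c) 2
    have h4 : |1 - 2 * τ ^ 2 * x c ^ 2| ≤ 1 + 2 * (τ ^ 2 * ‖x‖ ^ 2) := by
      rw [abs_le]
      constructor <;> nlinarith [sq_nonneg τ, sq_nonneg (x c), mul_le_mul_of_nonneg_left h3 (sq_nonneg τ), mul_nonneg (sq_nonneg τ) (sq_nonneg (x c))]
    calc |1 - 2 * τ ^ 2 * x c ^ 2| * gau τ x ≤ (1 + 2 * (τ ^ 2 * ‖x‖ ^ 2)) * gau τ x :=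
          mul_le_mul_of_nonneg_right h4 (gau_pos τ x).le
      _ ≤ 3 := by nlinarith
  have hfv : Integrable fun x => fderiv ℝ f x (bas c) :=
    hi'.apply_continuousLinearMap _
  have := integral_smul_fderiv_eq_neg_fderiv_smul_of_integrable (μ := (volume : Measure P3))
    (f := fun y : P3 => y c * gau τ y) (g := f) (v := bas c)
    (by simp only [fderiv_xgau]; exact int_smul hcont2 hb2 hi)
    (int_smul hcont hb hfv) (int_smul hcont hb hi) (fun x _ => hd x)
    (fun x _ => hf.differentiable (by simp) x)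
  simpa only [fderiv_xgau] using this

/-- Gaussian integration by parts -/
theorem ibp_gau (τ : ℝ) (hτ : 0 < τ) {f : P3 → F'} (hf : ContDiff ℝ 1 f)
    (hi : Integrable f) (hi' : Integrable (fderiv ℝ f)) :
    ∫ x, gau τ x • fderiv ℝ f x x = - ∫ x, ((3 - 2 * τ ^ 2 * ‖x‖ ^ 2) * gau τ x) • f x := by
  have e1 : ∀ x : P3, gau τ x • fderiv ℝ f x x =
      ∑ c, (x c * gau τ x) • fderiv ℝ f x (bas c) := fun x => by
    conv_lhs => rw [← sum_bas x, map_sum, sum_bas]
    rw [Finset.smul_sum]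
    refine Finset.sum_congr rfl fun c _ => ?_
    rw [map_smul, smul_smul, mul_comm]
  have e2 : ∀ x : P3, ((3 - 2 * τ ^ 2 * ‖x‖ ^ 2) * gau τ x) • f x =
      ∑ c, ((1 - 2 * τ ^ 2 * x c ^ 2) * gau τ x) • f x := fun x => by
    rw [← Finset.sum_smul, ← Finset.sum_mul]
    congr 2
    rw [norm_sq_P3, Fin.sum_univ_three, Fin.sum_univ_three]; ring
  have i1 : ∀ c, Integrable fun x : P3 => (x c * gau τ x) • fderiv ℝ f x (bas c) := fun c => by
    have hb : ∀ x : P3, |x c * gau τ x| ≤ 1 / τ := fun x => by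
      rw [abs_mul, abs_of_nonneg (gau_pos τ x).le]
      exact (mul_le_mul_of_nonneg_right (abs_coord_le x c) (gau_pos τ x).le).trans
        (norm_mul_gau_le τ hτ x)
    exact int_smul ((continuous_coord c).mul (continuous_gau τ)) hb
      (hi'.apply_continuousLinearMap _)
  have i2 : ∀ c, Integrable fun x : P3 => ((1 - 2 * τ ^ 2 * x c ^ 2) * gau τ x) • f x :=
    fun c => by
    have hcont2 : Continuous fun x : P3 => (1 - 2 * τ ^ 2 * x c ^ 2) * gau τ x := by
      have := continuous_coord c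
      have := continuous_gau τ
      fun_prop
    refine int_smul hcont2 (B := 3) (fun x => ?_) hi
    rw [abs_mul, abs_of_nonneg (gau_pos τ x).le]
    have h1 := gau_le_one τ x
    have h2 := sq_mul_gau_le τ x
    have h3 : x c ^ 2 ≤ ‖x‖ ^ 2 := by
      rw [← sq_abs]; exact pow_le_pow_left₀ (abs_nonneg _) (abs_coord_le x c) 2
    have h4 : |1 - 2 * τ ^ 2 * x c ^ 2| ≤ 1 + 2 * (τ ^ 2 * ‖x‖ ^ 2) := by
      rw [abs_le]
      constructor <;> nlinarith [sq_nonneg τ, sq_nonneg (x c), mul_le_mul_of_nonneg_left h3 (sq_nonneg τ), mul_nonneg (sq_nonneg τ) (sq_nonneg (x c))]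
    calc |1 - 2 * τ ^ 2 * x c ^ 2| * gau τ x ≤ (1 + 2 * (τ ^ 2 * ‖x‖ ^ 2)) * gau τ x :=
          mul_le_mul_of_nonneg_right h4 (gau_pos τ x).le
      _ ≤ 3 := by nlinarith
  simp_rw [e1, e2]
  rw [integral_finsetSum _ fun c _ => i1 c, integral_finsetSum _ fun c _ => i2 c,
    ← Finset.sum_neg_distrib]
  exact Finset.sum_congr rfl fun c _ => ibp_coord τ hτ c hf hi hi'

/-- truncated tail -/
def HT (a T : ℝ) (x : P3) : ℝ := ∫ τ in (√a)..T, gau τ x

theorem ftc_gau (a T : ℝ) (x : P3) :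
    ∫ τ in (√a)..T, (1 - 2 * τ ^ 2 * ‖x‖ ^ 2) * gau τ x = T * gau T x - √a * gau (√a) x := by
  have hd : ∀ τ ∈ uIcc (√a) T, HasDerivAt (fun τ : ℝ => τ * gau τ x)
      ((1 - 2 * τ ^ 2 * ‖x‖ ^ 2) * gau τ x) τ := fun τ _ => by
    have h1 : HasDerivAt (fun τ : ℝ => gau τ x) (gau τ x * (-(2 * τ * ‖x‖ ^ 2))) τ := by
      unfold gau
      have h2 : HasDerivAt (fun τ : ℝ => -(τ ^ 2 * ‖x‖ ^ 2)) (-(2 * τ * ‖x‖ ^ 2)) τ := by
        have := ((hasDerivAt_pow 2 τ).mul_const (‖x‖ ^ 2)).fun_neg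
        simpa using this
      exact h2.exp
    have := (hasDerivAt_id τ).mul h1
    refine this.congr_deriv ?_
    simp only [id]; ring
  refine intervalIntegral.integral_eq_sub_of_hasDerivAt hd ?_
  refine Continuous.intervalIntegrable ?_ _ _
  have := continuous_gau_param x
  fun_prop

theorem integral_div_T (a T : ℝ) (x : P3) :
    ∫ τ in (√a)..T, (3 - 2 * τ ^ 2 * ‖x‖ ^ 2) * gau τ x =
      2 * HT a T x + (T * gau T x - √a * gau (√a) x) := by
  rw [← ftc_gau, HT, ← intervalIntegral.integral_const_mul, ← intervalIntegral.integral_add]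
  · congr 1; ext τ; ring
  · exact ((continuous_gau_param x).intervalIntegrable _ _).const_mul _
  · refine Continuous.intervalIntegrable ?_ _ _
    have := continuous_gau_param x
    fun_prop

theorem continuous_gau2 : Continuous fun p : ℝ × P3 => gau p.1 p.2 := by
  unfold gau; fun_prop

/-- truncated weak form -/
theorem weak_T [CompleteSpace F'] (a T : ℝ) (ha : 0 < a) (hT : √a ≤ T) {f : P3 → F'} (hf : ContDiff ℝ 1 f)
    (hi : Integrable f) (hi' : Integrable (fderiv ℝ f)) :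
    ∫ x, HT a T x • fderiv ℝ f x x =
      - ∫ x, (2 * HT a T x + (T * gau T x - √a * gau (√a) x)) • f x := by
  have hsa : 0 < √a := Real.sqrt_pos.2 ha
  have : IsFiniteMeasure ((volume : Measure ℝ).restrict (uIoc (√a) T)) := by
    unfold uIoc; infer_instance
  have hfd : Continuous (fderiv ℝ f) := hf.continuous_fderiv (by simp)
  have hfc : Continuous f := hf.continuous
  have I1 : Integrable (Function.uncurry fun (τ : ℝ) (x : P3) => gau τ x • fderiv ℝ f x x)
      ((volume.restrict (uIoc (√a) T)).prod volume) := by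
    have hg : Integrable (fun p : ℝ × P3 => (1 / √a) * ‖fderiv ℝ f p.2‖)
        ((volume.restrict (uIoc (√a) T)).prod volume) :=
      (hi'.norm.const_mul (1 / √a)).comp_snd _
    refine hg.mono' ?_ ?_
    · refine Continuous.aestronglyMeasurable ?_
      have := continuous_gau2
      simp only [Function.uncurry_def]
      exact this.smul ((hfd.comp continuous_snd).clm_apply continuous_snd)
    · have hm : ∀ᵐ p : ℝ × P3 ∂((volume.restrict (uIoc (√a) T)).prod volume),
          p.1 ∈ uIoc (√a) T := by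
        have : ∀ᵐ τ : ℝ ∂(volume.restrict (uIoc (√a) T)), τ ∈ uIoc (√a) T :=
          ae_restrict_mem measurableSet_uIoc
        exact Measure.quasiMeasurePreserving_fst.ae this
      filter_upwards [hm] with p hp
      rw [uIoc_of_le hT] at hp
      have hp1 : 0 < p.1 := hsa.trans hp.1
      simp only [Function.uncurry]
      rw [norm_smul, Real.norm_eq_abs, abs_of_pos (gau_pos _ _)]
      calc gau p.1 p.2 * ‖fderiv ℝ f p.2 p.2‖ ≤ gau p.1 p.2 * (‖fderiv ℝ f p.2‖ * ‖p.2‖) := by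
            gcongr
            · exact (gau_pos _ _).le
            · exact ContinuousLinearMap.le_opNorm _ _
        _ = (‖p.2‖ * gau p.1 p.2) * ‖fderiv ℝ f p.2‖ := by ring
        _ ≤ (1 / √a) * ‖fderiv ℝ f p.2‖ := by
            gcongr
            exact (norm_mul_gau_le p.1 hp1 p.2).trans
              (one_div_le_one_div_of_le hsa hp.1.le)
  have I2 : Integrable (Function.uncurry fun (τ : ℝ) (x : P3) =>
      ((3 - 2 * τ ^ 2 * ‖x‖ ^ 2) * gau τ x) • f x)
      ((volume.restrict (uIoc (√a) T)).prod volume) := by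
    have hg : Integrable (fun p : ℝ × P3 => 5 * ‖f p.2‖)
        ((volume.restrict (uIoc (√a) T)).prod volume) :=
      (hi.norm.const_mul 5).comp_snd _
    refine hg.mono' ?_ (Eventually.of_forall fun p => ?_)
    · refine Continuous.aestronglyMeasurable ?_
      have := continuous_gau2
      simp only [Function.uncurry_def]
      fun_prop
    · simp only [Function.uncurry]
      rw [norm_smul, Real.norm_eq_abs, abs_mul, abs_of_pos (gau_pos _ _)]
      have h1 := gau_le_one p.1 p.2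
      have h2 := sq_mul_gau_le p.1 p.2
      have h4 : |3 - 2 * p.1 ^ 2 * ‖p.2‖ ^ 2| ≤ 3 + 2 * (p.1 ^ 2 * ‖p.2‖ ^ 2) := by
        rw [abs_le]
        constructor <;> nlinarith [mul_nonneg (sq_nonneg p.1) (sq_nonneg ‖p.2‖)]
      refine mul_le_mul_of_nonneg_right ?_ (norm_nonneg _)
      calc |3 - 2 * p.1 ^ 2 * ‖p.2‖ ^ 2| * gau p.1 p.2
          ≤ (3 + 2 * (p.1 ^ 2 * ‖p.2‖ ^ 2)) * gau p.1 p.2 :=
            mul_le_mul_of_nonneg_right h4 (gau_pos _ _).le
        _ ≤ 5 := by nlinarith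
  have s1 := intervalIntegral_integral_swap I1
  have s2 := intervalIntegral_integral_swap I2
  have e1 : ∀ x : P3, HT a T x • fderiv ℝ f x x =
      ∫ τ in (√a)..T, gau τ x • fderiv ℝ f x x := fun x => by
    rw [HT, intervalIntegral.integral_smul_const]
  have e2 : ∀ x : P3, (2 * HT a T x + (T * gau T x - √a * gau (√a) x)) • f x =
      ∫ τ in (√a)..T, ((3 - 2 * τ ^ 2 * ‖x‖ ^ 2) * gau τ x) • f x := fun x => by
    rw [intervalIntegral.integral_smul_const, integral_div_T]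
  simp_rw [e1, e2]
  rw [← s1, ← s2, ← intervalIntegral.integral_neg]
  refine intervalIntegral.integral_congr fun τ hτ => ?_
  have hτ0 : 0 < τ := by
    rw [uIcc_of_le hT] at hτ
    exact hsa.trans_le hτ.1
  exact ibp_gau τ hτ0 hf hi hi'

end Crest.Agent.R338.Lat
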