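import Crest.Agent.R338.Lat1

/-!
Row 338, node C.1: the weak form `k1 = div F1` (limit of the truncated identity).
-/

set_option autoImplicit false

noncomputable section
open MeasureTheory Real Set Filter Topology
open scoped ContDiff

namespace Crest.Agent.R338.Lat

variable {F' : Type*} [NormedAddCommGroup F'] [NormedSpace ℝ F']

theorem finrank_P3 : Module.finrank ℝ P3 = 3 := by simp [P3]

theorem integrableOn_inv_norm (r : ℝ) :
    IntegrableOn (fun x : P3 => ‖x‖⁻¹) (Metric.ball (0 : P3) r) := by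
  have h := (integrableOn_fun_norm_addHaar (μ := (volume : Measure P3)) (f := fun y : ℝ => y⁻¹)
    (r := r)).2
  refine h ?_
  rw [finrank_P3]
  refine IntegrableOn.congr_fun (f := fun y : ℝ => y) ?_ ?_ measurableSet_Ioo
  · exact (continuous_id.integrableOn_Icc (a := 0) (b := r)).mono_set Ioo_subset_Icc_self
  · intro y hy
    have : y ≠ 0 := hy.1.ne'
    simp only [smul_eq_mul]
    field_simp

/-- `f/|x|` is integrable for continuous integrable `f` -/
theorem integrable_inv_smul {f : P3 → F'} (hc : Continuous f) (hi : Integrable f) :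
    Integrable (fun x : P3 => ‖x‖⁻¹ • f x) := by
  have hm : AEStronglyMeasurable (fun x : P3 => ‖x‖⁻¹ • f x) := by
    have h1 : Measurable fun x : P3 => ‖x‖⁻¹ := measurable_norm.inv
    exact h1.aestronglyMeasurable.smul hc.aestronglyMeasurable
  obtain ⟨B, hB⟩ := (isCompact_closedBall (0 : P3) 1).exists_bound_of_continuousOn hc.continuousOn
  have hB0 : 0 ≤ B := (norm_nonneg _).trans (hB 0 (by simp))
  have h1 : IntegrableOn (fun x : P3 => ‖x‖⁻¹ • f x) (Metric.ball (0 : P3) 1) := by
    refine ((integrableOn_inv_norm 1).const_mul B).mono' hm.restrict ?_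
    filter_upwards [ae_restrict_mem measurableSet_ball] with x hx
    rw [norm_smul, norm_inv, norm_norm, mul_comm]
    have : ‖f x‖ ≤ B := hB x (Metric.ball_subset_closedBall hx)
    gcongr
  have h2 : IntegrableOn (fun x : P3 => ‖x‖⁻¹ • f x) (Metric.ball (0 : P3) 1)ᶜ := by
    refine hi.norm.integrableOn.mono' hm.restrict ?_
    filter_upwards [ae_restrict_mem measurableSet_ball.compl] with x hx
    rw [norm_smul, norm_inv, norm_norm]
    have h3 : 1 ≤ ‖x‖ := by simpa using hx
    have : ‖x‖⁻¹ ≤ 1 := inv_le_one_of_one_le₀ h3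
    nlinarith [norm_nonneg (f x)]
  rw [← integrableOn_univ, ← union_compl_self (Metric.ball (0 : P3) 1)]
  exact h1.union h2

theorem HT_nonneg (a T : ℝ) (hT : √a ≤ T) (x : P3) : 0 ≤ HT a T x :=
  intervalIntegral.integral_nonneg hT fun τ _ => (gau_pos τ x).le

theorem HT_le (a T : ℝ) (hT : √a ≤ T) (x : P3) (hx : x ≠ 0) :
    HT a T x ≤ √π / (2 * ‖x‖) := by
  have hr : 0 < ‖x‖ := norm_pos_iff.2 hx
  rw [← integral_Ioi_exp ‖x‖ hr, HT, intervalIntegral.integral_of_le hT]
  refine setIntegral_mono_set (integrableOn_exp ‖x‖ 0 hr)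
    (Eventually.of_forall fun τ => (Real.exp_pos _).le) ?_
  refine Eventually.of_forall fun τ hτ => ?_
  exact (Real.sqrt_nonneg a).trans_lt hτ.1

theorem tendsto_HT (a : ℝ) (x : P3) (hx : x ≠ 0) :
    Tendsto (fun n : ℕ => 2 / √π * HT a (√a + n) x) atTop (𝓝 (SR a x)) := by
  have hr : 0 < ‖x‖ := norm_pos_iff.2 hx
  rw [SR_eq a x hx]
  refine Tendsto.const_mul _ ?_
  have h := intervalIntegral_tendsto_integral_Ioi (μ := (volume : Measure ℝ)) (√a)
    (f := fun τ => gau τ x) (integrableOn_exp ‖x‖ (√a) hr)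
    (b := fun n : ℕ => √a + (n : ℝ)) (tendsto_atTop_add_const_left _ _ tendsto_natCast_atTop_atTop)
  exact h

theorem tendsto_Tgau (a : ℝ) (x : P3) (hx : x ≠ 0) :
    Tendsto (fun n : ℕ => (√a + n) * gau (√a + n) x) atTop (𝓝 0) := by
  have hr : 0 < ‖x‖ := norm_pos_iff.2 hx
  have h1 : Tendsto (fun u : ℝ => u * Real.exp (-(u ^ 2 * ‖x‖ ^ 2))) atTop (𝓝 0) := by
    have h2 : ∀ u : ℝ, 0 < u → u * Real.exp (-(u ^ 2 * ‖x‖ ^ 2)) ≤ 1 / (u * ‖x‖ ^ 2) := by
      intro u hu
      have h0 := Real.add_one_le_exp (u ^ 2 * ‖x‖ ^ 2)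
      rw [Real.exp_neg, ← div_eq_mul_inv, div_le_div_iff₀ (Real.exp_pos _) (by positivity)]
      nlinarith
    refine tendsto_of_tendsto_of_tendsto_of_le_of_le' tendsto_const_nhds
      (h := fun u : ℝ => 1 / (u * ‖x‖ ^ 2)) ?_ ?_ ?_
    · have : Tendsto (fun u : ℝ => u * ‖x‖ ^ 2) atTop atTop :=
        tendsto_id.atTop_mul_const (by positivity)
      exact this.inv_tendsto_atTop.congr fun u => by simp [one_div]
    · filter_upwards [eventually_gt_atTop 0] with u hu
      positivity
    · filter_upwards [eventually_gt_atTop 0] with u hu using h2 u hu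
  exact h1.comp (tendsto_atTop_add_const_left _ (√a) tendsto_natCast_atTop_atTop)

theorem ae_ne_zero : ∀ᵐ x : P3, x ≠ 0 := by
  have : (volume : Measure P3) {(0 : P3)} = 0 := by simp
  exact measure_eq_zero_iff_ae_notMem.1 this

/-- weak form for `SR` -/
theorem weak_SR [CompleteSpace F'] (a : ℝ) (ha : 0 < a) {f : P3 → F'} (hf : ContDiff ℝ 1 f)
    (hi : Integrable f) (hi' : Integrable (fderiv ℝ f)) :
    ∫ x, SR a x • fderiv ℝ f x x =
      - ∫ x, (2 * SR a x - 2 * √(a / π) * gau (√a) x) • f x := by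
  have hpi : 0 < √π := Real.sqrt_pos.2 Real.pi_pos
  have hfd : Continuous (fderiv ℝ f) := hf.continuous_fderiv (by simp)
  have hfc : Continuous f := hf.continuous
  have hHTc : ∀ T, Continuous fun x : P3 => HT a T x := fun T => by
    unfold HT
    have := continuous_gau2
    refine intervalIntegral.continuous_parametric_intervalIntegral_of_continuous' ?_ _ _
    exact this.comp (continuous_snd.prodMk continuous_fst)
  have L : Tendsto (fun n : ℕ => ∫ x, (2 / √π * HT a (√a + n) x) • fderiv ℝ f x x) atTop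
      (𝓝 (∫ x, SR a x • fderiv ℝ f x x)) := by
    refine tendsto_integral_of_dominated_convergence (fun x => ‖fderiv ℝ f x‖) ?_ hi'.norm ?_ ?_
    · intro n
      refine Continuous.aestronglyMeasurable ?_
      have := hHTc (√a + n)
      exact (continuous_const.mul this).smul (hfd.clm_apply continuous_id)
    · intro n
      filter_upwards [ae_ne_zero] with x hx
      have hr : 0 < ‖x‖ := norm_pos_iff.2 hx
      have h1 := HT_le a (√a + n) (by simp) x hx
      have h0 := HT_nonneg a (√a + n) (by simp) x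
      rw [norm_smul, Real.norm_eq_abs, abs_of_nonneg (by positivity)]
      calc 2 / √π * HT a (√a + n) x * ‖fderiv ℝ f x x‖
          ≤ 2 / √π * (√π / (2 * ‖x‖)) * (‖fderiv ℝ f x‖ * ‖x‖) := by
            gcongr
            exact ContinuousLinearMap.le_opNorm _ _
        _ = ‖fderiv ℝ f x‖ := by field_simp
    · filter_upwards [ae_ne_zero] with x hx
      exact (tendsto_HT a x hx).smul_const _
  have Rr : Tendsto (fun n : ℕ => ∫ x, (2 / √π * (2 * HT a (√a + n) x +
      ((√a + n) * gau (√a + n) x - √a * gau (√a) x))) • f x) atTop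
      (𝓝 (∫ x, (2 * SR a x - 2 * √(a / π) * gau (√a) x) • f x)) := by
    refine tendsto_integral_of_dominated_convergence
      (fun x => (2 + 2 / √π) * ‖‖x‖⁻¹ • f x‖ + 2 / √π * √a * ‖f x‖) ?_ ?_ ?_ ?_
    · intro n
      refine Continuous.aestronglyMeasurable ?_
      have := hHTc (√a + n)
      have h2 := continuous_gau (√a + n)
      have h3 := continuous_gau (√a)
      fun_prop
    · exact ((integrable_inv_smul hfc hi).norm.const_mul _).add (hi.norm.const_mul _)
    · intro n
      filter_upwards [ae_ne_zero] with x hx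
      have hr : 0 < ‖x‖ := norm_pos_iff.2 hx
      have h1 := HT_le a (√a + n) (by simp) x hx
      have h0 := HT_nonneg a (√a + n) (by simp) x
      have hn : 0 < √a + n := by
        have := Real.sqrt_pos.2 ha
        positivity
      have h2 : (√a + n) * gau (√a + n) x ≤ ‖x‖⁻¹ := by
        have := norm_mul_gau_le (√a + n) hn x
        rw [le_div_iff₀ hn] at this
        rw [← one_div, le_div_iff₀ hr]
        nlinarith
      have h2' : 0 ≤ (√a + n) * gau (√a + n) x := mul_nonneg hn.le (gau_pos _ _).le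
      have h3 : √a * gau (√a) x ≤ √a := by
        have := gau_le_one (√a) x
        nlinarith [Real.sqrt_nonneg a]
      have h3' : 0 ≤ √a * gau (√a) x := mul_nonneg (Real.sqrt_nonneg a) (gau_pos _ _).le
      have h4 : 2 / √π * (2 * HT a (√a + n) x) ≤ 2 * ‖x‖⁻¹ := by
        calc 2 / √π * (2 * HT a (√a + n) x) ≤ 2 / √π * (2 * (√π / (2 * ‖x‖))) := by gcongr
          _ = 2 * ‖x‖⁻¹ := by field_simp
      have h5 : |2 / √π * (2 * HT a (√a + n) x + ((√a + n) * gau (√a + n) x - √a * gau (√a) x))|
          ≤ (2 + 2 / √π) * ‖x‖⁻¹ + 2 / √π * √a := by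
        have hc : 0 < 2 / √π := by positivity
        rw [abs_le]
        constructor
        · have : 0 ≤ 2 / √π * (2 * HT a (√a + n) x) := by positivity
          have h6 : 2 / √π * (√a * gau (√a) x) ≤ 2 / √π * √a := by gcongr
          have h7 : 0 ≤ 2 / √π * ((√a + n) * gau (√a + n) x) := mul_nonneg hc.le h2'
          have h8 : 0 ≤ (2 + 2 / √π) * ‖x‖⁻¹ := by positivity
          nlinarith
        · have h6 : 0 ≤ 2 / √π * (√a * gau (√a) x) := mul_nonneg hc.le h3'
          have h7 : 2 / √π * ((√a + n) * gau (√a + n) x) ≤ 2 / √π * ‖x‖⁻¹ := by gcongr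
          have h8 : 0 ≤ 2 / √π * √a := by positivity
          nlinarith
      rw [norm_smul, Real.norm_eq_abs, norm_smul, norm_inv, norm_norm]
      calc _ ≤ ((2 + 2 / √π) * ‖x‖⁻¹ + 2 / √π * √a) * ‖f x‖ :=
            mul_le_mul_of_nonneg_right h5 (norm_nonneg _)
        _ = _ := by ring
    · filter_upwards [ae_ne_zero] with x hx
      refine Tendsto.smul_const ?_ _
      have h1 := tendsto_HT a x hx
      have h2 := tendsto_Tgau a x hx
      have h3 := (h1.const_mul 2).add ((h2.sub_const (√a * gau (√a) x)).const_mul (2 / √π))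
      have e : 2 * SR a x - 2 * √(a / π) * gau (√a) x =
          2 * SR a x + 2 / √π * (0 - √a * gau (√a) x) := by
        rw [Real.sqrt_div ha.le]; ring
      rw [e]
      exact h3.congr' (Eventually.of_forall fun n => by ring)
  have E : ∀ n : ℕ, ∫ x, (2 / √π * HT a (√a + n) x) • fderiv ℝ f x x =
      - ∫ x, (2 / √π * (2 * HT a (√a + n) x +
      ((√a + n) * gau (√a + n) x - √a * gau (√a) x))) • f x := fun n => by
    have h := weak_T a (√a + n) ha (by simp) hf hi hi'
    simp_rw [mul_smul (2 / √π)]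
    rw [integral_smul, integral_smul, h, smul_neg]
  exact tendsto_nhds_unique (L.congr E) Rr.neg


theorem continuous_LR (a : ℝ) : Continuous (LR a) := by
  have h := continuous_gau2
  have h2 : Continuous fun x : P3 => ∫ τ in (0 : ℝ)..√a, gau τ x := by
    refine intervalIntegral.continuous_parametric_intervalIntegral_of_continuous' ?_ _ _
    exact h.comp (continuous_snd.prodMk continuous_fst)
  exact continuous_const.mul h2

theorem continuous_Psi (lam a : ℝ) : Continuous (Psi lam a) := by
  have h := continuous_LR a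
  have h2 := continuous_gau (√a)
  unfold Psi
  fun_prop

theorem LR_nonneg (a : ℝ) (x : P3) : 0 ≤ LR a x := by
  unfold LR
  have : 0 ≤ ∫ τ in (0 : ℝ)..√a, gau τ x :=
    intervalIntegral.integral_nonneg (Real.sqrt_nonneg a) fun τ _ => (gau_pos τ x).le
  positivity

theorem LR_le (a : ℝ) (x : P3) : LR a x ≤ 2 / √π * √a := by
  unfold LR
  refine mul_le_mul_of_nonneg_left ?_ (by positivity)
  have h : ∫ τ in (0 : ℝ)..√a, gau τ x ≤ ∫ τ in (0 : ℝ)..√a, (1 : ℝ) :=
    intervalIntegral.integral_mono_on (Real.sqrt_nonneg a)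
      ((continuous_gau_param x).intervalIntegrable _ _) (by simp) fun τ _ => gau_le_one τ x
  simpa using h

theorem Psi_nonpos (lam a : ℝ) (hl : 0 ≤ lam) (x : P3) : Psi lam a x ≤ 0 := by
  unfold Psi
  have h1 := LR_nonneg a x
  have h2 := (gau_pos (√a) x).le
  have h3 : 0 ≤ lam * LR a x := mul_nonneg hl h1
  have h4 : 0 ≤ lam * √(a / π) * gau (√a) x := by positivity
  linarith

theorem abs_Psi_le (lam a : ℝ) (hl : 0 ≤ lam) (ha : 0 ≤ a) (x : P3) :
    |Psi lam a x| ≤ 2 * lam * √a := by
  rw [abs_of_nonpos (Psi_nonpos lam a hl x)]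
  unfold Psi
  have h1 := LR_le a x
  have h2 := gau_le_one (√a) x
  have h3 := (gau_pos (√a) x).le
  have hpi : 0 < √π := Real.sqrt_pos.2 Real.pi_pos
  have h4 : 1.7 ≤ √π := by
    rw [Real.le_sqrt' (by norm_num)]
    have := Real.pi_gt_three
    nlinarith
  have h5 : 3 / √π ≤ 2 := by
    rw [div_le_iff₀ hpi]; nlinarith
  have h6 : √(a / π) = √a / √π := Real.sqrt_div ha _
  have h7 : lam * LR a x ≤ lam * (2 / √π * √a) := mul_le_mul_of_nonneg_left h1 hl
  have h8 : lam * √(a / π) * gau (√a) x ≤ lam * √(a / π) * 1 :=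
    mul_le_mul_of_nonneg_left h2 (by positivity)
  have h9 : 3 / √π * (lam * √a) ≤ 2 * (lam * √a) :=
    mul_le_mul_of_nonneg_right h5 (by positivity)
  rw [h6] at h8 ⊢
  have h10 : lam * (2 / √π * √a) + lam * (√a / √π) * 1 = 3 / √π * (lam * √a) := by ring
  nlinarith

theorem measurable_SR (a : ℝ) : Measurable (SR a) := by
  unfold SR
  exact (measurable_const.div measurable_norm).sub (continuous_LR a).measurable

theorem measurable_F1 (lam a : ℝ) : Measurable (F1 lam a) := by
  unfold F1
  exact (measurable_const.mul (measurable_SR a)).smul measurable_id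

theorem measurable_k1 (lam a : ℝ) : Measurable (k1 lam a) := by
  unfold k1
  exact (measurable_const.mul (measurable_const.div measurable_norm)).neg.sub
    (continuous_Psi lam a).measurable

theorem k1_eq (lam a : ℝ) (x : P3) :
    k1 lam a x = -(lam * SR a x) + lam * √(a / π) * gau (√a) x := by
  unfold k1 Psi SR; ring

/-- `k1 f` is integrable -/
theorem integrable_k1 (lam a : ℝ) (hl : 0 ≤ lam) (ha : 0 ≤ a) {f : P3 → F'} (hfc : Continuous f)
    (hi : Integrable f) : Integrable (fun x => k1 lam a x • f x) := by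
  have h1 : Integrable fun x => ((-lam) • (‖x‖⁻¹ • f x)) := (integrable_inv_smul hfc hi).smul _
  have h2 : Integrable fun x => Psi lam a x • f x :=
    int_smul (continuous_Psi lam a) (abs_Psi_le lam a hl ha) hi
  refine (h1.sub h2).congr (Eventually.of_forall fun x => ?_)
  simp only [k1, Pi.sub_apply, one_div]
  rw [smul_smul, ← sub_smul]
  congr 1
  ring

/-- node C.1, one proton at the origin -/
theorem weak_k1 [CompleteSpace F'] (lam a : ℝ) (ha : 0 < a) {f : P3 → F'} (hf : ContDiff ℝ 1 f)
    (hi : Integrable f) (hi' : Integrable (fderiv ℝ f)) :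
    ∫ x, k1 lam a x • f x = - ∫ x, fderiv ℝ f x (F1 lam a x) := by
  have h := weak_SR a ha hf hi hi'
  have e1 : ∀ x, fderiv ℝ f x (F1 lam a x) = (-(lam / 2)) • (SR a x • fderiv ℝ f x x) := fun x => by
    rw [F1, map_smul, mul_smul]
  have e2 : ∀ x, k1 lam a x • f x = (-(lam / 2)) •
      ((2 * SR a x - 2 * √(a / π) * gau (√a) x) • f x) := fun x => by
    rw [smul_smul, k1_eq]; congr 1; ring
  simp_rw [e1, e2]
  rw [integral_smul, integral_smul, h]
  simp

end Crest.Agent.R338.Lat
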