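import Crest.Agent.R338.Lat2

/-!
Row 338, node C.1: `C1Weak` (sum over the lattice) and `C1Bound` (`‖FF‖ ≤ C λ K³`).
-/

set_option autoImplicit false

noncomputable section
open MeasureTheory Real Set Filter Topology
open scoped ContDiff

namespace Crest.Agent.R338.Lat

variable {F' : Type*} [NormedAddCommGroup F'] [NormedSpace ℝ F']

theorem k1_lin (lam a : ℝ) (x : P3) : k1 lam a x = lam * k1 1 a x := by
  unfold k1 Psi; ring

theorem integrable_k1' (lam a : ℝ) (ha : 0 ≤ a) {f : P3 → F'} (hfc : Continuous f)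
    (hi : Integrable f) : Integrable (fun x => k1 lam a x • f x) := by
  have h := (integrable_k1 1 a zero_le_one ha hfc hi).smul lam
  refine h.congr (Eventually.of_forall fun x => ?_)
  simp only [Pi.smul_apply]
  rw [k1_lin lam, smul_smul]

theorem integrable_k1_shift (lam a : ℝ) (ha : 0 ≤ a) (y : P3) {f : P3 → F'} (hfc : Continuous f)
    (hi : Integrable f) : Integrable (fun x => k1 lam a (x - y) • f x) := by
  have h := integrable_k1' lam a ha (f := fun z => f (z + y)) (by fun_prop) (hi.comp_add_right y)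
  have h2 := h.comp_sub_right y
  simpa using h2

/-- node C.1, one proton at `y` -/
theorem weak_k1_shift [CompleteSpace F'] (lam a : ℝ) (ha : 0 < a) (y : P3) {f : P3 → F'}
    (hf : ContDiff ℝ 1 f) (hi : Integrable f) (hi' : Integrable (fderiv ℝ f)) :
    ∫ x, k1 lam a (x - y) • f x = - ∫ x, fderiv ℝ f x (F1 lam a (x - y)) := by
  have hg : ContDiff ℝ 1 fun z => f (z + y) := hf.comp (contDiff_id.add contDiff_const)
  have hfd : ∀ z, fderiv ℝ (fun z => f (z + y)) z = fderiv ℝ f (z + y) := fun z =>
    fderiv_comp_add_right y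
  have hi2 : Integrable (fderiv ℝ fun z => f (z + y)) := by
    have : (fderiv ℝ fun z => f (z + y)) = fun z => fderiv ℝ f (z + y) := funext hfd
    rw [this]
    exact hi'.comp_add_right y
  have h := weak_k1 lam a ha hg (hi.comp_add_right y) hi2
  have e1 : ∫ x, k1 lam a (x - y) • f x = ∫ z, k1 lam a z • f (z + y) := by
    rw [← integral_add_right_eq_self (fun x => k1 lam a (x - y) • f x) y]
    simp
  have e2 : ∫ x, fderiv ℝ f x (F1 lam a (x - y)) = ∫ z, fderiv ℝ (fun z => f (z + y)) z (F1 lam a z) := by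
    rw [← integral_add_right_eq_self (fun x => fderiv ℝ f x (F1 lam a (x - y))) y]
    simp [hfd]
  rw [e1, e2, h]

theorem norm_F1_le' (lam a : ℝ) (x : P3) : ‖F1 lam a x‖ ≤ |lam| / 2 := by
  rcases le_total 0 lam with h | h
  · have h1 := norm_F1_le lam a h x
    have h2 := gau_le_one (√a) x
    rw [abs_of_nonneg h]
    nlinarith
  · have h1 := norm_F1_le (-lam) a (by linarith) x
    have h2 := gau_le_one (√a) x
    have h3 : ‖F1 (-lam) a x‖ = ‖F1 lam a x‖ := by
      unfold F1
      rw [show (-(-lam / 2) * SR a x) = -(-(lam / 2) * SR a x) by ring, neg_smul, norm_neg]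
    rw [h3] at h1
    rw [abs_of_nonpos h]
    nlinarith

theorem integrable_fderiv_F1 (lam a : ℝ) (y : P3) {f : P3 → F'} (hi' : Integrable (fderiv ℝ f)) :
    Integrable (fun x => fderiv ℝ f x (F1 lam a (x - y))) := by
  refine (hi'.norm.mul_const (|lam| / 2)).mono' ?_ (Eventually.of_forall fun x => ?_)
  · have hm : Measurable fun x : P3 => F1 lam a (x - y) :=
      (measurable_F1 lam a).comp (measurable_id.sub_const y)
    exact (ContinuousLinearMap.id ℝ (P3 →L[ℝ] F')).aestronglyMeasurable_comp₂ hi'.1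
      hm.aestronglyMeasurable
  · exact (ContinuousLinearMap.le_opNorm _ _).trans (by gcongr; exact norm_F1_le' lam a _)

/-- general weak form for the whole lattice -/
theorem weak_kk [CompleteSpace F'] (lam s a : ℝ) (nL : ℕ) (d : (Fin 3 → ℤ) → P3) (ha : 0 < a)
    {f : P3 → F'} (hf : ContDiff ℝ 1 f) (hi : Integrable f) (hi' : Integrable (fderiv ℝ f)) :
    Integrable (fun x => kk lam s a nL d x • f x) ∧
      ∫ x, kk lam s a nL d x • f x = - ∫ x, fderiv ℝ f x (FF lam s a nL d x) := by
  have hk : ∀ α, Integrable (fun x => k1 lam a (x - nuc s d α) • f x) := fun α =>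
    integrable_k1_shift lam a ha.le _ hf.continuous hi
  have e1 : ∀ x, kk lam s a nL d x • f x = ∑ α ∈ Box nL, k1 lam a (x - nuc s d α) • f x :=
    fun x => by rw [kk, Finset.sum_smul]
  have e2 : ∀ x, fderiv ℝ f x (FF lam s a nL d x) =
      ∑ α ∈ Box nL, fderiv ℝ f x (F1 lam a (x - nuc s d α)) := fun x => by rw [FF, map_sum]
  simp_rw [e1, e2]
  refine ⟨integrable_finsetSum _ fun α _ => hk α, ?_⟩
  rw [integral_finsetSum _ fun α _ => hk α,
    integral_finsetSum _ fun α _ => integrable_fderiv_F1 lam a _ hi', ← Finset.sum_neg_distrib]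
  exact Finset.sum_congr rfl fun α _ => weak_k1_shift lam a ha _ hf hi hi'

theorem C1Weak_holds : C1Weak := by
  intro lam s a nL d ha f hf hi hi'
  have h := weak_kk lam s a nL d ha hf hi hi'
  simpa only [Complex.real_smul] using h

end Crest.Agent.R338.Lat
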