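import Crest.Agent.R338.Lat3

/-!
Row 338, node C.1: Gaussian lattice sums and `C1Bound` (`‖FF‖ ≤ C λ K³`).
-/

set_option autoImplicit false

noncomputable section
open MeasureTheory Real Set Filter Topology
open scoped ContDiff

namespace Crest.Agent.R338.Lat

/-- 1D Gaussian sums over lattice points -/
theorem sum_exp_le (β s x : ℝ) (hβ : 0 < β) (hs : 0 < s) (S : Finset ℤ) :
    ∑ k ∈ S, Real.exp (-(β * (x - s * (k : ℝ)) ^ 2)) ≤
      Real.exp (β * s ^ 2 / 4) * (√(2 * π / β) / s) := by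
  set g : ℝ → ℝ := fun t => Real.exp (-(β / 2) * (x - s * t) ^ 2) with hg
  have hgi : Integrable g := by
    have h1 := integrable_exp_neg_mul_sq (b := β / 2) (by positivity)
    have h2 := (h1.comp_sub_left x).comp_mul_left' hs.ne'
    exact h2
  have hgint : ∫ t, g t = √(2 * π / β) / s := by
    have h1 := integral_gaussian (β / 2)
    have h2 : ∫ t, g t = s⁻¹ * ∫ u, Real.exp (-(β / 2) * (x - u) ^ 2) := by
      have := Measure.integral_comp_mul_left (fun u => Real.exp (-(β / 2) * (x - u) ^ 2)) s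
      rw [abs_of_pos (inv_pos.2 hs), smul_eq_mul] at this
      exact this
    rw [h2, integral_sub_left_eq_self (fun u => Real.exp (-(β / 2) * u ^ 2)) volume x, h1,
      show π / (β / 2) = 2 * π / β by field_simp]
    field_simp
  have hcell : ∀ k : ℤ, Real.exp (-(β * (x - s * (k : ℝ)) ^ 2)) ≤
      Real.exp (β * s ^ 2 / 4) * ∫ t in Ioc (-(1 / 2) + (k : ℝ)) (-(1 / 2) + (k : ℝ) + 1), g t := by
    intro k
    rw [← integral_const_mul]
    have h1 : Real.exp (-(β * (x - s * (k : ℝ)) ^ 2)) =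
        ∫ t in Ioc (-(1 / 2) + (k : ℝ)) (-(1 / 2) + (k : ℝ) + 1),
          Real.exp (-(β * (x - s * (k : ℝ)) ^ 2)) := by
      rw [setIntegral_const]
      simp
    rw [h1]
    refine setIntegral_mono_on (by simp) (hgi.integrableOn.const_mul _) measurableSet_Ioc ?_
    intro t ht
    rw [hg, ← Real.exp_add]
    apply Real.exp_le_exp.2
    have h2 : (t - k) ^ 2 ≤ 1 / 4 := by
      have h3 : -(1 / 2) ≤ t - k := by linarith [ht.1]
      have h4 : t - k ≤ 1 / 2 := by linarith [ht.2]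
      nlinarith
    have h5 : (x - s * t) ^ 2 ≤ 2 * (x - s * k) ^ 2 + 2 * (s ^ 2 * (t - k) ^ 2) := by
      nlinarith [sq_nonneg ((x - s * k) + s * (t - k))]
    have h6 : s ^ 2 * (t - k) ^ 2 ≤ s ^ 2 * (1 / 4) := by gcongr
    nlinarith [mul_le_mul_of_nonneg_left h5 hβ.le, mul_le_mul_of_nonneg_left h6 hβ.le]
  calc ∑ k ∈ S, Real.exp (-(β * (x - s * (k : ℝ)) ^ 2))
      ≤ ∑ k ∈ S, Real.exp (β * s ^ 2 / 4) *
          ∫ t in Ioc (-(1 / 2) + (k : ℝ)) (-(1 / 2) + (k : ℝ) + 1), g t :=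
        Finset.sum_le_sum fun k _ => hcell k
    _ = Real.exp (β * s ^ 2 / 4) *
          ∫ t in ⋃ k ∈ S, Ioc (-(1 / 2) + (k : ℝ)) (-(1 / 2) + (k : ℝ) + 1), g t := by
        rw [← Finset.mul_sum, integral_biUnion_finset S (fun k _ => measurableSet_Ioc)
          ((pairwise_disjoint_Ioc_add_intCast (-(1 / 2) : ℝ)).set_pairwise _)
          (fun k _ => hgi.integrableOn)]
    _ ≤ Real.exp (β * s ^ 2 / 4) * (√(2 * π / β) / s) := by
        refine mul_le_mul_of_nonneg_left ?_ (Real.exp_pos _).le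
        rw [← hgint]
        exact setIntegral_le_integral hgi (Eventually.of_forall fun t => (Real.exp_pos _).le)

/-- shifting a Gaussian by a small vector -/
theorem gau_shift (τ : ℝ) (z d : P3) :
    Real.exp (-(τ ^ 2 * ‖z + d‖ ^ 2)) ≤
      Real.exp (τ ^ 2 * ‖d‖ ^ 2) * Real.exp (-(τ ^ 2 / 2 * ‖z‖ ^ 2)) := by
  rw [← Real.exp_add]
  apply Real.exp_le_exp.2
  have h1 : ‖z‖ ≤ ‖z + d‖ + ‖d‖ := by
    have := norm_add_le (z + d) (-d)
    simpa using this
  have h2 : ‖z‖ ^ 2 ≤ 2 * ‖z + d‖ ^ 2 + 2 * ‖d‖ ^ 2 := by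
    nlinarith [sq_nonneg (‖z + d‖ - ‖d‖), norm_nonneg z, norm_nonneg (z + d), norm_nonneg d]
  nlinarith [mul_le_mul_of_nonneg_left h2 (sq_nonneg τ)]

/-- 3D Gaussian sums over the box -/
theorem sum_exp3_le (β s : ℝ) (hβ : 0 < β) (hs : 0 < s) (nL : ℕ) (x : P3) :
    ∑ α ∈ Box nL, Real.exp (-(β * ‖x - pt s α‖ ^ 2)) ≤
      (Real.exp (β * s ^ 2 / 4) * (√(2 * π / β) / s)) ^ 3 := by
  have h0 : ∀ α, Real.exp (-(β * ‖x - pt s α‖ ^ 2)) = gau (√β) (x - pt s α) := fun α => by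
    rw [gau, Real.sq_sqrt hβ.le]
  simp_rw [h0]
  rw [sum_gau]
  have h1 : ∀ c : Fin 3, Sx s nL (x c) (√β) ≤ Real.exp (β * s ^ 2 / 4) * (√(2 * π / β) / s) :=
    fun c => by
    have := sum_exp_le β s (x c) hβ hs (Finset.Icc (-(nL : ℤ)) (nL : ℤ))
    unfold Sx
    rwa [Real.sq_sqrt hβ.le]
  calc ∏ c : Fin 3, Sx s nL (x c) (√β)
      ≤ ∏ _c : Fin 3, Real.exp (β * s ^ 2 / 4) * (√(2 * π / β) / s) :=
        Finset.prod_le_prod (fun c _ => Finset.sum_nonneg fun k _ => (Real.exp_pos _).le)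
          fun c _ => h1 c
    _ = _ := by simp

theorem C1Bound_holds : C1Bound := by
  refine ⟨300, fun lam s K a nL d hl hs hK ha hd x => ?_⟩
  have hK0 : 0 < K := by linarith
  have hapos : 0 < a := by rw [ha]; positivity
  have h1 : ‖FF lam s a nL d x‖ ≤ ∑ α ∈ Box nL, lam / 2 * (Real.exp 1 *
      Real.exp (-(a / 2 * ‖x - pt s α‖ ^ 2))) := by
    unfold FF
    refine (norm_sum_le _ _).trans (Finset.sum_le_sum fun α _ => ?_)
    refine (norm_F1_le lam a hl _).trans (mul_le_mul_of_nonneg_left ?_ (by positivity))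
    have e : x - nuc s d α = (x - pt s α) + d α := by unfold nuc; abel
    rw [e]
    have h2 := gau_shift (√a) (x - pt s α) (d α)
    rw [Real.sq_sqrt hapos.le] at h2
    unfold gau
    rw [Real.sq_sqrt hapos.le]
    refine h2.trans (mul_le_mul_of_nonneg_right ?_ (Real.exp_pos _).le)
    apply Real.exp_le_exp.2
    have h3 : ‖d α‖ ^ 2 ≤ (s / 4) ^ 2 := pow_le_pow_left₀ (norm_nonneg _) (hd α) 2
    calc a * ‖d α‖ ^ 2 ≤ a * (s / 4) ^ 2 := by gcongr
      _ = 1 / (16 * K ^ 2) := by rw [ha]; field_simp; ring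
      _ ≤ 1 := by
        rw [div_le_one (by positivity)]; nlinarith
  rw [← Finset.mul_sum, ← Finset.mul_sum] at h1
  have h4 := sum_exp3_le (a / 2) s (by positivity) hs nL x
  have h5 : a / 2 * s ^ 2 / 4 ≤ 1 / 8 := by
    rw [ha]
    have : 1 / (K * s) ^ 2 / 2 * s ^ 2 / 4 = 1 / (8 * K ^ 2) := by field_simp; ring
    rw [this]
    rw [div_le_div_iff₀ (by positivity) (by norm_num)]
    nlinarith
  have h6 : √(2 * π / (a / 2)) / s ≤ 3.6 * K := by
    have e : 2 * π / (a / 2) = (4 * π) * (K * s) ^ 2 := by rw [ha]; field_simp; ring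
    rw [e, Real.sqrt_mul (by positivity), Real.sqrt_sq (by positivity)]
    have h7 : √(4 * π) ≤ 3.6 := by
      rw [Real.sqrt_le_left (by norm_num)]
      have := Real.pi_lt_d2
      norm_num at this ⊢
      linarith
    rw [div_le_iff₀ hs]
    nlinarith [mul_le_mul_of_nonneg_right h7 (by positivity : 0 ≤ K * s)]
  have h8 : Real.exp (a / 2 * s ^ 2 / 4) ≤ 1.2 := by
    refine (Real.exp_le_exp.2 h5).trans ?_
    have := Real.exp_bound' (x := 1 / 8) (by norm_num) (by norm_num) (n := 3) (by norm_num)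
    refine this.trans ?_
    norm_num [Finset.sum_range_succ, Nat.factorial]
  have h9 : (Real.exp (a / 2 * s ^ 2 / 4) * (√(2 * π / (a / 2)) / s)) ^ 3 ≤ (4.4 * K) ^ 3 := by
    refine pow_le_pow_left₀ (by positivity) ?_ 3
    calc _ ≤ 1.2 * (3.6 * K) := by gcongr
      _ ≤ 4.4 * K := by nlinarith
  have h10 := Real.exp_one_lt_d9
  calc ‖FF lam s a nL d x‖ ≤ _ := h1
    _ ≤ lam / 2 * (2.7182818286 * (4.4 * K) ^ 3) := by
      gcongr
      · exact h4.trans h9
    _ ≤ 300 * lam * K ^ 3 := by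
      have : 0 ≤ lam * K ^ 3 := by positivity
      nlinarith

end Crest.Agent.R338.Lat
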