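import Crest.Agent.R338.Lat4

/-!
Row 338, node C.2 (N3): the singular part has tiny matrix elements on smooth functions.
-/

set_option autoImplicit false

noncomputable section
open MeasureTheory Real Set Filter Topology
open scoped ContDiff

namespace Crest.Agent.R338.Lat

theorem gau_neg (τ : ℝ) (x : P3) : gau τ (-x) = gau τ x := by simp [gau]

theorem F1_neg (lam a : ℝ) (x : P3) : F1 lam a (-x) = -F1 lam a x := by
  unfold F1 SR LR
  simp [gau_neg]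

theorem integrable_gau (τ : ℝ) (hτ : 0 < τ) : Integrable (gau τ) := by
  have h := GaussianFourier.integrable_cexp_neg_mul_sq_norm_add (V := P3) (b := (τ ^ 2 : ℝ))
    (by rw [Complex.ofReal_re]; positivity) 0 0
  have h2 := h.norm
  refine h2.congr (Eventually.of_forall fun x => ?_)
  simp only [gau]
  rw [Complex.norm_exp]
  congr 1
  simp
  norm_cast
  ring

theorem integral_gau (τ : ℝ) (hτ : 0 < τ) : ∫ x : P3, gau τ x = (√π / τ) ^ 3 := by
  have h := GaussianFourier.integral_rexp_neg_mul_sq_norm (V := P3) (b := τ ^ 2) (by positivity)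
  have e : (fun x : P3 => gau τ x) = fun x : P3 => Real.exp (-τ ^ 2 * ‖x‖ ^ 2) := by
    ext x; unfold gau; congr 1; ring
  rw [e, h, finrank_P3]
  have e2 : √π / τ = √(π / τ ^ 2) := by rw [Real.sqrt_div' _ (by positivity), Real.sqrt_sq hτ.le]
  rw [e2, Real.sqrt_eq_rpow, ← Real.rpow_natCast _ 3, ← Real.rpow_mul (by positivity)]
  norm_num

theorem integrable_F1 (lam a : ℝ) (hl : 0 ≤ lam) (ha : 0 < a) : Integrable (F1 lam a) := by
  refine ((integrable_gau (√a) (Real.sqrt_pos.2 ha)).const_mul (lam / 2)).mono'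
    (measurable_F1 lam a).aestronglyMeasurable (Eventually.of_forall fun x => norm_F1_le lam a hl x)

theorem integral_F1 (lam a : ℝ) : ∫ x, F1 lam a x = 0 := by
  have h := integral_neg_eq_self (F1 lam a) (volume : Measure P3)
  have h2 : ∫ x, F1 lam a (-x) = - ∫ x, F1 lam a x := by
    rw [← integral_neg]
    exact integral_congr_ae (Eventually.of_forall fun x => F1_neg lam a x)
  rw [h2] at h
  have h3 : (2 : ℝ) • ∫ x, F1 lam a x = 0 := by
    rw [two_smul]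
    nth_rewrite 1 [← h]
    simp
  exact (smul_eq_zero.1 h3).resolve_left (by norm_num)

theorem pow4_exp_le (r : ℝ) (hr : 0 ≤ r) : (1 + r) ^ 4 * Real.exp (-(r ^ 2 / 2)) ≤ 64 := by
  have h1 := Real.quadratic_le_exp_of_nonneg (x := r ^ 2 / 2) (by positivity)
  rw [Real.exp_neg, ← div_eq_mul_inv, div_le_iff₀ (Real.exp_pos _)]
  nlinarith [sq_nonneg (r - 1), sq_nonneg (r ^ 2 - 1), sq_nonneg (r * (r - 1)), sq_nonneg r,
    mul_nonneg hr (sq_nonneg (r - 1)), pow_nonneg hr 3]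

theorem lin_exp_le (τ r : ℝ) (_hτ : 0 < τ) :
    r * Real.exp (-(τ ^ 2 * r ^ 2 / 4)) ≤ 1 / τ := by
  have h1 := Real.add_one_le_exp (τ ^ 2 * r ^ 2 / 4)
  rw [Real.exp_neg, ← div_eq_mul_inv, div_le_div_iff₀ (Real.exp_pos _) _hτ]
  nlinarith [sq_nonneg (τ * r - 2)]

/-- pointwise moment bound -/
theorem moment_pt (a : ℝ) (ha : 1 ≤ a) (z : P3) :
    ‖z‖ * (1 + ‖z‖) ^ 4 * gau (√a) z ≤ 64 / √a * gau (√a / 2) z := by
  have hsa : 0 < √a := Real.sqrt_pos.2 (by linarith)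
  have e : gau (√a) z = Real.exp (-(a * ‖z‖ ^ 2 / 2)) * Real.exp (-(√a ^ 2 * ‖z‖ ^ 2 / 4)) *
      gau (√a / 2) z := by
    unfold gau
    rw [← Real.exp_add, ← Real.exp_add]
    congr 1
    rw [div_pow, Real.sq_sqrt (by linarith)]
    ring
  have h1 := pow4_exp_le ‖z‖ (norm_nonneg z)
  have h1' : (1 + ‖z‖) ^ 4 * Real.exp (-(a * ‖z‖ ^ 2 / 2)) ≤ 64 := by
    refine le_trans (mul_le_mul_of_nonneg_left ?_ (by positivity)) h1
    apply Real.exp_le_exp.2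
    nlinarith [sq_nonneg ‖z‖]
  have h2 := lin_exp_le (√a) ‖z‖ hsa
  have h3 := (gau_pos (√a / 2) z).le
  rw [e]
  calc ‖z‖ * (1 + ‖z‖) ^ 4 * (Real.exp (-(a * ‖z‖ ^ 2 / 2)) *
        Real.exp (-(√a ^ 2 * ‖z‖ ^ 2 / 4)) * gau (√a / 2) z)
      = ((1 + ‖z‖) ^ 4 * Real.exp (-(a * ‖z‖ ^ 2 / 2))) *
        (‖z‖ * Real.exp (-(√a ^ 2 * ‖z‖ ^ 2 / 4))) * gau (√a / 2) z := by ring
    _ ≤ 64 * (1 / √a) * gau (√a / 2) z := by gcongr
    _ = _ := by ring

/-- weight comparison -/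
theorem weight_shift (y z : P3) : 1 / (1 + ‖z + y‖) ^ 4 ≤ (1 + ‖z‖) ^ 4 / (1 + ‖y‖) ^ 4 := by
  rw [div_le_div_iff₀ (by positivity) (by positivity), one_mul, ← mul_pow]
  refine pow_le_pow_left₀ (by positivity) ?_ 4
  have h : ‖y‖ ≤ ‖z + y‖ + ‖z‖ := by
    have := norm_sub_le (z + y) z
    simpa using this
  nlinarith [norm_nonneg z, norm_nonneg y, norm_nonneg (z + y), mul_nonneg (norm_nonneg z) (norm_nonneg (z + y))]

/-- one proton -/
theorem one_C2 (lam a : ℝ) (hl : 0 ≤ lam) (ha : 1 ≤ a) (y : P3) {f : P3 → ℂ} {M : ℝ}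
    (hM : 0 ≤ M) (hf : ContDiff ℝ 1 f) (hi : Integrable f) (hi' : Integrable (fderiv ℝ f))
    (h1 : ∀ x v, ‖v‖ ≤ 1 → ‖fderiv ℝ f (x + v) - fderiv ℝ f x‖ ≤ M * ‖v‖ / (1 + ‖x‖) ^ 4)
    (h2 : ∀ x, ‖fderiv ℝ f x‖ ≤ M / (1 + ‖x‖) ^ 4) :
    ‖∫ x, k1 lam a (x - y) • f x‖ ≤ 64 * lam * M * (√π * 2) ^ 3 / a ^ 2 / (1 + ‖y‖) ^ 4 := by
  have ha0 : 0 < a := by linarith
  have hsa : 0 < √a := Real.sqrt_pos.2 ha0
  rw [weak_k1_shift lam a ha0 y hf hi hi', norm_neg]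
  have e1 : ∫ x, fderiv ℝ f x (F1 lam a (x - y)) = ∫ z, fderiv ℝ f (z + y) (F1 lam a z) := by
    rw [← integral_add_right_eq_self (fun x => fderiv ℝ f x (F1 lam a (x - y))) y]
    simp
  have i1 : Integrable fun z => fderiv ℝ f (z + y) (F1 lam a z) := by
    have := (integrable_fderiv_F1 lam a y hi').comp_add_right y
    simpa using this
  have i2 : Integrable fun z => fderiv ℝ f y (F1 lam a z) :=
    (fderiv ℝ f y).integrable_comp (integrable_F1 lam a hl ha0)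
  have e2 : ∫ z, fderiv ℝ f y (F1 lam a z) = 0 := by
    rw [(fderiv ℝ f y).integral_comp_comm (integrable_F1 lam a hl ha0), integral_F1, map_zero]
  have e3 : ∫ z, fderiv ℝ f (z + y) (F1 lam a z) =
      ∫ z, (fderiv ℝ f (z + y) - fderiv ℝ f y) (F1 lam a z) := by
    have := integral_sub i1 i2
    rw [e2, sub_zero] at this
    rw [← this]
    rfl
  rw [e1, e3]
  have hb : ∀ z, ‖fderiv ℝ f (z + y) - fderiv ℝ f y‖ ≤
      2 * M * (‖z‖ * (1 + ‖z‖) ^ 4) / (1 + ‖y‖) ^ 4 := by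
    intro z
    rcases le_total ‖z‖ 1 with hz | hz
    · have := h1 y z hz
      rw [add_comm z y]
      refine this.trans (div_le_div_of_nonneg_right ?_ (by positivity))
      have h3 : 1 ≤ (1 + ‖z‖) ^ 4 := one_le_pow₀ (by linarith [norm_nonneg z])
      have h4 : 0 ≤ M * ‖z‖ := mul_nonneg hM (norm_nonneg z)
      nlinarith [mul_le_mul_of_nonneg_left h3 h4]
    · have h3 := h2 (z + y)
      have h4 := h2 y
      have h5 := weight_shift y z
      have h6 : 1 / (1 + ‖y‖) ^ 4 ≤ (1 + ‖z‖) ^ 4 / (1 + ‖y‖) ^ 4 := by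
        gcongr
        exact one_le_pow₀ (by linarith [norm_nonneg z])
      have h7 : (1 + ‖z‖) ^ 4 / (1 + ‖y‖) ^ 4 ≤ ‖z‖ * (1 + ‖z‖) ^ 4 / (1 + ‖y‖) ^ 4 := by
        gcongr
        have : 0 ≤ (1 + ‖z‖) ^ 4 := by positivity
        nlinarith
      calc ‖fderiv ℝ f (z + y) - fderiv ℝ f y‖ ≤ ‖fderiv ℝ f (z + y)‖ + ‖fderiv ℝ f y‖ :=
            norm_sub_le _ _
        _ ≤ M * (1 / (1 + ‖z + y‖) ^ 4) + M * (1 / (1 + ‖y‖) ^ 4) := by
            rw [mul_one_div, mul_one_div]; exact add_le_add h3 h4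
        _ ≤ M * (‖z‖ * (1 + ‖z‖) ^ 4 / (1 + ‖y‖) ^ 4) +
            M * (‖z‖ * (1 + ‖z‖) ^ 4 / (1 + ‖y‖) ^ 4) :=
            add_le_add (mul_le_mul_of_nonneg_left (h5.trans h7) hM)
              (mul_le_mul_of_nonneg_left (h6.trans h7) hM)
        _ = _ := by ring
  have hb2 : ∀ z, ‖(fderiv ℝ f (z + y) - fderiv ℝ f y) (F1 lam a z)‖ ≤
      (64 * lam * M / √a / (1 + ‖y‖) ^ 4) * gau (√a / 2) z := by
    intro z
    have h3 := moment_pt a ha z
    calc ‖(fderiv ℝ f (z + y) - fderiv ℝ f y) (F1 lam a z)‖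
        ≤ ‖fderiv ℝ f (z + y) - fderiv ℝ f y‖ * ‖F1 lam a z‖ := ContinuousLinearMap.le_opNorm _ _
      _ ≤ (2 * M * (‖z‖ * (1 + ‖z‖) ^ 4) / (1 + ‖y‖) ^ 4) * (lam / 2 * gau (√a) z) := by
          gcongr
          · exact hb z
          · exact norm_F1_le lam a hl z
      _ = (M * lam / (1 + ‖y‖) ^ 4) * (‖z‖ * (1 + ‖z‖) ^ 4 * gau (√a) z) := by ring
      _ ≤ (M * lam / (1 + ‖y‖) ^ 4) * (64 / √a * gau (√a / 2) z) := by gcongr
      _ = _ := by ring
  refine (norm_integral_le_of_norm_le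
    ((integrable_gau (√a / 2) (by positivity)).const_mul _) (Eventually.of_forall hb2)).trans ?_
  rw [integral_const_mul, integral_gau _ (by positivity)]
  apply le_of_eq
  have e4 : (√π / (√a / 2)) ^ 3 = (√π * 2) ^ 3 / (a * √a) := by
    rw [show √π / (√a / 2) = (√π * 2) / √a by field_simp, div_pow]
    congr 1
    rw [pow_succ, Real.sq_sqrt ha0.le]
  rw [e4]
  have e5 : a = √a * √a := (Real.mul_self_sqrt ha0.le).symm
  have e6 : ∀ q N : ℝ, 0 < q → 64 * lam * M / q / N * ((√π * 2) ^ 3 / (q * q * q)) =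
      64 * lam * M * (√π * 2) ^ 3 / (q * q) ^ 2 / N := by
    intro q N hq
    rcases eq_or_ne N 0 with rfl | hN
    · simp
    · field_simp
  have e7 := e6 (√a) ((1 + ‖y‖) ^ 4) hsa
  rwa [← e5] at e7

end Crest.Agent.R338.Lat
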