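import Crest.Agent.R338.Lat5

/-!
Row 338, node C.2: sum over the lattice, `C2Stmt`.
-/

set_option autoImplicit false

noncomputable section
open MeasureTheory Real Set Filter Topology
open scoped ContDiff

namespace Crest.Agent.R338.Lat

/-- `(1+r)^{-4}` as a superposition of Gaussians -/
theorem pow4_le_integral (r : ℝ) (hr : 0 ≤ r) :
    1 / (1 + r) ^ 4 ≤ 4 * Real.exp 1 * ∫ τ in (0 : ℝ)..1, τ ^ 3 * Real.exp (-(τ ^ 2 * r ^ 2)) := by
  have hr1 : 0 < 1 + r := by linarith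
  have hb : 0 ≤ 1 / (1 + r) := by positivity
  have hb1 : 1 / (1 + r) ≤ 1 := by rw [div_le_one hr1]; linarith
  have hint : ∀ u v : ℝ, IntervalIntegrable
      (fun τ : ℝ => τ ^ 3 * Real.exp (-(τ ^ 2 * r ^ 2))) volume u v := fun u v =>
    Continuous.intervalIntegrable (by fun_prop) _ _
  have h1 : ∫ τ in (0 : ℝ)..(1 / (1 + r)), τ ^ 3 * Real.exp (-(τ ^ 2 * r ^ 2)) ≤
      ∫ τ in (0 : ℝ)..1, τ ^ 3 * Real.exp (-(τ ^ 2 * r ^ 2)) := by
    rw [← intervalIntegral.integral_add_adjacent_intervals (hint 0 (1 / (1 + r)))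
      (hint (1 / (1 + r)) 1)]
    have : 0 ≤ ∫ τ in (1 / (1 + r))..1, τ ^ 3 * Real.exp (-(τ ^ 2 * r ^ 2)) :=
      intervalIntegral.integral_nonneg hb1 fun τ hτ => by
        have : 0 ≤ τ := hb.trans hτ.1
        positivity
    linarith
  have h2 : ∫ τ in (0 : ℝ)..(1 / (1 + r)), τ ^ 3 * Real.exp (-1) ≤
      ∫ τ in (0 : ℝ)..(1 / (1 + r)), τ ^ 3 * Real.exp (-(τ ^ 2 * r ^ 2)) := by
    refine intervalIntegral.integral_mono_on hb (Continuous.intervalIntegrable (by fun_prop) _ _)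
      (hint _ _) fun τ hτ => ?_
    have h3 : 0 ≤ τ := hτ.1
    refine mul_le_mul_of_nonneg_left (Real.exp_le_exp.2 ?_) (by positivity)
    have h4 : τ * r ≤ 1 := by
      have := hτ.2
      rw [le_div_iff₀ hr1] at this
      nlinarith
    have h5 : 0 ≤ τ * r := mul_nonneg h3 hr
    nlinarith
  have h3 : ∫ τ in (0 : ℝ)..(1 / (1 + r)), τ ^ 3 * Real.exp (-1) =
      (1 / (1 + r)) ^ 4 / 4 * Real.exp (-1) := by
    rw [intervalIntegral.integral_mul_const, integral_pow]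
    norm_num
  have h4 : (1 : ℝ) / (1 + r) ^ 4 = 4 * Real.exp 1 * ((1 / (1 + r)) ^ 4 / 4 * Real.exp (-1)) := by
    rw [Real.exp_neg]
    field_simp
  rw [h4]
  refine mul_le_mul_of_nonneg_left ?_ (by positivity)
  rw [← h3]
  exact h2.trans h1

/-- lattice sum of the weight -/
theorem sum_weight_le (s : ℝ) (hs : 0 < s) (hs1 : s ≤ 1) (nL : ℕ) :
    ∑ α ∈ Box nL, 1 / (1 + ‖pt s α‖) ^ 4 ≤ 700 / s ^ 3 := by
  have h1 : ∑ α ∈ Box nL, 1 / (1 + ‖pt s α‖) ^ 4 ≤ ∑ α ∈ Box nL, 4 * Real.exp 1 *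
      ∫ τ in (0 : ℝ)..1, τ ^ 3 * Real.exp (-(τ ^ 2 * ‖pt s α‖ ^ 2)) :=
    Finset.sum_le_sum fun α _ => pow4_le_integral _ (norm_nonneg _)
  refine h1.trans ?_
  rw [← Finset.mul_sum, ← intervalIntegral.integral_finsetSum
    (fun α _ => Continuous.intervalIntegrable (by fun_prop) _ _)]
  have h2 : ∫ τ in (0 : ℝ)..1, ∑ α ∈ Box nL, τ ^ 3 * Real.exp (-(τ ^ 2 * ‖pt s α‖ ^ 2)) ≤
      ∫ τ in (0 : ℝ)..1, (1.3 * 2.6 / s) ^ 3 := by
    refine intervalIntegral.integral_mono_on_of_le_Ioo (by norm_num)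
      (Continuous.intervalIntegrable (by fun_prop) _ _) (by simp) fun τ hτ => ?_
    have hτ0 : 0 < τ := hτ.1
    have h3 := sum_exp3_le (τ ^ 2) s (by positivity) hs nL 0
    have h4 : ∑ α ∈ Box nL, τ ^ 3 * Real.exp (-(τ ^ 2 * ‖pt s α‖ ^ 2)) =
        τ ^ 3 * ∑ α ∈ Box nL, Real.exp (-(τ ^ 2 * ‖0 - pt s α‖ ^ 2)) := by
      rw [Finset.mul_sum]
      simp
    rw [h4]
    have h5 : Real.exp (τ ^ 2 * s ^ 2 / 4) ≤ 1.3 := by
      have h6 : τ ^ 2 * s ^ 2 / 4 ≤ 1 / 4 := by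
        have h7 : τ ^ 2 ≤ 1 := by nlinarith [hτ.2]
        have h8 : s ^ 2 ≤ 1 := by nlinarith
        have : τ ^ 2 * s ^ 2 ≤ 1 * 1 := mul_le_mul h7 h8 (sq_nonneg _) (by norm_num)
        linarith
      refine (Real.exp_le_exp.2 h6).trans ?_
      have := Real.exp_bound' (x := 1 / 4) (by norm_num) (by norm_num) (n := 3) (by norm_num)
      refine this.trans ?_
      norm_num [Finset.sum_range_succ, Nat.factorial]
    have h9 : √(2 * π / τ ^ 2) ≤ 2.6 / τ := by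
      rw [Real.sqrt_div' _ (by positivity), Real.sqrt_sq hτ0.le]
      refine div_le_div_of_nonneg_right ?_ hτ0.le
      rw [Real.sqrt_le_left (by norm_num)]
      have := Real.pi_lt_d2
      norm_num at this ⊢
      linarith
    calc τ ^ 3 * ∑ α ∈ Box nL, Real.exp (-(τ ^ 2 * ‖0 - pt s α‖ ^ 2))
        ≤ τ ^ 3 * (Real.exp (τ ^ 2 * s ^ 2 / 4) * (√(2 * π / τ ^ 2) / s)) ^ 3 := by gcongr
      _ ≤ τ ^ 3 * (1.3 * (2.6 / τ / s)) ^ 3 := by gcongr
      _ = (1.3 * 2.6 / s) ^ 3 := by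
        rw [← mul_pow]; congr 1; field_simp
  have h10 := Real.exp_one_lt_d9
  have h11 : ∫ τ in (0 : ℝ)..1, (1.3 * 2.6 / s) ^ 3 = (1.3 * 2.6 / s) ^ 3 := by simp
  rw [h11] at h2
  calc 4 * Real.exp 1 * _ ≤ 4 * 2.7182818286 * (1.3 * 2.6 / s) ^ 3 := by
        refine mul_le_mul (by linarith) h2 ?_ (by norm_num)
        exact intervalIntegral.integral_nonneg (by norm_num) fun τ hτ =>
          Finset.sum_nonneg fun α _ => by have := hτ.1; positivity
    _ ≤ 700 / s ^ 3 := by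
        rw [div_pow]
        rw [mul_div_assoc', div_le_div_iff_of_pos_right (by positivity)]
        norm_num

theorem C2Stmt_holds : C2Stmt := by
  refine ⟨64 * 60 * (700 * 16), fun lam s K a nL d hl hs hK hKs ha hd f M hf hi hi' h1 h2 => ?_⟩
  have hK0 : 0 < K := by linarith
  have hKs0 : 0 < K * s := by positivity
  have hs1 : s ≤ 1 := by nlinarith
  have ha1 : 1 ≤ a := by
    rw [ha, le_div_iff₀ (by positivity)]
    nlinarith
  have hM : 0 ≤ M := by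
    have := (norm_nonneg _).trans (h2 0)
    simpa using this
  have hk : ∀ α, Integrable (fun x => k1 lam a (x - nuc s d α) • f x) := fun α =>
    integrable_k1_shift lam a (by linarith) _ hf.continuous hi
  have e1 : ∫ x, (kk lam s a nL d x : ℂ) * f x =
      ∑ α ∈ Box nL, ∫ x, k1 lam a (x - nuc s d α) • f x := by
    rw [← integral_finsetSum _ fun α _ => hk α]
    refine integral_congr_ae (Eventually.of_forall fun x => ?_)
    simp only
    rw [kk, ← Complex.real_smul, Finset.sum_smul]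
  rw [e1]
  have h3 : ∀ α, ‖∫ x, k1 lam a (x - nuc s d α) • f x‖ ≤
      64 * lam * M * (√π * 2) ^ 3 / a ^ 2 * 16 * (1 / (1 + ‖pt s α‖) ^ 4) := fun α => by
    refine (one_C2 lam a hl ha1 (nuc s d α) hM hf hi hi' h1 h2).trans ?_
    rw [div_eq_mul_one_div, mul_assoc (64 * lam * M * (√π * 2) ^ 3 / a ^ 2)]
    refine mul_le_mul_of_nonneg_left ?_ (by positivity)
    have h4 : ‖pt s α‖ ≤ ‖nuc s d α‖ + s / 4 := by
      have e : pt s α = nuc s d α + d α := by unfold nuc; abel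
      rw [e]
      exact (norm_add_le _ _).trans (by linarith [hd α])
    have h5 : (1 + ‖pt s α‖) ≤ 2 * (1 + ‖nuc s d α‖) := by
      have := norm_nonneg (nuc s d α)
      linarith
    have h6 : (1 + ‖pt s α‖) ^ 4 ≤ 16 * (1 + ‖nuc s d α‖) ^ 4 := by
      calc (1 + ‖pt s α‖) ^ 4 ≤ (2 * (1 + ‖nuc s d α‖)) ^ 4 :=
            pow_le_pow_left₀ (by positivity) h5 4
        _ = _ := by ring
    rw [mul_one_div, div_le_div_iff₀ (by positivity) (by positivity)]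
    linarith
  have h4 := sum_weight_le s hs hs1 nL
  have hpi3 : (√π * 2) ^ 3 ≤ 60 := by
    have h5 : √π ≤ 1.8 := by
      rw [Real.sqrt_le_left (by norm_num)]
      have := Real.pi_lt_d2
      norm_num at this ⊢
      linarith
    calc (√π * 2) ^ 3 ≤ (1.8 * 2) ^ 3 := by gcongr
      _ ≤ 60 := by norm_num
  calc ‖∑ α ∈ Box nL, ∫ x, k1 lam a (x - nuc s d α) • f x‖
      ≤ ∑ α ∈ Box nL, 64 * lam * M * (√π * 2) ^ 3 / a ^ 2 * 16 * (1 / (1 + ‖pt s α‖) ^ 4) :=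
        (norm_sum_le _ _).trans (Finset.sum_le_sum fun α _ => h3 α)
    _ = 64 * lam * M * (√π * 2) ^ 3 / a ^ 2 * 16 * ∑ α ∈ Box nL, 1 / (1 + ‖pt s α‖) ^ 4 := by
        rw [Finset.mul_sum]
    _ ≤ 64 * lam * M * 60 / a ^ 2 * 16 * (700 / s ^ 3) := by gcongr
    _ = 64 * 60 * (700 * 16) * lam * M * K ^ 4 * s := by
        rw [ha]
        field_simp

end Crest.Agent.R338.Lat
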