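import Crest.Agent.R338.LatMain
import Crest.Agent.R338.GS9
import Crest.Agent.R338.Di7

/-! Row 338: node LAT complete. -/

set_option autoImplicit false

namespace Crest.Agent.R338.Lat

/-- **Node LAT**: `P2.LatStmt` -/
theorem latStmt : P2.LatStmt := latStmt_of GS.c34 Di.c5

end Crest.Agent.R338.Lat
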