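import Crest.Agent.R338.Lat4

/-!
Row 338, part C assembly: size of `C_0 = -V0(0)`.
-/

set_option autoImplicit false

noncomputable section
open MeasureTheory Real Set Filter Topology
open scoped ContDiff

namespace Crest.Agent.R338.Lat

theorem Sx_nonneg (s : ℝ) (nL : ℕ) (x τ : ℝ) : 0 ≤ Sx s nL x τ :=
  Finset.sum_nonneg fun _ _ => (Real.exp_pos _).le

theorem Sx_le_card (s : ℝ) (nL : ℕ) (h : 1 ≤ nL) (x τ : ℝ) : Sx s nL x τ ≤ 3 * nL := by
  unfold Sx
  have h1 : ∑ k ∈ Finset.Icc (-(nL : ℤ)) (nL : ℤ), Real.exp (-(τ ^ 2 * (x - s * (k : ℝ)) ^ 2)) ≤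
      ∑ _k ∈ Finset.Icc (-(nL : ℤ)) (nL : ℤ), (1 : ℝ) := by
    refine Finset.sum_le_sum fun k _ => ?_
    rw [Real.exp_le_one_iff]
    have : 0 ≤ τ ^ 2 * (x - s * (k : ℝ)) ^ 2 := by positivity
    linarith
  refine h1.trans ?_
  rw [Finset.sum_const, nsmul_eq_mul, mul_one, Int.card_Icc]
  have h2 : ((nL : ℤ) + 1 - -(nL : ℤ)).toNat = 2 * nL + 1 := by omega
  rw [h2]
  have h3 : (1 : ℝ) ≤ nL := by exact_mod_cast h
  push_cast
  linarith

theorem Sx_le_div (s : ℝ) (hs : 0 < s) (nL : ℕ) (x τ : ℝ) (hτ : 0 < τ) (hτs : τ * s ≤ 1) :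
    Sx s nL x τ ≤ 3.4 / s / τ := by
  have h1 := sum_exp_le (τ ^ 2) s x (by positivity) hs (Finset.Icc (-(nL : ℤ)) (nL : ℤ))
  unfold Sx
  refine h1.trans ?_
  have h5 : Real.exp (τ ^ 2 * s ^ 2 / 4) ≤ 1.3 := by
    have h6 : τ ^ 2 * s ^ 2 / 4 ≤ 1 / 4 := by
      have : 0 ≤ τ * s := by positivity
      nlinarith
    refine (Real.exp_le_exp.2 h6).trans ?_
    have := Real.exp_bound' (x := 1 / 4) (by norm_num) (by norm_num) (n := 3) (by norm_num)
    refine this.trans ?_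
    norm_num [Finset.sum_range_succ, Nat.factorial]
  have h9 : √(2 * π / τ ^ 2) ≤ 2.6 / τ := by
    rw [Real.sqrt_div' _ (by positivity), Real.sqrt_sq hτ.le]
    refine div_le_div_of_nonneg_right ?_ hτ.le
    rw [Real.sqrt_le_left (by norm_num)]
    have := Real.pi_lt_d2
    norm_num at this ⊢
    linarith
  calc Real.exp (τ ^ 2 * s ^ 2 / 4) * (√(2 * π / τ ^ 2) / s) ≤ 1.3 * (2.6 / τ / s) := by gcongr
    _ ≤ 3.4 / s / τ := by
      rw [div_div, div_div, ← mul_div_assoc, mul_comm τ s]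
      gcongr
      norm_num

theorem integral_arctan_le (c T : ℝ) (hc : 0 < c) (_hT : 0 ≤ T) :
    ∫ τ in (0 : ℝ)..T, 1 / (1 + (c * τ) ^ 2) ≤ π / (2 * c) := by
  have hd : ∀ τ ∈ uIcc (0 : ℝ) T, HasDerivAt (fun τ : ℝ => Real.arctan (c * τ) / c)
      (1 / (1 + (c * τ) ^ 2)) τ := fun τ _ => by
    have h1 : HasDerivAt (fun τ : ℝ => c * τ) c τ := by
      simpa using (hasDerivAt_id τ).const_mul c
    have h2 := (h1.arctan).div_const c
    refine h2.congr_deriv ?_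
    field_simp
  rw [intervalIntegral.integral_eq_sub_of_hasDerivAt hd
    (Continuous.intervalIntegrable (by
      refine continuous_const.div (by fun_prop) fun x => by positivity) _ _)]
  simp only [mul_zero, Real.arctan_zero, zero_div, sub_zero]
  rw [div_le_div_iff₀ hc (by positivity)]
  have h3 := Real.arctan_lt_pi_div_two (c * T)
  nlinarith

theorem V0_nonpos (lam s a : ℝ) (nL : ℕ) (hl : 0 ≤ lam) (x : P3) : V0 lam s a nL x ≤ 0 := by
  rw [← Vs_zero]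
  exact Finset.sum_nonpos fun α _ => Psi_nonpos lam a hl _

theorem V0_zero_bound (lam s K : ℝ) (nL : ℕ) (hl : 0 ≤ lam) (hs : 0 < s) (hK : 1 ≤ K)
    (hnL : 1 ≤ nL) (hls : s ^ 3 = 4 * π * lam / 3) (x : P3) :
    -(V0 lam s (1 / (K * s) ^ 2) nL x) ≤ 100 * ((nL : ℝ) * s) ^ 2 := by
  set a : ℝ := 1 / (K * s) ^ 2 with ha
  have hK0 : 0 < K := by linarith
  have ha0 : 0 < a := by rw [ha]; positivity
  have hn : (1 : ℝ) ≤ nL := by exact_mod_cast hnL
  have hsa : √a = 1 / (K * s) := by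
    rw [ha, Real.sqrt_div (by norm_num), Real.sqrt_one, Real.sqrt_sq (by positivity)]
  have hsa0 : 0 < √a := Real.sqrt_pos.2 ha0
  have hsas : ∀ τ, τ ≤ √a → τ * s ≤ 1 := fun τ hτ => by
    have : τ * s ≤ √a * s := by gcongr
    refine this.trans ?_
    rw [hsa, div_mul_eq_mul_div, one_mul, div_le_one (by positivity)]
    nlinarith
  set A : ℝ := 3 * nL with hA
  set B : ℝ := 3.4 / s with hB
  have hA0 : 0 < A := by positivity
  have hB0 : 0 < B := by positivity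
  have hprod : ∀ τ, 0 < τ → τ ≤ √a → ∏ c : Fin 3, Sx s nL (x c) τ ≤
      2 * A ^ 3 * (1 / (1 + (A / B * τ) ^ 2)) := by
    intro τ hτ hτa
    have b1 : ∀ c, Sx s nL (x c) τ ≤ A := fun c => Sx_le_card s nL hnL _ _
    have b2 : ∀ c, Sx s nL (x c) τ ≤ B / τ := fun c => Sx_le_div s hs nL _ τ hτ (hsas τ hτa)
    have h0 : ∀ c, 0 ≤ Sx s nL (x c) τ := fun c => Sx_nonneg _ _ _ _
    rw [Fin.prod_univ_three, mul_one_div, le_div_iff₀ (by positivity)]
    have hBτ : B / τ * (A / B * τ) = A := by field_simp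
    obtain ⟨u, hu⟩ : ∃ u, u = Sx s nL (x 0) τ := ⟨_, rfl⟩
    obtain ⟨v, hv⟩ : ∃ v, v = Sx s nL (x 1) τ := ⟨_, rfl⟩
    obtain ⟨w, hw⟩ : ∃ w, w = Sx s nL (x 2) τ := ⟨_, rfl⟩
    rw [← hu, ← hv, ← hw]
    have hu0 : 0 ≤ u := hu ▸ h0 0
    have hv0 : 0 ≤ v := hv ▸ h0 1
    have hw0 : 0 ≤ w := hw ▸ h0 2
    have hu1 : u ≤ A := hu ▸ b1 0
    have hv1 : v ≤ A := hv ▸ b1 1
    have hw1 : w ≤ A := hw ▸ b1 2
    have hu2 : u ≤ B / τ := hu ▸ b2 0
    have hv2 : v ≤ B / τ := hv ▸ b2 1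
    have h1 : u * v * w ≤ A * A * A :=
      mul_le_mul (mul_le_mul hu1 hv1 hv0 hA0.le) hw1 hw0 (by positivity)
    have hq : 0 ≤ A / B * τ := by positivity
    have h2 : (u * (A / B * τ)) ≤ A := (mul_le_mul_of_nonneg_right hu2 hq).trans_eq hBτ
    have h3 : (v * (A / B * τ)) ≤ A := (mul_le_mul_of_nonneg_right hv2 hq).trans_eq hBτ
    have h4 : u * v * w * (A / B * τ) ^ 2 ≤ A * A * A := by
      calc u * v * w * (A / B * τ) ^ 2 = (u * (A / B * τ)) * (v * (A / B * τ)) * w := by ring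
        _ ≤ A * A * A :=
          mul_le_mul (mul_le_mul h2 h3 (by positivity) hA0.le) hw1 hw0 (by positivity)
    calc u * v * w * (1 + (A / B * τ) ^ 2) = u * v * w + u * v * w * (A / B * τ) ^ 2 := by ring
      _ ≤ A * A * A + A * A * A := add_le_add h1 h4
      _ = 2 * A ^ 3 := by ring
  have hcont : Continuous fun τ : ℝ => ∏ c : Fin 3, Sx s nL (x c) τ := by
    unfold Sx; fun_prop
  have hI : ∫ τ in (0 : ℝ)..√a, ∏ c : Fin 3, Sx s nL (x c) τ ≤ π * A ^ 2 * B := by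
    calc ∫ τ in (0 : ℝ)..√a, ∏ c : Fin 3, Sx s nL (x c) τ
        ≤ ∫ τ in (0 : ℝ)..√a, 2 * A ^ 3 * (1 / (1 + (A / B * τ) ^ 2)) := by
          refine intervalIntegral.integral_mono_on_of_le_Ioo hsa0.le
            (hcont.intervalIntegrable _ _) (Continuous.intervalIntegrable ?_ _ _)
            fun τ hτ => hprod τ hτ.1 hτ.2.le
          refine continuous_const.mul (continuous_const.div (by fun_prop) fun y => ?_)
          positivity
      _ = 2 * A ^ 3 * ∫ τ in (0 : ℝ)..√a, 1 / (1 + (A / B * τ) ^ 2) := by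
          rw [intervalIntegral.integral_const_mul]
      _ ≤ 2 * A ^ 3 * (π / (2 * (A / B))) := by
          gcongr
          exact integral_arctan_le (A / B) (√a) (by positivity) hsa0.le
      _ = π * A ^ 2 * B := by field_simp
  have hE : √a * ∏ c : Fin 3, Sx s nL (x c) (√a) ≤ A ^ 2 * B := by
    rw [Fin.prod_univ_three]
    have b1 : ∀ c, Sx s nL (x c) (√a) ≤ A := fun c => Sx_le_card s nL hnL _ _
    have b2 : Sx s nL (x 2) (√a) ≤ B / √a := Sx_le_div s hs nL _ _ hsa0 (hsas _ le_rfl)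
    have h0 : ∀ c, 0 ≤ Sx s nL (x c) (√a) := fun c => Sx_nonneg _ _ _ _
    calc √a * (Sx s nL (x 0) (√a) * Sx s nL (x 1) (√a) * Sx s nL (x 2) (√a))
        ≤ √a * (A * A * (B / √a)) :=
          mul_le_mul_of_nonneg_left (mul_le_mul (mul_le_mul (b1 0) (b1 1) (h0 1) hA0.le) b2
            (h0 2) (by positivity)) hsa0.le
      _ = A ^ 2 * B := by field_simp
  have hpi : 0 < √π := Real.sqrt_pos.2 Real.pi_pos
  have hpi2 : 1.7 ≤ √π := by
    rw [Real.le_sqrt' (by norm_num)]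
    have := Real.pi_gt_three
    nlinarith
  have hpi3 : √π * √π = π := Real.mul_self_sqrt Real.pi_pos.le
  have hpi4 := Real.pi_lt_d2
  have hpi5 := Real.pi_gt_three
  have hV : -(V0 lam s a nL x) = lam * (2 / √π * ∫ τ in (0 : ℝ)..√a, ∏ c : Fin 3, Sx s nL (x c) τ) +
      lam * (1 / √π) * (√a * ∏ c : Fin 3, Sx s nL (x c) (√a)) := by
    unfold V0
    rw [Real.sqrt_div ha0.le]; ring
  rw [hV]
  have hAB : 0 ≤ A ^ 2 * B := by positivity
  calc lam * (2 / √π * ∫ τ in (0 : ℝ)..√a, ∏ c : Fin 3, Sx s nL (x c) τ) +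
      lam * (1 / √π) * (√a * ∏ c : Fin 3, Sx s nL (x c) (√a))
      ≤ lam * (2 / √π * (π * A ^ 2 * B)) + lam * (1 / √π) * (A ^ 2 * B) := by gcongr
    _ = (lam * (A ^ 2 * B)) * (2 * √π + 1 / √π) := by
        have e : π * A ^ 2 * B = (√π * √π) * A ^ 2 * B := by rw [hpi3]
        rw [e]; field_simp
    _ ≤ (lam * (A ^ 2 * B)) * 5 := by
        gcongr
        have h1 : √π ≤ 1.8 := by
          rw [Real.sqrt_le_left (by norm_num)]
          norm_num at hpi4 ⊢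
          linarith
        have h2 : 1 / √π ≤ 1 := by
          rw [div_le_one hpi]; linarith
        linarith
    _ = (153 * lam / s ^ 3) * ((nL : ℝ) * s) ^ 2 := by
        rw [hA, hB]; field_simp; ring
    _ ≤ 100 * ((nL : ℝ) * s) ^ 2 := by
        gcongr
        rw [hls, div_le_iff₀ (by rw [← hls]; positivity)]
        nlinarith

end Crest.Agent.R338.Lat
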