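import Crest.Agent.R338.Lat6
import Crest.Agent.R338.LatV0
import Crest.Agent.R338.LatC34
import Crest.Agent.R338.P2Defs
import Crest.Agent.R338.Bridge
import Crest.Agent.R338.HO6

/-!
Row 338, part C assembly: `P2.LatStmt` from `C34Stmt` (701) and `C5Stmt` (581).
-/

set_option autoImplicit false

noncomputable section
open MeasureTheory Real Set Filter Topology
open scoped ContDiff

namespace Crest.Agent.R338.Lat

/-- the sum over an enumeration of the box -/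
theorem sum_enum {N nL : ℕ} (e : Fin N ≃ {α // α ∈ Box nL}) (g : (Fin 3 → ℤ) → ℝ) :
    ∑ i, g (e i).1 = ∑ α ∈ Box nL, g α := by
  rw [Equiv.sum_comp e (fun α : {α // α ∈ Box nL} => g α.1)]
  exact Finset.sum_coe_sort (Box nL) g

theorem kk_enum {N nL : ℕ} (e : Fin N ≃ {α // α ∈ Box nL}) (lam s a : ℝ)
    (d : (Fin 3 → ℤ) → P3) (x : P3) :
    (-lam * ∑ i, 1 / ‖x - nuc s d (e i).1‖) - Vs lam s a nL d x = kk lam s a nL d x := by
  have h := Vnuc_eq lam s a nL d x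
  have h2 : Vnuc lam s nL d x = -lam * ∑ i, 1 / ‖x - nuc s d (e i).1‖ := by
    rw [sum_enum e fun α => 1 / ‖x - nuc s d α‖, Finset.mul_sum]
    unfold Vnuc
    exact Finset.sum_congr rfl fun α _ => by ring
  rw [← h2, h]; ring

theorem continuous_Vs (lam s a : ℝ) (nL : ℕ) (d : (Fin 3 → ℤ) → P3) :
    Continuous (Vs lam s a nL d) := by
  unfold Vs
  exact continuous_finsetSum _ fun α _ => (continuous_Psi lam a).comp (continuous_id.sub continuous_const)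

theorem Vs_nonpos (lam s a : ℝ) (nL : ℕ) (d : (Fin 3 → ℤ) → P3) (hl : 0 ≤ lam) (x : P3) :
    Vs lam s a nL d x ≤ 0 := Finset.sum_nonpos fun α _ => Psi_nonpos lam a hl _

theorem Vs_bdd (lam s a : ℝ) (nL : ℕ) (d : (Fin 3 → ℤ) → P3) (hl : 0 ≤ lam) (ha : 0 ≤ a) :
    ∃ b, ∀ x, -b ≤ Vs lam s a nL d x := by
  refine ⟨∑ _α ∈ Box nL, 2 * lam * √a, fun x => ?_⟩
  unfold Vs
  rw [← Finset.sum_neg_distrib]
  exact Finset.sum_le_sum fun α _ => (abs_le.1 (abs_Psi_le lam a hl ha _)).1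

theorem measurable_FF (lam s a : ℝ) (nL : ℕ) (d : (Fin 3 → ℤ) → P3) :
    Measurable (FF lam s a nL d) := by
  unfold FF
  exact Finset.measurable_fun_sum _ fun α _ => (measurable_F1 lam a).comp (measurable_id.sub_const _)

set_option maxHeartbeats 2000000 in
/-- **Node LAT** -/
theorem latStmt_of (h34 : C34Stmt) (h5 : C5Stmt) : P2.LatStmt := by
  obtain ⟨c4, hc4, H34⟩ := h34
  obtain ⟨C5, H5⟩ := h5
  obtain ⟨C3, hC3, H3⟩ := HO.N3_of_C2 C2Stmt_holds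
  obtain ⟨c5, hc5⟩ := exists_nat_ge |C5|
  obtain ⟨c3, hc3⟩ := exists_nat_ge C3
  obtain ⟨CB, HB⟩ := C1Bound_holds
  obtain ⟨cB, hcB⟩ := exists_nat_ge |CB|
  obtain ⟨C, hC⟩ : ∃ C, C = c4 + c5 + c3 + cB + 400 := ⟨_, rfl⟩
  refine ⟨C, by omega, ?_⟩
  intro n0 nL N lam s K R Lw G Wb eps d w wc e hlam hlam1 hs hs1 hls hCK hKs hCR hLw hLwn hCRn hG
    heps hWb hD hwc hwb hwcb hww hlW hR8 E2 hE2
  have hE2def : E2 = (C : ℝ) * (R ^ 4 / ((nL : ℝ) * s) ^ 2 + lam * G ^ 2 * (s ^ 2 * Lw + K * s) +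
      lam * eps * Lw / s ^ 3 + ((nL : ℝ) + 1) ^ C * Real.exp (-K ^ 2) / s ^ C) := rfl
  clear_value E2
  have hc4C : (c4 : ℝ) ≤ C := by exact_mod_cast (by omega : c4 ≤ C)
  have hc5C : (c5 : ℝ) ≤ C := by exact_mod_cast (by omega : c5 ≤ C)
  have hc3C : (c3 : ℝ) ≤ C := by exact_mod_cast (by omega : c3 ≤ C)
  have hcBC : (cB : ℝ) ≤ C := by exact_mod_cast (by omega : cB ≤ C)
  have h400 : (400 : ℝ) ≤ C := by exact_mod_cast (by omega : 400 ≤ C)
  have hK1 : 1 ≤ K := by linarith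
  have hK0 : 0 < K := by linarith
  have hR0 : 0 < R := by linarith
  have hnLs : 0 < (nL : ℝ) * s := lt_of_lt_of_le (by positivity) hCRn
  have hnL0 : (0 : ℝ) < nL := by
    by_contra h
    push Not at h
    have h' : (nL : ℝ) = 0 := le_antisymm h (Nat.cast_nonneg _)
    rw [h', zero_mul] at hnLs
    exact lt_irrefl _ hnLs
  have hnL1 : 1 ≤ nL := by exact_mod_cast hnL0
  obtain ⟨a, ha⟩ : ∃ a, a = 1 / (K * s) ^ 2 := ⟨_, rfl⟩
  rw [← ha]
  have ha0 : 0 < a := by rw [ha]; positivity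
  obtain ⟨Hn, Hf⟩ := H34 nL lam s K R hlam hlam1 hs hs1 hls (hc4C.trans hCK) hKs (hc4C.trans hCR)
    ((mul_le_mul_of_nonneg_right hc4C hR0.le).trans hCRn)
  rw [← ha] at Hn Hf
  obtain ⟨E4, hE4⟩ : ∃ E4 : ℝ, E4 = (c4 : ℝ) * (R ^ 4 / ((nL : ℝ) * s) ^ 2 +
    ((nL : ℝ) + 1) ^ c4 * Real.exp (-K ^ 2) / s ^ c4) := ⟨_, rfl⟩
  rw [← hE4] at Hn Hf
  have H5' := H5 lam s K a nL d wc Lw G eps hlam.le hs hs1 hK1 ha hLw hLwn hG heps hD
  obtain ⟨T1, hT1⟩ : ∃ T : ℝ, T = R ^ 4 / ((nL : ℝ) * s) ^ 2 := ⟨_, rfl⟩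
  obtain ⟨T4, hT4⟩ : ∃ T : ℝ, T = ((nL : ℝ) + 1) ^ C * Real.exp (-K ^ 2) / s ^ C := ⟨_, rfl⟩
  obtain ⟨T2, hT2⟩ : ∃ T : ℝ, T = lam * G ^ 2 * (s ^ 2 * Lw + K * s) := ⟨_, rfl⟩
  obtain ⟨T3, hT3⟩ : ∃ T : ℝ, T = lam * eps * Lw / s ^ 3 := ⟨_, rfl⟩
  rw [← hT1, ← hT2, ← hT3, ← hT4] at hE2def
  rw [← hT1] at hE4
  have hT1' : 0 ≤ T1 := by rw [hT1]; positivity
  have hT2' : 0 ≤ T2 := by rw [hT2]; positivity
  have hT3' : 0 ≤ T3 := by rw [hT3]; positivity
  have hT4' : 0 ≤ T4 := by rw [hT4]; positivity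
  have hE4le : E4 ≤ C * (T1 + T4) := by
    rw [hE4]
    have h1 : ((nL : ℝ) + 1) ^ c4 * Real.exp (-K ^ 2) / s ^ c4 ≤ T4 := by
      rw [hT4]
      have h2 : ((nL : ℝ) + 1) ^ c4 ≤ ((nL : ℝ) + 1) ^ C :=
        pow_le_pow_right₀ (by linarith) (by omega)
      have h3 : s ^ C ≤ s ^ c4 := pow_le_pow_of_le_one hs.le hs1 (by omega)
      gcongr
    exact mul_le_mul hc4C (by linarith) (by positivity) (by positivity)
  have hE5le : ∀ x, |Vs lam s a nL d x - V0 lam s a nL x - lam * wc x| ≤ C * (T2 + T3) := by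
    intro x
    refine (H5' x).trans ?_
    have e1 : C5 * lam * (G ^ 2 * (s ^ 2 * Lw + K * s) + eps * Lw / s ^ 3) = C5 * (T2 + T3) := by
      rw [hT2, hT3]; ring
    rw [e1]
    refine mul_le_mul_of_nonneg_right ?_ (by positivity)
    exact (le_abs_self _).trans (hc5.trans hc5C)
  have hsum0 : 0 ≤ (C : ℝ) * (T1 + T4) := by positivity
  have hsum1 : 0 ≤ (C : ℝ) * (T2 + T3) := by positivity
  have hE2split : E2 = C * (T1 + T4) + C * (T2 + T3) := by rw [hE2def]; ring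
  refine
    { lam_pos := hlam
      kF_nonneg := by positivity
      w_cont := hwc
      w_bdd := hwb
      C0_nonneg := by
        have := V0_nonpos lam s a nL hlam.le 0
        linarith
      C0_le := by
        have h1 := V0_zero_bound lam s K nL hlam.le hs hK1 hnL1 hls 0
        rw [← ha] at h1
        refine h1.trans (le_trans ?_ hR8)
        exact mul_le_mul_of_nonneg_right (by linarith) (by positivity)
      decomp := ?_ }
  refine ⟨Vs lam s a nL d, FF lam s a nL d, continuous_Vs _ _ _ _ _, Vs_nonpos _ _ _ _ _ hlam.le,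
    Vs_bdd _ _ _ _ _ hlam.le ha0.le, measurable_FF _ _ _ _ _, ?_, ?_, ?_, ?_, ?_⟩
  · intro x
    refine (HB lam s K a nL d hlam.le hs hK1 ha hD.dsmall x).trans ?_
    have h1 : CB ≤ C := (le_abs_self _).trans (hcB.trans hcBC)
    gcongr
  · intro f hf _ hi hi'
    have h := (weak_kk lam s a nL d ha0 hf hi hi').2
    simp only [smul_eq_mul] at h
    rw [← h]
    refine integral_congr_ae (Eventually.of_forall fun x => ?_)
    simp only
    rw [kk_enum e]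
  · intro x hx
    have h1 := Hn x hx
    have h2 := hE5le x
    rw [hww x hx] at h2
    have e1 : Vs lam s a nL d x + -(V0 lam s a nL 0) - ‖x‖ ^ 2 / 2 - lam * w x =
        (Vs lam s a nL d x - V0 lam s a nL x - lam * w x) +
        (V0 lam s a nL x - V0 lam s a nL 0 - ‖x‖ ^ 2 / 2) := by ring
    rw [e1]
    refine (abs_add_le _ _).trans ?_
    linarith
  · intro x hx
    have h0 : E4 ≤ 1 := by linarith
    have h1 := Hf h0 x hx
    have h2 := (abs_le.1 (hE5le x)).1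
    have h3 := (abs_le.1 (hwcb x)).1
    have h4 : lam * Wb ≤ R ^ 2 / 400 := by
      rw [le_div_iff₀ (by norm_num)]
      have h5 : 400 * (lam * Wb) ≤ C * (lam * Wb) :=
        mul_le_mul_of_nonneg_right h400 (by positivity)
      linarith
    have h5 : -(lam * Wb) ≤ lam * wc x := by nlinarith
    have h6 : (160000 : ℝ) ≤ R ^ 2 := by nlinarith
    have h7 : (C : ℝ) * (T2 + T3) ≤ 1 := by linarith
    linarith
  · intro p q hp hq
    have hp' : TA.deg3 p ≤ n0 := by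
      unfold TA.deg3; rw [Fin.sum_univ_three] at hp; exact hp
    have hq' : TA.deg3 q ≤ n0 := by
      unfold TA.deg3; rw [Fin.sum_univ_three] at hq; exact hq
    have h1 := H3 lam s K a nL d hlam.le hs hK1 hKs ha hD.dsmall n0 p q hp' hq'
    have e1 : ∫ x, ((-lam * ∑ α, 1 / ‖x - nuc s d (e α).1‖) - Vs lam s a nL d x) *
        (orb p x * orb q x) = ∫ x, kk lam s a nL d x * (HO.Phi p x * HO.Phi q x) := by
      refine integral_congr_ae (Eventually.of_forall fun x => ?_)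
      simp only
      rw [kk_enum e, orb_eq, orb_eq]
    rw [e1]
    refine h1.trans ?_
    have h2 : ((n0 : ℝ) + 1) ^ 36 ≤ ((n0 : ℝ) + 2) ^ C := by
      calc ((n0 : ℝ) + 1) ^ 36 ≤ ((n0 : ℝ) + 2) ^ 36 := by gcongr; norm_num
        _ ≤ ((n0 : ℝ) + 2) ^ C := pow_le_pow_right₀ (by linarith [Nat.cast_nonneg (α := ℝ) n0]) (by omega)
    have h3 : C3 ≤ C := hc3.trans hc3C
    calc C3 * lam * ((n0 : ℝ) + 1) ^ 36 * K ^ 4 * s ≤ C * lam * ((n0 : ℝ) + 2) ^ C * K ^ 4 * s := by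
          gcongr
      _ = C * ((n0 : ℝ) + 2) ^ C * lam * K ^ 4 * s := by ring

end Crest.Agent.R338.Lat
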