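import Mathlib

/-!
# Row 338, node I.3: the mediator gadget (helper896)

Abstract form. `V` is the space of the base qubits, the state is `Ψ : (κ → Bool) → V` (one component
for each configuration of the mediators). `D k = Z_a - Z_b`, `X k = X_t`; `Z_a Z_b X_t = X - D²X/2`.
-/

set_option autoImplicit false
set_option linter.unusedSectionVars false

namespace Crest.Agent.R338.ME

open scoped RealInnerProductSpace

variable {V : Type*} [NormedAddCommGroup V] [InnerProductSpace ℝ V] {κ : Type*} [Fintype κ]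
  [DecidableEq κ]

/-- data of the mediators -/
structure Med (V : Type*) [NormedAddCommGroup V] [InnerProductSpace ℝ V] (κ : Type*) where
  D : κ → V →ₗ[ℝ] V
  X : κ → V →ₗ[ℝ] V
  c : κ → ℝ
  δ : ℝ
  hD : ∀ k u v, ⟪D k u, v⟫ = ⟪u, D k v⟫
  hX : ∀ k u v, ⟪X k u, v⟫ = ⟪u, X k v⟫
  comm : ∀ k v, D k (X k v) = X k (D k v)
  nD : ∀ k v, ‖D k v‖ ≤ 2 * ‖v‖
  nX : ∀ k v, ‖X k v‖ ≤ ‖v‖
  c0 : ∀ k, 0 ≤ c k
  cδ : ∀ k, c k ≤ δ
  δ0 : 0 < δ

/-- flip one mediator -/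
def flp (k : κ) (m : κ → Bool) : κ → Bool := Function.update m k (!m k)

omit [Fintype κ] in
@[simp] theorem flp_same (k : κ) (m : κ → Bool) : flp k m k = !m k := by simp [flp]

omit [Fintype κ] in
@[simp] theorem flp_flp (k : κ) (m : κ → Bool) : flp k (flp k m) = m := by
  funext j
  by_cases h : j = k
  · subst h; simp [flp]
  · simp [flp, h]

omit [Fintype κ] in
theorem flp_ne {k j : κ} (h : j ≠ k) (m : κ → Bool) : flp k m j = m j := by simp [flp, h]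

/-- flipping is a bijection -/
def flpE (k : κ) : (κ → Bool) ≃ (κ → Bool) := ⟨flp k, flp k, flp_flp k, flp_flp k⟩

theorem sum_flp (k : κ) (f : (κ → Bool) → ℝ) : ∑ m, f (flp k m) = ∑ m, f m :=
  Equiv.sum_comp (flpE k) f

namespace Med

variable (M : Med V κ)

/-- three-local term `c Z_a Z_b X_t` -/
noncomputable def t3 (k : κ) (v : V) : ℝ :=
  M.c k * (⟪v, M.X k v⟫ - ⟪M.D k v, M.X k (M.D k v)⟫ / 2)

/-- the gadget of the mediator `k` -/
noncomputable def gad (k : κ) (Ψ : (κ → Bool) → V) (m : κ → Bool) : ℝ :=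
  (if m k then M.δ ^ 3 * ‖Ψ m‖ ^ 2 - M.c k * M.δ ^ 2 / 2 * ⟪Ψ m, M.X k (Ψ m)⟫ else 0)
    + M.δ ^ 2 * ⟪Ψ m, M.D k (Ψ (flp k m))⟫ + M.δ * ‖M.D k (Ψ m)‖ ^ 2
    + M.c k * ⟪Ψ m, M.X k (Ψ m)⟫

/-- the three-local form -/
noncomputable def H3 (L : V → ℝ) (v : V) : ℝ := L v + ∑ k, M.t3 k v

/-- the two-local form with mediators -/
noncomputable def H2 (L : V → ℝ) (Ψ : (κ → Bool) → V) : ℝ :=
  ∑ m, (L (Ψ m) + ∑ k, M.gad k Ψ m)

omit [Fintype κ] [DecidableEq κ] in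
theorem abs_X_le (k : κ) (u v : V) : |⟪u, M.X k v⟫| ≤ ‖u‖ * ‖v‖ :=
  (abs_real_inner_le_norm _ _).trans (mul_le_mul_of_nonneg_left (M.nX k v) (norm_nonneg _))

omit [Fintype κ] [DecidableEq κ] in
/-- the key computation: `Ψ₀, Ψ₁` are the components with the mediator off / on -/
theorem key (k : κ) (a b : V) :
    2 * M.δ ^ 2 * ⟪a, M.D k b⟫ + M.δ ^ 3 * ‖b‖ ^ 2 - M.c k * M.δ ^ 2 / 2 * ⟪b, M.X k b⟫
      + M.δ * ‖M.D k a‖ ^ 2 + M.c k / 2 * ⟪M.D k a, M.X k (M.D k a)⟫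
    = M.δ * ‖M.D k a + M.δ • b‖ ^ 2
      - M.c k / 2 * ⟪M.D k a + M.δ • b, M.X k (M.D k a + M.δ • b)⟫
      + M.c k * ⟪M.D k a + M.δ • b, M.X k (M.D k a)⟫ := by
  set u := M.D k a with hu
  have h1 : ⟪a, M.D k b⟫ = ⟪u, b⟫ := (M.hD k a b).symm
  have h2 : ⟪b, M.X k u⟫ = ⟪u, M.X k b⟫ := by
    rw [← M.hX k b u, real_inner_comm]
  rw [h1, norm_add_sq_real, map_add, map_smul]
  simp only [inner_add_left, inner_add_right, inner_smul_left, inner_smul_right, norm_smul,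
    Real.norm_eq_abs, abs_of_pos M.δ0, conj_trivial]
  rw [h2]
  ring

omit [Fintype κ] [DecidableEq κ] in
theorem pair_lower (k : κ) (a b : V) :
    -(2 * M.c k ^ 2 / M.δ) * ‖a‖ ^ 2 ≤
      2 * M.δ ^ 2 * ⟪a, M.D k b⟫ + M.δ ^ 3 * ‖b‖ ^ 2 - M.c k * M.δ ^ 2 / 2 * ⟪b, M.X k b⟫
      + M.δ * ‖M.D k a‖ ^ 2 + M.c k / 2 * ⟪M.D k a, M.X k (M.D k a)⟫ := by
  rw [M.key k a b]
  set u := M.D k a with hu
  set r := u + M.δ • b with hr
  have hδ := M.δ0
  have hc := M.c0 k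
  have hcδ := M.cδ k
  have h1 := (abs_le.1 (M.abs_X_le k r r)).2
  have h2 := (abs_le.1 (M.abs_X_le k r u)).1
  have h3 : ‖u‖ ≤ 2 * ‖a‖ := M.nD k a
  have h4 : 0 ≤ ‖r‖ := norm_nonneg _
  have h5 : 0 ≤ ‖u‖ := norm_nonneg _
  have h6 : 0 ≤ ‖a‖ := norm_nonneg _
  -- lower bound by a quadratic polynomial in ‖r‖
  have h7 : M.δ / 2 * ‖r‖ ^ 2 - M.c k * ‖r‖ * ‖u‖ ≤ M.δ * ‖r‖ ^ 2
      - M.c k / 2 * ⟪r, M.X k r⟫ + M.c k * ⟪r, M.X k u⟫ := by
    have h8 : M.c k / 2 * ⟪r, M.X k r⟫ ≤ M.δ / 2 * ‖r‖ ^ 2 := by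
      calc M.c k / 2 * ⟪r, M.X k r⟫ ≤ M.c k / 2 * (‖r‖ * ‖r‖) :=
            mul_le_mul_of_nonneg_left h1 (by positivity)
        _ ≤ M.δ / 2 * (‖r‖ * ‖r‖) := mul_le_mul_of_nonneg_right (by linarith) (by positivity)
        _ = _ := by ring
    have h9 : -(M.c k * ‖r‖ * ‖u‖) ≤ M.c k * ⟪r, M.X k u⟫ := by
      have := mul_le_mul_of_nonneg_left h2 hc
      linarith
    linarith
  have h8 : -(M.c k ^ 2 / (2 * M.δ)) * ‖u‖ ^ 2 ≤ M.δ / 2 * ‖r‖ ^ 2 - M.c k * ‖r‖ * ‖u‖ := by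
    have h9 : 0 ≤ (M.δ * ‖r‖ - M.c k * ‖u‖) ^ 2 / (2 * M.δ) := by positivity
    have e : (M.δ * ‖r‖ - M.c k * ‖u‖) ^ 2 / (2 * M.δ)
        = M.δ / 2 * ‖r‖ ^ 2 - M.c k * ‖r‖ * ‖u‖ + (M.c k ^ 2 / (2 * M.δ)) * ‖u‖ ^ 2 := by
      field_simp
      ring
    rw [e] at h9
    linarith
  have h9 : -(2 * M.c k ^ 2 / M.δ) * ‖a‖ ^ 2 ≤ -(M.c k ^ 2 / (2 * M.δ)) * ‖u‖ ^ 2 := by
    have h10 : ‖u‖ ^ 2 ≤ 4 * ‖a‖ ^ 2 := by nlinarith
    have h11 : 0 ≤ M.c k ^ 2 / (2 * M.δ) := by positivity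
    have h12 : M.c k ^ 2 / (2 * M.δ) * ‖u‖ ^ 2 ≤ M.c k ^ 2 / (2 * M.δ) * (4 * ‖a‖ ^ 2) :=
      mul_le_mul_of_nonneg_left h10 h11
    have e : M.c k ^ 2 / (2 * M.δ) * (4 * ‖a‖ ^ 2) = 2 * M.c k ^ 2 / M.δ * ‖a‖ ^ 2 := by
      field_simp
      ring
    linarith
  linarith

omit [Fintype κ] [DecidableEq κ] in
/-- `δ D² + (c/2) D² X ≥ 0` -/
theorem diag_nonneg (k : κ) (b : V) :
    0 ≤ M.δ * ‖M.D k b‖ ^ 2 + M.c k / 2 * ⟪M.D k b, M.X k (M.D k b)⟫ := by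
  have h1 := (abs_le.1 (M.abs_X_le k (M.D k b) (M.D k b))).1
  have hc := M.c0 k
  have hcδ := M.cδ k
  have h2 : -(M.c k / 2 * (‖M.D k b‖ * ‖M.D k b‖)) ≤ M.c k / 2 * ⟪M.D k b, M.X k (M.D k b)⟫ := by
    have := mul_le_mul_of_nonneg_left h1 (show 0 ≤ M.c k / 2 by positivity)
    linarith
  have h3 : M.c k / 2 * (‖M.D k b‖ * ‖M.D k b‖) ≤ M.δ * (‖M.D k b‖ * ‖M.D k b‖) :=
    mul_le_mul_of_nonneg_right (by linarith) (by positivity)
  nlinarith

/-- pairing of the two values of a mediator -/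
theorem pair_gad (k : κ) (Ψ : (κ → Bool) → V) (m : κ → Bool) :
    M.t3 k (Ψ m) + M.t3 k (Ψ (flp k m)) - 2 * M.c k ^ 2 / M.δ * (‖Ψ m‖ ^ 2 + ‖Ψ (flp k m)‖ ^ 2) ≤
      M.gad k Ψ m + M.gad k Ψ (flp k m) := by
  have hδ := M.δ0
  have main : ∀ m : κ → Bool, m k = false →
      M.t3 k (Ψ m) + M.t3 k (Ψ (flp k m)) - 2 * M.c k ^ 2 / M.δ * (‖Ψ m‖ ^ 2 + ‖Ψ (flp k m)‖ ^ 2) ≤
      M.gad k Ψ m + M.gad k Ψ (flp k m) := by
    intro m hm
    have h1 := M.pair_lower k (Ψ m) (Ψ (flp k m))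
    have h2 := M.diag_nonneg k (Ψ (flp k m))
    have h3 : ⟪Ψ (flp k m), M.D k (Ψ m)⟫ = ⟪Ψ m, M.D k (Ψ (flp k m))⟫ := by
      rw [← M.hD, real_inner_comm]
    have h4 : 0 ≤ 2 * M.c k ^ 2 / M.δ * ‖Ψ (flp k m)‖ ^ 2 := by positivity
    unfold gad t3
    simp only [flp_same, hm, Bool.not_false, if_true, flp_flp, Bool.false_eq_true, if_false]
    rw [h3]
    linarith
  rcases hm : m k with _ | _
  · exact main m hm
  · have h := main (flp k m) (by simp [hm])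
    rw [flp_flp] at h
    linarith

theorem sum_gad (k : κ) (Ψ : (κ → Bool) → V) :
    ∑ m, M.t3 k (Ψ m) - 2 * M.c k ^ 2 / M.δ * ∑ m, ‖Ψ m‖ ^ 2 ≤ ∑ m, M.gad k Ψ m := by
  have h := Finset.sum_le_sum fun m (_ : m ∈ (Finset.univ : Finset (κ → Bool))) => M.pair_gad k Ψ m
  simp only [Finset.sum_sub_distrib, Finset.sum_add_distrib, ← Finset.mul_sum] at h
  rw [sum_flp k (fun m => M.t3 k (Ψ m)), sum_flp k (fun m => ‖Ψ m‖ ^ 2),
    sum_flp k (fun m => M.gad k Ψ m)] at h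
  linarith

/-- **lower bound** -/
theorem H2_lower (L : V → ℝ) {μ : ℝ} (hμ : ∀ v, μ * ‖v‖ ^ 2 ≤ M.H3 L v) (Ψ : (κ → Bool) → V) :
    (μ - ∑ k, 2 * M.c k ^ 2 / M.δ) * ∑ m, ‖Ψ m‖ ^ 2 ≤ M.H2 L Ψ := by
  have h1 : ∀ k, ∑ m, M.t3 k (Ψ m) - 2 * M.c k ^ 2 / M.δ * ∑ m, ‖Ψ m‖ ^ 2 ≤ ∑ m, M.gad k Ψ m :=
    fun k => M.sum_gad k Ψ
  have h2 := Finset.sum_le_sum fun k (_ : k ∈ (Finset.univ : Finset κ)) => h1 k
  rw [Finset.sum_sub_distrib, ← Finset.sum_mul] at h2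
  have h3 : M.H2 L Ψ = ∑ m, L (Ψ m) + ∑ k, ∑ m, M.gad k Ψ m := by
    unfold H2
    rw [Finset.sum_add_distrib, Finset.sum_comm (s := (Finset.univ : Finset (κ → Bool)))]
  have h4 : ∑ m, μ * ‖Ψ m‖ ^ 2 ≤ ∑ m, (L (Ψ m) + ∑ k, M.t3 k (Ψ m)) :=
    Finset.sum_le_sum fun m _ => hμ (Ψ m)
  rw [Finset.sum_add_distrib, Finset.sum_comm (s := (Finset.univ : Finset (κ → Bool))),
    ← Finset.mul_sum] at h4
  rw [h3]
  linarith

/-! ### upper bound -/

/-- the configurations carrying the trial state -/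
def emb : Option κ → κ → Bool
  | none => fun _ => false
  | some k => flp k fun _ => false

theorem emb_inj : Function.Injective (emb : Option κ → κ → Bool) := by
  rintro (_ | k) (_ | j) h
  · rfl
  · have := congrFun h j
    simp [emb] at this
  · have := congrFun h k
    simp [emb] at this
  · by_cases hkj : k = j
    · rw [hkj]
    · have := congrFun h k
      simp [emb, flp_ne hkj] at this

/-- components of the trial state -/
noncomputable def trialO (v : V) : Option κ → V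
  | none => v
  | some k => -(M.δ⁻¹ • M.D k v)

open Classical in
/-- trial state -/
noncomputable def trial (v : V) (m : κ → Bool) : V :=
  if h : ∃ o, emb o = m then M.trialO v h.choose else 0

theorem trial_emb (v : V) (o : Option κ) : M.trial v (emb o) = M.trialO v o := by
  have h : ∃ o', (emb o' : κ → Bool) = emb o := ⟨o, rfl⟩
  unfold trial
  rw [dif_pos h]
  exact congrArg _ (emb_inj h.choose_spec)

theorem trial_of_not (v : V) {m : κ → Bool} (h : ¬ ∃ o, emb o = m) : M.trial v m = 0 := by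
  unfold trial
  rw [dif_neg h]

theorem sum_trial (v : V) (f : V → ℝ) (f0 : f 0 = 0) :
    ∑ m, f (M.trial v m) = f v + ∑ k, f (-(M.δ⁻¹ • M.D k v)) := by
  have h := Fintype.sum_of_injective (emb : Option κ → κ → Bool) emb_inj
    (fun o => f (M.trialO v o)) (fun m => f (M.trial v m)) (fun m hm => by
      have : ¬ ∃ o, emb o = m := fun ⟨o, ho⟩ => hm ⟨o, ho⟩
      rw [M.trial_of_not v this, f0]) (fun o => by rw [M.trial_emb])
  rw [← h, Fintype.sum_option]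
  rfl

theorem norm_b (k : κ) (v : V) : ‖-(M.δ⁻¹ • M.D k v)‖ ^ 2 ≤ 4 / M.δ ^ 2 * ‖v‖ ^ 2 := by
  have hδ := M.δ0
  have h1 := M.nD k v
  have h2 : ‖M.D k v‖ ^ 2 ≤ 4 * ‖v‖ ^ 2 := by nlinarith [norm_nonneg (M.D k v), norm_nonneg v]
  rw [norm_neg, norm_smul, Real.norm_eq_abs, abs_of_pos (by positivity), mul_pow]
  calc M.δ⁻¹ ^ 2 * ‖M.D k v‖ ^ 2 ≤ M.δ⁻¹ ^ 2 * (4 * ‖v‖ ^ 2) :=
        mul_le_mul_of_nonneg_left h2 (by positivity)
    _ = _ := by field_simp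

/-- cost of a component on which the mediator is off and whose partner vanishes -/
theorem single_le (k : κ) (a : V) :
    M.δ * ‖M.D k a‖ ^ 2 + M.c k * ⟪a, M.X k a⟫ ≤ 5 * M.δ * ‖a‖ ^ 2 := by
  have hδ := M.δ0
  have hc := M.c0 k
  have hcδ := M.cδ k
  have h1 := (abs_le.1 (M.abs_X_le k a a)).2
  have h2 := M.nD k a
  have h3 : ‖M.D k a‖ ^ 2 ≤ 4 * ‖a‖ ^ 2 := by nlinarith [norm_nonneg (M.D k a), norm_nonneg a]
  have h4 : M.c k * ⟪a, M.X k a⟫ ≤ M.δ * ‖a‖ ^ 2 := by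
    calc M.c k * ⟪a, M.X k a⟫ ≤ M.c k * (‖a‖ * ‖a‖) := mul_le_mul_of_nonneg_left h1 hc
      _ ≤ M.δ * (‖a‖ * ‖a‖) := mul_le_mul_of_nonneg_right hcδ (by positivity)
      _ = _ := by ring
  have h5 := mul_le_mul_of_nonneg_left h3 hδ.le
  linarith

theorem sum_gad_trial (j : κ) (v : V) :
    ∑ m, M.gad j (M.trial v) m ≤ M.t3 j v + Fintype.card κ * (20 / M.δ) * ‖v‖ ^ 2 := by
  classical
  have hδ := M.δ0
  set Ψ := M.trial v with hΨ
  set g : (κ → Bool) → ℝ := fun m => if m j = false then M.gad j Ψ m + M.gad j Ψ (flp j m) else 0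
    with hg
  have e1 : ∑ m, M.gad j Ψ m = ∑ m, g m := by
    have h1 : ∀ m, M.gad j Ψ m = (if m j = false then M.gad j Ψ m else 0)
        + (if m j = true then M.gad j Ψ m else 0) := by
      intro m
      cases m j <;> simp
    have h2 : ∑ m, (if m j = true then M.gad j Ψ m else 0)
        = ∑ m, (if m j = false then M.gad j Ψ (flp j m) else 0) := by
      rw [← sum_flp j (fun m => if m j = true then M.gad j Ψ m else 0)]
      refine Finset.sum_congr rfl fun m _ => ?_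
      rw [flp_same]
      cases m j <;> simp
    rw [Finset.sum_congr rfl fun m _ => h1 m, Finset.sum_add_distrib, h2,
      ← Finset.sum_add_distrib]
    refine Finset.sum_congr rfl fun m _ => ?_
    simp only [hg]
    cases m j <;> simp
  -- partners
  have hpart : ∀ m : κ → Bool, m j = false → m ≠ (fun _ => false) → Ψ (flp j m) = 0 := by
    intro m hm hne
    refine M.trial_of_not v ?_
    rintro ⟨o, ho⟩
    rcases o with _ | k
    · have := congrFun ho j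
      simp [emb, hm] at this
    · by_cases hk : k = j
      · subst hk
        refine hne ?_
        have h1 : flp k (flp k (fun _ => false)) = flp k (flp k m) := congrArg (flp k) ho
        rw [flp_flp, flp_flp] at h1
        exact h1.symm
      · have := congrFun ho j
        simp [emb, hm, flp_ne (Ne.symm hk)] at this
  have hzero : ∀ m : κ → Bool, m j = false → m ≠ (fun _ => false) →
      M.gad j Ψ m + M.gad j Ψ (flp j m) = M.δ * ‖M.D j (Ψ m)‖ ^ 2 + M.c j * ⟪Ψ m, M.X j (Ψ m)⟫ := by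
    intro m hm hne
    have h1 := hpart m hm hne
    unfold gad
    rw [flp_flp, h1, hm]
    simp
  have e2 : ∑ m, g m = g (fun _ => false) + ∑ k, g (flp k fun _ => false) := by
    have h := Fintype.sum_of_injective (emb : Option κ → κ → Bool) emb_inj
      (fun o => g (emb o)) g (fun m hm => by
        have hn : ¬ ∃ o, emb o = m := fun ⟨o, ho⟩ => hm ⟨o, ho⟩
        simp only [hg]
        split_ifs with hmj
        · have hne : m ≠ fun _ => false := fun h => hn ⟨none, h.symm⟩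
          rw [hzero m hmj hne, hΨ, M.trial_of_not v hn]
          simp
        · rfl) (fun o => rfl)
    rw [← h, Fintype.sum_option]
    rfl
  -- the main pair
  have hΨ0 : Ψ (fun _ => false) = v := M.trial_emb v none
  have hΨk : ∀ k, Ψ (flp k fun _ => false) = -(M.δ⁻¹ • M.D k v) := fun k => M.trial_emb v (some k)
  have h0 : g (fun _ => false) ≤ M.t3 j v + 20 / M.δ * ‖v‖ ^ 2 := by
    simp only [hg, if_true]
    set b : V := -(M.δ⁻¹ • M.D j v) with hb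
    have hr : M.D j v + M.δ • b = 0 := by
      rw [hb, smul_neg, smul_smul, mul_inv_cancel₀ hδ.ne', one_smul, add_neg_cancel]
    have hkey := M.key j v b
    rw [hr] at hkey
    simp only [norm_zero, map_zero, inner_zero_left] at hkey
    have h3 : ⟪b, M.D j v⟫ = ⟪v, M.D j b⟫ := by rw [← M.hD, real_inner_comm]
    have h4 := M.single_le j b
    have h5 := M.norm_b j v
    rw [← hb] at h5
    have h6 : 5 * M.δ * ‖b‖ ^ 2 ≤ 20 / M.δ * ‖v‖ ^ 2 := by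
      calc 5 * M.δ * ‖b‖ ^ 2 ≤ 5 * M.δ * (4 / M.δ ^ 2 * ‖v‖ ^ 2) :=
            mul_le_mul_of_nonneg_left h5 (by positivity)
        _ = _ := by field_simp; ring
    unfold gad
    rw [flp_flp, hΨ0, hΨk j, ← hb]
    simp only [flp_same, Bool.not_false, if_true, Bool.false_eq_true, if_false]
    rw [h3]
    unfold t3
    linarith
  have hk : ∀ k, g (flp k fun _ => false) ≤ if k = j then 0 else 20 / M.δ * ‖v‖ ^ 2 := by
    intro k
    split_ifs with hkj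
    · subst hkj
      simp [hg]
    · have hm : (flp k fun _ => false) j = false := flp_ne (Ne.symm hkj) _
      have hne : (flp k fun _ => false) ≠ fun _ => false := by
        intro h
        have := congrFun h k
        simp at this
      simp only [hg]
      rw [if_pos hm, hzero _ hm hne, hΨk k]
      refine (M.single_le j _).trans ?_
      calc 5 * M.δ * ‖-(M.δ⁻¹ • M.D k v)‖ ^ 2 ≤ 5 * M.δ * (4 / M.δ ^ 2 * ‖v‖ ^ 2) :=
            mul_le_mul_of_nonneg_left (M.norm_b k v) (by positivity)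
        _ = _ := by field_simp; ring
  have h1 := Finset.sum_le_sum fun k (_ : k ∈ (Finset.univ : Finset κ)) => hk k
  have h2 : ∑ k, (if k = j then 0 else 20 / M.δ * ‖v‖ ^ 2)
      = (Fintype.card κ - 1) * (20 / M.δ * ‖v‖ ^ 2) := by
    have h3 : ∀ k, (if k = j then 0 else 20 / M.δ * ‖v‖ ^ 2)
        = 20 / M.δ * ‖v‖ ^ 2 - if k = j then 20 / M.δ * ‖v‖ ^ 2 else 0 := by
      intro k; split_ifs <;> ring
    rw [Finset.sum_congr rfl fun k _ => h3 k, Finset.sum_sub_distrib, Finset.sum_const,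
      Finset.sum_ite_eq' Finset.univ j, if_pos (Finset.mem_univ _), nsmul_eq_mul,
      Finset.card_univ]
    ring
  rw [h2] at h1
  rw [e1, e2]
  have h3 : (Fintype.card κ - 1) * (20 / M.δ * ‖v‖ ^ 2) + 20 / M.δ * ‖v‖ ^ 2
      = Fintype.card κ * (20 / M.δ) * ‖v‖ ^ 2 := by ring
  linarith

/-- **upper bound** -/
theorem H2_upper (L : V → ℝ) {Λ : ℝ} (hΛ : ∀ v, |L v| ≤ Λ * ‖v‖ ^ 2) (v : V) :
    M.H2 L (M.trial v) ≤ M.H3 L v + (4 * Λ * Fintype.card κ / M.δ ^ 2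
      + 20 * Fintype.card κ ^ 2 / M.δ) * ‖v‖ ^ 2 := by
  have hδ := M.δ0
  have hL0 : L 0 = 0 := by
    have := hΛ 0
    simpa using this
  have h1 : M.H2 L (M.trial v) = ∑ m, L (M.trial v m) + ∑ j, ∑ m, M.gad j (M.trial v) m := by
    unfold H2
    rw [Finset.sum_add_distrib, Finset.sum_comm (s := (Finset.univ : Finset (κ → Bool)))]
  rw [h1, M.sum_trial v L hL0]
  have h2 : ∑ k, L (-(M.δ⁻¹ • M.D k v)) ≤ 4 * Λ * Fintype.card κ / M.δ ^ 2 * ‖v‖ ^ 2 := by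
    by_cases hΛ0 : 0 ≤ Λ
    · have h3 : ∀ k ∈ (Finset.univ : Finset κ), L (-(M.δ⁻¹ • M.D k v))
          ≤ Λ * (4 / M.δ ^ 2 * ‖v‖ ^ 2) := fun k _ =>
        ((le_abs_self _).trans (hΛ _)).trans (mul_le_mul_of_nonneg_left (M.norm_b k v) hΛ0)
      refine (Finset.sum_le_sum h3).trans_eq ?_
      rw [Finset.sum_const, nsmul_eq_mul, Finset.card_univ]
      ring
    · -- then the space is trivial
      have h3 : ∀ u : V, ‖u‖ ^ 2 = 0 := by
        intro u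
        have h4 := (abs_nonneg _).trans (hΛ u)
        nlinarith [sq_nonneg ‖u‖]
      have h4 : ∀ u : V, u = 0 := fun u => by
        have := h3 u
        rwa [pow_eq_zero_iff two_ne_zero, norm_eq_zero] at this
      rw [h3 v, mul_zero]
      refine le_of_eq (Finset.sum_eq_zero fun k _ => ?_)
      rw [h4 (-(M.δ⁻¹ • M.D k v)), hL0]
  have h3 := Finset.sum_le_sum fun j (_ : j ∈ (Finset.univ : Finset κ)) => M.sum_gad_trial j v
  rw [Finset.sum_add_distrib, Finset.sum_const, nsmul_eq_mul, Finset.card_univ] at h3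
  unfold H3
  have e : (Fintype.card κ : ℝ) * (Fintype.card κ * (20 / M.δ) * ‖v‖ ^ 2)
      = 20 * Fintype.card κ ^ 2 / M.δ * ‖v‖ ^ 2 := by ring
  rw [e] at h3
  rw [add_mul]
  linarith

theorem norm_trial_ge (v : V) : ‖v‖ ^ 2 ≤ ∑ m, ‖M.trial v m‖ ^ 2 := by
  rw [M.sum_trial v (fun u => ‖u‖ ^ 2) (by simp)]
  have : 0 ≤ ∑ k, ‖-(M.δ⁻¹ • M.D k v)‖ ^ 2 := Finset.sum_nonneg fun _ _ => sq_nonneg _
  linarith

theorem norm_trial_le (v : V) :
    ∑ m, ‖M.trial v m‖ ^ 2 ≤ (1 + 4 * Fintype.card κ / M.δ ^ 2) * ‖v‖ ^ 2 := by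
  rw [M.sum_trial v (fun u => ‖u‖ ^ 2) (by simp)]
  have h := Finset.sum_le_sum fun k (_ : k ∈ (Finset.univ : Finset κ)) => M.norm_b k v
  rw [Finset.sum_const, nsmul_eq_mul, Finset.card_univ] at h
  have e : (Fintype.card κ : ℝ) * (4 / M.δ ^ 2 * ‖v‖ ^ 2) = 4 * Fintype.card κ / M.δ ^ 2 * ‖v‖ ^ 2 := by
    ring
  rw [e] at h
  linarith

end Med

end Crest.Agent.R338.ME
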