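import Crest.Agent.R338.P2Defs
import Crest.Agent.R338.Nu3

/-!
# Row 338, output node (helper207), part 1: the parameters and the scales of the map

`kP, n0P, LamP, BP, AP, RP, nLP, MdP` are unary polynomial-time functions, `kap, lamP, 1/lamP, sP, aP, j0P`
are polynomial-time reals.
-/

set_option autoImplicit false

namespace Crest.Agent.R338.Out

open Crest.Agent.Lib.PT Crest.Agent.R338.Nu Crest.Agent.R338.P2

variable {α : Type} [PTCode α] {h : α → HInst} (C : Cst)

/-! ## parameters -/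

@[fun_prop]
theorem ptu_kP (hh : PTF h) : PTU (fun a => kP C (h a)) := by
  unfold kP; fun_prop

@[fun_prop]
theorem ptu_n0P (hh : PTF h) : PTU (fun a => n0P C (h a)) := by
  unfold n0P; fun_prop

@[fun_prop]
theorem ptu_LamP (hh : PTF h) : PTU (fun a => LamP C (h a)) := by
  unfold LamP; fun_prop

@[fun_prop]
theorem ptu_BP (hh : PTF h) : PTU (fun a => BP C (h a)) := by
  unfold BP; fun_prop

@[fun_prop]
theorem ptu_AP (hh : PTF h) : PTU (fun a => AP C (h a)) := by
  unfold AP; fun_prop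

@[fun_prop]
theorem ptu_RP (hh : PTF h) : PTU (fun a => RP C (h a)) := by
  unfold RP; fun_prop

@[fun_prop]
theorem ptu_nLP (hh : PTF h) : PTU (fun a => nLP C (h a)) := by
  unfold nLP; fun_prop

@[fun_prop]
theorem ptu_MdP (hh : PTF h) : PTU (fun a => MdP C (h a)) := by
  unfold MdP; fun_prop

/-! ## positivity -/

theorem kP_pos {C : Cst} (hC : 1 ≤ C.c) (x : HInst) : 0 < kP C x := by
  unfold kP
  have : 0 < C.c := hC
  positivity

theorem BP_pos {C : Cst} (hC : 1 ≤ C.c) (x : HInst) : 0 < BP C x := by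
  unfold BP
  have := kP_pos hC x
  positivity

theorem AP_pos {C : Cst} (hC : 1 ≤ C.c) (x : HInst) : 0 < AP C x := by
  unfold AP
  have := BP_pos hC x
  positivity

/-! ## scales -/

theorem kap_pos : 0 < kap := by
  unfold kap
  have := Real.pi_pos
  positivity

theorem kap_inv : (kap)⁻¹ = √(√(4 / 3 * Real.pi)) := by
  unfold kap
  rw [← Real.sqrt_inv, ← Real.sqrt_inv, inv_div]
  congr 2
  ring

@[fun_prop]
theorem ptr_kap : PTR (fun _ : α => kap) := by
  have h1 : PTR (fun _ : α => (3 : ℝ) / 4 * (Real.pi)⁻¹) :=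
    ((PTR.constRat (3 / 4)).of_eq (fun _ => by push_cast; rfl)).mul PTR.piInv
  refine (h1.sqrt.sqrt).of_eq (fun _ => ?_)
  unfold kap
  congr 2
  rw [div_mul_eq_div_div, ← div_eq_mul_inv]

@[fun_prop]
theorem ptr_kapInv : PTR (fun _ : α => (kap)⁻¹) := by
  have h1 : PTR (fun _ : α => (4 : ℝ) / 3 * Real.pi) :=
    ((PTR.constRat (4 / 3)).of_eq (fun _ => by push_cast; rfl)).mul PTR.pi
  exact (h1.sqrt.sqrt).of_eq (fun _ => kap_inv.symm)

@[fun_prop]
theorem ptr_lamP (hh : PTF h) : PTR (fun a => lamP C (h a)) := by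
  have h1 : PTF (fun a => BP C (h a) ^ 6) := (PTU.toPTF (by fun_prop))
  refine (ptr_kap.mul (PTR.natInv h1)).of_eq (fun a => ?_)
  unfold lamP
  push_cast
  rw [div_eq_mul_inv]

@[fun_prop]
theorem ptr_lamPInv (hh : PTF h) : PTR (fun a => (lamP C (h a))⁻¹) := by
  have h1 : PTF (fun a => BP C (h a) ^ 6) := (PTU.toPTF (by fun_prop))
  refine (ptr_kapInv.mul (PTR.natCast h1)).of_eq (fun a => ?_)
  unfold lamP
  push_cast
  rw [inv_div, div_eq_mul_inv, mul_comm]

@[fun_prop]
theorem ptr_sP (hh : PTF h) : PTR (fun a => sP C (h a)) := by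
  have h1 : PTF (fun a => BP C (h a) ^ 2) := (PTU.toPTF (by fun_prop))
  refine (ptr_kapInv.mul (PTR.natInv h1)).of_eq (fun a => ?_)
  unfold sP
  push_cast
  rw [one_div, mul_inv]

@[fun_prop]
theorem ptr_sPInv (hh : PTF h) : PTR (fun a => (sP C (h a))⁻¹) := by
  have h1 : PTF (fun a => BP C (h a) ^ 2) := (PTU.toPTF (by fun_prop))
  refine (ptr_kap.mul (PTR.natCast h1)).of_eq (fun a => ?_)
  unfold sP
  push_cast
  rw [one_div, inv_inv]

@[fun_prop]
theorem ptr_aP (hh : PTF h) : PTR (fun a => aP C (h a)) := by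
  have h1 : PTR (fun a => ((kP C (h a) : ℕ) : ℝ)⁻¹) := PTR.natInv (PTU.toPTF (by fun_prop))
  refine ((h1.mul (ptr_sPInv C hh)).powConst 2).of_eq (fun a => ?_)
  unfold aP
  rw [one_div, mul_pow, mul_pow, mul_inv, inv_pow, inv_pow]

/-- `√a = 1/(K s)` -/
theorem sqrt_aP (x : HInst) : √(aP C x) = ((kP C x : ℝ))⁻¹ * (sP C x)⁻¹ := by
  unfold aP
  have hs : 0 ≤ (sP C x) := by
    unfold sP
    have := kap_pos
    positivity
  rw [one_div, ← inv_pow, Real.sqrt_sq (by positivity), mul_inv]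

@[fun_prop]
theorem ptr_j0P (hh : PTF h) : PTR (fun a => j0P C (h a)) := by
  have h1 : PTF (fun a => ((h a).n * (h a).q) ^ C.cB * kP C (h a) ^ 4) := (PTU.toPTF (by fun_prop))
  refine (PTR.natInv h1).of_eq (fun a => ?_)
  unfold j0P
  push_cast
  rw [one_div]

theorem lamP_pos {C : Cst} (hC : 1 ≤ C.c) (x : HInst) : 0 < lamP C x := by
  unfold lamP
  have := kap_pos
  have := BP_pos hC x
  positivity

theorem sP_pos {C : Cst} (hC : 1 ≤ C.c) (x : HInst) : 0 < sP C x := by
  unfold sP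
  have := kap_pos
  have := BP_pos hC x
  positivity

end Crest.Agent.R338.Out
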