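import Crest.Agent.Lib.PT.ListFns2
import Crest.Agent.Lib.PT.ArithRat
import Crest.Prelude.Def_CoulombProblem

/-!
# Row 338, node WRITER: the code of a ground-energy instance is poly-time

`ptf_instCode` : from poly-time nuclei (triples of rationals), electron number (unary) and
thresholds to the coded instance.
-/

set_option autoImplicit false

namespace Crest.Agent.R338.OutW

open Crest.Agent.Lib.PT Crest.Quantum.GateCircuit Crest.MathPhysics.CoulombProblem
open Crest.MathPhysics.ElectronicCoulomb

variable {α γ : Type} [PTCode α] [PTCode γ]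

theorem ptf_natCode {f : α → ℕ} (hf : PTF f) : PTF (fun a => natCode (f a)) := by
  unfold natCode
  refine PTF.append (PTF.flatten (PTF.map (f := fun _ b => [true, b]) (PTF.natBits hf) ?_))
    (PTF.const _)
  pt_prop

theorem ptf_intCode {f : α → ℤ} (hf : PTF f) : PTF (fun a => intCode (f a)) := by
  unfold intCode
  have h1 : PTF (fun a => natCode (f a).natAbs) := ptf_natCode (PTF.intNatAbs hf)
  have h2 : PTF (fun a => decide (f a < 0)) := PTF.comp Arith.ptf_intNeg hf
  exact PTF.listCons h2 h1

theorem ptf_ratCode {f : α → ℚ} (hf : PTF f) : PTF (fun a => ratCode (f a)) := by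
  unfold ratCode
  exact PTF.append (ptf_intCode (PTF.comp Arith.ptf_ratNum hf))
    (ptf_natCode (PTF.comp Arith.ptf_ratDen hf))

/-- a triple of rationals as a position -/
def trip (p : ℚ × ℚ × ℚ) : Fin 3 → ℚ := ![p.1, p.2.1, p.2.2]

theorem trip_injective : Function.Injective trip := by
  rintro ⟨a, b, c⟩ ⟨a', b', c'⟩ h
  have h0 := congrFun h 0
  have h1 := congrFun h 1
  have h2 := congrFun h 2
  simp only [trip, Matrix.cons_val_zero, Matrix.cons_val_one, Matrix.cons_val] at h0 h1 h2
  rw [h0, h1, h2]

theorem ptf_posCode {f : α → ℚ × ℚ × ℚ} (hf : PTF f) : PTF (fun a => posCode (trip (f a))) := by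
  have e : ∀ p : ℚ × ℚ × ℚ, posCode (trip p) = ratCode p.1 ++ ratCode p.2.1 ++ ratCode p.2.2 := by
    intro p; rfl
  refine PTF.of_eq (PTF.append (PTF.append (ptf_ratCode (f := fun a => (f a).1) (by fun_prop))
    (ptf_ratCode (f := fun a => (f a).2.1) (by fun_prop)))
    (ptf_ratCode (f := fun a => (f a).2.2) (by fun_prop))) (fun a => (e _).symm)

theorem ptf_listCode {l : α → List γ} {c : γ → List Bool} (hl : PTF l) (hc : PTF c) :
    PTF (fun a => listCode c (l a)) := by
  unfold listCode
  refine PTF.append (PTF.flatten (PTF.map (f := fun _ x => true :: c x) hl ?_)) (PTF.const _)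
  have h1 : PTF (fun p : α × γ => c p.2) := PTF.comp hc PTF.snd
  exact PTF.listCons (PTF.const true) h1

theorem ptf_unaryCode {n : α → ℕ} (hn : PTU n) : PTF (fun a => unaryCode (n a)) := by
  unfold unaryCode
  exact PTF.append (PTF.replicate hn (PTF.const true)) (PTF.const _)

theorem listCode_map {β : Type} (c : β → List Bool) (f : γ → β) (l : List γ) :
    listCode c (l.map f) = listCode (fun x => c (f x)) l := by
  unfold listCode
  rw [List.map_map]
  rfl

/-- the instance with the given data -/
def mkInst (nu : List (ℚ × ℚ × ℚ)) (el : ℕ) (lo up : ℚ) : Instance where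
  nuclei := nu.map trip
  electrons := el
  lower := lo
  upper := up

/-- **the writer** -/
theorem ptf_instCode {nu : α → List (ℚ × ℚ × ℚ)} {el : α → ℕ} {lo up : α → ℚ}
    (h1 : PTF nu) (h2 : PTU el) (h3 : PTF lo) (h4 : PTF up) :
    PTF (fun a => (⟨(mkInst (nu a) (el a) (lo a) (up a)).code⟩ : Bits)) := by
  refine PTF.bitsMk ?_
  have e : ∀ a, (mkInst (nu a) (el a) (lo a) (up a)).code =
      listCode (fun p => posCode (trip p)) (nu a) ++ unaryCode (el a) ++ ratCode (lo a) ++
        ratCode (up a) := by
    intro a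
    simp only [Instance.code, mkInst, listCode_map]
  refine PTF.of_eq ?_ (fun a => (e a).symm)
  exact PTF.append (PTF.append (PTF.append (ptf_listCode h1 (ptf_posCode PTF.id)) (ptf_unaryCode h2))
    (ptf_ratCode h3)) (ptf_ratCode h4)

/-- the same for any family of instances whose data are given by triples -/
theorem ptf_code_of {I : α → Instance} {nu : α → List (ℚ × ℚ × ℚ)} (h1 : PTF nu)
    (hI : ∀ a, (I a).nuclei = (nu a).map trip) (h2 : PTU (fun a => (I a).electrons))
    (h3 : PTF (fun a => (I a).lower)) (h4 : PTF (fun a => (I a).upper)) :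
    PTF (fun a => (⟨(I a).code⟩ : Bits)) := by
  refine PTF.of_eq (ptf_instCode h1 h2 h3 h4) (fun a => ?_)
  congr 2
  have : I a = mkInst (nu a) (I a).electrons (I a).lower (I a).upper := by
    rcases hIa : I a with ⟨n, e, l, u⟩
    have := hI a
    rw [hIa] at this
    simp only at this
    simp only [mkInst, this]
  exact this.symm

/-- validity -/
theorem mkInst_valid {nu : List (ℚ × ℚ × ℚ)} {el : ℕ} {lo : ℚ} (h1 : nu ≠ []) (h2 : nu.Nodup)
    (h3 : 0 < el) : (mkInst nu el lo (lo + 1)).Valid := by
  refine ⟨?_, ?_, h3, le_refl _⟩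
  · simpa [mkInst] using h1
  · exact h2.map trip_injective

/-- codes of YES instances -/
theorem code_mem_yes {I : Instance} (hV : I.Valid) (h : InfEnergyLE I.potential (I.lower : ℝ)) :
    I.code ∈ groundEnergyProblem.yes := ⟨I, hV, rfl, h⟩

/-- codes of NO instances -/
theorem code_mem_no {I : Instance} (hV : I.Valid) (h : InfEnergyGE I.potential (I.upper : ℝ)) :
    I.code ∈ groundEnergyProblem.no := ⟨I, hV, rfl, h⟩

/-- nuclei given by a duplicate free list of indices and an injective position map -/
theorem nodup_nuclei {β : Type} {l : List β} (hl : l.Nodup) {f : β → Fin 3 → ℚ}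
    (hf : ∀ a ∈ l, ∀ b ∈ l, f a = f b → a = b) : (l.map f).Nodup :=
  (List.nodup_map_iff_inj_on hl).2 hf

/-- the potential of an instance whose nuclei are the image of a list, as a family over `Fin` -/
theorem potential_congr {I : Instance} {K : ℕ} (hK : I.nuclei.length = K)
    (nuc : Fin K → Pos3) (h : ∀ i : Fin K, realPos (I.nuclei.get (Fin.cast hK.symm i)) = nuc i) :
    I.potential = unitNucleiPotential nuc := by
  subst hK
  unfold Instance.potential
  congr 1
  funext i
  exact h i

end Crest.Agent.R338.OutW
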