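import Crest.Agent.R338.LatDefs
import Crest.Agent.R338.Nu3
import Crest.Agent.R338.OutW

/-!
# Row 338, output node (helper207), part 2: enumeration of the box and the table of nuclei
-/

set_option autoImplicit false

namespace Crest.Agent.R338.Out

open Crest.Agent.Lib.PT Crest.Agent.R338.Nu

/-! ## enumeration of the box `|α|_∞ ≤ m` -/

/-- the `i`-th point of the box: the base `2m+1` digits of `i`, shifted by `-m` -/
def al (m i : ℕ) (c : Fin 3) : ℤ := ((i / (2 * m + 1) ^ (c : ℕ) % (2 * m + 1) : ℕ) : ℤ) - (m : ℤ)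

/-- the index of a point of the box -/
def idx (m : ℕ) (a : Fin 3 → ℤ) : ℕ :=
  (a 0 + m).toNat + (2 * m + 1) * ((a 1 + m).toNat + (2 * m + 1) * (a 2 + m).toNat)

/-- number of points of the box -/
def cnt (m : ℕ) : ℕ := (2 * m + 1) ^ 3

/-- the box as a list -/
def boxList (m : ℕ) : List (Fin 3 → ℤ) := (List.range (cnt m)).map (al m)

theorem mem_Box {m : ℕ} {a : Fin 3 → ℤ} :
    a ∈ Lat.Box m ↔ ∀ c, -(m : ℤ) ≤ a c ∧ a c ≤ m := by
  unfold Lat.Box
  simp only [Fintype.mem_piFinset, Finset.mem_Icc]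

theorem al_mem (m i : ℕ) : al m i ∈ Lat.Box m := by
  rw [mem_Box]
  intro c
  unfold al
  have h := Nat.mod_lt (i / (2 * m + 1) ^ (c : ℕ)) (show 0 < 2 * m + 1 by omega)
  omega

theorem digits (M x y z : ℕ) (hx : x < M) (hy : y < M) (hz : z < M) :
    (x + M * (y + M * z)) % M = x ∧ (x + M * (y + M * z)) / M % M = y ∧
      (x + M * (y + M * z)) / M ^ 2 % M = z := by
  have hM : 0 < M := by omega
  have h1 : (x + M * (y + M * z)) / M = y + M * z := by
    rw [Nat.add_mul_div_left _ _ hM, Nat.div_eq_of_lt hx, zero_add]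
  have h2 : (y + M * z) / M = z := by
    rw [Nat.add_mul_div_left _ _ hM, Nat.div_eq_of_lt hy, zero_add]
  refine ⟨?_, ?_, ?_⟩
  · rw [Nat.add_mul_mod_self_left, Nat.mod_eq_of_lt hx]
  · rw [h1, Nat.add_mul_mod_self_left, Nat.mod_eq_of_lt hy]
  · rw [pow_two, ← Nat.div_div_eq_div_mul, h1, h2, Nat.mod_eq_of_lt hz]

theorem al_idx {m : ℕ} {a : Fin 3 → ℤ} (ha : a ∈ Lat.Box m) : al m (idx m a) = a := by
  rw [mem_Box] at ha
  have h0 := ha 0
  have h1 := ha 1
  have h2 := ha 2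
  obtain ⟨d0, d1, d2⟩ := digits (2 * m + 1) (a 0 + m).toNat (a 1 + m).toNat (a 2 + m).toNat
    (by omega) (by omega) (by omega)
  funext c
  fin_cases c
  · unfold al idx
    simp only [Fin.zero_eta, pow_zero, Nat.div_one]
    rw [d0]
    omega
  · unfold al idx
    simp only [Fin.mk_one, pow_one]
    rw [d1]
    omega
  · unfold al idx
    simp only [Fin.reduceFinMk]
    rw [d2]
    omega

theorem idx_lt {m : ℕ} {a : Fin 3 → ℤ} (ha : a ∈ Lat.Box m) : idx m a < cnt m := by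
  rw [mem_Box] at ha
  have h0 := ha 0
  have h1 := ha 1
  have h2 := ha 2
  unfold idx cnt
  have e0 : (a 0 + m).toNat ≤ 2 * m := by omega
  have e1 : (a 1 + m).toNat ≤ 2 * m := by omega
  have e2 : (a 2 + m).toNat ≤ 2 * m := by omega
  generalize (a 0 + m).toNat = x at *
  generalize (a 1 + m).toNat = y at *
  generalize (a 2 + m).toNat = z at *
  have f2 : (2 * m + 1) * z ≤ (2 * m + 1) * (2 * m) := Nat.mul_le_mul_left _ e2
  have f1 : (2 * m + 1) * (y + (2 * m + 1) * z) ≤ (2 * m + 1) * (2 * m + (2 * m + 1) * (2 * m)) :=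
    Nat.mul_le_mul_left _ (by omega)
  have e : (2 * m + 1) ^ 3 = 2 * m + (2 * m + 1) * (2 * m + (2 * m + 1) * (2 * m)) + 1 := by ring
  omega

theorem idx_al {m i : ℕ} (hi : i < cnt m) : idx m (al m i) = i := by
  have hM : 0 < 2 * m + 1 := by omega
  have e : ∀ c : Fin 3, (al m i c + m).toNat = i / (2 * m + 1) ^ (c : ℕ) % (2 * m + 1) := by
    intro c
    unfold al
    omega
  unfold idx
  rw [e 0, e 1, e 2]
  simp only [Fin.val_zero, Fin.val_one, Fin.val_two, pow_zero, Nat.div_one, pow_one]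
  have h2 : i / (2 * m + 1) ^ 2 < 2 * m + 1 := by
    rw [Nat.div_lt_iff_lt_mul (by positivity)]
    unfold cnt at hi
    calc i < (2 * m + 1) ^ 3 := hi
      _ = _ := by ring
  rw [Nat.mod_eq_of_lt h2]
  have h3 : i / (2 * m + 1) ^ 2 = i / (2 * m + 1) / (2 * m + 1) := by
    rw [Nat.div_div_eq_div_mul, pow_two]
  rw [h3, Nat.mod_add_div, Nat.mod_add_div]

theorem mem_boxList {m : ℕ} {a : Fin 3 → ℤ} : a ∈ boxList m ↔ a ∈ Lat.Box m := by
  unfold boxList
  rw [List.mem_map]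
  constructor
  · rintro ⟨i, -, rfl⟩
    exact al_mem m i
  · intro ha
    exact ⟨idx m a, List.mem_range.2 (idx_lt ha), al_idx ha⟩

theorem nodup_boxList (m : ℕ) : (boxList m).Nodup := by
  unfold boxList
  rw [List.nodup_map_iff_inj_on List.nodup_range]
  intro i hi j hj hij
  rw [← idx_al (List.mem_range.1 hi), ← idx_al (List.mem_range.1 hj), hij]

/-! ## polynomial time -/

variable {α : Type} [PTCode α]

@[fun_prop]
theorem ptf_al {m i : α → ℕ} (hm : PTU m) (hi : PTU i) (c : Fin 3) :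
    PTF (fun a => al (m a) (i a) c) := by
  unfold al
  have h1 : PTU (fun a => i a / (2 * m a + 1) ^ (c : ℕ) % (2 * m a + 1)) := by fun_prop
  exact PTF.intSub (PTF.intNatCast h1.toPTF) (PTF.intNatCast hm.toPTF)

@[fun_prop]
theorem ptu_cnt {m : α → ℕ} (hm : PTU m) : PTU (fun a => cnt (m a)) := by
  unfold cnt; fun_prop

/-- the displacement used by the map: `0` far out, otherwise the approximation `q` -/
def Dq (M : ℕ) (a : Fin 3 → ℤ) (q : ℚ) : ℚ :=
  if M < (a 0).natAbs ∨ M < (a 1).natAbs ∨ M < (a 2).natAbs then 0 else q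

theorem ptf_Dq {M m i : α → ℕ} {q : α → ℚ} (hM : PTU M) (hm : PTU m) (hi : PTU i) (hq : PTF q) :
    PTF (fun a => Dq (M a) (al (m a) (i a)) (q a)) := by
  unfold Dq
  refine PTF.ite ?_ (PTF.const 0) hq
  refine PTPred.or ?_ (PTPred.or ?_ ?_)
  · exact PTPred.natLt hM.toPTF (PTF.intNatAbs (ptf_al hm hi 0))
  · exact PTPred.natLt hM.toPTF (PTF.intNatAbs (ptf_al hm hi 1))
  · exact PTPred.natLt hM.toPTF (PTF.intNatAbs (ptf_al hm hi 2))

/-- one coordinate of a nucleus -/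
def coordQ (A M m i : ℕ) (c : Fin 3) (q : ℚ) : ℚ := (al m i c : ℚ) / (A : ℚ) - Dq M (al m i) q

theorem ptf_coordQ {A M m i : α → ℕ} {q : α → ℚ} (hA : PTU A) (hM : PTU M) (hm : PTU m)
    (hi : PTU i) (c : Fin 3) (hq : PTF q) : PTF (fun a => coordQ (A a) (M a) (m a) (i a) c (q a)) := by
  unfold coordQ
  exact PTF.ratSub (PTF.ratDiv (PTF.ratIntCast (ptf_al hm hi c)) (PTF.ratNatCast hA.toPTF))
    (ptf_Dq hM hm hi hq)

/-- the table of nuclei -/
def nucTab (A M m : ℕ) (q : ℕ → Fin 3 → ℚ) : List (ℚ × ℚ × ℚ) :=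
  (List.range (cnt m)).map fun i =>
    (coordQ A M m i 0 (q i 0), coordQ A M m i 1 (q i 1), coordQ A M m i 2 (q i 2))

theorem ptf_nucTab {A M m : α → ℕ} {q : α → ℕ → Fin 3 → ℚ} (hA : PTU A) (hM : PTU M) (hm : PTU m)
    (hq : ∀ c, PTF (fun p : α × Un => q p.1 p.2.val c)) :
    PTF (fun a => nucTab (A a) (M a) (m a) (q a)) := by
  unfold nucTab
  have hi : PTU (fun p : α × Un => p.2.val) := ptu_snd
  have hA' : PTU (fun p : α × Un => A p.1) := PTU.comp hA PTF.fst
  have hM' : PTU (fun p : α × Un => M p.1) := PTU.comp hM PTF.fst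
  have hm' : PTU (fun p : α × Un => m p.1) := PTU.comp hm PTF.fst
  exact ptf_table (q := fun a i => (coordQ (A a) (M a) (m a) i 0 (q a i 0),
    coordQ (A a) (M a) (m a) i 1 (q a i 1), coordQ (A a) (M a) (m a) i 2 (q a i 2)))
    (PTF.prodMk (ptf_coordQ hA' hM' hm' hi 0 (hq 0))
      (PTF.prodMk (ptf_coordQ hA' hM' hm' hi 1 (hq 1)) (ptf_coordQ hA' hM' hm' hi 2 (hq 2))))
    (ptu_cnt hm)

/-- the table as the image of the enumeration of the box -/
theorem nucTab_trip (A M m : ℕ) (q : ℕ → Fin 3 → ℚ) :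
    (nucTab A M m q).map OutW.trip = (boxList m).map fun a c =>
      (a c : ℚ) / (A : ℚ) - Dq M a (q (idx m a) c) := by
  unfold nucTab boxList
  rw [List.map_map, List.map_map]
  refine List.map_congr_left fun i hi => ?_
  have h1 := idx_al (List.mem_range.1 hi)
  funext c
  simp only [Function.comp_apply, h1]
  fin_cases c <;> rfl

end Crest.Agent.R338.Out
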