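import Mathlib
import Crest.Agent.R338.Iface
import Crest.Agent.R338.HO1a
import Crest.Agent.R338.Lag4
import Crest.Agent.R338.WCCut

/-!
Row 338, node WC (helper201), bridges `Iface.hf = HO.hf`, `Iface.Dm = Lag.Dsel`, and the definitions
of the one-dimensional factors, the cut-off potential `wcut` and its partial derivatives.
-/

set_option autoImplicit false

open MeasureTheory Set Polynomial
open Crest.MathPhysics.ElectronicCoulomb

noncomputable section
namespace Crest.Agent.R338.WC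

/-! ### bridges -/

theorem hpoly_eval_eq (n : ℕ) (s : ℝ) :
    (R338.hpoly n).eval s = (HO.hP n).eval s ∧
      (R338.hpoly (n + 1)).eval s = (HO.hP (n + 1)).eval s := by
  induction n with
  | zero =>
    constructor
    · simp [R338.hpoly, HO.hP]
    · have h := HO.x_mul_hP_zero s
      have e2 : √(2 : ℝ) * √(1 / 2) = 1 := by
        rw [← Real.sqrt_mul (by norm_num)]; norm_num
      have e3 : (HO.hP 1).eval s = √2 * (s * (HO.hP 0).eval s) := by
        rw [h, ← mul_assoc, e2, one_mul]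
      have e4 : (R338.hpoly (0 + 1)).eval s = √2 * s * (Real.pi ^ (-(1 / 4) : ℝ)) := by
        rw [zero_add]
        simp [R338.hpoly]
      rw [e4, zero_add, e3, HO.hP_zero, eval_C]
      ring
  | succ n ih =>
    refine ⟨ih.2, ?_⟩
    have h := HO.x_mul_hP n s
    have e1 : (R338.hpoly (n + 1 + 1)).eval s = √(2 / ((n : ℝ) + 2)) * s *
        (R338.hpoly (n + 1)).eval s - √(((n : ℝ) + 1) / ((n : ℝ) + 2)) * (R338.hpoly n).eval s := by
      simp only [R338.hpoly, eval_sub, eval_mul, eval_C, eval_X]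
    rw [e1, ih.1, ih.2]
    have hn : (0 : ℝ) < (n : ℝ) + 2 := by positivity
    have a1 : √(2 / ((n : ℝ) + 2)) * √(((n : ℝ) + 1 + 1) / 2) = 1 := by
      rw [← Real.sqrt_mul (by positivity)]
      have : 2 / ((n : ℝ) + 2) * (((n : ℝ) + 1 + 1) / 2) = 1 := by field_simp; ring
      rw [this, Real.sqrt_one]
    have a2 : √(2 / ((n : ℝ) + 2)) * √(((n : ℝ) + 1) / 2) = √(((n : ℝ) + 1) / ((n : ℝ) + 2)) := by
      rw [← Real.sqrt_mul (by positivity)]
      congr 1
      field_simp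
    have e5 : √(2 / ((n : ℝ) + 2)) * s * (HO.hP (n + 1)).eval s =
        √(2 / ((n : ℝ) + 2)) * (s * (HO.hP (n + 1)).eval s) := by ring
    rw [e5, h, mul_add, ← mul_assoc, a1, ← mul_assoc, a2]
    have : n + 1 + 1 = n + 2 := rfl
    rw [this]
    ring

/-- the captain's `hf` is helper789's `hf` -/
theorem hf_eq (n : ℕ) : R338.hf n = HO.hf n := by
  ext s
  unfold R338.hf HO.hf
  rw [(hpoly_eval_eq n s).1]

theorem lag_eq (m : ℕ) (y : ℝ) : R338.lag m y = Lag.lag m y := by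
  unfold R338.lag Lag.lag
  refine Finset.sum_congr rfl fun j _ => ?_
  rw [neg_pow y j]
  ring

/-- the captain's `Dm` is helper695's `Dsel` -/
theorem Dm_eq (m : ℕ) : R338.Dm m = Lag.Dsel m := by
  ext x
  unfold R338.Dm Lag.Dsel
  simp only [lag_eq]

/-! ### one-dimensional factors -/

/-- derivative of `hf m` -/
def dhf (m : ℕ) (s : ℝ) : ℝ :=
  √((m : ℝ) / 2) * HO.hf (m - 1) s - √(((m : ℝ) + 1) / 2) * HO.hf (m + 1) s

/-- `e^{-2 s²} h_m h_k` -/
def vv (m k : ℕ) (s : ℝ) : ℝ := Real.exp (-2 * s ^ 2) * (HO.hf m s * HO.hf k s)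

/-- its derivative -/
def dvv (m k : ℕ) (s : ℝ) : ℝ :=
  Real.exp (-2 * s ^ 2) * (-4 * s) * (HO.hf m s * HO.hf k s) +
    Real.exp (-2 * s ^ 2) * (dhf m s * HO.hf k s + HO.hf m s * dhf k s)

/-- `D_m'` -/
def dD (m : ℕ) (x : ℝ) : ℝ := deriv (Lag.Dsel m) x

theorem hasDerivAt_hf (m : ℕ) (s : ℝ) : HasDerivAt (HO.hf m) (dhf m s) s := HO.hasDerivAt_hf m s

theorem hasDerivAt_exp2 (s : ℝ) : HasDerivAt (fun s : ℝ => Real.exp (-2 * s ^ 2))
    (Real.exp (-2 * s ^ 2) * (-4 * s)) s := by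
  have h : HasDerivAt (fun s : ℝ => -2 * s ^ 2) (-4 * s) s := by
    refine ((hasDerivAt_pow 2 s).const_mul (-2 : ℝ)).congr_deriv ?_
    norm_num; ring
  exact h.exp

theorem hasDerivAt_vv (m k : ℕ) (s : ℝ) : HasDerivAt (vv m k) (dvv m k s) s := by
  have h := (hasDerivAt_exp2 s).mul ((hasDerivAt_hf m s).mul (hasDerivAt_hf k s))
  exact h

theorem hasDerivAt_Dsel (m : ℕ) (x : ℝ) : HasDerivAt (Lag.Dsel m) (dD m x) x := by
  have h : ContDiff ℝ 1 (Lag.Dsel m) := (Lag.contDiff_Dsel m).of_le (by exact_mod_cast le_top)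
  exact (h.differentiable (by norm_num) x).hasDerivAt

/-! ### the potential and its cut-off -/

/-- site quantum numbers in the second variable -/
def mi' (n k i : ℕ) : ℕ := n0' n k - mi n k i

theorem vhop_eq (n k i j : ℕ) (x : Pos3) : vhop n k i j x =
    vv (mi n k i) (mi n k j) (x 0) * vv (mi' n k i) (mi' n k j) (x 1) := by
  unfold vhop vv mi'
  simp only [hf_eq]

theorem wpot_eq (n k : ℕ) (Lam : ℝ) (A : ℕ → ℕ → ℝ) (a : ℕ → ℝ) (x : Pos3) :
    wpot n k Lam A a x = -Lam * Lag.Dsel 0 (x 2) -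
      ∑ i ∈ Finset.range n, (Lam - a i) * Lag.Dsel (mi n k i) (x 0) +
      ∑ i ∈ Finset.range n, ∑ j ∈ Finset.range n, if i < j then
        A i j * (vv (mi n k i) (mi n k j) (x 0) * vv (mi' n k i) (mi' n k j) (x 1)) else 0 := by
  unfold wpot
  simp only [vhop_eq, Dm_eq]

/-- partial derivatives of the designer potential -/
def dw (n k : ℕ) (Lam : ℝ) (A : ℕ → ℕ → ℝ) (a : ℕ → ℝ) (c : Fin 3) (x : Pos3) : ℝ :=
  if c = 0 then
    -(∑ i ∈ Finset.range n, (Lam - a i) * dD (mi n k i) (x 0)) +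
      ∑ i ∈ Finset.range n, ∑ j ∈ Finset.range n, if i < j then
        A i j * (dvv (mi n k i) (mi n k j) (x 0) * vv (mi' n k i) (mi' n k j) (x 1)) else 0
  else if c = 1 then
    ∑ i ∈ Finset.range n, ∑ j ∈ Finset.range n, if i < j then
        A i j * (vv (mi n k i) (mi n k j) (x 0) * dvv (mi' n k i) (mi' n k j) (x 1)) else 0
  else -Lam * dD 0 (x 2)

/-- the cutoff in one coordinate: `1` for `|t| ≤ 2R`, `0` for `|t| ≥ 4R` -/
def chR (R t : ℝ) : ℝ := chi (t / (2 * R))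

/-- its derivative -/
def dchR (R t : ℝ) : ℝ := chi1 (t / (2 * R)) / (2 * R)

/-- the cut-off potential: `w` on `|x|_∞ ≤ 2R`, `0` off `|x|_∞ < 4R` -/
def wcut (R : ℝ) (w : Pos3 → ℝ) (x : Pos3) : ℝ := w x * (chR R (x 0) * chR R (x 1) * chR R (x 2))

/-- partial derivatives of `wcut R (wpot ..)` -/
def dwc (n k : ℕ) (Lam : ℝ) (A : ℕ → ℕ → ℝ) (a : ℕ → ℝ) (R : ℝ) (c : Fin 3) (x : Pos3) : ℝ :=
  dw n k Lam A a c x * (chR R (x 0) * chR R (x 1) * chR R (x 2)) +
    wpot n k Lam A a x *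
      (if c = 0 then dchR R (x 0) * chR R (x 1) * chR R (x 2)
        else if c = 1 then chR R (x 0) * dchR R (x 1) * chR R (x 2)
        else chR R (x 0) * chR R (x 1) * dchR R (x 2))

end Crest.Agent.R338.WC
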