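import Mathlib
import Crest.Agent.R338.WCBase

/-!
Row 338, node WC (helper201), part 3: polynomial bounds of the derivatives (order `≤ 3`) of the
Hermite functions, of the designer potential and of its cut-off.
-/

set_option autoImplicit false

open MeasureTheory Set
open Crest.MathPhysics.ElectronicCoulomb

noncomputable section
namespace Crest.Agent.R338.WC

namespace DB

theorem succ {N : ℕ} {f f' : ℝ → ℝ} {B : ℝ} (h : ∀ x, HasDerivAt f (f' x) x)
    (b0 : ∀ x, |f x| ≤ B) (h' : DB N f' B) : DB (N + 1) f B := by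
  have d0 : deriv f = f' := funext fun x => (h x).deriv
  have c0 : ContDiff ℝ ((N : WithTop ℕ∞) + 1) f := by
    rw [contDiff_succ_iff_deriv]
    exact ⟨fun x => (h x).differentiableAt, by simp, by rw [d0]; exact h'.cd⟩
  refine ⟨by exact_mod_cast c0, fun j hj x => ?_⟩
  rw [norm_iteratedFDeriv_eq_norm_iteratedDeriv, Real.norm_eq_abs]
  cases j with
  | zero => rw [iteratedDeriv_zero]; exact b0 x
  | succ j =>
    rw [iteratedDeriv_succ', d0]
    exact h'.abs_iteratedDeriv_le (by omega) x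

theorem zero {f : ℝ → ℝ} {B : ℝ} (hc : Continuous f) (b0 : ∀ x, |f x| ≤ B) : DB 0 f B := by
  refine ⟨by exact_mod_cast contDiff_zero.2 hc, fun j hj x => ?_⟩
  obtain rfl : j = 0 := by omega
  rw [norm_iteratedFDeriv_zero, Real.norm_eq_abs]
  exact b0 x

end DB

/-! ### Hermite functions -/

theorem integral_dhf_sq (m : ℕ) : ∫ x, dhf m x ^ 2 = (m : ℝ) + 1 / 2 := by
  have hint : ∀ a b : ℕ, Integrable (fun x => HO.hf a x * HO.hf b x) := HO.integrable_hf_mul_hf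
  have e : ∀ x, dhf m x ^ 2 = (m : ℝ) / 2 * (HO.hf (m - 1) x * HO.hf (m - 1) x) -
      2 * (√((m : ℝ) / 2) * √(((m : ℝ) + 1) / 2)) * (HO.hf (m - 1) x * HO.hf (m + 1) x) +
      ((m : ℝ) + 1) / 2 * (HO.hf (m + 1) x * HO.hf (m + 1) x) := by
    intro x
    unfold dhf
    have s1 : √((m : ℝ) / 2) * √((m : ℝ) / 2) = (m : ℝ) / 2 := Real.mul_self_sqrt (by positivity)
    have s2 : √(((m : ℝ) + 1) / 2) * √(((m : ℝ) + 1) / 2) = ((m : ℝ) + 1) / 2 :=
      Real.mul_self_sqrt (by positivity)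
    nlinarith [s1, s2]
  simp only [e]
  have i1 : Integrable (fun x => (m : ℝ) / 2 * (HO.hf (m - 1) x * HO.hf (m - 1) x)) :=
    (hint _ _).const_mul _
  have i2 : Integrable (fun x => 2 * (√((m : ℝ) / 2) * √(((m : ℝ) + 1) / 2)) *
      (HO.hf (m - 1) x * HO.hf (m + 1) x)) := (hint _ _).const_mul _
  have i3 : Integrable (fun x => ((m : ℝ) + 1) / 2 * (HO.hf (m + 1) x * HO.hf (m + 1) x)) :=
    (hint _ _).const_mul _
  have i12 : Integrable (fun x => (m : ℝ) / 2 * (HO.hf (m - 1) x * HO.hf (m - 1) x) -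
    2 * (√((m : ℝ) / 2) * √(((m : ℝ) + 1) / 2)) *
      (HO.hf (m - 1) x * HO.hf (m + 1) x)) := i1.sub i2
  rw [integral_add i12 i3, integral_sub i1 i2, integral_const_mul,
    integral_const_mul, integral_const_mul, HO.integral_hf_mul_hf, HO.integral_hf_mul_hf,
    HO.integral_hf_mul_hf]
  rw [if_pos rfl, if_pos rfl, if_neg (by omega)]
  ring

theorem integrable_dhf_sq (m : ℕ) : Integrable (fun x => dhf m x ^ 2) := by
  have hint : ∀ a b : ℕ, Integrable (fun x => HO.hf a x * HO.hf b x) := HO.integrable_hf_mul_hf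
  have e : (fun x => dhf m x ^ 2) = fun x => (√((m : ℝ) / 2)) ^ 2 * (HO.hf (m - 1) x * HO.hf (m - 1) x) -
      2 * (√((m : ℝ) / 2) * √(((m : ℝ) + 1) / 2)) * (HO.hf (m - 1) x * HO.hf (m + 1) x) +
      (√(((m : ℝ) + 1) / 2)) ^ 2 * (HO.hf (m + 1) x * HO.hf (m + 1) x) := by
    ext x
    unfold dhf
    ring
  rw [e]
  exact (((hint _ _).const_mul _).sub ((hint _ _).const_mul _)).add ((hint _ _).const_mul _)

theorem integrable_hf_sq (m : ℕ) : Integrable (fun x => HO.hf m x ^ 2) := by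
  simpa [pow_two] using HO.integrable_hf_mul_hf m m

theorem integral_hf_sq (m : ℕ) : ∫ x, HO.hf m x ^ 2 = 1 := by
  have := HO.integral_hf_mul_hf m m
  simpa [pow_two] using this

/-- `|h_m|² ≤ m + 3/2` -/
theorem hf_sq_le (m : ℕ) (x : ℝ) : HO.hf m x ^ 2 ≤ (m : ℝ) + 3 / 2 := by
  have hd : ∀ y, HasDerivAt (fun y => HO.hf m y ^ 2) (2 * (HO.hf m y * dhf m y)) y := by
    intro y
    refine ((hasDerivAt_hf m y).pow 2).congr_deriv ?_
    norm_num; ring
  have hc : Continuous (dhf m) := by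
    unfold dhf
    have h1 := HO.continuous_hf (m - 1)
    have h2 := HO.continuous_hf (m + 1)
    fun_prop
  have hi : Integrable (fun y => 2 * (HO.hf m y * dhf m y)) := by
    refine ((integrable_hf_sq m).add (integrable_dhf_sq m)).mono' ?_ ?_
    · exact (continuous_const.mul ((HO.continuous_hf m).mul hc)).aestronglyMeasurable
    · refine Filter.Eventually.of_forall fun y => ?_
      rw [Real.norm_eq_abs, Pi.add_apply, abs_le]
      constructor <;> nlinarith [sq_nonneg (HO.hf m y + dhf m y), sq_nonneg (HO.hf m y - dhf m y)]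
  have hlim : Filter.Tendsto (fun y => HO.hf m y ^ 2) Filter.atBot (nhds 0) := by
    -- integrable with integrable derivative
    have := tendsto_zero_of_hasDerivAt_of_integrableOn_Iic (a := (0 : ℝ)) (fun y _ => hd y)
      hi.integrableOn (integrable_hf_sq m).integrableOn
    exact this
  have h1 := integral_Iic_of_hasDerivAt_of_tendsto' (a := x) (fun y _ => hd y) hi.integrableOn hlim
  rw [sub_zero] at h1
  rw [← h1]
  calc ∫ y in Iic x, 2 * (HO.hf m y * dhf m y) ≤ ∫ y in Iic x, (HO.hf m y ^ 2 + dhf m y ^ 2) := by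
        refine setIntegral_mono hi.integrableOn
          ((integrable_hf_sq m).add (integrable_dhf_sq m)).integrableOn fun y => ?_
        nlinarith [sq_nonneg (HO.hf m y - dhf m y)]
    _ ≤ ∫ y, (HO.hf m y ^ 2 + dhf m y ^ 2) := by
        refine setIntegral_le_integral ((integrable_hf_sq m).add (integrable_dhf_sq m)) ?_
        exact Filter.Eventually.of_forall fun y => by positivity
    _ = (m : ℝ) + 3 / 2 := by
        rw [integral_add (integrable_hf_sq m) (integrable_dhf_sq m), integral_hf_sq,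
          integral_dhf_sq]; ring

theorem abs_hf_le (m : ℕ) (x : ℝ) : |HO.hf m x| ≤ (m : ℝ) + 2 := by
  refine abs_le_of_sq_le_sq ?_ (by positivity) |>.trans_eq rfl
  nlinarith [hf_sq_le m x]

/-- bound of the derivatives of order `≤ N` of `h_m` -/
def HB (N m : ℕ) : ℝ := 2 ^ N * ((m : ℝ) + N + 2) ^ (N + 1)

theorem HB_nonneg (N m : ℕ) : 0 ≤ HB N m := by unfold HB; positivity

theorem HB_mono (N : ℕ) {m k : ℕ} (h : m ≤ k) : HB N m ≤ HB N k := by
  unfold HB
  have : (m : ℝ) ≤ k := by exact_mod_cast h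
  gcongr

theorem db_hf (N m : ℕ) : DB N (HO.hf m) (HB N m) := by
  induction N generalizing m with
  | zero =>
    refine DB.zero (HO.continuous_hf m) fun x => (abs_hf_le m x).trans ?_
    unfold HB; norm_num
  | succ N ih =>
    refine DB.succ (fun x => hasDerivAt_hf m x) (fun x => (abs_hf_le m x).trans ?_) ?_
    · unfold HB
      have h1 : (1 : ℝ) ≤ 2 ^ (N + 1) := one_le_pow₀ (by norm_num)
      have h2 : (m : ℝ) + 2 ≤ ((m : ℝ) + (N + 1 : ℕ) + 2) := by push_cast; linarith [N.cast_nonneg (α := ℝ)]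
      have h3 : ((m : ℝ) + (N + 1 : ℕ) + 2) ≤ ((m : ℝ) + (N + 1 : ℕ) + 2) ^ (N + 1 + 1) :=
        le_self_pow₀ (by push_cast; linarith [N.cast_nonneg (α := ℝ), m.cast_nonneg (α := ℝ)]) (by omega)
      calc (m : ℝ) + 2 ≤ 1 * ((m : ℝ) + (N + 1 : ℕ) + 2) ^ (N + 1 + 1) := by linarith
        _ ≤ _ := by gcongr
    · have h1 := ((ih (m - 1)).const_mul (√((m : ℝ) / 2))).sub
        ((ih (m + 1)).const_mul (√(((m : ℝ) + 1) / 2)))
      refine (h1.congr (g := dhf m) fun x => rfl).mono ?_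
      rw [abs_of_nonneg (Real.sqrt_nonneg _), abs_of_nonneg (Real.sqrt_nonneg _)]
      have a1 : √((m : ℝ) / 2) ≤ (m : ℝ) + 1 := by
        rw [Real.sqrt_le_left (by positivity)]
        nlinarith [m.cast_nonneg (α := ℝ)]
      have a2 : √(((m : ℝ) + 1) / 2) ≤ (m : ℝ) + 1 := by
        rw [Real.sqrt_le_left (by positivity)]
        nlinarith [m.cast_nonneg (α := ℝ)]
      have a3 : HB N (m - 1) ≤ HB N (m + 1) := HB_mono N (by omega)
      have a4 := HB_nonneg N (m - 1)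
      calc √((m : ℝ) / 2) * HB N (m - 1) + √(((m : ℝ) + 1) / 2) * HB N (m + 1)
          ≤ ((m : ℝ) + 1) * HB N (m + 1) + ((m : ℝ) + 1) * HB N (m + 1) := by
            have := HB_nonneg N (m + 1)
            gcongr
        _ = 2 ^ (N + 1) * (((m : ℝ) + 1) * ((m : ℝ) + 1 + N + 2) ^ (N + 1)) := by
            unfold HB; push_cast; ring
        _ ≤ 2 ^ (N + 1) * (((m : ℝ) + (N + 1 : ℕ) + 2) * ((m : ℝ) + (N + 1 : ℕ) + 2) ^ (N + 1)) := by
            have e : (m : ℝ) + 1 + N + 2 = (m : ℝ) + (N + 1 : ℕ) + 2 := by push_cast; ring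
            rw [e]
            have : (m : ℝ) + 1 ≤ (m : ℝ) + (N + 1 : ℕ) + 2 := by
              push_cast; linarith [N.cast_nonneg (α := ℝ)]
            gcongr
        _ = HB (N + 1) m := by unfold HB; ring

/-! ### the Gaussian `exp(-2s²)` -/

theorem one_add_sq_le (s : ℝ) : 1 + s ^ 2 ≤ Real.exp (s ^ 2) := by
  have := Real.add_one_le_exp (s ^ 2); linarith

theorem abs_pow_exp (s : ℝ) : |s| * Real.exp (-2 * s ^ 2) ≤ 1 ∧ s ^ 2 * Real.exp (-2 * s ^ 2) ≤ 1 ∧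
    |s| ^ 3 * Real.exp (-2 * s ^ 2) ≤ 1 ∧ Real.exp (-2 * s ^ 2) ≤ 1 := by
  have h := one_add_sq_le s
  have h0 : |s| ≤ Real.exp (s ^ 2) := by
    have : |s| ≤ 1 + s ^ 2 := by rw [← sq_abs]; nlinarith [sq_nonneg (|s| - 1), abs_nonneg s]
    linarith
  have h2 : s ^ 2 ≤ Real.exp (s ^ 2) := by linarith
  have e : Real.exp (-2 * s ^ 2) = (Real.exp (s ^ 2))⁻¹ * (Real.exp (s ^ 2))⁻¹ := by
    rw [← Real.exp_neg, ← Real.exp_add]; congr 1; ring
  have hp := Real.exp_pos (s ^ 2)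
  have h1 : 1 ≤ Real.exp (s ^ 2) := by nlinarith [sq_nonneg s]
  have i1 : (Real.exp (s ^ 2))⁻¹ ≤ 1 := inv_le_one_of_one_le₀ h1
  have i0 : 0 ≤ (Real.exp (s ^ 2))⁻¹ := by positivity
  have j1 : |s| * (Real.exp (s ^ 2))⁻¹ ≤ 1 := by
    rw [← div_eq_mul_inv, div_le_one hp]; exact h0
  have j2 : s ^ 2 * (Real.exp (s ^ 2))⁻¹ ≤ 1 := by
    rw [← div_eq_mul_inv, div_le_one hp]; exact h2
  have n1 : 0 ≤ |s| * (Real.exp (s ^ 2))⁻¹ := by positivity
  have n2 : 0 ≤ s ^ 2 * (Real.exp (s ^ 2))⁻¹ := by positivity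
  rw [e]
  refine ⟨?_, ?_, ?_, ?_⟩
  · calc |s| * ((Real.exp (s ^ 2))⁻¹ * (Real.exp (s ^ 2))⁻¹) =
          (|s| * (Real.exp (s ^ 2))⁻¹) * (Real.exp (s ^ 2))⁻¹ := by ring
      _ ≤ 1 * 1 := by gcongr
      _ = 1 := by norm_num
  · calc s ^ 2 * ((Real.exp (s ^ 2))⁻¹ * (Real.exp (s ^ 2))⁻¹) =
          (s ^ 2 * (Real.exp (s ^ 2))⁻¹) * (Real.exp (s ^ 2))⁻¹ := by ring
      _ ≤ 1 * 1 := by gcongr
      _ = 1 := by norm_num
  · calc |s| ^ 3 * ((Real.exp (s ^ 2))⁻¹ * (Real.exp (s ^ 2))⁻¹) =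
          (|s| ^ 2 * (Real.exp (s ^ 2))⁻¹) * (|s| * (Real.exp (s ^ 2))⁻¹) := by ring
      _ = (s ^ 2 * (Real.exp (s ^ 2))⁻¹) * (|s| * (Real.exp (s ^ 2))⁻¹) := by rw [sq_abs]
      _ ≤ 1 * 1 := by gcongr
      _ = 1 := by norm_num
  · calc (Real.exp (s ^ 2))⁻¹ * (Real.exp (s ^ 2))⁻¹ ≤ 1 * 1 := by gcongr
      _ = 1 := by norm_num

theorem db_exp2 : DB 3 (fun s : ℝ => Real.exp (-2 * s ^ 2)) 112 := by
  have hE := hasDerivAt_exp2
  have h1 : ∀ s : ℝ, HasDerivAt (fun s : ℝ => Real.exp (-2 * s ^ 2) * (-4 * s))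
      (Real.exp (-2 * s ^ 2) * (16 * s ^ 2 - 4)) s := by
    intro s
    refine ((hE s).mul ((hasDerivAt_id s).const_mul (-4 : ℝ))).congr_deriv ?_
    simp only [id]; ring
  have h2 : ∀ s : ℝ, HasDerivAt (fun s : ℝ => Real.exp (-2 * s ^ 2) * (16 * s ^ 2 - 4))
      (Real.exp (-2 * s ^ 2) * (-64 * s ^ 3 + 48 * s)) s := by
    intro s
    have hp : HasDerivAt (fun s : ℝ => 16 * s ^ 2 - 4) (32 * s) s := by
      refine (((hasDerivAt_pow 2 s).const_mul (16 : ℝ)).sub_const 4).congr_deriv ?_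
      norm_num; ring
    refine ((hE s).mul hp).congr_deriv ?_
    ring
  refine DB.of_chain3 hE h1 h2 (by fun_prop) ?_ ?_ ?_ ?_
  · intro s
    obtain ⟨-, -, -, a4⟩ := abs_pow_exp s
    rw [abs_of_pos (Real.exp_pos _)]; linarith
  · intro s
    obtain ⟨a1, -, -, -⟩ := abs_pow_exp s
    rw [abs_mul, abs_of_pos (Real.exp_pos _), abs_mul, show |(-4 : ℝ)| = 4 by norm_num]
    nlinarith
  · intro s
    obtain ⟨-, a2, -, a4⟩ := abs_pow_exp s
    have hp := Real.exp_pos (-2 * s ^ 2)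
    rw [abs_mul, abs_of_pos hp]
    have : |16 * s ^ 2 - 4| ≤ 16 * s ^ 2 + 4 := by rw [abs_le]; constructor <;> nlinarith [sq_nonneg s]
    calc Real.exp (-2 * s ^ 2) * |16 * s ^ 2 - 4| ≤ Real.exp (-2 * s ^ 2) * (16 * s ^ 2 + 4) := by
          gcongr
      _ = 16 * (s ^ 2 * Real.exp (-2 * s ^ 2)) + 4 * Real.exp (-2 * s ^ 2) := by ring
      _ ≤ 112 := by linarith
  · intro s
    obtain ⟨a1, -, a3, -⟩ := abs_pow_exp s
    have hp := Real.exp_pos (-2 * s ^ 2)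
    rw [abs_mul, abs_of_pos hp]
    have : |-64 * s ^ 3 + 48 * s| ≤ 64 * |s| ^ 3 + 48 * |s| := by
      refine (abs_add_le _ _).trans ?_
      rw [abs_mul, abs_mul, abs_pow]; norm_num
    calc Real.exp (-2 * s ^ 2) * |-64 * s ^ 3 + 48 * s|
        ≤ Real.exp (-2 * s ^ 2) * (64 * |s| ^ 3 + 48 * |s|) := by gcongr
      _ = 64 * (|s| ^ 3 * Real.exp (-2 * s ^ 2)) + 48 * (|s| * Real.exp (-2 * s ^ 2)) := by ring
      _ ≤ 112 := by linarith

theorem db_vv (m k : ℕ) : DB 3 (vv m k) (2 ^ 3 * 112 * (2 ^ 3 * HB 3 m * HB 3 k)) :=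
  db_exp2.mul ((db_hf 3 m).mul (db_hf 3 k))

theorem BD_mono {r r' m m' : ℕ} (hr : r ≤ r') (hm : m ≤ m') : Lag.BD r m ≤ Lag.BD r' m' := by
  unfold Lag.BD
  have h1 : (r : ℝ) ≤ r' := by exact_mod_cast hr
  have h2 : (m : ℝ) ≤ m' := by exact_mod_cast hm
  have h3 : (2 : ℝ) ^ r ≤ 2 ^ r' := pow_le_pow_right₀ (by norm_num) hr
  have h4 : (4 * ((m : ℝ) + r) + 10) ^ (r + 2) ≤ (4 * ((m' : ℝ) + r') + 10) ^ (r' + 2) := by
    calc (4 * ((m : ℝ) + r) + 10) ^ (r + 2) ≤ (4 * ((m' : ℝ) + r') + 10) ^ (r + 2) := by gcongr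
      _ ≤ (4 * ((m' : ℝ) + r') + 10) ^ (r' + 2) := by
          refine pow_le_pow_right₀ ?_ (by omega)
          have := m'.cast_nonneg (α := ℝ)
          have := r'.cast_nonneg (α := ℝ)
          linarith
  gcongr

theorem db_Dsel (m : ℕ) : DB 3 (Lag.Dsel m) (Lag.BD 3 m) := by
  refine DB.of_iteratedDeriv (contDiff_infty.1 (Lag.contDiff_Dsel m) 3) fun j hj x => ?_
  exact (Lag.abs_iteratedDeriv_Dsel_le j m x).trans (BD_mono hj le_rfl)

/-! ### functions on `Pos3` -/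

/-- coordinates -/
def P (c : Fin 3) : Pos3 →L[ℝ] ℝ := EuclideanSpace.proj c

@[simp] theorem P_apply (c : Fin 3) (x : Pos3) : P c x = x c := rfl

theorem norm_P_le (c : Fin 3) : ‖P c‖ ≤ 1 := by
  refine ContinuousLinearMap.opNorm_le_bound _ zero_le_one fun x => ?_
  rw [one_mul, P_apply]
  exact PiLp.norm_apply_le x c

theorem db_coord {N : ℕ} {f : ℝ → ℝ} {B : ℝ} (h : DB N f B) (c : Fin 3) :
    DB N (fun x : Pos3 => f (x c)) B := h.comp_clm (P c) (norm_P_le c)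

/-- bound of the derivatives of order `≤ 3` of the designer potential, `M` = bound of the quantum
numbers, `n` number of sites -/
def Gw (n M : ℕ) (Lam Am : ℝ) : ℝ :=
  Lam * Lag.BD 3 0 + n * ((Lam + Am) * Lag.BD 3 M) +
    n * (n * (Am * (2 ^ 3 * (2 ^ 3 * 112 * (2 ^ 3 * HB 3 M * HB 3 M)) *
      (2 ^ 3 * 112 * (2 ^ 3 * HB 3 M * HB 3 M)))))

theorem db_wpot {n k M : ℕ} {Lam Am : ℝ} {A : ℕ → ℕ → ℝ} {a : ℕ → ℝ} (hL : 0 ≤ Lam)
    (hA : ∀ i j, |A i j| ≤ Am) (ha : ∀ i, |a i| ≤ Am) (hM : ∀ i < n, mi n k i ≤ M)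
    (hM' : n0' n k ≤ M) : DB 3 (wpot n k Lam A a) (Gw n M Lam Am) := by
  have hAm : 0 ≤ Am := (abs_nonneg _).trans (hA 0 0)
  have hBD0 := Lag.BD_nonneg 3 0
  have t1 : DB 3 (fun x : Pos3 => -Lam * Lag.Dsel 0 (x 2)) (Lam * Lag.BD 3 0) := by
    have := (db_coord (db_Dsel 0) 2).const_mul (-Lam)
    rwa [abs_neg, abs_of_nonneg hL] at this
  have t2 : DB 3 (fun x : Pos3 => ∑ i ∈ Finset.range n, (Lam - a i) * Lag.Dsel (mi n k i) (x 0))
      (∑ i ∈ Finset.range n, (Lam + Am) * Lag.BD 3 M) := by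
    refine DB.sum _ fun i hi => ?_
    have := (db_coord (db_Dsel (mi n k i)) 0).const_mul (Lam - a i)
    refine this.mono ?_
    have h1 : |Lam - a i| ≤ Lam + Am := by
      have := ha i
      rw [abs_le] at this ⊢
      constructor <;> linarith
    have h2 : Lag.BD 3 (mi n k i) ≤ Lag.BD 3 M := BD_mono le_rfl (hM i (Finset.mem_range.1 hi))
    have := Lag.BD_nonneg 3 (mi n k i)
    gcongr
  have hV : ∀ m l : ℕ, m ≤ M → l ≤ M → DB 3 (vv m l) (2 ^ 3 * 112 * (2 ^ 3 * HB 3 M * HB 3 M)) := by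
    intro m l hm hl
    refine (db_vv m l).mono ?_
    have := HB_mono 3 hm
    have := HB_mono 3 hl
    have := HB_nonneg 3 m
    have := HB_nonneg 3 l
    have := HB_nonneg 3 M
    gcongr
  have t3 : DB 3 (fun x : Pos3 => ∑ i ∈ Finset.range n, ∑ j ∈ Finset.range n, if i < j then
        A i j * (vv (mi n k i) (mi n k j) (x 0) * vv (mi' n k i) (mi' n k j) (x 1)) else 0)
      (∑ i ∈ Finset.range n, ∑ j ∈ Finset.range n,
        (Am * (2 ^ 3 * (2 ^ 3 * 112 * (2 ^ 3 * HB 3 M * HB 3 M)) *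
      (2 ^ 3 * 112 * (2 ^ 3 * HB 3 M * HB 3 M))))) := by
    refine DB.sum _ fun i hi => DB.sum _ fun j hj => ?_
    have hi' := Finset.mem_range.1 hi
    have hj' := Finset.mem_range.1 hj
    have hV1 := db_coord (hV (mi n k i) (mi n k j) (hM i hi') (hM j hj')) 0
    have hV2 := db_coord (hV (mi' n k i) (mi' n k j) ((Nat.sub_le _ _).trans hM')
      ((Nat.sub_le _ _).trans hM')) 1
    have h1 := (hV1.mul hV2).const_mul (A i j)
    have hnn := (hV1.mul hV2).nonneg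
    by_cases hij : i < j
    · simp only [hij, if_true]
      refine h1.mono ?_
      exact mul_le_mul_of_nonneg_right (hA i j) hnn
    · simp only [hij, if_false]
      refine (DB.const (E := Pos3) (N := 3) 0).mono ?_
      rw [abs_zero]
      exact mul_nonneg hAm hnn
  have h := (t1.sub t2).add t3
  refine (h.congr fun x => wpot_eq n k Lam A a x).mono ?_
  unfold Gw
  rw [Finset.sum_const, Finset.card_range, nsmul_eq_mul, Finset.sum_const, Finset.card_range,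
    nsmul_eq_mul, Finset.sum_const, Finset.card_range, nsmul_eq_mul]

/-- the cut-off potential -/
theorem db_wcut {w : Pos3 → ℝ} {B R : ℝ} (hw : DB 3 w B) (hR : 1 ≤ R) :
    DB 3 (wcut R w) (2 ^ 3 * B * (2 ^ 3 * (2 ^ 3 * CX * CX) * CX)) := by
  have hc : DB 3 (fun t => chR R t) CX := db_chi_scaled (r := 2 * R) (by linarith)
  have h1 := ((db_coord hc 0).mul (db_coord hc 1)).mul (db_coord hc 2)
  exact hw.mul h1

theorem wcut_of_le {w : Pos3 → ℝ} {R : ℝ} (hR : 0 < R) {x : Pos3} (hx : ∀ c, |x c| ≤ 2 * R) :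
    wcut R w x = w x := by
  have h : ∀ c, chR R (x c) = 1 := fun c => by
    unfold chR
    refine chi_of_le ?_
    rw [abs_div, abs_of_pos (by positivity : (0 : ℝ) < 2 * R), div_le_one (by positivity)]
    exact hx c
  unfold wcut
  rw [h 0, h 1, h 2]; ring

theorem wcut_of_ge {w : Pos3 → ℝ} {R : ℝ} (hR : 0 < R) {x : Pos3} (hx : ∃ c, 4 * R ≤ |x c|) :
    wcut R w x = 0 := by
  obtain ⟨c, hc⟩ := hx
  have h : chR R (x c) = 0 := by
    unfold chR
    refine chi_of_ge ?_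
    rw [abs_div, abs_of_pos (by positivity : (0 : ℝ) < 2 * R), le_div_iff₀ (by positivity)]
    linarith
  unfold wcut
  fin_cases c
  · rw [show chR R (x 0) = 0 from h]; ring
  · rw [show chR R (x 1) = 0 from h]; ring
  · rw [show chR R (x 2) = 0 from h]; ring

end Crest.Agent.R338.WC
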