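import Mathlib
import Crest.Agent.R338.WCBound
import Crest.Agent.R338.LatDefs

/-!
Row 338, node WC (helper201), part 4: the gradient of the cut-off potential in closed form, and the
structure `Lat.Disp` (hypotheses on `w_c` and the displacements of blueprint C.5).
-/

set_option autoImplicit false

open MeasureTheory Set
open Crest.MathPhysics.ElectronicCoulomb

noncomputable section
namespace Crest.Agent.R338.WC

/-! ### difference bounds from `DB` -/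

section diff
variable {E G : Type*} [NormedAddCommGroup E] [NormedSpace ℝ E] [NormedAddCommGroup G]
  [NormedSpace ℝ G]

theorem lip_of_fderiv {g : E → G} {B : ℝ} (hg : Differentiable ℝ g)
    (hb : ∀ x, ‖fderiv ℝ g x‖ ≤ B) (x v : E) : ‖g (x + v) - g x‖ ≤ B * ‖v‖ := by
  have := Convex.norm_image_sub_le_of_norm_fderiv_le (𝕜 := ℝ) (s := univ) (f := g)
    (C := B) (fun y _ => hg y) (fun y _ => hb y) convex_univ (mem_univ x) (mem_univ (x + v))
  simpa using this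

theorem diff2_of_fderiv {g : E → G} {B : ℝ} (hg : ContDiff ℝ 2 g)
    (hb : ∀ x, ‖iteratedFDeriv ℝ 2 g x‖ ≤ B) (x v : E) :
    ‖g (x + v) + g (x - v) - (2 : ℝ) • g x‖ ≤ B * ‖v‖ ^ 2 := by
  have hd : Differentiable ℝ g := hg.differentiable (by norm_num)
  have hd2 : Differentiable ℝ (fderiv ℝ g) :=
    (hg.fderiv_right (m := 1) (by norm_num)).differentiable (by norm_num)
  have hb2 : ∀ x, ‖fderiv ℝ (fderiv ℝ g) x‖ ≤ B := by
    intro x
    have := hb x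
    rwa [← norm_iteratedFDeriv_fderiv, ← norm_iteratedFDeriv_fderiv, norm_iteratedFDeriv_zero] at this
  have hL : ∀ y, ‖fderiv ℝ g (y + v) - fderiv ℝ g y‖ ≤ B * ‖v‖ := fun y =>
    lip_of_fderiv hd2 hb2 y v
  have hψd : ∀ y, HasFDerivAt (fun y => g (y + v) - g y) (fderiv ℝ g (y + v) - fderiv ℝ g y) y := by
    intro y
    have h1 : HasFDerivAt (fun y => g (y + v)) (fderiv ℝ g (y + v)) y := by
      rw [hasFDerivAt_comp_add_right]
      exact (hd (y + v)).hasFDerivAt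
    exact h1.sub (hd y).hasFDerivAt
  have := Convex.norm_image_sub_le_of_norm_hasFDerivWithin_le (𝕜 := ℝ) (s := univ)
    (f := fun y => g (y + v) - g y)
    (C := B * ‖v‖) (fun y _ => (hψd y).hasFDerivWithinAt) (fun y _ => hL y) convex_univ
    (mem_univ (x - v)) (mem_univ x)
  have e : (g (x + v) - g x) - (g (x - v + v) - g (x - v)) =
      g (x + v) + g (x - v) - (2 : ℝ) • g x := by
    rw [sub_add_cancel, two_smul]; abel
  simp only [e, sub_sub_cancel] at this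
  calc _ ≤ B * ‖v‖ * ‖v‖ := this
    _ = B * ‖v‖ ^ 2 := by ring

theorem DB.cd_fderiv {f : E → ℝ} {B : ℝ} (h : DB 3 f B) : ContDiff ℝ 2 (fderiv ℝ f) :=
  h.cd.fderiv_right (m := 2) (by norm_num)

theorem DB.b1 {f : E → ℝ} {B : ℝ} (h : DB 3 f B) (x v : E) :
    ‖fderiv ℝ f (x + v) - fderiv ℝ f x‖ ≤ B * ‖v‖ := by
  refine lip_of_fderiv (h.cd_fderiv.differentiable (by norm_num)) (fun y => ?_) x v
  have := h.bd 2 (by norm_num) y
  rwa [← norm_iteratedFDeriv_fderiv, ← norm_iteratedFDeriv_fderiv, norm_iteratedFDeriv_zero] at this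

theorem DB.b2 {f : E → ℝ} {B : ℝ} (h : DB 3 f B) (x v : E) :
    ‖fderiv ℝ f (x + v) + fderiv ℝ f (x - v) - (2 : ℝ) • fderiv ℝ f x‖ ≤ B * ‖v‖ ^ 2 := by
  refine diff2_of_fderiv h.cd_fderiv (fun y => ?_) x v
  rw [norm_iteratedFDeriv_fderiv]
  exact h.bd 3 le_rfl y

end diff

/-! ### closed form of the gradient -/

theorem hasFDerivAt_coord {f : ℝ → ℝ} {f' : ℝ} {x : Pos3} {c : Fin 3} (h : HasDerivAt f f' (x c)) :
    HasFDerivAt (fun x : Pos3 => f (x c)) (f' • P c) x := by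
  have := HasDerivAt.comp_hasFDerivAt x (h₂ := f) (f := fun x : Pos3 => x c) (f' := P c) h
    (P c).hasFDerivAt
  exact this

theorem hasFDerivAt_wpot (n k : ℕ) (Lam : ℝ) (A : ℕ → ℕ → ℝ) (a : ℕ → ℝ) (x : Pos3) :
    HasFDerivAt (wpot n k Lam A a) (dw n k Lam A a 0 x • P 0 + dw n k Lam A a 1 x • P 1 +
      dw n k Lam A a 2 x • P 2) x := by
  have t1 : HasFDerivAt (fun x : Pos3 => -Lam * Lag.Dsel 0 (x 2)) ((-Lam) • (dD 0 (x 2) • P 2)) x :=
    (hasFDerivAt_coord (hasDerivAt_Dsel 0 (x 2))).const_mul (-Lam)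
  have t2 : HasFDerivAt
      (fun x : Pos3 => ∑ i ∈ Finset.range n, (Lam - a i) * Lag.Dsel (mi n k i) (x 0))
      (∑ i ∈ Finset.range n, (Lam - a i) • (dD (mi n k i) (x 0) • P 0)) x := by
    refine HasFDerivAt.fun_sum fun i _ => ?_
    exact (hasFDerivAt_coord (hasDerivAt_Dsel (mi n k i) (x 0))).const_mul (Lam - a i)
  have t3 : HasFDerivAt (fun x : Pos3 => ∑ i ∈ Finset.range n, ∑ j ∈ Finset.range n, if i < j then
        A i j * (vv (mi n k i) (mi n k j) (x 0) * vv (mi' n k i) (mi' n k j) (x 1)) else 0)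
      (∑ i ∈ Finset.range n, ∑ j ∈ Finset.range n, if i < j then
        A i j • (vv (mi n k i) (mi n k j) (x 0) • (dvv (mi' n k i) (mi' n k j) (x 1) • P 1) +
          vv (mi' n k i) (mi' n k j) (x 1) • (dvv (mi n k i) (mi n k j) (x 0) • P 0)) else 0) x := by
    refine HasFDerivAt.fun_sum fun i _ => HasFDerivAt.fun_sum fun j _ => ?_
    by_cases hij : i < j
    · simp only [hij, if_true]
      exact ((hasFDerivAt_coord (hasDerivAt_vv _ _ (x 0))).mul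
        (hasFDerivAt_coord (hasDerivAt_vv _ _ (x 1)))).const_mul (A i j)
    · simp only [hij, if_false]
      exact hasFDerivAt_const _ _
  have h := (t1.sub t2).add t3
  have e : wpot n k Lam A a = fun x => -Lam * Lag.Dsel 0 (x 2) -
      ∑ i ∈ Finset.range n, (Lam - a i) * Lag.Dsel (mi n k i) (x 0) +
      ∑ i ∈ Finset.range n, ∑ j ∈ Finset.range n, if i < j then
        A i j * (vv (mi n k i) (mi n k j) (x 0) * vv (mi' n k i) (mi' n k j) (x 1)) else 0 :=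
    funext fun x => wpot_eq n k Lam A a x
  rw [e]
  refine h.congr_fderiv ?_
  ext y
  simp only [add_apply, sub_apply,
    smul_apply, sum_apply, P_apply, smul_eq_mul, dw,
    if_true, Fin.isValue]
  have e3 : ∀ i j : ℕ, (if i < j then
        A i j • (vv (mi n k i) (mi n k j) (x 0) • (dvv (mi' n k i) (mi' n k j) (x 1) • P 1) +
          vv (mi' n k i) (mi' n k j) (x 1) • (dvv (mi n k i) (mi n k j) (x 0) • P 0)) else 0 :
          Pos3 →L[ℝ] ℝ) y =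
      (if i < j then A i j * (dvv (mi n k i) (mi n k j) (x 0) *
        vv (mi' n k i) (mi' n k j) (x 1)) else 0) * y 0 +
      (if i < j then A i j * (vv (mi n k i) (mi n k j) (x 0) *
        dvv (mi' n k i) (mi' n k j) (x 1)) else 0) * y 1 := by
    intro i j
    by_cases hij : i < j
    · simp only [hij, if_true, add_apply, smul_apply,
        P_apply, smul_eq_mul]
      ring
    · simp [hij]
  simp only [e3, Finset.sum_add_distrib, ← Finset.sum_mul]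
  have e2 : ∑ i ∈ Finset.range n, (Lam - a i) * (dD (mi n k i) (x 0) * y 0) =
      (∑ i ∈ Finset.range n, (Lam - a i) * dD (mi n k i) (x 0)) * y 0 := by
    rw [Finset.sum_mul]
    exact Finset.sum_congr rfl fun i _ => by ring
  rw [e2]
  have c10 : (1 : Fin 3) ≠ 0 := by decide
  have c20 : (2 : Fin 3) ≠ 0 := by decide
  have c21 : (2 : Fin 3) ≠ 1 := by decide
  simp only [c10, c20, c21, if_false]
  ring

theorem hasDerivAt_chR {R : ℝ} (t : ℝ) : HasDerivAt (chR R) (dchR R t) t := by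
  have h : HasDerivAt (fun t : ℝ => t / (2 * R)) (1 / (2 * R)) t := (hasDerivAt_id t).div_const _
  have := (hasDerivAt_chi (t / (2 * R))).comp t h
  refine this.congr_deriv ?_
  unfold dchR; ring

theorem hasFDerivAt_wcut (n k : ℕ) (Lam : ℝ) (A : ℕ → ℕ → ℝ) (a : ℕ → ℝ) (R : ℝ) (x : Pos3) :
    HasFDerivAt (wcut R (wpot n k Lam A a)) (dwc n k Lam A a R 0 x • P 0 +
      dwc n k Lam A a R 1 x • P 1 + dwc n k Lam A a R 2 x • P 2) x := by
  have hw := hasFDerivAt_wpot n k Lam A a x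
  have h0 := hasFDerivAt_coord (hasDerivAt_chR (R := R) (x 0))
  have h1 := hasFDerivAt_coord (hasDerivAt_chR (R := R) (x 1))
  have h2 := hasFDerivAt_coord (hasDerivAt_chR (R := R) (x 2))
  have h := hw.mul ((h0.mul h1).mul h2)
  have e : wcut R (wpot n k Lam A a) = fun x => wpot n k Lam A a x *
    (chR R (x 0) * chR R (x 1) * chR R (x 2)) := rfl
  rw [e]
  refine h.congr_fderiv ?_
  ext y
  have c10 : (1 : Fin 3) ≠ 0 := by decide
  have c20 : (2 : Fin 3) ≠ 0 := by decide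
  have c21 : (2 : Fin 3) ≠ 1 := by decide
  simp only [add_apply, smul_apply, P_apply, smul_eq_mul, Pi.mul_apply,
    dwc, if_true, c10, c20, c21, if_false]
  ring

/-- closed form of the gradient -/
theorem hasGradientAt_wcut (n k : ℕ) (Lam : ℝ) (A : ℕ → ℕ → ℝ) (a : ℕ → ℝ) (R : ℝ) (x : Pos3) :
    HasGradientAt (wcut R (wpot n k Lam A a))
      (WithLp.toLp 2 (fun c => dwc n k Lam A a R c x) : Pos3) x := by
  rw [hasGradientAt_iff_hasFDerivAt]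
  refine (hasFDerivAt_wcut n k Lam A a R x).congr_fderiv ?_
  ext y
  simp only [add_apply, smul_apply, P_apply, smul_eq_mul,
    InnerProductSpace.toDual_apply_apply]
  rw [PiLp.inner_apply, Fin.sum_univ_three]
  simp
  ring

theorem gradient_wcut (n k : ℕ) (Lam : ℝ) (A : ℕ → ℕ → ℝ) (a : ℕ → ℝ) (R : ℝ) (x : Pos3) :
    gradient (wcut R (wpot n k Lam A a)) x = WithLp.toLp 2 (fun c => dwc n k Lam A a R c x) :=
  (hasGradientAt_wcut n k Lam A a R x).gradient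

theorem continuous_wpot (n k : ℕ) (Lam : ℝ) (A : ℕ → ℕ → ℝ) (a : ℕ → ℝ) :
    Continuous (wpot n k Lam A a) :=
  continuous_iff_continuousAt.2 fun x => (hasFDerivAt_wpot n k Lam A a x).continuousAt

/-! ### vanishing outside the cutoff -/

theorem chR_of_ge {R t : ℝ} (hR : 0 < R) (ht : 4 * R ≤ |t|) : chR R t = 0 := by
  unfold chR
  refine chi_of_ge ?_
  rw [abs_div, abs_of_pos (by positivity : (0 : ℝ) < 2 * R), le_div_iff₀ (by positivity)]
  linarith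

theorem dchR_of_ge {R t : ℝ} (hR : 0 < R) (ht : 4 * R ≤ |t|) : dchR R t = 0 := by
  unfold dchR
  rw [chi1_of_ge, zero_div]
  rw [abs_div, abs_of_pos (by positivity : (0 : ℝ) < 2 * R), le_div_iff₀ (by positivity)]
  linarith

theorem dwc_of_ge {n k : ℕ} {Lam : ℝ} {A : ℕ → ℕ → ℝ} {a : ℕ → ℝ} {R : ℝ} (hR : 0 < R) {x : Pos3}
    (hx : ∃ c, 4 * R ≤ |x c|) (c : Fin 3) : dwc n k Lam A a R c x = 0 := by
  obtain ⟨b, hb⟩ := hx
  have h1 := chR_of_ge hR hb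
  have h2 := dchR_of_ge hR hb
  unfold dwc
  fin_cases b
  · rw [show chR R (x 0) = 0 from h1, show dchR R (x 0) = 0 from h2]; simp
  · rw [show chR R (x 1) = 0 from h1, show dchR R (x 1) = 0 from h2]; simp
  · rw [show chR R (x 2) = 0 from h1, show dchR R (x 2) = 0 from h2]; simp

/-! ### explicit bounds -/

/-- derivative bound of the cut-off potential -/
def Gc (n M : ℕ) (Lam Am : ℝ) : ℝ := 2 ^ 3 * Gw n M Lam Am * (2 ^ 3 * (2 ^ 3 * CX * CX) * CX)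

theorem Gw_le {n M : ℕ} {Lam Am : ℝ} (hL : 0 ≤ Lam) (hA : 0 ≤ Am) (hn : n ≤ M) :
    Gw n M Lam Am ≤ 2 * 10 ^ 12 * ((M : ℝ) + 5) ^ 18 * (Lam + Am) := by
  have hn' : (n : ℝ) ≤ (M : ℝ) + 5 := by
    have : (n : ℝ) ≤ M := by exact_mod_cast hn
    linarith
  have hn0 : (0 : ℝ) ≤ n := n.cast_nonneg
  set y : ℝ := (M : ℝ) + 5 with hy
  have hy1 : 1 ≤ y := by have := M.cast_nonneg (α := ℝ); linarith
  have hy0 : 0 ≤ y := by linarith
  have b0 : Lag.BD 3 0 ≤ 3 * 10 ^ 8 := by unfold Lag.BD; norm_num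
  have bM : Lag.BD 3 M ≤ 70000 * y ^ 5 := by
    unfold Lag.BD
    have h1 : (4 * ((M : ℝ) + (3 : ℕ)) + 10) ≤ 4.4 * y := by
      rw [hy]; push_cast; have := M.cast_nonneg (α := ℝ); linarith
    have h0 : 0 ≤ (4 * ((M : ℝ) + (3 : ℕ)) + 10) := by positivity
    calc 5 * 2 ^ 3 * (4 * ((M : ℝ) + (3 : ℕ)) + 10) ^ (3 + 2) ≤ 5 * 2 ^ 3 * (4.4 * y) ^ (3 + 2) := by
          gcongr
      _ = (5 * 2 ^ 3 * 4.4 ^ 5) * y ^ 5 := by ring
      _ ≤ 70000 * y ^ 5 := by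
          refine mul_le_mul_of_nonneg_right (by norm_num) (by positivity)
  have hH : HB 3 M = 8 * y ^ 4 := by unfold HB; rw [hy]; push_cast; ring
  have p5 : y ^ 5 * y ≤ y ^ 18 := by
    rw [← pow_succ]; exact pow_le_pow_right₀ hy1 (by norm_num)
  have p0 : (1 : ℝ) ≤ y ^ 18 := one_le_pow₀ hy1
  unfold Gw
  rw [hH]
  have t1 : Lam * Lag.BD 3 0 ≤ 3 * 10 ^ 8 * y ^ 18 * (Lam + Am) := by
    calc Lam * Lag.BD 3 0 ≤ Lam * (3 * 10 ^ 8) := by gcongr
      _ ≤ (Lam + Am) * (3 * 10 ^ 8 * y ^ 18) := by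
          have : (3 : ℝ) * 10 ^ 8 ≤ 3 * 10 ^ 8 * y ^ 18 := by nlinarith
          have h2 : Lam ≤ Lam + Am := by linarith
          gcongr
      _ = _ := by ring
  have t2 : (n : ℝ) * ((Lam + Am) * Lag.BD 3 M) ≤ 70000 * y ^ 18 * (Lam + Am) := by
    have := Lag.BD_nonneg 3 M
    calc (n : ℝ) * ((Lam + Am) * Lag.BD 3 M) ≤ y * ((Lam + Am) * (70000 * y ^ 5)) := by gcongr
      _ = 70000 * (y ^ 5 * y) * (Lam + Am) := by ring
      _ ≤ 70000 * y ^ 18 * (Lam + Am) := by gcongr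
  have t3 : (n : ℝ) * (n * (Am * (2 ^ 3 * (2 ^ 3 * 112 * (2 ^ 3 * (8 * y ^ 4) * (8 * y ^ 4))) *
      (2 ^ 3 * 112 * (2 ^ 3 * (8 * y ^ 4) * (8 * y ^ 4)))))) ≤ 1.9 * 10 ^ 12 * y ^ 18 * (Lam + Am) := by
    calc (n : ℝ) * (n * (Am * (2 ^ 3 * (2 ^ 3 * 112 * (2 ^ 3 * (8 * y ^ 4) * (8 * y ^ 4))) *
      (2 ^ 3 * 112 * (2 ^ 3 * (8 * y ^ 4) * (8 * y ^ 4))))))
        ≤ y * (y * ((Lam + Am) * (2 ^ 3 * (2 ^ 3 * 112 * (2 ^ 3 * (8 * y ^ 4) * (8 * y ^ 4))) *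
      (2 ^ 3 * 112 * (2 ^ 3 * (8 * y ^ 4) * (8 * y ^ 4)))))) := by
          have h2 : Am ≤ Lam + Am := by linarith
          gcongr
      _ = (2 ^ 3 * (2 ^ 3 * 112 * (2 ^ 3 * 8 * 8)) * (2 ^ 3 * 112 * (2 ^ 3 * 8 * 8))) *
          y ^ 18 * (Lam + Am) := by ring
      _ ≤ 1.9 * 10 ^ 12 * y ^ 18 * (Lam + Am) := by
          refine mul_le_mul_of_nonneg_right ?_ (by linarith)
          refine mul_le_mul_of_nonneg_right (by norm_num) (by positivity)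
  have hfin : 3 * 10 ^ 8 * y ^ 18 * (Lam + Am) + 70000 * y ^ 18 * (Lam + Am) +
      1.9 * 10 ^ 12 * y ^ 18 * (Lam + Am) ≤ 2 * 10 ^ 12 * y ^ 18 * (Lam + Am) := by
    have : 0 ≤ y ^ 18 * (Lam + Am) := by positivity
    nlinarith
  linarith

theorem Gw_nonneg {n M : ℕ} {Lam Am : ℝ} (hL : 0 ≤ Lam) (hA : 0 ≤ Am) : 0 ≤ Gw n M Lam Am := by
  unfold Gw
  have := Lag.BD_nonneg 3 0
  have := Lag.BD_nonneg 3 M
  have := HB_nonneg 3 M
  positivity

theorem Gc_le {n M : ℕ} {Lam Am : ℝ} (hL : 0 ≤ Lam) (hA : 0 ≤ Am) (hn : n ≤ M) :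
    Gc n M Lam Am ≤ 10 ^ 32 * ((M : ℝ) + 5) ^ 18 * (Lam + Am) := by
  have h := Gw_le (n := n) (M := M) hL hA hn
  have h0 := Gw_nonneg (n := n) (M := M) hL hA
  unfold Gc CX
  calc 2 ^ 3 * Gw n M Lam Am * (2 ^ 3 * (2 ^ 3 * (2 ^ 3 * 210 * 210) * (2 ^ 3 * 210 * 210)) *
        (2 ^ 3 * 210 * 210))
      = (2 ^ 3 * (2 ^ 3 * (2 ^ 3 * (2 ^ 3 * 210 * 210) * (2 ^ 3 * 210 * 210)) *
        (2 ^ 3 * 210 * 210))) * Gw n M Lam Am := by ring
    _ ≤ (2 ^ 3 * (2 ^ 3 * (2 ^ 3 * (2 ^ 3 * 210 * 210) * (2 ^ 3 * 210 * 210)) *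
        (2 ^ 3 * 210 * 210))) * (2 * 10 ^ 12 * ((M : ℝ) + 5) ^ 18 * (Lam + Am)) := by gcongr
    _ = (2 ^ 3 * (2 ^ 3 * (2 ^ 3 * (2 ^ 3 * 210 * 210) * (2 ^ 3 * 210 * 210)) *
        (2 ^ 3 * 210 * 210)) * (2 * 10 ^ 12)) * (((M : ℝ) + 5) ^ 18 * (Lam + Am)) := by ring
    _ ≤ 10 ^ 32 * (((M : ℝ) + 5) ^ 18 * (Lam + Am)) := by
        refine mul_le_mul_of_nonneg_right (by norm_num) (by positivity)
    _ = _ := by ring

theorem mi_le (n k : ℕ) {i : ℕ} (hi : i < n) : mi n k i ≤ n0' n k := by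
  unfold mi n0'
  have h1 : 4 * nu n i ≤ 5 * Yn n + Yn n := by
    unfold nu Yn
    nlinarith [Nat.mul_le_mul_left (n ^ 2) (Nat.succ_le_of_lt hi), Nat.mul_le_mul hi.le hi.le,
      Nat.mul_le_mul_left (16 * n ^ 2) hi.le, sq_nonneg (n : ℤ)]
  have h2 : (4 * nu n i) ^ 2 ≤ (6 * Yn n) ^ 2 := Nat.pow_le_pow_left (by omega) 2
  have h3 : nu n i ^ 2 ≤ 8 * Yn n ^ 2 := by nlinarith
  calc 2 * (k ^ 3 * nu n i) ^ 2 = 2 * ((k ^ 3) ^ 2 * nu n i ^ 2) := by ring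
    _ ≤ 2 * ((k ^ 3) ^ 2 * (8 * Yn n ^ 2)) := by gcongr
    _ = _ := by ring

/-- sup bound `W` of the designer potential -/
theorem abs_wpot_le {n k : ℕ} {Lam Am : ℝ} {A : ℕ → ℕ → ℝ} {a : ℕ → ℝ} (hL : 0 ≤ Lam)
    (hA : ∀ i j, |A i j| ≤ Am) (ha : ∀ i, |a i| ≤ Am) (x : Pos3) :
    |wpot n k Lam A a x| ≤ Gw n (n0' n k) Lam Am :=
  (db_wpot hL hA ha (fun i hi => mi_le n k hi) le_rfl).abs_le x

/-! ### the structure `Disp` -/

theorem norm_gradient_eq {f : Pos3 → ℝ} (x : Pos3) : ‖gradient f x‖ = ‖fderiv ℝ f x‖ := by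
  unfold gradient
  simp

theorem disp_wcut {n k : ℕ} {Lam Am : ℝ} {A : ℕ → ℕ → ℝ} {a : ℕ → ℝ} (hL : 0 ≤ Lam)
    (hA : ∀ i j, |A i j| ≤ Am) (ha : ∀ i, |a i| ≤ Am) {R s eps : ℝ} {Mw : ℕ} (hR : 1 ≤ R)
    (hs : 0 < s) (hMw : 4 * R ≤ s * Mw) {d : (Fin 3 → ℤ) → Lat.P3}
    (hd : ∀ α : Fin 3 → ℤ, (∀ c, |α c| ≤ Mw) → ‖d α - (s ^ 3 / (4 * Real.pi)) •
      (WithLp.toLp 2 (fun c => dwc n k Lam A a R c (Lat.pt s α)) : Lat.P3)‖ ≤ eps)
    (hd0 : ∀ α : Fin 3 → ℤ, (∃ c, (Mw : ℤ) < |α c|) → d α = 0)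
    (heps : 0 ≤ eps)
    (hsm : s ^ 3 / (4 * Real.pi) * Gc n (n0' n k) Lam Am + eps ≤ s / 4) :
    Lat.Disp s d (wcut R (wpot n k Lam A a)) (s * Mw) (Gc n (n0' n k) Lam Am) eps := by
  have hDB : DB 3 (wcut R (wpot n k Lam A a)) (Gc n (n0' n k) Lam Am) :=
    db_wcut (db_wpot hL hA ha (fun i hi => mi_le n k hi) le_rfl) hR
  have hR0 : 0 < R := by linarith
  have hout : ∀ α : Fin 3 → ℤ, (∃ c, (Mw : ℤ) < |α c|) → ∃ c, 4 * R ≤ |Lat.pt s α c| := by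
    rintro α ⟨c, hc⟩
    refine ⟨c, hMw.trans ?_⟩
    have e : Lat.pt s α c = s * (α c : ℝ) := rfl
    rw [e, abs_mul, abs_of_pos hs]
    have : (Mw : ℝ) ≤ |(α c : ℝ)| := by
      have : ((Mw : ℤ) : ℝ) < ((|α c| : ℤ) : ℝ) := by exact_mod_cast hc
      push_cast at this
      exact this.le
    gcongr
  have happ : ∀ α, ‖d α - (s ^ 3 / (4 * Real.pi)) •
      gradient (wcut R (wpot n k Lam A a)) (Lat.pt s α)‖ ≤ eps := by
    intro α
    rw [gradient_wcut]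
    by_cases h : ∀ c, |α c| ≤ Mw
    · exact hd α h
    · push Not at h
      rw [hd0 α h]
      have e : (WithLp.toLp 2 (fun c => dwc n k Lam A a R c (Lat.pt s α)) : Lat.P3) = 0 := by
        ext c
        exact dwc_of_ge hR0 (hout α h) c
      rw [e, smul_zero, sub_zero, norm_zero]
      exact heps
  refine ⟨hDB.cd.of_le (by norm_num), ?_, ?_, hDB.b1, hDB.b2, happ, ?_, ?_⟩
  · rintro x ⟨c, hc⟩
    exact wcut_of_ge hR0 ⟨c, (hMw.trans hc.le)⟩
  · exact fun x => hDB.norm_fderiv_le (by norm_num) x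
  · rintro α ⟨c, hc⟩
    refine hd0 α ⟨c, ?_⟩
    rw [abs_mul, abs_of_pos hs, mul_lt_mul_iff_right₀ hs] at hc
    have : (((Mw : ℤ)) : ℝ) < ((|α c| : ℤ) : ℝ) := by push_cast; exact hc
    exact_mod_cast this
  · intro α
    have h1 := happ α
    have h2 : ‖(s ^ 3 / (4 * Real.pi)) • gradient (wcut R (wpot n k Lam A a)) (Lat.pt s α)‖ ≤
        s ^ 3 / (4 * Real.pi) * Gc n (n0' n k) Lam Am := by
      rw [norm_smul, norm_gradient_eq, Real.norm_eq_abs, abs_of_nonneg (by positivity)]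
      have := hDB.norm_fderiv_le (by norm_num) (Lat.pt s α)
      gcongr
    have h3 : d α = (d α - (s ^ 3 / (4 * Real.pi)) •
      gradient (wcut R (wpot n k Lam A a)) (Lat.pt s α)) + (s ^ 3 / (4 * Real.pi)) •
      gradient (wcut R (wpot n k Lam A a)) (Lat.pt s α) := by abel
    rw [h3]
    exact (norm_add_le _ _).trans (by linarith)

/-! ### distinct nuclei -/

/-- rational nuclear positions -/
def posQ (A : ℕ) (D : (Fin 3 → ℤ) → Fin 3 → ℚ) (α : Fin 3 → ℤ) (c : Fin 3) : ℚ :=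
  (α c : ℚ) / A - D α c

theorem posQ_injective {A : ℕ} (hA : 0 < A) {D : (Fin 3 → ℤ) → Fin 3 → ℚ}
    (hD : ∀ α c, |D α c| < 1 / (2 * (A : ℚ))) : Function.Injective (posQ A D) := by
  intro α β h
  ext c
  have h1 := congrFun h c
  unfold posQ at h1
  have hA' : (0 : ℚ) < A := by exact_mod_cast hA
  by_contra hne
  have h2 : (1 : ℚ) ≤ |((α c : ℚ) - β c)| := by
    have : (1 : ℤ) ≤ |α c - β c| := Int.one_le_abs (sub_ne_zero.2 hne)
    exact_mod_cast this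
  have h3 : ((α c : ℚ) - β c) / A = D α c - D β c := by
    field_simp at h1 ⊢
    linarith
  have h4 : |((α c : ℚ) - β c) / A| < 1 / A := by
    rw [h3]
    have e : (1 : ℚ) / A = 1 / (2 * (A : ℚ)) + 1 / (2 * (A : ℚ)) := by field_simp; norm_num
    rw [e]
    exact (abs_sub _ _).trans_lt (add_lt_add (hD α c) (hD β c))
  rw [abs_div, abs_of_pos hA', div_lt_div_iff_of_pos_right hA'] at h4
  linarith

/-- the scaled position `lam⁻¹ • pos` is `nuc s d α` with `d α = lam⁻¹ • D α` (`lam * s = 1/A`) -/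
theorem nuc_eq {A : ℕ} {lam s : ℝ} (hlam : lam ≠ 0) (hls : lam * s = 1 / A)
    (D : (Fin 3 → ℤ) → Fin 3 → ℚ) (α : Fin 3 → ℤ) :
    Lat.nuc s (fun α => WithLp.toLp 2 fun c => lam⁻¹ * (D α c : ℝ)) α =
      WithLp.toLp 2 fun c => lam⁻¹ * ((posQ A D α c : ℚ) : ℝ) := by
  have hs : s = lam⁻¹ * (1 / A) := by rw [← hls]; field_simp
  ext c
  unfold Lat.nuc Lat.pt posQ
  simp only [PiLp.sub_apply]
  push_cast
  rw [hs]; ring

end Crest.Agent.R338.WC
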