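import Mathlib
import Crest.Agent.R338.WCMain
import Crest.Agent.R338.P2Defs

/-!
Row 338, node WC (helper201): the frozen statement `P2.WcStmt`, and the closed form of the exact
displacements `P2.DexP`.
-/

set_option autoImplicit false

open MeasureTheory Set
open Crest.MathPhysics.ElectronicCoulomb

noncomputable section
namespace Crest.Agent.R338.WC

theorem wcut_P2_eq (R : ℝ) (w : Pos3 → ℝ) : P2.wcut (2 * R) w = wcut R w := by
  ext x
  unfold P2.wcut wcut chR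
  rw [Fin.prod_univ_three]

/-- closed form of the exact displacement -/
theorem DexP_eq (C : P2.Cst) (h : HInst) (α : Fin 3 → ℤ) (c : Fin 3) :
    P2.DexP C h α c = P2.lamP C h ^ 2 / 3 *
      dwc h.n (P2.kP C h) (P2.LamP C h) (P2.AcP C h) (P2.acP C h) (P2.RP C h) c
        (Lat.pt (P2.sP C h) α) := by
  unfold P2.DexP P2.wcP P2.wP
  rw [wcut_P2_eq, gradient_wcut]

/-- exact displacements vanish for `|α c| ≥ MdP` (`4 R ≤ s |α c|`), `c` any coordinate -/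
theorem DexP_eq_zero (C : P2.Cst) (h : HInst) (α : Fin 3 → ℤ) (hR : 0 < (P2.RP C h : ℝ))
    (hα : ∃ c, 4 * (P2.RP C h : ℝ) ≤ |Lat.pt (P2.sP C h) α c|) (c : Fin 3) :
    P2.DexP C h α c = 0 := by
  rw [DexP_eq, dwc_of_ge hR hα, mul_zero]

theorem db_wcut_P2 {w : Pos3 → ℝ} {B Lw : ℝ} (hw : DB 3 w B) (hL : 1 ≤ Lw) :
    DB 3 (P2.wcut Lw w) (2 ^ 3 * B * (2 ^ 3 * (2 ^ 3 * CX * CX) * CX)) := by
  have hc : DB 3 (fun t => chi (t / Lw)) CX := db_chi_scaled hL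
  have h1 := ((db_coord hc 0).mul (db_coord hc 1)).mul (db_coord hc 2)
  refine (hw.mul h1).congr fun x => ?_
  unfold P2.wcut
  rw [Fin.prod_univ_three]

theorem key_aux {M S X : ℝ} (h0 : 0 ≤ M) (hS : 0 ≤ S) (h1 : M + 5 ≤ 2 * X) (h2 : S ≤ X)
    (hX : (2 : ℝ) ^ 14 ≤ X) : 10 ^ 32 * (M + 5) ^ 18 * S ≤ X ^ 40 := by
  have hX0 : 0 ≤ X := le_trans (by norm_num) hX
  have e1 : (M + 5) ^ 18 ≤ (2 * X) ^ 18 := pow_le_pow_left₀ (by linarith) h1 18
  have e2 : ((2 : ℝ) ^ 14) ^ 21 ≤ X ^ 21 := pow_le_pow_left₀ (by norm_num) hX 21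
  have e3 : (10 : ℝ) ^ 32 * 2 ^ 18 ≤ ((2 : ℝ) ^ 14) ^ 21 := by norm_num
  have p18 : 0 ≤ X ^ 18 := pow_nonneg hX0 18
  have p19 : 0 ≤ X ^ 19 := pow_nonneg hX0 19
  calc 10 ^ 32 * (M + 5) ^ 18 * S ≤ 10 ^ 32 * (2 * X) ^ 18 * X := by
        refine mul_le_mul (mul_le_mul_of_nonneg_left e1 (by norm_num)) h2 hS (by positivity)
    _ = (10 ^ 32 * 2 ^ 18) * X ^ 19 := by rw [mul_pow]; ring
    _ ≤ X ^ 21 * X ^ 19 := mul_le_mul_of_nonneg_right (e3.trans e2) p19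
    _ = X ^ 40 := by rw [← pow_add]

theorem wcStmt : P2.WcStmt := by
  refine ⟨40, by norm_num, ?_⟩
  intro n k Lam Amax A a Lw hn hk hLam hAm hLw hA ha
  have hL0 : 0 ≤ Lam := by linarith
  have hA0 : 0 ≤ Amax := by linarith
  have hLw0 : 0 < Lw := by linarith
  -- size of the shell
  have hY : 32 ≤ Yn n := by
    unfold Yn
    have h1 : 1 ≤ n ^ 3 := Nat.one_le_pow _ _ hn
    have h2 : 1 ≤ n ^ 2 := Nat.one_le_pow _ _ hn
    omega
  have hYn : n ≤ Yn n := by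
    unfold Yn
    have : n ≤ n ^ 2 := Nat.le_self_pow (by norm_num) n
    omega
  have hk6 : 1 ≤ (k ^ 3) ^ 2 := Nat.one_le_pow _ _ (Nat.one_le_pow _ _ hk)
  have hM1 : 16384 ≤ n0' n k := by
    unfold n0'
    have : 32 ^ 2 ≤ Yn n ^ 2 := Nat.pow_le_pow_left hY 2
    nlinarith
  have hM2 : n ≤ n0' n k := by
    unfold n0'
    have : Yn n ≤ Yn n ^ 2 := Nat.le_self_pow (by norm_num) _
    nlinarith
  have hM1' : (16384 : ℝ) ≤ (n0' n k : ℝ) := by exact_mod_cast hM1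
  obtain ⟨M, hMdef⟩ : ∃ M : ℝ, M = (n0' n k : ℝ) := ⟨_, rfl⟩
  obtain ⟨X, hX⟩ : ∃ X : ℝ, X = M + Lam + Amax + 2 := ⟨_, rfl⟩
  rw [← hMdef] at hM1'
  have hX1 : (2 : ℝ) ^ 14 ≤ X := by rw [hX]; norm_num; linarith
  have key : 10 ^ 32 * (M + 5) ^ 18 * (Lam + Amax) ≤ X ^ 40 :=
    key_aux (by linarith) (by linarith) (by linarith) (by linarith) hX1
  have hXX : (n0' n k : ℝ) + Lam + Amax + 2 = X := by rw [hX, hMdef]
  simp only [hXX]
  have hGw0 := Gw_nonneg (n := n) (M := n0' n k) hL0 hA0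
  have hGw : Gw n (n0' n k) Lam Amax ≤ X ^ 40 := by
    refine (Gw_le hL0 hA0 hM2).trans (le_trans ?_ key)
    rw [← hMdef]
    refine mul_le_mul_of_nonneg_right (mul_le_mul_of_nonneg_right (by norm_num) ?_) (by linarith)
    exact pow_nonneg (by linarith) 18
  have hGc : 2 ^ 3 * Gw n (n0' n k) Lam Amax * (2 ^ 3 * (2 ^ 3 * CX * CX) * CX) ≤ X ^ 40 :=
    (Gc_le hL0 hA0 hM2).trans (by rw [← hMdef]; exact key)
  have hDB0 := db_wpot hL0 hA ha (fun i hi => mi_le n k hi) (le_refl (n0' n k))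
  have hDB : DB 3 (P2.wcut Lw (wpot n k Lam A a)) (X ^ 40) := (db_wcut_P2 hDB0 hLw).mono hGc
  refine ⟨continuous_wpot n k Lam A a, fun x => (hDB0.abs_le x).trans hGw, fun x => hDB.abs_le x,
    hDB.cd.of_le (by norm_num), ?_, ?_, fun x => hDB.norm_fderiv_le (by norm_num) x, hDB.b1,
    hDB.b2⟩
  · intro x hx
    have h : ∀ c, chi (x c / Lw) = 1 := fun c => by
      refine chi_of_le ?_
      rw [abs_div, abs_of_pos hLw0, div_le_one hLw0]
      exact hx c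
    unfold P2.wcut
    simp only [h, Finset.prod_const_one, mul_one]
  · rintro x ⟨c, hc⟩
    unfold P2.wcut
    have h : chi (x c / Lw) = 0 := by
      refine chi_of_ge ?_
      rw [abs_div, abs_of_pos hLw0, le_div_iff₀ hLw0]
      exact hc
    rw [Finset.prod_eq_zero (Finset.mem_univ c) h, mul_zero]

end Crest.Agent.R338.WC
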