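import Crest.Agent.R338.XF7
import Crest.Agent.R338.CFnu
import Crest.Agent.R338.EX5
import Crest.Agent.R338.Br
import Crest.Agent.R338.NuP

/-!
# Row 338, module XF8 (helper345): `PTW4`, `PTI4` discharged, and the numbers of `P2Defs`
-/

set_option autoImplicit false

noncomputable section

open Finset
open Crest.Agent.Lib.PT Crest.Agent.R338.Nu Crest.Agent.R338.P2
open Crest.MathPhysics.ElectronicCoulomb

namespace Crest.Agent.R338.XF

theorem ptw4 : PTW4 := by
  intro α _ a b c d ha hb hc hd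
  exact (CF.ptr_W ha hb hc hd).of_eq fun x => (Br.W4_eq _ _ _ _).symm

theorem pti4 : PTI4 := by
  intro α _ a b c d ha hb hc hd
  exact EX.ptr_I4 ha hb hc hd

variable {α : Type} [PTCode α] (C : Cst) {h : α → HInst}

theorem ptu_NP (hh : PTF h) : PTU (fun a => NP C (h a)) := by
  unfold NP
  exact ptu_numEl (ptu_n0P C hh) (ptu_hn hh)

theorem ptr_ENP (hh : PTF h) : PTR (fun a => EN (n0P C (h a)) (h a).n) :=
  ptr_EN (ptu_n0P C hh) (ptu_hn hh)

theorem ptf_numElP (hh : PTF h) : PTF (fun a => numEl (n0P C (h a)) (h a).n) :=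
  (ptu_numEl (ptu_n0P C hh) (ptu_hn hh)).toPTF

theorem ptr_LamP (hh : PTF h) : PTR (fun a => (LamP C (h a) : ℝ)) :=
  PTR.natCastU (ptu_LamP C hh)

theorem ptr_constHP (hh : PTF h) :
    PTR (fun a => constH (h a).n (kP C (h a)) (LamP C (h a)) (j0P C (h a)) (JfP (h a))) := by
  refine ptr_constH ptw4 (ptu_hn hh) (ptu_kP C hh) (ptr_LamP C hh) (ptr_j0P C hh)
    (J := fun a => JfP (h a)) ?_
  exact ptr_JfP (h := fun p : (α × Un) × Un => h p.1.1) (PTF.comp hh (by fun_prop))
    (PTU.val (by fun_prop)) (PTU.val (by fun_prop))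

/-- `Ecc` is computable, given the computability of the calibration solution -/
theorem ptr_EccP (hh : PTF h)
    (hA : PTR (fun p : (α × Un) × Un => AcP C (h p.1.1) p.1.2.val p.2.val))
    (ha : PTR (fun p : α × Un => acP C (h p.1) p.2.val)) :
    PTR (fun a => Ecc (n0P C (h a)) (wP C (h a))) := by
  unfold wP
  exact ptr_Ecc ptw4 pti4 (ptu_hn hh) (ptu_kP C hh) (ptu_n0P C hh) (ptr_LamP C hh)
    (A := fun a => AcP C (h a)) (a := fun a => acP C (h a)) hA ha

/-- `Ecc` is computable, with the hypotheses in the form delivered by the calibration node -/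
theorem ptr_EccP' (hh : PTF h)
    (hA : ∀ (β : Type) [PTCode β] (g : β → HInst) (i j : β → ℕ), PTF g → PTU i → PTU j →
      PTR (fun b => AcP C (g b) (i b) (j b)))
    (ha : ∀ (β : Type) [PTCode β] (g : β → HInst) (i : β → ℕ), PTF g → PTU i →
      PTR (fun b => acP C (g b) (i b))) :
    PTR (fun a => Ecc (n0P C (h a)) (wP C (h a))) :=
  ptr_EccP C hh
    (hA ((α × Un) × Un) (fun p => h p.1.1) (fun p => p.1.2.val) (fun p => p.2.val)
      (PTF.comp hh (by fun_prop)) (PTU.val (by fun_prop)) (PTU.val (by fun_prop)))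
    (ha (α × Un) (fun p => h p.1) (fun p => p.2.val) (PTF.comp hh PTF.fst) (PTU.val PTF.snd))

/-- the threshold, up to `C0P` and the calibration solution -/
theorem ptr_thr (hh : PTF h) (hC : PTR (fun a => C0P C (h a)))
    (hA : PTR (fun p : (α × Un) × Un => AcP C (h p.1.1) p.1.2.val p.2.val))
    (ha : PTR (fun p : α × Un => acP C (h p.1) p.2.val)) :
    PTR (fun a => thrP C (h a)) :=
  ptr_thrP C hh hC (ptr_EccP C hh hA ha) (ptr_constHP C hh) (ptr_ENP C hh) (ptf_numElP C hh)
    (fun _ => rfl) (fun _ => rfl) (fun _ => rfl) (fun _ => rfl) (fun _ => rfl)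

/-! ### calibration data -/

theorem ptr_fock_site {n k i j : α → ℕ} (hn : PTU n) (hk : PTU k) (hi : PTU i) (hj : PTU j) :
    PTR (fun x => fock (n0' (n x) (k x)) (site (n x) (k x) (i x)) (site (n x) (k x) (j x))) :=
  ptr_fock ptw4 (ptu_n0' hn hk) (pidx_site hn hk hi) (pidx_site hn hk hj)

/-- off-diagonal right hand side of the calibration equations -/
theorem ptr_target {n k i j : α → ℕ} {j0 J : α → ℝ} (hn : PTU n) (hk : PTU k) (hi : PTU i)
    (hj : PTU j) (hj0 : PTR j0) (hJ : PTR J) :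
    PTR (fun x => (1 / 2) * √(j0 x * J x * Dlt (n x) (k x) (i x) (j x)) -
      fock (n0' (n x) (k x)) (site (n x) (k x) (i x)) (site (n x) (k x) (j x))) := by
  have h2 : PTR (fun _ : α => (1 / 2 : ℝ)) := PTR.one.divOfNat 2
  exact (h2.mul ((hj0.mul hJ).mul (ptr_Dlt ptw4 hn hk hi hj)).sqrt).sub
    (ptr_fock_site hn hk hi hj)

/-- diagonal right hand side of the calibration equations -/
theorem ptr_target_diag {n k i : α → ℕ} (hn : PTU n) (hk : PTU k) (hi : PTU i) :
    PTR (fun x => muS (n x) (k x) (i x) -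
      fock (n0' (n x) (k x)) (site (n x) (k x) (i x)) (site (n x) (k x) (i x))) :=
  (ptr_muS ptw4 hn hk hi).sub (ptr_fock_site hn hk hi hi)

end Crest.Agent.R338.XF
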