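import Crest.Agent.R338.Out1
import Crest.Agent.R338.Out2
import Crest.Agent.R338.NuP
import Crest.Agent.R338.WCStmt
import Crest.Agent.R338.XF8

/-!
# Row 338, output node (helper207), part 3: `NumStmt` from the polynomial-time reals
`DexP` (exact displacements) and `thrP` (exact threshold)
-/

set_option autoImplicit false

namespace Crest.Agent.R338.Out

open Crest.Agent.Lib.PT Crest.Agent.R338.Nu Crest.Agent.R338.P2
open Crest.MathPhysics.CoulombProblem

/-- the exact displacement vanishes outside the cube `MdP` -/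
theorem DexP_zero {C : Cst} (hC : 1 ≤ C.c) (h : HInst) (a : Fin 3 → ℤ)
    (ha : ∃ c, (MdP C h : ℤ) < |a c|) (c : Fin 3) : DexP C h a c = 0 := by
  have hk := kP_pos hC h
  have hB := BP_pos hC h
  have hR : 0 < RP C h := by unfold RP; positivity
  refine WC.DexP_eq_zero C h a (by exact_mod_cast hR) ?_ c
  obtain ⟨c', hc'⟩ := ha
  refine ⟨c', ?_⟩
  have e1 : Lat.pt (sP C h) a c' = sP C h * (a c' : ℝ) := rfl
  have hs := sP_pos hC h
  rw [e1, abs_mul, abs_of_pos hs]
  have h1 : (MdP C h : ℝ) ≤ |(a c' : ℝ)| := by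
    have : ((MdP C h : ℤ) : ℝ) < ((|a c'| : ℤ) : ℝ) := by exact_mod_cast hc'
    push_cast at this
    exact this.le
  have h2 : sP C h * (MdP C h : ℝ) ≤ sP C h * |(a c' : ℝ)| := mul_le_mul_of_nonneg_left h1 hs.le
  refine le_trans ?_ h2
  have hB' : (0 : ℝ) < (BP C h : ℝ) := by exact_mod_cast hB
  have hk0 := kap_pos
  have e2 : sP C h * (MdP C h : ℝ) = 4 * (RP C h : ℝ) / kap := by
    unfold sP MdP
    push_cast
    field_simp
  rw [e2, le_div_iff₀ hk0]
  have hR' : (0 : ℝ) < (RP C h : ℝ) := by exact_mod_cast hR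
  nlinarith [kap_le_one]

theorem Dq_eq {M : ℕ} {a : Fin 3 → ℤ} (q : ℚ) (h : ∃ c, (M : ℤ) < |a c|) : Dq M a q = 0 := by
  unfold Dq
  rw [if_pos]
  obtain ⟨c, hc⟩ := h
  rw [← Int.natCast_natAbs] at hc
  have hc' : M < (a c).natAbs := by exact_mod_cast hc
  fin_cases c
  · exact Or.inl hc'
  · exact Or.inr (Or.inl hc')
  · exact Or.inr (Or.inr hc')

theorem Dq_eq' {M : ℕ} {a : Fin 3 → ℤ} (q : ℚ) (h : ¬ ∃ c, (M : ℤ) < |a c|) : Dq M a q = q := by
  unfold Dq
  rw [if_neg]
  rintro (h1 | h1 | h1)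
  · exact h ⟨0, by rw [← Int.natCast_natAbs]; exact_mod_cast h1⟩
  · exact h ⟨1, by rw [← Int.natCast_natAbs]; exact_mod_cast h1⟩
  · exact h ⟨2, by rw [← Int.natCast_natAbs]; exact_mod_cast h1⟩

/-- approximability for valid instances -/
def PTRV {β : Type} [PTCode β] (V : β → Prop) (r : β → ℝ) : Prop :=
  ∃ q : β × Un → ℚ, PTF q ∧ ∀ p, V p.1 → |((q p : ℚ) : ℝ) - r p.1| ≤ (1 / 2) ^ p.2.val

theorem _root_.Crest.Agent.R338.Nu.PTR.toV {β : Type} [PTCode β] {r : β → ℝ} (hr : PTR r)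
    (V : β → Prop) : PTRV V r := by
  obtain ⟨q, hq, h⟩ := hr
  exact ⟨q, hq, fun p _ => h p⟩

/-- **the output node**: `NumStmt` from PTR of the exact displacements and thresholds -/
theorem numStmt_of (c0 : ℕ)
    (hD : ∀ C : Cst, c0 ≤ C.c → ∀ c : Fin 3, PTRV (fun p : HInst × Un => p.1.Valid)
      (fun p : HInst × Un => DexP C p.1 (al (nLP C p.1) p.2.val) c))
    (hT : ∀ C : Cst, c0 ≤ C.c → PTRV HInst.Valid (fun h : HInst => thrP C h)) : NumStmt := by
  refine ⟨max c0 1, fun C hC => ?_⟩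
  have hC0 : c0 ≤ C.c := le_trans (le_max_left _ _) hC
  have hC1 : 1 ≤ C.c := le_trans (le_max_right _ _) hC
  choose qD hqD hqD' using hD C hC0
  obtain ⟨qT, hqT, hqT'⟩ := hT C hC0
  set Q : HInst → ℕ → Fin 3 → ℚ := fun h i c => qD c ((h, Un.mk i), Un.mk (kP C h)) with hQ
  set lo : HInst → ℚ := fun h => qT (h, Un.mk 3) - 1 / 2 with hlo
  refine ⟨fun h => OutW.mkInst (nucTab (AP C h) (MdP C h) (nLP C h) (Q h)) (NP C h) (lo h) (lo h + 1),
    ?_, fun h hV => ⟨rfl, ?_, ?_, rfl⟩⟩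
  · have h1 : PTF (fun h : HInst => nucTab (AP C h) (MdP C h) (nLP C h) (Q h)) := by
      refine ptf_nucTab (ptu_AP C PTF.id) (ptu_MdP C PTF.id) (ptu_nLP C PTF.id) (fun c => ?_)
      exact PTF.comp (g := qD c) (f := fun p : HInst × Un => ((p.1, Un.mk p.2.val), Un.mk (kP C p.1)))
        (hqD c) (PTF.prodMk (PTF.prodMk PTF.fst ptu_snd) (ptu_kP C PTF.fst))
    have h3 : PTF lo :=
      PTF.ratSub (PTF.comp (g := qT) (f := fun h : HInst => (h, Un.mk 3)) hqT
        (PTF.prodMk PTF.id (PTF.const _))) (PTF.const _)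
    exact OutW.ptf_instCode h1 (XF.ptu_NP C PTF.id) h3 (PTF.ratAdd h3 (PTF.const 1))
  · -- the nuclei
    have hr : ∀ (a : Fin 3 → ℤ) (c : Fin 3), ∃ r : ℚ, |(r : ℝ) - DexP C h a c| ≤ (1 / 2) ^ kP C h := by
      intro a c
      obtain ⟨r, h1, h2⟩ := exists_rat_btwn (show DexP C h a c < DexP C h a c + (1 / 2) ^ kP C h by
        have : (0 : ℝ) < (1 / 2) ^ kP C h := by positivity
        linarith)
      refine ⟨r, ?_⟩
      rw [abs_of_nonneg (by linarith)]
      linarith
    choose r hr' using hr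
    classical
    refine ⟨boxList (nLP C h), fun a c => if (∃ c', (MdP C h : ℤ) < |a c'|) then 0 else
      if a ∈ Lat.Box (nLP C h) then Q h (idx (nLP C h) a) c else r a c,
      nodup_boxList _, fun a => mem_boxList, ?_, ?_, ?_⟩
    · show (nucTab (AP C h) (MdP C h) (nLP C h) (Q h)).map OutW.trip = _
      rw [nucTab_trip]
      refine List.map_congr_left fun a ha => ?_
      funext c
      beta_reduce
      have ha' : a ∈ Lat.Box (nLP C h) := mem_boxList.1 ha
      by_cases hM : ∃ c', (MdP C h : ℤ) < |a c'|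
      · rw [Dq_eq _ hM, if_pos hM]
      · rw [Dq_eq' _ hM, if_neg hM, if_pos ha']
    · intro a c
      beta_reduce
      by_cases hM : ∃ c', (MdP C h : ℤ) < |a c'|
      · rw [if_pos hM, DexP_zero hC1 h a hM c]
        simp
      · rw [if_neg hM]
        by_cases ha : a ∈ Lat.Box (nLP C h)
        · rw [if_pos ha]
          have h1 : |((qD c ((h, Un.mk (idx (nLP C h) a)), Un.mk (kP C h)) : ℚ) : ℝ) -
              DexP C h (al (nLP C h) (idx (nLP C h) a)) c| ≤ (1 / 2) ^ kP C h :=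
            hqD' c ((h, Un.mk (idx (nLP C h) a)), Un.mk (kP C h)) hV
          rw [al_idx ha] at h1
          exact h1
        · rw [if_neg ha]
          exact hr' a c
    · intro a ha
      funext c
      simp only [if_pos ha, Pi.zero_apply]
  · -- the threshold
    have h1 := hqT' (h, Un.mk 3) hV
    show |((lo h : ℚ) : ℝ) - (thrP C h - 1 / 2)| ≤ 1 / 8
    rw [hlo]
    push_cast
    have e : ((qT (h, Un.mk 3) : ℚ) : ℝ) - 1 / 2 - (thrP C h - 1 / 2) =
        ((qT (h, Un.mk 3) : ℚ) : ℝ) - thrP C h := by ring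
    rw [e]
    refine h1.trans ?_
    norm_num

end Crest.Agent.R338.Out
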