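import Crest.Agent.R338.Out3

/-!
# Row 338, output node (helper207), part 4: the constant `C_0` is a polynomial-time real
-/

set_option autoImplicit false

namespace Crest.Agent.R338.Out

open Crest.Agent.Lib.PT Crest.Agent.R338.Nu Crest.Agent.R338.P2
open MeasureTheory

/-- expansion of the product of three sums -/
theorem Sx_prod (s : ℝ) (n : ℕ) (τ : ℝ) :
    ∏ c : Fin 3, Lat.Sx s n ((0 : Lat.P3) c) τ =
      ∑ k₁ ∈ Finset.Icc (-(n : ℤ)) n, ∑ k₂ ∈ Finset.Icc (-(n : ℤ)) n, ∑ k₃ ∈ Finset.Icc (-(n : ℤ)) n,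
        Real.exp (-(τ ^ 2 * s ^ 2 * ((k₁ : ℝ) ^ 2 + (k₂ : ℝ) ^ 2 + (k₃ : ℝ) ^ 2))) := by
  have e : ∀ c : Fin 3, Lat.Sx s n ((0 : Lat.P3) c) τ =
      ∑ k ∈ Finset.Icc (-(n : ℤ)) n, Real.exp (-(τ ^ 2 * s ^ 2 * (k : ℝ) ^ 2)) := by
    intro c
    unfold Lat.Sx
    refine Finset.sum_congr rfl fun k _ => ?_
    congr 1
    simp only [PiLp.zero_apply]
    ring
  rw [Fin.prod_univ_three, e 0, e 1, e 2, Finset.sum_mul_sum, Finset.sum_mul]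
  refine Finset.sum_congr rfl fun k₁ _ => ?_
  rw [Finset.sum_mul]
  refine Finset.sum_congr rfl fun k₂ _ => ?_
  rw [Finset.mul_sum]
  refine Finset.sum_congr rfl fun k₃ _ => ?_
  rw [← Real.exp_add, ← Real.exp_add]
  congr 1
  ring

/-- the integral over `[0, √a]` of one Gaussian -/
theorem integral_gauss_scale (b c : ℝ) :
    ∫ τ in (0 : ℝ)..b, Real.exp (-(τ ^ 2 * c)) = b * ∫ v in (0 : ℝ)..1, Real.exp (-(b ^ 2 * c * v ^ 2)) := by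
  have h := intervalIntegral.smul_integral_comp_mul_left (a := (0 : ℝ)) (b := 1)
    (fun τ : ℝ => Real.exp (-(τ ^ 2 * c))) b
  rw [mul_zero, mul_one, smul_eq_mul] at h
  rw [← h]
  congr 1
  refine intervalIntegral.integral_congr fun v _ => ?_
  show Real.exp _ = Real.exp _
  congr 1
  ring

/-- closed form of `C_0` -/
theorem C0P_eq {C : Cst} (hC : 1 ≤ C.c) (h : HInst) :
    C0P C h = lamP C h * (2 * (√Real.pi)⁻¹ * (√(aP C h) *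
      ∑ k₁ ∈ Finset.Icc (-(nLP C h : ℤ)) (nLP C h), ∑ k₂ ∈ Finset.Icc (-(nLP C h : ℤ)) (nLP C h),
        ∑ k₃ ∈ Finset.Icc (-(nLP C h : ℤ)) (nLP C h),
        ∫ v in (0 : ℝ)..1, Real.exp (-(((k₁ : ℝ) ^ 2 + (k₂ : ℝ) ^ 2 + (k₃ : ℝ) ^ 2) *
          ((kP C h : ℕ) : ℝ)⁻¹ ^ 2 * v ^ 2)))) +
      lamP C h * (√(aP C h) * (√Real.pi)⁻¹) *
      ∑ k₁ ∈ Finset.Icc (-(nLP C h : ℤ)) (nLP C h), ∑ k₂ ∈ Finset.Icc (-(nLP C h : ℤ)) (nLP C h),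
        ∑ k₃ ∈ Finset.Icc (-(nLP C h : ℤ)) (nLP C h),
        Real.exp (-(((k₁ : ℝ) ^ 2 + (k₂ : ℝ) ^ 2 + (k₃ : ℝ) ^ 2) * ((kP C h : ℕ) : ℝ)⁻¹ ^ 2)) := by
  have hs := sP_pos hC h
  have ha : √(aP C h) ^ 2 * sP C h ^ 2 = ((kP C h : ℕ) : ℝ)⁻¹ ^ 2 := by
    rw [sqrt_aP, mul_pow, inv_pow (sP C h)]
    field_simp
  unfold C0P Lat.V0
  rw [neg_sub, sub_neg_eq_add, add_comm]
  congr 1
  · congr 1
    rw [div_eq_mul_inv, mul_assoc, mul_assoc]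
    congr 1
    congr 1
    simp_rw [Sx_prod]
    rw [intervalIntegral.integral_finsetSum (fun k _ => by
      apply Continuous.intervalIntegrable; fun_prop), Finset.mul_sum]
    refine Finset.sum_congr rfl fun k₁ _ => ?_
    rw [intervalIntegral.integral_finsetSum (fun k _ => by
      apply Continuous.intervalIntegrable; fun_prop), Finset.mul_sum]
    refine Finset.sum_congr rfl fun k₂ _ => ?_
    rw [intervalIntegral.integral_finsetSum (fun k _ => by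
      apply Continuous.intervalIntegrable; fun_prop), Finset.mul_sum]
    refine Finset.sum_congr rfl fun k₃ _ => ?_
    have e1 := integral_gauss_scale (√(aP C h))
      (sP C h ^ 2 * ((k₁ : ℝ) ^ 2 + (k₂ : ℝ) ^ 2 + (k₃ : ℝ) ^ 2))
    have e2 : ∀ τ : ℝ, τ ^ 2 * (sP C h ^ 2 * ((k₁ : ℝ) ^ 2 + (k₂ : ℝ) ^ 2 + (k₃ : ℝ) ^ 2)) =
      τ ^ 2 * sP C h ^ 2 * ((k₁ : ℝ) ^ 2 + (k₂ : ℝ) ^ 2 + (k₃ : ℝ) ^ 2) := fun τ => by ring
    simp_rw [e2] at e1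
    rw [e1, ha]
    congr 2
    funext v
    congr 2
    ring
  · rw [Sx_prod, ha, Real.sqrt_div' _ Real.pi_pos.le, div_eq_mul_inv]
    congr 1
    refine Finset.sum_congr rfl fun k₁ _ => Finset.sum_congr rfl fun k₂ _ =>
      Finset.sum_congr rfl fun k₃ _ => ?_
    congr 2
    ring

/-! ## polynomial time -/

section PT
variable {α : Type} [PTCode α]

/-- triple sums over `[-n, n]` -/
theorem ptr_sumIcc3 {n : α → ℕ} {f : α → ℤ → ℤ → ℤ → ℝ} (hn : PTU n)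
    (hf : PTR (fun p : ((α × Un) × Un) × Un => f p.1.1.1 ((p.1.1.2.val : ℤ) - n p.1.1.1)
      ((p.1.2.val : ℤ) - n p.1.1.1) ((p.2.val : ℤ) - n p.1.1.1))) :
    PTR (fun a => ∑ k₁ ∈ Finset.Icc (-(n a : ℤ)) (n a), ∑ k₂ ∈ Finset.Icc (-(n a : ℤ)) (n a),
      ∑ k₃ ∈ Finset.Icc (-(n a : ℤ)) (n a), f a k₁ k₂ k₃) := by
  refine PTR.sumIcc (r := fun a k₁ => ∑ k₂ ∈ Finset.Icc (-(n a : ℤ)) (n a),
      ∑ k₃ ∈ Finset.Icc (-(n a : ℤ)) (n a), f a k₁ k₂ k₃) hn ?_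
  refine PTR.sumIcc (α := α × Un) (n := fun p => n p.1) (r := fun p k₂ =>
      ∑ k₃ ∈ Finset.Icc (-(n p.1 : ℤ)) (n p.1), f p.1 ((p.2.val : ℤ) - n p.1) k₂ k₃)
    (PTU.comp hn PTF.fst) ?_
  exact PTR.sumIcc (α := (α × Un) × Un) (n := fun p => n p.1.1) (r := fun p k₃ =>
      f p.1.1 ((p.1.2.val : ℤ) - n p.1.1) ((p.2.val : ℤ) - n p.1.1) k₃)
    (PTU.comp hn (PTF.comp PTF.fst PTF.fst)) hf

/-- the argument of the Gaussians -/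
noncomputable def garg (k m i₁ i₂ i₃ : ℕ) : ℝ :=
  ((((i₁ : ℤ) - m : ℤ) : ℝ) ^ 2 + (((i₂ : ℤ) - m : ℤ) : ℝ) ^ 2 + (((i₃ : ℤ) - m : ℤ) : ℝ) ^ 2) *
    ((k : ℕ) : ℝ)⁻¹ ^ 2

theorem ptr_garg {k m i₁ i₂ i₃ : α → ℕ} (hk : PTU k) (hm : PTU m) (h₁ : PTU i₁) (h₂ : PTU i₂)
    (h₃ : PTU i₃) : PTR (fun a => garg (k a) (m a) (i₁ a) (i₂ a) (i₃ a)) := by
  unfold garg
  have e : ∀ {i : α → ℕ}, PTU i → PTR (fun a => (((i a : ℤ) - (m a : ℤ) : ℤ) : ℝ)) := fun hi =>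
    PTR.intCast (PTF.intSub (PTF.intNatCast hi.toPTF) (PTF.intNatCast hm.toPTF))
  exact ((((e h₁).powConst 2).add ((e h₂).powConst 2)).add ((e h₃).powConst 2)).mul
    ((PTR.natInv hk.toPTF).powConst 2)

theorem garg_nonneg (k m i₁ i₂ i₃ : ℕ) : 0 ≤ garg k m i₁ i₂ i₃ := by
  unfold garg; positivity

theorem garg_le (k m i₁ i₂ i₃ : ℕ) :
    garg k m i₁ i₂ i₃ ≤ (((i₁ + m) ^ 2 + (i₂ + m) ^ 2 + (i₃ + m) ^ 2 : ℕ) : ℝ) := by
  unfold garg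
  have h1 : ((k : ℕ) : ℝ)⁻¹ ^ 2 ≤ 1 := by
    refine pow_le_one₀ (by positivity) ?_
    rcases Nat.eq_zero_or_pos k with h | h
    · subst h; simp
    · exact inv_le_one_of_one_le₀ (by exact_mod_cast h)
  have h2 : ∀ i : ℕ, (((i : ℤ) - m : ℤ) : ℝ) ^ 2 ≤ ((i : ℝ) + m) ^ 2 := by
    intro i
    push_cast
    have : (0 : ℝ) ≤ i := by positivity
    have : (0 : ℝ) ≤ m := by positivity
    nlinarith
  refine (mul_le_of_le_one_right (by positivity) h1).trans ?_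
  push_cast
  exact add_le_add (add_le_add (by simpa using h2 i₁) (by simpa using h2 i₂)) (by simpa using h2 i₃)

/-- **`C_0` is a polynomial-time real** -/
theorem ptr_C0P {C : Cst} (hC : 1 ≤ C.c) {h : α → HInst} (hh : PTF h) :
    PTR (fun a => C0P C (h a)) := by
  have hsq : PTR (fun a => √(aP C (h a))) := (ptr_aP C hh).sqrt
  have hk : PTU (fun p : ((α × Un) × Un) × Un => kP C (h p.1.1.1)) :=
    ptu_kP C (PTF.comp hh (PTF.comp PTF.fst (PTF.comp PTF.fst PTF.fst)))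
  have hm : PTU (fun p : ((α × Un) × Un) × Un => nLP C (h p.1.1.1)) :=
    ptu_nLP C (PTF.comp hh (PTF.comp PTF.fst (PTF.comp PTF.fst PTF.fst)))
  have h₁ : PTU (fun p : ((α × Un) × Un) × Un => p.1.1.2.val) :=
    PTU.val (PTF.comp PTF.snd (PTF.comp PTF.fst PTF.fst))
  have h₂ : PTU (fun p : ((α × Un) × Un) × Un => p.1.2.val) := PTU.val (PTF.comp PTF.snd PTF.fst)
  have h₃ : PTU (fun p : ((α × Un) × Un) × Un => p.2.val) := PTU.val PTF.snd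
  have hg := ptr_garg hk hm h₁ h₂ h₃
  have hB : PTU (fun p : ((α × Un) × Un) × Un => (p.1.1.2.val + nLP C (h p.1.1.1)) ^ 2 +
      (p.1.2.val + nLP C (h p.1.1.1)) ^ 2 + (p.2.val + nLP C (h p.1.1.1)) ^ 2) := by
    have e : ∀ {i j : (((α × Un) × Un) × Un) → ℕ}, PTU i → PTU j → PTU (fun a => (i a + j a) ^ 2) := by
      intro i j hi hj
      fun_prop
    exact PTU.add (PTU.add (e h₁ hm) (e h₂ hm)) (e h₃ hm)
  have hb : ∀ p : ((α × Un) × Un) × Un,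
      |garg (kP C (h p.1.1.1)) (nLP C (h p.1.1.1)) p.1.1.2.val p.1.2.val p.2.val| ≤
      (((p.1.1.2.val + nLP C (h p.1.1.1)) ^ 2 + (p.1.2.val + nLP C (h p.1.1.1)) ^ 2 +
        (p.2.val + nLP C (h p.1.1.1)) ^ 2 : ℕ) : ℝ) := by
    intro p
    rw [abs_of_nonneg (garg_nonneg _ _ _ _ _)]
    exact garg_le _ _ _ _ _
  have hS1 := ptr_sumIcc3 (f := fun a k₁ k₂ k₃ => ∫ v in (0 : ℝ)..1,
      Real.exp (-(((k₁ : ℝ) ^ 2 + (k₂ : ℝ) ^ 2 + (k₃ : ℝ) ^ 2) *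
        ((kP C (h a) : ℕ) : ℝ)⁻¹ ^ 2 * v ^ 2))) (ptu_nLP C hh) (PTR.gaussInt hg hB hb)
  have hS2 := ptr_sumIcc3 (f := fun a k₁ k₂ k₃ =>
      Real.exp (-(((k₁ : ℝ) ^ 2 + (k₂ : ℝ) ^ 2 + (k₃ : ℝ) ^ 2) * ((kP C (h a) : ℕ) : ℝ)⁻¹ ^ 2)))
      (ptu_nLP C hh) (PTR.exp hg.neg hB (fun p => by rw [abs_neg]; exact hb p))
  refine PTR.of_eq ?_ (fun a => (C0P_eq hC (h a)).symm)
  have hl := ptr_lamP C hh
  have hpi : PTR (fun _ : α => (√Real.pi)⁻¹) := PTR.sqrtPiInv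
  exact (hl.mul ((((PTR.ofNat 2).mul hpi)).mul (hsq.mul hS1))).add ((hl.mul (hsq.mul hpi)).mul hS2)

end PT

end Crest.Agent.R338.Out
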