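import Crest.Agent.R338.WP3
import Crest.Agent.R338.WCStmt
import Crest.Agent.R338.NuP

/-!
# Row 338, node WP (helper518), file 5: the exact displacements `DexP` are computable (`PTR`),
and vanish outside the box `MdP`
-/

set_option autoImplicit false

open Crest.Agent.Lib.PT Crest.Agent.R338.Nu
open Crest.MathPhysics.ElectronicCoulomb

noncomputable section

namespace Crest.Agent.R338.WP

variable {α : Type} [PTCode α]

theorem one_le_kP (C : P2.Cst) (h : HInst) : 1 ≤ P2.kP C h := by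
  unfold P2.kP
  rcases Nat.eq_zero_or_pos C.c with h0 | h0
  · rw [h0]; simp
  · exact Nat.one_le_pow _ _ (by positivity)

theorem one_le_BP (C : P2.Cst) (h : HInst) : 1 ≤ P2.BP C h := Nat.one_le_pow _ _ (one_le_kP C h)

theorem one_le_RP (C : P2.Cst) (h : HInst) : 1 ≤ P2.RP C h :=
  Nat.mul_pos (Nat.one_le_pow _ _ (one_le_kP C h)) (Nat.one_le_pow _ _ (one_le_BP C h))

theorem sP_pos (C : P2.Cst) (h : HInst) : 0 < P2.sP C h := by
  unfold P2.sP
  have h1 := kap_pos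
  have h2 : (0 : ℝ) < P2.BP C h := by exact_mod_cast one_le_BP C h
  positivity

theorem sP_le_two (C : P2.Cst) (h : HInst) : P2.sP C h ≤ 2 := by
  unfold P2.sP
  have h1 := kap_pos
  have h2 : (1 : ℝ) ≤ P2.BP C h := by exact_mod_cast one_le_BP C h
  have h3 := kap_ge
  rw [div_le_iff₀ (by positivity)]
  have h4 : (1 : ℝ) ≤ (P2.BP C h : ℝ) ^ 2 := one_le_pow₀ h2
  nlinarith

theorem pt_apply (s : ℝ) (α : Fin 3 → ℤ) (c : Fin 3) : Lat.pt s α c = s * (α c : ℝ) := rfl

/-- **PTR of the exact displacements**, integer indices bounded by a unary number -/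
theorem ptr_DexP (C : P2.Cst)
    (hA : ∀ {β : Type} [PTCode β] {g : β → HInst} {i j : β → ℕ}, PTF g → PTU i → PTU j →
      PTR (fun b => P2.AcP C (g b) (i b) (j b)))
    (ha : ∀ {β : Type} [PTCode β] {g : β → HInst} {i : β → ℕ}, PTF g → PTU i →
      PTR (fun b => P2.acP C (g b) (i b)))
    {h : α → HInst} (hh : PTF h) {al : α → Fin 3 → ℤ} (hal : ∀ c, PTF (fun a => al a c))
    {B : α → ℕ} (hB : PTU B) (hb : ∀ a c, |al a c| ≤ B a) (c : Fin 3) :
    PTR (fun a => P2.DexP C (h a) (al a) c) := by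
  have H : PTW (fun a => (h a).n) (fun a => P2.kP C (h a)) (fun a => (P2.LamP C (h a) : ℝ))
      (fun a => (P2.RP C (h a) : ℝ)) (fun a => P2.AcP C (h a)) (fun a => P2.acP C (h a)) :=
    { hn := ptu_hn hh
      hk := ptu_kP C hh
      hL := PTR.natCastU (ptu_LamP C hh)
      hR := PTR.natCastU (ptu_RP C hh)
      h1 := fun a => by exact_mod_cast one_le_RP C (h a)
      hA := hA (β := (α × Un) × Un) (g := fun p => h p.1.1) (i := fun p => p.1.2.val)
        (j := fun p => p.2.val) (PTF.comp hh (PTF.comp PTF.fst PTF.fst)) (PTU.val (by fun_prop))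
        ptu_snd
      ha := ha (β := α × Un) (g := fun p => h p.1) (i := fun p => p.2.val)
        (PTF.comp hh PTF.fst) ptu_snd }
  have hx : ∀ c, PTR (fun a => (Lat.pt (P2.sP C (h a)) (al a)) c) := by
    intro c
    exact (ptr_sP C hh).mul (PTR.intCast (hal c))
  have hxb : ∀ a c, |(Lat.pt (P2.sP C (h a)) (al a)) c| ≤ ((2 * B a : ℕ) : ℝ) := by
    intro a c
    rw [pt_apply, abs_mul, abs_of_pos (sP_pos C (h a))]
    push_cast
    have h1 : |((al a c : ℤ) : ℝ)| ≤ (B a : ℝ) := by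
      rw [← Int.cast_abs]
      exact_mod_cast hb a c
    exact mul_le_mul (sP_le_two C (h a)) h1 (abs_nonneg _) (by norm_num)
  have h2 := H.dwc hx (PTU.mul (PTU.const 2) hB) hxb c
  have h3 : PTR (fun a => P2.lamP C (h a) ^ 2 / 3) := ((ptr_lamP C hh).powConst 2).divOfNat 3
  exact (h3.mul h2).of_eq (fun a => (WC.DexP_eq C (h a) (al a) c).symm)

/-- the same for shifted box indices -/
theorem ptr_DexP_box (C : P2.Cst)
    (hA : ∀ {β : Type} [PTCode β] {g : β → HInst} {i j : β → ℕ}, PTF g → PTU i → PTU j →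
      PTR (fun b => P2.AcP C (g b) (i b) (j b)))
    (ha : ∀ {β : Type} [PTCode β] {g : β → HInst} {i : β → ℕ}, PTF g → PTU i →
      PTR (fun b => P2.acP C (g b) (i b)))
    {h : α → HInst} (hh : PTF h) {x : Fin 3 → α → ℕ} (hx : ∀ c, PTU (x c)) (c : Fin 3) :
    PTR (fun a => P2.DexP C (h a) (fun c => (x c a : ℤ) - P2.nLP C (h a)) c) := by
  refine ptr_DexP C hA ha hh (al := fun a c => (x c a : ℤ) - P2.nLP C (h a)) (fun c => ?_)
    (B := fun a => x 0 a + x 1 a + x 2 a + P2.nLP C (h a)) ?_ (fun a c => ?_) c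
  · have h1 := (hx c).toPTF
    have h2 := (ptu_nLP C hh).toPTF
    fun_prop
  · exact PTU.add (PTU.add (PTU.add (hx 0) (hx 1)) (hx 2)) (ptu_nLP C hh)
  · rw [abs_le]
    push_cast
    fin_cases c <;> simp <;> constructor <;> omega

/-- the displacement vanishes outside the box `MdP` -/
theorem DexP_zero (C : P2.Cst) (h : HInst) (al : Fin 3 → ℤ) (hal : ∃ c, (P2.MdP C h : ℤ) < |al c|)
    (c : Fin 3) : P2.DexP C h al c = 0 := by
  have hR1 : (1 : ℝ) ≤ (P2.RP C h : ℝ) := by exact_mod_cast one_le_RP C h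
  refine WC.DexP_eq_zero C h al (by linarith) ?_ c
  obtain ⟨c', hc'⟩ := hal
  refine ⟨c', ?_⟩
  rw [pt_apply, abs_mul, abs_of_pos (sP_pos C h)]
  have h1 : ((P2.MdP C h : ℕ) : ℝ) ≤ |((al c' : ℤ) : ℝ)| := by
    rw [← Int.cast_abs]
    exact_mod_cast hc'.le
  have h2 : (4 : ℝ) * P2.RP C h * (P2.BP C h : ℝ) ^ 2 ≤ |((al c' : ℤ) : ℝ)| := by
    refine le_trans (le_of_eq ?_) h1
    unfold P2.MdP
    push_cast
    ring
  have hB : (0 : ℝ) < P2.BP C h := by exact_mod_cast one_le_BP C h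
  have h3 : P2.sP C h * (P2.kap * (P2.BP C h : ℝ) ^ 2) = 1 := by
    unfold P2.sP
    rw [one_div, inv_mul_cancel₀]
    have := kap_pos
    positivity
  have h4 : P2.sP C h * (P2.BP C h : ℝ) ^ 2 ≥ 1 := by
    have h5 : P2.sP C h * (P2.kap * (P2.BP C h : ℝ) ^ 2) ≤ P2.sP C h * (P2.BP C h : ℝ) ^ 2 := by
      have h6 := (sP_pos C h).le
      have h7 : P2.kap * (P2.BP C h : ℝ) ^ 2 ≤ 1 * (P2.BP C h : ℝ) ^ 2 :=
        mul_le_mul_of_nonneg_right kap_le_one (by positivity)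
      rw [one_mul] at h7
      exact mul_le_mul_of_nonneg_left h7 h6
    linarith
  calc 4 * (P2.RP C h : ℝ) = 4 * (P2.RP C h : ℝ) * 1 := by ring
    _ ≤ 4 * (P2.RP C h : ℝ) * (P2.sP C h * (P2.BP C h : ℝ) ^ 2) :=
        mul_le_mul_of_nonneg_left h4 (by linarith)
    _ = P2.sP C h * (4 * P2.RP C h * (P2.BP C h : ℝ) ^ 2) := by ring
    _ ≤ P2.sP C h * |((al c' : ℤ) : ℝ)| := mul_le_mul_of_nonneg_left h2 (sP_pos C h).le

end Crest.Agent.R338.WP
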