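import Crest.Agent.R338.Out4
import Crest.Agent.R338.Cal7
import Crest.Agent.R338.WP5

/-!
# Row 338, output node (helper207), part 5: `NumStmt` is proved
-/

set_option autoImplicit false

namespace Crest.Agent.R338.Out

open Crest.Agent.Lib.PT Crest.Agent.R338.Nu Crest.Agent.R338.P2

theorem abs_al_le (m i : ℕ) (c : Fin 3) : |al m i c| ≤ (m : ℤ) := by
  have h := mem_Box.1 (al_mem m i) c
  exact abs_le.2 h

/-- **node NUM**: the reduction map is polynomial-time -/
theorem numStmt : NumStmt := by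
  obtain ⟨c0, H⟩ := Cal.exists_ptr_AcP
  refine numStmt_of (max c0 1) (fun C hC c => ?_) (fun C hC => ?_)
  · obtain ⟨hA, ha⟩ := H C (le_trans (le_max_left _ _) hC)
    refine PTR.toV ?_ _
    refine WP.ptr_DexP C (fun hg hi hj => hA _ _ _ _ hg hi hj) (fun hg hi => ha _ _ _ hg hi)
      (h := fun p : HInst × Un => p.1) PTF.fst
      (al := fun p : HInst × Un => al (nLP C p.1) p.2.val)
      (fun c => ptf_al (ptu_nLP C PTF.fst) ptu_snd c) (B := fun p : HInst × Un => nLP C p.1)
      (ptu_nLP C PTF.fst) (fun p c => abs_al_le _ _ _) c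
  · obtain ⟨hA, ha⟩ := H C (le_trans (le_max_left _ _) hC)
    have hC1 : 1 ≤ C.c := le_trans (le_max_right _ _) hC
    refine PTR.toV ?_ _
    refine XF.ptr_thr C (h := fun h : HInst => h) PTF.id (ptr_C0P hC1 PTF.id) ?_ ?_
    · exact hA _ (fun p : (HInst × Un) × Un => p.1.1) (fun p => p.1.2.val) (fun p => p.2.val)
        (PTF.comp PTF.fst PTF.fst) (PTU.val (PTF.comp PTF.snd PTF.fst)) (PTU.val PTF.snd)
    · exact ha _ (fun p : HInst × Un => p.1) (fun p => p.2.val) PTF.fst (PTU.val PTF.snd)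

end Crest.Agent.R338.Out
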