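import Crest.Agent.R338.P1PTc
import Crest.Agent.R338.I123b

/-!
# Row 338: `QMA → XInst` (composition of nodes I.1, I.2, I.3 with rounding; helper18)
-/

set_option autoImplicit false

noncomputable section

open Crest.Agent.Lib.PT

namespace Crest.Agent.R338.P1

open Crest.Agent.R338 PTab Nu RC Crest.Quantum.QMA

/-- **Part I, first half**: `QMA → XZ` -/
theorem partIa : PartIaStmt := by
  rintro P ⟨V, hV, ⟨gen, hgen, hgv⟩, hpoly, hyes, hno⟩
  have hpt := ptSpec V hV gen hgen hgv hpoly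
  have hVM : PTU (fun x : Bits => VM (V x.val)) := by
    have : PTF (fun x : Bits => Un.mk (VM (V x.val))) :=
      PTF.comp (g := fun d : Un × List (ℕ × ℕ × ℕ) × List ℕ × (ℕ × ℕ) => d.1) PTF.fst hpt
    exact PTU.val this
  have hw : PTF (fun x : Bits => wordN (V x.val)) :=
    PTF.comp (g := fun d : Un × List (ℕ × ℕ × ℕ) × List ℕ × (ℕ × ℕ) => d.2.1) (by fun_prop) hpt
  have hc : PTF (fun x : Bits => conN (V x.val)) :=
    PTF.comp (g := fun d : Un × List (ℕ × ℕ × ℕ) × List ℕ × (ℕ × ℕ) => d.2.2.1) (by fun_prop) hpt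
  have ho : PTF (fun x : Bits => (outW (V x.val) : ℕ)) :=
    PTF.comp (g := fun d : Un × List (ℕ × ℕ × ℕ) × List ℕ × (ℕ × ℕ) => d.2.2.2.1)
      (by fun_prop) hpt
  have hT : PTU (fun x : Bits => (word (V x.val)).length) := by
    have : PTU (fun x : Bits => (wordN (V x.val)).length) := by fun_prop
    exact this.of_eq fun x => length_wordN _
  have hnc : PTU (fun x : Bits => (conN (V x.val)).length) := by fun_prop
  have hN : NDP (fun x : Bits => ndV (V x.val)) := ndp_ndL hVM.toPTF hw hc ho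
  have hJp : PTU (fun x : Bits => JpV (V x.val)) := by unfold JpV JpN; fun_prop
  have hJk : PTU (fun x : Bits => JkV (V x.val)) := by unfold JkV JkN; fun_prop
  have hδ : PTU (fun x : Bits => delV (V x.val)) := by unfold delV delN LamN; fun_prop
  have hn : PTU (fun x : Bits => nV (V x.val)) := by unfold nV; fun_prop
  have hb : PTU (fun x : Bits => bV (V x.val)) := by
    have h1 : PTU (fun x : Bits => (wordN (V x.val)).length) := by fun_prop
    unfold bV; fun_prop
  have hq : PTU (fun x : Bits => 8 * ((word (V x.val)).length + 1)) := by fun_prop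
  have rJp : PTR (fun x : Bits => (JpV (V x.val) : ℝ)) := PTR.natCastU hJp
  have rJk : PTR (fun x : Bits => (JkV (V x.val) : ℝ)) := PTR.natCastU hJk
  have rδ : PTR (fun x : Bits => (delV (V x.val) : ℝ)) := PTR.natCastU hδ
  have rc0 : PTR (fun x : Bits => c0V (V x.val)) :=
    ptr_c0 hN (PTR.ofNat 64) rJp rJk rδ
  have hlo : PTR (fun x : Bits => loV (V x.val)) := by
    have h1 : PTR (fun _ : Bits => (19 / 48 : ℝ)) := PTR.divOfNat (PTR.ofNat 19) 48
    have h2 : PTR (fun x : Bits => ((((word (V x.val)).length + 1 : ℕ)) : ℝ)⁻¹) :=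
      PTR.natInv (PTU.toPTF (by fun_prop))
    refine PTR.sub ((h1.mul h2).of_eq fun x => ?_) rc0
    push_cast
    rw [div_eq_mul_inv (19 / 48 : ℝ)]
  have N1 : NDP (fun p : Bits × ℕ => ndV (V p.1.val)) := hN.comp PTF.fst
  have N2 : NDP (fun p : Bits × (ℕ × ℕ) => ndV (V p.1.val)) := hN.comp PTF.fst
  have p1 : PTF (fun p : Bits × (ℕ × ℕ) => p.2.1) := by fun_prop
  have p2 : PTF (fun p : Bits × (ℕ × ℕ) => p.2.2) := by fun_prop
  obtain ⟨g, g1, g2, g3, g4⟩ := roundXZ (α := Bits) (fun x => nV (V x.val))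
    (fun x => 8 * ((word (V x.val)).length + 1)) (fun x => bV (V x.val)) hn hq hb
    (fun x => by have := two_le_length_word (V x.val); unfold nV; omega) (fun x => by omega)
    (fun x => fxV (V x.val)) (fun x => fzV (V x.val)) (fun x => axV (V x.val))
    (fun x => azV (V x.val)) (fun x => bxV (V x.val)) (fun x => bzV (V x.val))
    (ptr_fx N1 (rJp.comp PTF.fst) (rδ.comp PTF.fst) PTF.snd)
    (ptr_fz N1 (PTR.ofNat 64) (rJp.comp PTF.fst) (rJk.comp PTF.fst) (rδ.comp PTF.fst) PTF.snd)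
    (ptr_ax N2 p1 p2) (ptr_az N2 p1 p2)
    (ptr_bx N2 (rJp.comp PTF.fst) (rδ.comp PTF.fst) p1 p2)
    (ptr_bz N2 (PTR.ofNat 64) (rJp.comp PTF.fst) (rJk.comp PTF.fst) (rδ.comp PTF.fst) p1 p2)
    (fun x => abs_fxV_le _) (fun x => abs_fzV_le _) (fun x => abs_axV_le _) (fun x => abs_azV_le _)
    (fun x => abs_bxV_le _) (fun x => abs_bzV_le _) (fun x => loV (V x.val)) hlo
  refine ⟨g, g1, g2, fun x hx => g3 x ?_, fun x hx => g4 x ?_⟩
  · exact xz_yes (V x.val) (hV x.val) (hyes _ hx)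
  · intro φ
    have h := xz_no (V x.val) (hV x.val) (hno _ hx) φ
    have e : ((8 * ((word (V x.val)).length + 1) : ℕ) : ℝ) =
        8 * (((word (V x.val)).length : ℝ) + 1) := by push_cast; ring
    rw [e]
    exact h

end Crest.Agent.R338.P1

end
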