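import Crest.Agent.R338.Nu1
import Crest.Agent.R338.RCDefs

/-!
# Row 338: poly-time lookups in the numerical gate word; `cos`, `sin` of the three angles
(input of the PTR form of the exact XZ arrays of Part I)
-/

set_option autoImplicit false

namespace Crest.Agent.R338.RCA

open Crest.Agent.Lib.PT Crest.Agent.R338.Nu Crest.Agent.R338.RC

variable {α : Type} [PTCode α]

/-! ### the angles -/

/-- `cos (ang k)` -/
noncomputable def cN (k : ℕ) : ℝ := if k = 0 then √(2 + √2) / 2 else if k = 1 then √2 / 2 else 0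

/-- `sin (ang k)` -/
noncomputable def sN (k : ℕ) : ℝ := if k = 0 then √(2 - √2) / 2 else if k = 1 then √2 / 2 else 1

theorem cN_eq (k : Fin 3) : cN (k : ℕ) = Real.cos (ang k) := by
  unfold cN ang
  fin_cases k <;> simp

theorem sN_eq (k : Fin 3) : sN (k : ℕ) = Real.sin (ang k) := by
  unfold sN ang
  fin_cases k <;> simp

theorem abs_cN_le (k : ℕ) : |cN k| ≤ 1 := by
  have h : ∃ j : Fin 3, cN k = cN (j : ℕ) := by
    rcases k with _ | _ | k
    · exact ⟨0, rfl⟩
    · exact ⟨1, rfl⟩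
    · exact ⟨2, by simp [cN]⟩
  obtain ⟨j, hj⟩ := h
  rw [hj, cN_eq]
  exact Real.abs_cos_le_one _

theorem abs_sN_le (k : ℕ) : |sN k| ≤ 1 := by
  have h : ∃ j : Fin 3, sN k = sN (j : ℕ) := by
    rcases k with _ | _ | k
    · exact ⟨0, rfl⟩
    · exact ⟨1, rfl⟩
    · exact ⟨2, by simp [sN]⟩
  obtain ⟨j, hj⟩ := h
  rw [hj, sN_eq]
  exact Real.abs_sin_le_one _

theorem ptr_cN {f : α → ℕ} (hf : PTF f) : PTR (fun a => cN (f a)) := by
  have e : ∀ n : ℕ, PTPred (fun x => f x = n) := fun n => PTPred.natEq hf (PTF.const n)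
  unfold cN
  refine PTR.ite (e 0) ?_ (PTR.ite (e 1) ?_ PTR.zero)
  · exact PTR.divOfNat (PTR.sqrt (PTR.add (PTR.ofNat 2) (PTR.sqrt (PTR.ofNat 2)))) 2
  · exact PTR.divOfNat (PTR.sqrt (PTR.ofNat 2)) 2

theorem ptr_sN {f : α → ℕ} (hf : PTF f) : PTR (fun a => sN (f a)) := by
  have e : ∀ n : ℕ, PTPred (fun x => f x = n) := fun n => PTPred.natEq hf (PTF.const n)
  unfold sN
  refine PTR.ite (e 0) ?_ (PTR.ite (e 1) ?_ PTR.one)
  · exact PTR.divOfNat (PTR.sqrt (PTR.sub (PTR.ofNat 2) (PTR.sqrt (PTR.ofNat 2)))) 2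
  · exact PTR.divOfNat (PTR.sqrt (PTR.ofNat 2)) 2

/-! ### lookups -/

/-- lookup with a binary index -/
theorem ptf_getD {β : Type} [PTCode β] {l : α → List β} {i : α → ℕ} {d : β} (hl : PTF l)
    (hi : PTF i) : PTF (fun a => (l a).getD (i a) d) := by
  have h : PTU (fun a => min (i a) (l a).length) := PTF.natMinUn hi (PTU.length hl)
  refine PTF.of_eq (PTF.getD (d := fun _ => d) h hl (PTF.const d)) (fun a => ?_)
  rcases Nat.lt_or_ge (i a) (l a).length with h' | h'
  · rw [min_eq_left h'.le]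
  · rw [min_eq_right h', List.getD_eq_default _ _ h', List.getD_eq_default _ _ le_rfl]

/-- number of gates, in unary -/
theorem ptu_len {β : Type} [PTCode β] {l : α → List β} (hl : PTF l) : PTU (fun a => (l a).length) :=
  PTU.length hl

/-- membership in a list of naturals -/
theorem ptf_mem {l : α → List ℕ} {i : α → ℕ} (hl : PTF l) (hi : PTF i) :
    PTF (fun a => decide (i a ∈ l a)) := (PTPred.mem hi hl).toPTF

theorem ptPred_mem {l : α → List ℕ} {i : α → ℕ} (hl : PTF l) (hi : PTF i) :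
    PTPred (fun a => i a ∈ l a) := PTPred.mem hi hl

end Crest.Agent.R338.RCA
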