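import Crest.Agent.R338.PTab1
import Crest.Agent.R338.RCArr

/-!
# Row 338, node P1: the arrays `ax`, `az`, `bx` of the pair table are poly-time computable reals
(helper270)
-/

set_option autoImplicit false

namespace Crest.Agent.R338.P1

open Crest.Agent.Lib.PT Crest.Agent.R338.Nu Crest.Agent.R338.RC Crest.Agent.R338.PTab
  Crest.Agent.R338.RCA

variable {α : Type} [PTCode α]

/-- poly-time data `ND` -/
structure NDPT (d : α → ND) : Prop where
  M : PTU (fun a => (d a).M)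
  T : PTU (fun a => (d a).T)
  kd : PTF (fun p : α × ℕ => (d p.1).kd p.2)
  ga : PTF (fun p : α × ℕ => (d p.1).ga p.2)
  gb : PTF (fun p : α × ℕ => (d p.1).gb p.2)
  con : PTF (fun p : α × ℕ => (d p.1).con p.2)
  nc : PTF (fun a => (d a).nc)
  out : PTF (fun a => (d a).out)

theorem cosN_eq_cN (k : ℕ) : cosN k = cN k := by
  rcases k with _ | _ | k
  · exact (cosN_eq 0).trans (cN_eq 0).symm
  · exact (cosN_eq 1).trans (cN_eq 1).symm
  · simp [cosN, cN]

theorem sinN_eq_sN (k : ℕ) : sinN k = sN k := by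
  rcases k with _ | _ | k
  · exact (sinN_eq 0).trans (sN_eq 0).symm
  · exact (sinN_eq 1).trans (sN_eq 1).symm
  · simp [sinN, sN]

theorem abs_cosN_le (k : ℕ) : |cosN k| ≤ 1 := by rw [cosN_eq_cN]; exact abs_cN_le k

theorem abs_sinN_le (k : ℕ) : |sinN k| ≤ 1 := by rw [sinN_eq_sN]; exact abs_sN_le k

theorem ptr_cosN {f : α → ℕ} (hf : PTF f) : PTR (fun a => cosN (f a)) :=
  (ptr_cN hf).of_eq fun _ => (cosN_eq_cN _).symm

theorem ptr_sinN {f : α → ℕ} (hf : PTF f) : PTR (fun a => sinN (f a)) :=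
  (ptr_sN hf).of_eq fun _ => (sinN_eq_sN _).symm

section basic

variable {β : Type} [PTCode β] {d : α → ND} (H : NDPT d) {g : β → α} {i j : β → ℕ}

include H

theorem NDPT.hM (hg : PTF g) : PTF (fun b => (d (g b)).M) :=
  PTF.comp (g := fun a => (d a).M) H.M.toPTF hg
theorem NDPT.hT (hg : PTF g) : PTF (fun b => (d (g b)).T) :=
  PTF.comp (g := fun a => (d a).T) H.T.toPTF hg
theorem NDPT.hkd (hg : PTF g) (hi : PTF i) : PTF (fun b => (d (g b)).kd (i b)) :=
  PTF.comp H.kd (PTF.prodMk hg hi)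
theorem NDPT.hga (hg : PTF g) (hi : PTF i) : PTF (fun b => (d (g b)).ga (i b)) :=
  PTF.comp H.ga (PTF.prodMk hg hi)
theorem NDPT.hgb (hg : PTF g) (hi : PTF i) : PTF (fun b => (d (g b)).gb (i b)) :=
  PTF.comp H.gb (PTF.prodMk hg hi)
theorem NDPT.hcon (hg : PTF g) (hi : PTF i) : PTF (fun b => (d (g b)).con (i b)) :=
  PTF.comp H.con (PTF.prodMk hg hi)
theorem NDPT.hnc (hg : PTF g) : PTF (fun b => (d (g b)).nc) :=
  PTF.comp (g := fun a => (d a).nc) H.nc hg
theorem NDPT.hout (hg : PTF g) : PTF (fun b => (d (g b)).out) :=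
  PTF.comp (g := fun a => (d a).out) H.out hg

theorem ptPred_isR (hg : PTF g) (hi : PTF i) (hj : PTF j) :
    PTPred (fun b => (d (g b)).isR (i b) (j b) = true) := by
  have hM := H.hM hg
  have hT := H.hT hg
  have hs : PTF (fun b => j b - (d (g b)).M) := PTF.natSub hj hM
  have h1 := PTPred.natLt hi hM
  have h2 := PTPred.natLe hM hj
  have h3 := PTPred.natLt hj (PTF.natAdd hM hT)
  have h4 := (PTPred.natEq (H.hkd hg hs) (PTF.const 3)).not
  have h5 := PTPred.natEq (H.hga hg hs) hi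
  refine ((((h1.and h2).and h3).and h4).and h5).of_iff fun b => ?_
  simp [ND.isR]

theorem ptPred_isCM (hg : PTF g) (hi : PTF i) (hj : PTF j) :
    PTPred (fun b => (d (g b)).isCM (i b) (j b) = true) := by
  have hM := H.hM hg
  have hT := H.hT hg
  have h1 := PTPred.natLe hM hi
  have h2 := PTPred.natLt hi (PTF.natAdd hM hT)
  have h3 := PTPred.natLe (PTF.natAdd hM hT) hj
  refine ((h1.and h2).and h3).of_iff fun b => ?_
  simp [ND.isCM]

theorem ptr_ax (hg : PTF g) (hi : PTF i) (hj : PTF j) :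
    PTR (fun b => (d (g b)).ax (i b) (j b)) := by
  have hs : PTF (fun b => j b - (d (g b)).M) := PTF.natSub hj (H.hM hg)
  unfold ND.ax
  exact PTR.ite (ptPred_isR H hg hi hj) (ptr_sinN (H.hkd hg hs))
    (PTR.ite (ptPred_isCM H hg hi hj) PTR.one PTR.zero)

theorem ptr_az (hg : PTF g) (hi : PTF i) (hj : PTF j) :
    PTR (fun b => (d (g b)).az (i b) (j b)) := by
  have hs : PTF (fun b => j b - (d (g b)).M) := PTF.natSub hj (H.hM hg)
  unfold ND.az
  exact PTR.ite (ptPred_isR H hg hi hj) (ptr_cosN (H.hkd hg hs))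
    (PTR.ite (ptPred_isCM H hg hi hj) PTR.zero PTR.one)

theorem ptr_bx (hg : PTF g) (hi : PTF i) (hj : PTF j) {Jp δ : β → ℝ} (hJ : PTR Jp) (hδ : PTR δ) :
    PTR (fun b => (d (g b)).bx (Jp b) (δ b) (i b) (j b)) := by
  have hM := H.hM hg
  have hT := H.hT hg
  have hMT := PTF.natAdd hM hT
  have hs : PTF (fun b => j b - (d (g b)).M) := PTF.natSub hj hM
  have hs' : PTF (fun b => j b - ((d (g b)).M + (d (g b)).T)) := PTF.natSub hj hMT
  have a1 := PTPred.natEq (H.hga hg hs) hi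
  have a2 := PTPred.natEq (H.hgb hg hs) hi
  have a3 := PTPred.natEq (H.hga hg hs') hi
  have a4 := PTPred.natEq (H.hgb hg hs') hi
  have c4 : PTR (fun b => -(Jp b / 4)) := (hJ.divOfNat 4).neg
  have c2 : PTR (fun b => -(Jp b / 2)) := (hJ.divOfNat 2).neg
  have cδ : PTR (fun b => δ b ^ 2) := hδ.powConst 2
  unfold ND.bx
  refine PTR.ite (PTPred.natLt hi hM) (PTR.ite (PTPred.natLt hj hM) PTR.zero
    (PTR.ite (PTPred.natLt hj hMT) (PTR.ite (PTPred.natEq (H.hkd hg hs) (PTF.const 3)) ?_ ?_) ?_))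
    PTR.zero
  · exact (PTR.ite a1 c4 PTR.zero).add (PTR.ite a2 c4 PTR.zero)
  · exact PTR.ite a1 c2 PTR.zero
  · exact (PTR.ite a3 cδ PTR.zero).sub (PTR.ite a4 cδ PTR.zero)

end basic

/-! ### bounds -/

theorem abs_ax_le (N : ND) (p q : ℕ) : |N.ax p q| ≤ 1 := by
  unfold ND.ax
  split_ifs
  · exact abs_sinN_le _
  · simp
  · simp

theorem abs_az_le (N : ND) (p q : ℕ) : |N.az p q| ≤ 1 := by
  unfold ND.az
  split_ifs
  · exact abs_cosN_le _
  · simp
  · simp

theorem abs_bx_le (N : ND) (Jp δ : ℝ) (hJ : 0 ≤ Jp) (p q : ℕ) :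
    |N.bx Jp δ p q| ≤ Jp / 2 + δ ^ 2 := by
  have hδ : 0 ≤ δ ^ 2 := sq_nonneg δ
  have e0 : |(0 : ℝ)| ≤ Jp / 2 + δ ^ 2 := by rw [abs_zero]; positivity
  unfold ND.bx
  split_ifs <;> rw [abs_le] <;> constructor <;> linarith

/-! ### the data of a verifier circuit, from a poly-time list -/

/-- `NDPT` from a poly-time word -/
theorem NDPT.of_word {M out : α → ℕ} {w : α → List (ℕ × ℕ × ℕ)} {c : α → List ℕ} (hM : PTU M)
    (hout : PTF out) (hw : PTF w) (hc : PTF c) :
    NDPT (fun a : α => (ND.mk (M a) (w a).length (fun t => ((w a).getD t (0, 0, 0)).1)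
      (fun t => ((w a).getD t (0, 0, 0)).2.1) (fun t => ((w a).getD t (0, 0, 0)).2.2)
      (fun i => decide (i ∈ c a)) (c a).length (out a))) := by
  have hw' : PTF (fun p : α × ℕ => w p.1) := PTF.comp hw PTF.fst
  have hl : PTF (fun p : α × ℕ => (w p.1).getD p.2 (0, 0, 0)) := ptf_getD hw' PTF.snd
  exact
    { M := hM
      T := ptu_len hw
      kd := PTF.comp PTF.fst hl
      ga := PTF.comp PTF.fst (PTF.comp PTF.snd hl)
      gb := PTF.comp PTF.snd (PTF.comp PTF.snd hl)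
      con := ptf_mem (PTF.comp hc PTF.fst) PTF.snd
      nc := (ptu_len hc).toPTF
      out := hout }

end Crest.Agent.R338.P1
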