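import Crest.Agent.R338.PTab1
import Crest.Agent.R338.Nu1
import Crest.Agent.R338.Nu2

/-!
# Row 338: `PTR` of the exact arrays of `H_2` (helper18; `fx`, `fz`, `bz`, `c0`)
-/

set_option autoImplicit false

noncomputable section

open Crest.Agent.Lib.PT

namespace Crest.Agent.R338.P1

open Crest.Agent.R338 PTab Nu

variable {α β γ : Type} [PTCode α] [PTCode β] [PTCode γ]

/-- poly-time numerical data -/
structure NDP (N : γ → ND) : Prop where
  M : PTF (fun c => (N c).M)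
  T : PTU (fun c => (N c).T)
  kd : PTF (fun p : γ × ℕ => (N p.1).kd p.2)
  ga : PTF (fun p : γ × ℕ => (N p.1).ga p.2)
  gb : PTF (fun p : γ × ℕ => (N p.1).gb p.2)
  con : PTF (fun p : γ × ℕ => (N p.1).con p.2)
  nc : PTF (fun c => (N c).nc)
  out : PTF (fun c => (N c).out)

theorem NDP.comp {N : γ → ND} (h : NDP N) {f : β → γ} (hf : PTF f) : NDP (fun b => N (f b)) where
  M := PTF.comp (g := fun c => (N c).M) h.M hf
  T := PTU.comp (n := fun c => (N c).T) h.T hf
  kd := PTF.comp h.kd (PTF.prodMk (PTF.comp hf PTF.fst) PTF.snd)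
  ga := PTF.comp h.ga (PTF.prodMk (PTF.comp hf PTF.fst) PTF.snd)
  gb := PTF.comp h.gb (PTF.prodMk (PTF.comp hf PTF.fst) PTF.snd)
  con := PTF.comp h.con (PTF.prodMk (PTF.comp hf PTF.fst) PTF.snd)
  nc := PTF.comp (g := fun c => (N c).nc) h.nc hf
  out := PTF.comp (g := fun c => (N c).out) h.out hf

section
variable {N : γ → ND} (h : NDP N) {p q : γ → ℕ} (hp : PTF p) (hq : PTF q)
include h

theorem NDP.kd' (hp : PTF p) : PTF (fun c => (N c).kd (p c)) := PTF.comp h.kd (PTF.prodMk PTF.id hp)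
theorem NDP.ga' (hp : PTF p) : PTF (fun c => (N c).ga (p c)) := PTF.comp h.ga (PTF.prodMk PTF.id hp)
theorem NDP.gb' (hp : PTF p) : PTF (fun c => (N c).gb (p c)) := PTF.comp h.gb (PTF.prodMk PTF.id hp)
theorem NDP.con' (hp : PTF p) : PTF (fun c => (N c).con (p c)) :=
  PTF.comp h.con (PTF.prodMk PTF.id hp)

variable {Jin Jp Jk δ : γ → ℝ} (hJin : PTR Jin) (hJp : PTR Jp) (hJk : PTR Jk) (hδ : PTR δ)

theorem ptr_fx (hJp : PTR Jp) (hδ : PTR δ) (hp : PTF p) : PTR (fun c => (N c).fx (Jp c) (δ c) (p c)) := by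
  unfold ND.fx
  have hM := h.M
  have hT := h.T.toPTF
  have hk : PTF (fun c => (N c).kd (p c - (N c).M)) := h.kd' (by fun_prop)
  refine PTR.ite ?_ ?_ PTR.zero
  · exact PTPred.and (PTPred.natLe hM hp) (PTPred.and (PTPred.natLt hp (by fun_prop))
      (PTPred.natEq hk (PTF.const 3)))
  · fun_prop

theorem ptr_fz (hJin : PTR Jin) (hJp : PTR Jp) (hJk : PTR Jk) (hδ : PTR δ) (hp : PTF p) :
    PTR (fun c => (N c).fz (Jin c) (Jp c) (Jk c) (δ c) (p c)) := by
  unfold ND.fz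
  have hM := h.M
  have hT := h.T.toPTF
  have ho := h.out
  have hn : PTR (fun c => ((N c).nc : ℝ)) := PTR.natCast h.nc
  have hc := (h.con' hp).toPTPred
  have h14 : PTR (fun _ : γ => (1 / 4 : ℝ)) := by fun_prop
  refine PTR.ite (PTPred.natLt hp hM) ?_ (PTR.ite (PTPred.natLt hp (by fun_prop)) ?_ ?_)
  · exact PTR.sub (PTR.ite (PTPred.natEq hp ho) h14 PTR.zero)
      (PTR.ite hc (by fun_prop) PTR.zero)
  · refine PTR.sub (PTR.add (PTR.add (PTR.ite (PTPred.natEq hp hM) ?_ PTR.zero)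
      (PTR.ite (PTPred.natEq (by fun_prop) (by fun_prop)) ?_ PTR.zero))
      (PTR.ite (PTPred.natLt (by fun_prop) (by fun_prop)) ?_ PTR.zero))
      (PTR.ite (PTPred.natLt hM hp) ?_ PTR.zero)
    all_goals fun_prop
  · fun_prop

theorem ptr_ncz (hp : PTF p) (hq : PTF q) : PTR (fun c => (N c).ncz (p c) (q c)) := by
  unfold ND.ncz
  have h1 : NDP (fun x : γ × Un => N x.1) := h.comp PTF.fst
  have hi : PTF (fun x : γ × Un => x.2.val) := ptu_snd.toPTF
  have hk : PTF (fun x : γ × Un => (N x.1).kd x.2.val) := h1.kd' hi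
  have ha : PTF (fun x : γ × Un => (N x.1).ga x.2.val) := h1.ga' hi
  have hb : PTF (fun x : γ × Un => (N x.1).gb x.2.val) := h1.gb' hi
  have hp1 : PTF (fun x : γ × Un => p x.1) := PTF.comp hp PTF.fst
  have hq1 : PTF (fun x : γ × Un => q x.1) := PTF.comp hq PTF.fst
  refine PTR.sumRange (r := fun c t => if (N c).kd t = 3 ∧
    (((N c).ga t = p c ∧ (N c).gb t = q c) ∨ ((N c).ga t = q c ∧ (N c).gb t = p c)) then (1 : ℝ)
      else 0) h.T ?_
  refine PTR.ite ?_ PTR.one PTR.zero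
  exact PTPred.and (PTPred.natEq hk (PTF.const 3)) (PTPred.or
    (PTPred.and (PTPred.natEq ha hp1) (PTPred.natEq hb hq1))
    (PTPred.and (PTPred.natEq ha hq1) (PTPred.natEq hb hp1)))

theorem ptr_bz (hJin : PTR Jin) (hJp : PTR Jp) (hJk : PTR Jk) (hδ : PTR δ) (hp : PTF p)
    (hq : PTF q) : PTR (fun c => (N c).bz (Jin c) (Jp c) (Jk c) (δ c) (p c) (q c)) := by
  unfold ND.bz
  have hM := h.M
  have hT := h.T.toPTF
  have ho := h.out
  have hn := ptr_ncz h hp hq
  have hc := (h.con' hp).toPTPred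
  have hk : PTF (fun c => (N c).kd (p c - (N c).M)) := h.kd' (by fun_prop)
  have h14 : PTR (fun _ : γ => -(1 / 4 : ℝ)) := by fun_prop
  refine PTR.ite (PTPred.natLt hq hM) (by fun_prop) (PTR.ite (PTPred.natLt hp hM) ?_
    (PTR.ite (PTPred.natLt hq (by fun_prop)) ?_ (PTR.ite (PTPred.natLt hp (by fun_prop)) ?_
      PTR.zero)))
  · refine PTR.ite (PTPred.natLt hq (by fun_prop)) (PTR.add (PTR.ite ?_ ?_ PTR.zero)
      (PTR.ite ?_ h14 PTR.zero)) PTR.zero
    · exact PTPred.and (PTPred.natEq hq hM) hc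
    · fun_prop
    · exact PTPred.and (PTPred.natEq (by fun_prop) (by fun_prop)) (PTPred.natEq hp ho)
  · exact PTR.ite (PTPred.natEq (by fun_prop) hq) (by fun_prop) PTR.zero
  · exact PTR.ite (PTPred.and (PTPred.natEq hq (by fun_prop)) (PTPred.natEq hk (PTF.const 3)))
      (by fun_prop) PTR.zero

theorem ptr_c0 (hJin : PTR Jin) (hJp : PTR Jp) (hJk : PTR Jk) (hδ : PTR δ) :
    PTR (fun c => (N c).c0 (Jin c) (Jp c) (Jk c) (δ c)) := by
  unfold ND.c0
  have hn : PTR (fun c => ((N c).nc : ℝ)) := PTR.natCast h.nc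
  have hT : PTR (fun c => ((N c).T : ℝ)) := PTR.natCast h.T.toPTF
  have hs : PTR (fun c => ∑ t ∈ Finset.range (N c).T, if (N c).kd t = 3 then (1 : ℝ) else 0) := by
    refine PTR.sumRange (r := fun c t => if (N c).kd t = 3 then (1 : ℝ) else 0) h.T ?_
    exact PTR.ite (PTPred.natEq ((h.comp PTF.fst).kd' ptu_snd.toPTF) (PTF.const 3)) PTR.one PTR.zero
  fun_prop

theorem ptp_isR (hp : PTF p) (hq : PTF q) : PTPred (fun c => (N c).isR (p c) (q c) = true) := by
  have hM := h.M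
  have hT := h.T.toPTF
  have hk : PTF (fun c => (N c).kd (q c - (N c).M)) := h.kd' (by fun_prop)
  have ha : PTF (fun c => (N c).ga (q c - (N c).M)) := h.ga' (by fun_prop)
  refine PTPred.of_iff (p := fun c => p c < (N c).M ∧ (N c).M ≤ q c ∧ q c < (N c).M + (N c).T ∧
    ¬ ((N c).kd (q c - (N c).M) = 3) ∧ (N c).ga (q c - (N c).M) = p c) ?_ ?_
  · exact PTPred.and (PTPred.natLt hp hM) (PTPred.and (PTPred.natLe hM hq)
      (PTPred.and (PTPred.natLt hq (by fun_prop)) (PTPred.and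
        (PTPred.not (PTPred.natEq hk (PTF.const 3))) (PTPred.natEq ha hp))))
  · intro c
    simp [ND.isR, and_assoc]

theorem ptp_isCM (hp : PTF p) (hq : PTF q) : PTPred (fun c => (N c).isCM (p c) (q c) = true) := by
  have hM := h.M
  have hT := h.T.toPTF
  refine PTPred.of_iff (p := fun c => (N c).M ≤ p c ∧ p c < (N c).M + (N c).T ∧
    (N c).M + (N c).T ≤ q c) ?_ ?_
  · exact PTPred.and (PTPred.natLe hM hp) (PTPred.and (PTPred.natLt hp (by fun_prop))
      (PTPred.natLe (by fun_prop) hq))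
  · intro c
    simp [ND.isCM, and_assoc]

omit h in
theorem ptr_cosN (hk : PTF p) : PTR (fun c => cosN (p c)) := by
  have h8 : PTR (fun _ : γ => Real.cos (Real.pi / 8)) := by
    simp only [Real.cos_pi_div_eight]
    exact PTR.divOfNat (PTR.sqrt (PTR.add (PTR.ofNat 2) (PTR.sqrt (PTR.ofNat 2)))) 2
  have h4 : PTR (fun _ : γ => Real.cos (Real.pi / 4)) := by
    simp only [Real.cos_pi_div_four]
    exact PTR.divOfNat (PTR.sqrt (PTR.ofNat 2)) 2
  have h2 : PTR (fun _ : γ => Real.cos (Real.pi / 2)) := by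
    simp only [Real.cos_pi_div_two]
    exact PTR.zero
  unfold cosN
  exact PTR.ite (PTPred.natEq hk (PTF.const 0)) h8 (PTR.ite (PTPred.natEq hk (PTF.const 1)) h4 h2)

omit h in
theorem ptr_sinN (hk : PTF p) : PTR (fun c => sinN (p c)) := by
  have h8 : PTR (fun _ : γ => Real.sin (Real.pi / 8)) := by
    simp only [Real.sin_pi_div_eight]
    exact PTR.divOfNat (PTR.sqrt (PTR.sub (PTR.ofNat 2) (PTR.sqrt (PTR.ofNat 2)))) 2
  have h4 : PTR (fun _ : γ => Real.sin (Real.pi / 4)) := by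
    simp only [Real.sin_pi_div_four]
    exact PTR.divOfNat (PTR.sqrt (PTR.ofNat 2)) 2
  have h2 : PTR (fun _ : γ => Real.sin (Real.pi / 2)) := by
    simp only [Real.sin_pi_div_two]
    exact PTR.one
  unfold sinN
  exact PTR.ite (PTPred.natEq hk (PTF.const 0)) h8 (PTR.ite (PTPred.natEq hk (PTF.const 1)) h4 h2)

theorem ptr_ax (hp : PTF p) (hq : PTF q) : PTR (fun c => (N c).ax (p c) (q c)) := by
  have hM := h.M
  unfold ND.ax
  exact PTR.ite (ptp_isR h hp hq) (ptr_sinN (h.kd' (by fun_prop)))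
    (PTR.ite (ptp_isCM h hp hq) PTR.one PTR.zero)

theorem ptr_az (hp : PTF p) (hq : PTF q) : PTR (fun c => (N c).az (p c) (q c)) := by
  have hM := h.M
  unfold ND.az
  exact PTR.ite (ptp_isR h hp hq) (ptr_cosN (h.kd' (by fun_prop)))
    (PTR.ite (ptp_isCM h hp hq) PTR.zero PTR.one)

theorem ptr_bx (hJp : PTR Jp) (hδ : PTR δ) (hp : PTF p) (hq : PTF q) :
    PTR (fun c => (N c).bx (Jp c) (δ c) (p c) (q c)) := by
  have hM := h.M
  have hT := h.T.toPTF
  have hk : PTF (fun c => (N c).kd (q c - (N c).M)) := h.kd' (by fun_prop)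
  have ha : PTF (fun c => (N c).ga (q c - (N c).M)) := h.ga' (by fun_prop)
  have hb : PTF (fun c => (N c).gb (q c - (N c).M)) := h.gb' (by fun_prop)
  have ha2 : PTF (fun c => (N c).ga (q c - ((N c).M + (N c).T))) := h.ga' (by fun_prop)
  have hb2 : PTF (fun c => (N c).gb (q c - ((N c).M + (N c).T))) := h.gb' (by fun_prop)
  have j4 : PTR (fun c => -(Jp c / 4)) := by fun_prop
  have j2 : PTR (fun c => -(Jp c / 2)) := by fun_prop
  have d2 : PTR (fun c => δ c ^ 2) := by fun_prop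
  unfold ND.bx
  refine PTR.ite (PTPred.natLt hp hM) (PTR.ite (PTPred.natLt hq hM) PTR.zero
    (PTR.ite (PTPred.natLt hq (by fun_prop)) (PTR.ite (PTPred.natEq hk (PTF.const 3)) ?_ ?_) ?_))
    PTR.zero
  · exact PTR.add (PTR.ite (PTPred.natEq ha hp) j4 PTR.zero)
      (PTR.ite (PTPred.natEq hb hp) j4 PTR.zero)
  · exact PTR.ite (PTPred.natEq ha hp) j2 PTR.zero
  · exact PTR.sub (PTR.ite (PTPred.natEq ha2 hp) d2 PTR.zero)
      (PTR.ite (PTPred.natEq hb2 hp) d2 PTR.zero)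

end

end Crest.Agent.R338.P1

end
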