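import Crest.Agent.R338.P1PTb
import Crest.Agent.R338.P1Round
import Crest.Agent.R338.RCPT

/-!
# Row 338: numerical data of a verifier (poly-time), bounds of the arrays, and the composition
`QMA → XInst` from the analytic part (helper18)
-/

set_option autoImplicit false

noncomputable section

open Crest.Agent.Lib.PT

namespace Crest.Agent.R338.P1

open Crest.Agent.R338 PTab Nu RC Crest.Quantum.QMA

variable {α β γ : Type} [PTCode α] [PTCode β] [PTCode γ]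

/-- numerical data from lists -/
def ndL (M : ℕ) (w : List (ℕ × ℕ × ℕ)) (cn : List ℕ) (out : ℕ) : ND where
  M := M
  T := w.length
  kd t := (w.getD t (0, 0, 0)).1
  ga t := (w.getD t (0, 0, 0)).2.1
  gb t := (w.getD t (0, 0, 0)).2.2
  con a := decide (a ∈ cn)
  nc := cn.length
  out := out

theorem getD_min {δ : Type} (l : List δ) (t : ℕ) (d : δ) :
    l.getD (Min.min t l.length) d = l.getD t d := by
  rcases le_total t l.length with h | h
  · rw [min_eq_left h]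
  · rw [min_eq_right h, List.getD_eq_default _ _ le_rfl, List.getD_eq_default _ _ h]

theorem ndp_ndL {M : γ → ℕ} {w : γ → List (ℕ × ℕ × ℕ)} {cn : γ → List ℕ} {out : γ → ℕ}
    (hM : PTF M) (hw : PTF w) (hc : PTF cn) (ho : PTF out) :
    NDP (fun c => ndL (M c) (w c) (cn c) (out c)) := by
  have hlen : PTU (fun c => (w c).length) := by
    have : PTU (fun c => (w c).length) := by fun_prop
    exact this
  have hg : PTF (fun p : γ × ℕ => (w p.1).getD p.2 (0, 0, 0)) := by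
    have h1 : PTU (fun p : γ × ℕ => Min.min p.2 (w p.1).length) :=
      PTF.natMinUn PTF.snd (PTU.comp (n := fun c => (w c).length) hlen PTF.fst)
    exact (PTF.getD (d := fun _ => (0, 0, 0)) h1 (PTF.comp hw PTF.fst) (PTF.const _)).of_eq
      fun p => getD_min _ _ _
  refine ⟨hM, hlen, ?_, ?_, ?_, ?_, ?_, ho⟩
  · exact PTF.comp (g := fun x : ℕ × ℕ × ℕ => x.1) PTF.fst hg
  · exact PTF.comp (g := fun x : ℕ × ℕ × ℕ => x.2.1) (by fun_prop) hg
  · exact PTF.comp (g := fun x : ℕ × ℕ × ℕ => x.2.2) (by fun_prop) hg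
  · exact (PTPred.mem PTF.snd (PTF.comp hc PTF.fst)).toPTF
  · have : PTU (fun c => (cn c).length) := by fun_prop
    exact this.toPTF

/-! ### bounds -/

/-- common bound of all entries -/
def bd (nc T Jin Jp Jk δ : ℕ) : ℕ :=
  1 + Jin * (1 + nc) + Jp * (1 + δ ^ 2) + Jk + δ ^ 3 + δ ^ 2 + 2 * δ * T

section
variable (N : ND) (Jin Jp Jk δ : ℕ)

theorem bd_fx (p : ℕ) : |N.fx (Jp : ℝ) δ p| ≤ bd N.nc N.T Jin Jp Jk δ := by
  unfold ND.fx bd
  push_cast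
  have h1 : (0 : ℝ) ≤ Jp := by positivity
  have h2 : (0 : ℝ) ≤ Jin * (1 + (N.nc : ℝ)) := by positivity
  have h3 : (0 : ℝ) ≤ (δ : ℝ) ^ 3 := by positivity
  have h4 : (0 : ℝ) ≤ (δ : ℝ) ^ 2 := by positivity
  have h5 : (0 : ℝ) ≤ 2 * (δ : ℝ) * N.T := by positivity
  have h6 : (0 : ℝ) ≤ Jk := by positivity
  have h7 : (0 : ℝ) ≤ (Jp : ℝ) * (δ : ℝ) ^ 2 := by positivity
  split_ifs
  · rw [abs_neg, abs_of_nonneg (by positivity)]
    nlinarith
  · rw [abs_zero]; positivity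

theorem abs_ite0 {c : Prop} [Decidable c] {x y : ℝ} (h : |x| ≤ y) : |if c then x else 0| ≤ y := by
  split_ifs
  · exact h
  · rw [abs_zero]; exact (abs_nonneg x).trans h

theorem bd_fz (p : ℕ) : |N.fz (Jin : ℝ) Jp Jk δ p| ≤ bd N.nc N.T Jin Jp Jk δ := by
  have h1 : (0 : ℝ) ≤ Jp := by positivity
  have h1' : (0 : ℝ) ≤ Jin := by positivity
  have h2 : (0 : ℝ) ≤ Jin * (N.nc : ℝ) := by positivity
  have h3 : (0 : ℝ) ≤ (δ : ℝ) ^ 3 := by positivity
  have h4 : (0 : ℝ) ≤ (δ : ℝ) ^ 2 := by positivity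
  have h5 : (0 : ℝ) ≤ 2 * (δ : ℝ) * N.T := by positivity
  have h6 : (0 : ℝ) ≤ Jk := by positivity
  have h7 : (0 : ℝ) ≤ (Jp : ℝ) * (δ : ℝ) ^ 2 := by positivity
  have e : ((bd N.nc N.T Jin Jp Jk δ : ℕ) : ℝ) = 1 + (Jin + Jin * (N.nc : ℝ)) +
      (Jp + (Jp : ℝ) * (δ : ℝ) ^ 2) + Jk + (δ : ℝ) ^ 3 + (δ : ℝ) ^ 2 + 2 * δ * N.T := by
    unfold bd; push_cast; ring
  rw [e]
  unfold ND.fz
  by_cases c1 : p < N.M
  · rw [if_pos c1]
    refine (abs_sub _ _).trans ?_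
    have a1 : |if p = N.out then (1 / 4 : ℝ) else 0| ≤ 1 / 4 :=
      abs_ite0 (by rw [abs_of_nonneg] <;> norm_num)
    have a2 : |if N.con p = true then (Jin / 4 : ℝ) else 0| ≤ Jin / 4 :=
      abs_ite0 (by rw [abs_of_nonneg]; positivity)
    linarith
  rw [if_neg c1]
  by_cases c2 : p < N.M + N.T
  · rw [if_pos c2]
    have a1 : |if p = N.M then ((Jin : ℝ) / 4 * N.nc - Jp / 4) else 0| ≤
        (Jin : ℝ) * N.nc / 4 + Jp / 4 :=
      abs_ite0 (by rw [abs_le]; constructor <;> linarith)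
    have a2 : |if p + 1 = N.M + N.T then ((Jp : ℝ) / 4 - 1 / 4) else 0| ≤ Jp / 4 + 1 / 4 :=
      abs_ite0 (by rw [abs_le]; constructor <;> linarith)
    have a3 : |if p + 1 < N.M + N.T then ((Jk : ℝ) / 4) else 0| ≤ Jk / 4 :=
      abs_ite0 (by rw [abs_of_nonneg]; positivity)
    have a4 : |if N.M < p then ((Jk : ℝ) / 4) else 0| ≤ Jk / 4 :=
      abs_ite0 (by rw [abs_of_nonneg]; positivity)
    refine (abs_sub _ _).trans ?_
    have b1 := abs_add_le ((if p = N.M then ((Jin : ℝ) / 4 * N.nc - Jp / 4) else 0) +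
      (if p + 1 = N.M + N.T then ((Jp : ℝ) / 4 - 1 / 4) else 0))
      (if p + 1 < N.M + N.T then ((Jk : ℝ) / 4) else 0)
    have b2 := abs_add_le (if p = N.M then ((Jin : ℝ) / 4 * N.nc - Jp / 4) else 0)
      (if p + 1 = N.M + N.T then ((Jp : ℝ) / 4 - 1 / 4) else 0)
    linarith
  · rw [if_neg c2, abs_neg, abs_of_nonneg (by positivity)]
    linarith

theorem abs_cosN (k : ℕ) : |cosN k| ≤ 1 := by
  unfold cosN; split_ifs <;> exact Real.abs_cos_le_one _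

theorem abs_sinN (k : ℕ) : |sinN k| ≤ 1 := by
  unfold sinN; split_ifs <;> exact Real.abs_sin_le_one _

theorem one_le_bd : (1 : ℝ) ≤ bd N.nc N.T Jin Jp Jk δ := by
  unfold bd
  push_cast
  have h1 : (0 : ℝ) ≤ Jin * (1 + (N.nc : ℝ)) + Jp * (1 + (δ : ℝ) ^ 2) + Jk + δ ^ 3 + δ ^ 2 +
    2 * δ * N.T := by positivity
  linarith

theorem bd_ax (p q : ℕ) : |N.ax p q| ≤ bd N.nc N.T Jin Jp Jk δ := by
  refine le_trans ?_ (one_le_bd N Jin Jp Jk δ)
  unfold ND.ax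
  split_ifs
  · exact abs_sinN _
  · simp
  · simp

theorem bd_az (p q : ℕ) : |N.az p q| ≤ bd N.nc N.T Jin Jp Jk δ := by
  refine le_trans ?_ (one_le_bd N Jin Jp Jk δ)
  unfold ND.az
  split_ifs
  · exact abs_cosN _
  · simp
  · simp

theorem bd_bx (p q : ℕ) : |N.bx (Jp : ℝ) δ p q| ≤ bd N.nc N.T Jin Jp Jk δ := by
  unfold ND.bx bd
  push_cast
  have h1 : (0 : ℝ) ≤ Jp := by positivity
  have h1' : (0 : ℝ) ≤ Jin := by positivity
  have h2 : (0 : ℝ) ≤ Jin * (N.nc : ℝ) := by positivity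
  have h3 : (0 : ℝ) ≤ (δ : ℝ) ^ 3 := by positivity
  have h4 : (0 : ℝ) ≤ (δ : ℝ) ^ 2 := by positivity
  have h5 : (0 : ℝ) ≤ 2 * (δ : ℝ) * N.T := by positivity
  have h6 : (0 : ℝ) ≤ Jk := by positivity
  have h7 : (0 : ℝ) ≤ (Jp : ℝ) * (δ : ℝ) ^ 2 := by positivity
  split_ifs <;> rw [abs_le] <;> constructor <;> nlinarith

theorem ncz_bd (p q : ℕ) : 0 ≤ N.ncz p q ∧ N.ncz p q ≤ N.T := by
  unfold ND.ncz
  constructor
  · exact Finset.sum_nonneg fun t _ => by split_ifs <;> norm_num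
  · calc _ ≤ ∑ t ∈ Finset.range N.T, (1 : ℝ) :=
        Finset.sum_le_sum fun t _ => by split_ifs <;> norm_num
      _ = N.T := by simp

theorem bd_bz (p q : ℕ) : |N.bz (Jin : ℝ) Jp Jk δ p q| ≤ bd N.nc N.T Jin Jp Jk δ := by
  obtain ⟨hn0, hn1⟩ := ncz_bd N p q
  unfold ND.bz bd
  push_cast
  have h1 : (0 : ℝ) ≤ Jp := by positivity
  have h1' : (0 : ℝ) ≤ Jin := by positivity
  have h2 : (0 : ℝ) ≤ Jin * (N.nc : ℝ) := by positivity
  have h3 : (0 : ℝ) ≤ (δ : ℝ) ^ 3 := by positivity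
  have h4 : (0 : ℝ) ≤ (δ : ℝ) ^ 2 := by positivity
  have h5 : (0 : ℝ) ≤ 2 * (δ : ℝ) * N.T := by positivity
  have h6 : (0 : ℝ) ≤ Jk := by positivity
  have h7 : (0 : ℝ) ≤ (Jp : ℝ) * (δ : ℝ) ^ 2 := by positivity
  have h8 : (0 : ℝ) ≤ 2 * (δ : ℝ) * N.ncz p q := by positivity
  have h9 : 2 * (δ : ℝ) * N.ncz p q ≤ 2 * (δ : ℝ) * N.T := by gcongr
  split_ifs <;> rw [abs_le] <;> constructor <;> nlinarith

end

theorem ptu_bd {nc T Jin Jp Jk δ : γ → ℕ} (h1 : PTU nc) (h2 : PTU T) (h3 : PTU Jin) (h4 : PTU Jp)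
    (h5 : PTU Jk) (h6 : PTU δ) : PTU (fun c => bd (nc c) (T c) (Jin c) (Jp c) (Jk c) (δ c)) := by
  unfold bd
  fun_prop

end Crest.Agent.R338.P1

end
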