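import Mathlib

/-!
# Row 338, node P2 (helper714): inequalities of the parameter choice

`k ≥ 16`, `B = k^b`, `lam = κ/B^6`, `s = 1/(κ B²)`, `R = k^r B³`, `nL = k^m B^11`, `Lw = 4 R B² s`.
-/

set_option autoImplicit false

noncomputable section

namespace Crest.Agent.R338.P2

/-- polynomial growth is dominated by `2^k` -/
theorem exists_pow_le_two_pow (Z : ℕ) : ∃ k0 : ℕ, ∀ k : ℕ, k0 ≤ k → (k : ℝ) ^ Z ≤ 2 ^ k := by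
  have h := tendsto_pow_const_div_const_pow_of_one_lt Z (show (1 : ℝ) < 2 by norm_num)
  have h2 : ∀ᶠ k : ℕ in Filter.atTop, (k : ℝ) ^ Z / 2 ^ k < 1 :=
    h.eventually (gt_mem_nhds (by norm_num))
  obtain ⟨k0, hk0⟩ := Filter.eventually_atTop.1 h2
  refine ⟨k0, fun k hk => ?_⟩
  have := hk0 k hk
  rw [div_lt_one (by positivity)] at this
  exact this.le

section
variable {k κ : ℝ} {b r m g x y CL : ℕ}

theorem pow_div_le (hk : 1 ≤ k) {p q t : ℕ} (h : p + q ≤ t) : k ^ p / k ^ t ≤ 1 / k ^ q := by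
  have hk0 : 0 < k := by linarith
  rw [div_le_div_iff₀ (by positivity) (by positivity), one_mul, ← pow_add]
  exact pow_le_pow_right₀ hk h

theorem lam_le (hk : 1 ≤ k) (hκ1 : κ ≤ 1) : κ / (k ^ b) ^ 6 ≤ 1 / k ^ (6 * b) := by
  rw [← pow_mul, mul_comm b 6]
  exact div_le_div_of_nonneg_right hκ1 (by positivity)

theorem s_le (hk : 1 ≤ k) (hκ : 1 / 2 ≤ κ) : 1 / (κ * (k ^ b) ^ 2) ≤ 2 / k ^ (2 * b) := by
  rw [← pow_mul, mul_comm b 2, div_le_div_iff₀ (by positivity) (by positivity)]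
  have : 0 < k ^ (2 * b) := by positivity
  nlinarith

theorem s_ge (hk : 1 ≤ k) (hκ0 : 0 < κ) (hκ1 : κ ≤ 1) : 1 / k ^ (2 * b) ≤ 1 / (κ * (k ^ b) ^ 2) := by
  rw [← pow_mul, mul_comm b 2]
  apply one_div_le_one_div_of_le (by positivity)
  have : 0 < k ^ (2 * b) := by positivity
  nlinarith

/-- `lam * k^p ≤ 1/k^q` -/
theorem lam_mul_le (hk : 1 ≤ k) (hκ1 : κ ≤ 1) {p q : ℕ} (h : p + q ≤ 6 * b) :
    κ / (k ^ b) ^ 6 * k ^ p ≤ 1 / k ^ q := by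
  have h1 := lam_le (b := b) hk hκ1
  calc κ / (k ^ b) ^ 6 * k ^ p ≤ 1 / k ^ (6 * b) * k ^ p :=
        mul_le_mul_of_nonneg_right h1 (by positivity)
    _ = k ^ p / k ^ (6 * b) := by ring
    _ ≤ _ := pow_div_le hk h

/-- the five error terms -/
theorem T1 (hk : 1 ≤ k) (hκ0 : 0 ≤ κ) (hκ1 : κ ≤ 1) (h : y ≤ 6 * b) :
    (κ / (k ^ b) ^ 6) ^ 2 ≤ κ / (k ^ b) ^ 6 / k ^ y := by
  have h1 := lam_mul_le (b := b) hk hκ1 (p := 0) (q := y) (by omega)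
  have h0 : 0 ≤ κ / (k ^ b) ^ 6 := by positivity
  calc (κ / (k ^ b) ^ 6) ^ 2 = κ / (k ^ b) ^ 6 * (κ / (k ^ b) ^ 6 * k ^ 0) := by ring
    _ ≤ κ / (k ^ b) ^ 6 * (1 / k ^ y) := mul_le_mul_of_nonneg_left h1 h0
    _ = _ := by ring

theorem T2 (hk : 1 ≤ k) (hκ0 : 0 ≤ κ) (hκ1 : κ ≤ 1) (hCL : (CL : ℝ) ≤ k) (h : 8 + y ≤ 6 * b) :
    ((CL : ℝ) * (κ / (k ^ b) ^ 6) * k ^ 3) ^ 2 ≤ κ / (k ^ b) ^ 6 / k ^ y := by
  have h1 := lam_mul_le (b := b) hk hκ1 (p := 8) (q := y) h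
  have h0 : 0 ≤ κ / (k ^ b) ^ 6 := by positivity
  have hc0 : (0 : ℝ) ≤ CL := Nat.cast_nonneg _
  have h2 : (CL : ℝ) * (κ / (k ^ b) ^ 6) * k ^ 3 ≤ k * (κ / (k ^ b) ^ 6) * k ^ 3 := by gcongr
  calc ((CL : ℝ) * (κ / (k ^ b) ^ 6) * k ^ 3) ^ 2 ≤ (k * (κ / (k ^ b) ^ 6) * k ^ 3) ^ 2 := by gcongr
    _ = κ / (k ^ b) ^ 6 * (κ / (k ^ b) ^ 6 * k ^ 8) := by ring
    _ ≤ κ / (k ^ b) ^ 6 * (1 / k ^ y) := mul_le_mul_of_nonneg_left h1 h0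
    _ = _ := by ring

theorem kF_le (hk : 1 ≤ k) (hκ0 : 0 ≤ κ) (hκ1 : κ ≤ 1) (hCL : (CL : ℝ) ≤ k) (h : 4 + x ≤ 6 * b) :
    (CL : ℝ) * (κ / (k ^ b) ^ 6) * k ^ 3 ≤ 1 / k ^ x := by
  have h1 := lam_mul_le (b := b) hk hκ1 (p := 4) (q := x) h
  have h0 : 0 ≤ κ / (k ^ b) ^ 6 := by positivity
  calc (CL : ℝ) * (κ / (k ^ b) ^ 6) * k ^ 3 ≤ k * (κ / (k ^ b) ^ 6) * k ^ 3 := by gcongr
    _ = κ / (k ^ b) ^ 6 * k ^ 4 := by ring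
    _ ≤ _ := h1

theorem T3 (hk : 2 ≤ k) (hκ : 1 / 2 ≤ κ) (hCL : (CL : ℝ) ≤ k) {n0 : ℝ} (hn0 : 0 ≤ n0)
    (hn : n0 + 2 ≤ k ^ 10) (h : y + 10 * CL + 6 ≤ 2 * b) :
    (CL : ℝ) * (n0 + 2) ^ CL * (κ / (k ^ b) ^ 6) * k ^ 4 * (1 / (κ * (k ^ b) ^ 2)) ≤
      κ / (k ^ b) ^ 6 / k ^ y := by
  have hk1 : 1 ≤ k := by linarith
  have h0 : 0 ≤ κ / (k ^ b) ^ 6 := by positivity
  have hs := s_le (b := b) hk1 hκ
  have hpow : (n0 + 2) ^ CL ≤ k ^ (10 * CL) := by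
    rw [pow_mul]; exact pow_le_pow_left₀ (by linarith) hn _
  have h3 : k ^ (10 * CL + 6) / k ^ (2 * b) ≤ 1 / k ^ y := pow_div_le hk1 (by omega)
  calc (CL : ℝ) * (n0 + 2) ^ CL * (κ / (k ^ b) ^ 6) * k ^ 4 * (1 / (κ * (k ^ b) ^ 2))
      ≤ k * k ^ (10 * CL) * (κ / (k ^ b) ^ 6) * k ^ 4 * (2 / k ^ (2 * b)) := by gcongr
    _ ≤ k * k ^ (10 * CL) * (κ / (k ^ b) ^ 6) * k ^ 4 * (k / k ^ (2 * b)) := by gcongr
    _ = κ / (k ^ b) ^ 6 * (k ^ (10 * CL + 6) / k ^ (2 * b)) := by ring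
    _ ≤ κ / (k ^ b) ^ 6 * (1 / k ^ y) := mul_le_mul_of_nonneg_left h3 h0
    _ = _ := by ring

theorem T5 (hk : 2 ≤ k) (hκ : 1 / 2 ≤ κ) (h : 1 + y ≤ 2 * r) :
    1 / (k ^ r * (k ^ b) ^ 3) ^ 2 ≤ κ / (k ^ b) ^ 6 / k ^ y := by
  have hk1 : 1 ≤ k := by linarith
  have h2 : k ^ 1 / k ^ (2 * r) ≤ 1 / k ^ y := pow_div_le hk1 h
  have hB : (0 : ℝ) < (k ^ b) ^ 6 := by positivity
  have hkr : (0 : ℝ) < k ^ (2 * r) := by positivity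
  have hky : (0 : ℝ) < k ^ y := by positivity
  have e1 : 1 / (k ^ r * (k ^ b) ^ 3) ^ 2 = (1 / k ^ (2 * r)) / (k ^ b) ^ 6 := by
    rw [div_div]; congr 1; ring
  rw [e1, div_right_comm κ]
  refine div_le_div_of_nonneg_right ?_ hB.le
  have h3 : 1 / k ^ (2 * r) ≤ κ * (k ^ 1 / k ^ (2 * r)) := by
    rw [pow_one, ← mul_div_assoc]
    refine div_le_div_of_nonneg_right ?_ hkr.le
    nlinarith
  calc 1 / k ^ (2 * r) ≤ κ * (k ^ 1 / k ^ (2 * r)) := h3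
    _ ≤ κ * (1 / k ^ y) := mul_le_mul_of_nonneg_left h2 (by linarith)
    _ = _ := by ring

/-- (a) of `E2` -/
theorem T4a (hk : 2 ≤ k) (hκ : 1 / 2 ≤ κ) (hκ1 : κ ≤ 1) (h : 4 * r + 1 + y ≤ 2 * m) :
    (k ^ r * (k ^ b) ^ 3) ^ 4 / (k ^ m * (k ^ b) ^ 11 * (1 / (κ * (k ^ b) ^ 2))) ^ 2 ≤
      κ / (k ^ b) ^ 6 / k ^ y := by
  have hk1 : 1 ≤ k := by linarith
  have hκ0 : 0 < κ := by linarith
  have hB : (0 : ℝ) < (k ^ b) := by positivity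
  have e1 : (k ^ r * (k ^ b) ^ 3) ^ 4 / (k ^ m * (k ^ b) ^ 11 * (1 / (κ * (k ^ b) ^ 2))) ^ 2 =
      κ ^ 2 / (k ^ b) ^ 6 * (k ^ (4 * r) / k ^ (2 * m)) := by
    rw [mul_comm 4 r, mul_comm 2 m, pow_mul, pow_mul k m 2]
    field_simp
  have h2 : k ^ (4 * r) / k ^ (2 * m) ≤ 1 / k ^ y := pow_div_le hk1 (by omega)
  rw [e1]
  calc κ ^ 2 / (k ^ b) ^ 6 * (k ^ (4 * r) / k ^ (2 * m)) ≤ κ / (k ^ b) ^ 6 * (1 / k ^ y) := by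
        apply mul_le_mul _ h2 (by positivity) (by positivity)
        refine div_le_div_of_nonneg_right ?_ (by positivity)
        nlinarith
    _ = _ := by ring

/-- (b) of `E2` -/
theorem T4b (hk : 2 ≤ k) (hκ : 1 / 2 ≤ κ) (hκ1 : κ ≤ 1) (h : 2 * g + r + 7 + y ≤ b) :
    κ / (k ^ b) ^ 6 * (k ^ g) ^ 2 * ((1 / (κ * (k ^ b) ^ 2)) ^ 2 *
      (4 * (k ^ r * (k ^ b) ^ 3) * (k ^ b) ^ 2 * (1 / (κ * (k ^ b) ^ 2))) +
        k * (1 / (κ * (k ^ b) ^ 2))) ≤ κ / (k ^ b) ^ 6 / k ^ y := by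
  have hk1 : 1 ≤ k := by linarith
  have hk0 : 0 < k := by linarith
  have hκ0 : 0 < κ := by linarith
  have hs := s_le (b := b) hk1 hκ
  have h0 : 0 ≤ κ / (k ^ b) ^ 6 := by positivity
  have hBp : (0 : ℝ) < k ^ b := by positivity
  have hB1 : (1 : ℝ) ≤ k ^ b := one_le_pow₀ hk1
  have hr1 : (1 : ℝ) ≤ k ^ r := one_le_pow₀ hk1
  -- first summand
  have e1 : (1 / (κ * (k ^ b) ^ 2)) ^ 2 *
      (4 * (k ^ r * (k ^ b) ^ 3) * (k ^ b) ^ 2 * (1 / (κ * (k ^ b) ^ 2))) =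
      4 / κ ^ 3 * (k ^ r / k ^ b) := by
    field_simp
  have e2 : 4 / κ ^ 3 ≤ 32 := by
    rw [div_le_iff₀ (by positivity)]
    have : (1 / 2 : ℝ) ^ 3 ≤ κ ^ 3 := pow_le_pow_left₀ (by norm_num) hκ 3
    norm_num at this
    linarith
  have e3 : k * (1 / (κ * (k ^ b) ^ 2)) ≤ 2 * (k * k ^ r / k ^ b) := by
    have h1 : 1 / (κ * (k ^ b) ^ 2) ≤ 2 / k ^ b := by
      rw [div_le_div_iff₀ (by positivity) (by positivity)]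
      nlinarith [mul_pos hκ0 hBp]
    calc k * (1 / (κ * (k ^ b) ^ 2)) ≤ k * (2 / k ^ b) := by gcongr
      _ = 2 * (k * 1 / k ^ b) := by ring
      _ ≤ 2 * (k * k ^ r / k ^ b) := by gcongr
  have e4 : (1 / (κ * (k ^ b) ^ 2)) ^ 2 *
      (4 * (k ^ r * (k ^ b) ^ 3) * (k ^ b) ^ 2 * (1 / (κ * (k ^ b) ^ 2))) +
        k * (1 / (κ * (k ^ b) ^ 2)) ≤ k ^ 7 * k ^ r / k ^ b := by
    rw [e1]
    have h1 : 4 / κ ^ 3 * (k ^ r / k ^ b) ≤ 32 * (k * k ^ r / k ^ b) := by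
      have : k ^ r / k ^ b ≤ k * k ^ r / k ^ b := by
        gcongr
        nlinarith
      exact mul_le_mul e2 this (by positivity) (by norm_num)
    have h5 : (34 : ℝ) ≤ k ^ 6 := by
      have : (2 : ℝ) ^ 6 ≤ k ^ 6 := pow_le_pow_left₀ (by norm_num) hk 6
      norm_num at this
      linarith
    calc 4 / κ ^ 3 * (k ^ r / k ^ b) + k * (1 / (κ * (k ^ b) ^ 2))
        ≤ 32 * (k * k ^ r / k ^ b) + 2 * (k * k ^ r / k ^ b) := add_le_add h1 e3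
      _ = 34 * (k * k ^ r / k ^ b) := by ring
      _ ≤ k ^ 6 * (k * k ^ r / k ^ b) := by gcongr
      _ = _ := by ring
  have h6 : k ^ (2 * g + 7 + r) / k ^ b ≤ 1 / k ^ y := pow_div_le hk1 (by omega)
  calc _ ≤ κ / (k ^ b) ^ 6 * (k ^ g) ^ 2 * (k ^ 7 * k ^ r / k ^ b) := by gcongr
    _ = κ / (k ^ b) ^ 6 * (k ^ (2 * g + 7 + r) / k ^ b) := by ring
    _ ≤ κ / (k ^ b) ^ 6 * (1 / k ^ y) := mul_le_mul_of_nonneg_left h6 h0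
    _ = _ := by ring

/-- (c) of `E2`: `eps = 2 (1/2)^kn / lam` -/
theorem T4c (hk : 2 ≤ k) (hκ : 1 / 2 ≤ κ) (hκ1 : κ ≤ 1) {P : ℝ} (hP : k ^ (r + 15 * b + y + 4) ≤ P) :
    κ / (k ^ b) ^ 6 * (2 * (1 / P) / (κ / (k ^ b) ^ 6)) *
      (4 * (k ^ r * (k ^ b) ^ 3) * (k ^ b) ^ 2 * (1 / (κ * (k ^ b) ^ 2))) /
        (1 / (κ * (k ^ b) ^ 2)) ^ 3 ≤ κ / (k ^ b) ^ 6 / k ^ y := by
  have hk1 : 1 ≤ k := by linarith
  have hk0 : 0 < k := by linarith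
  have hκ0 : 0 < κ := by linarith
  have hBp : (0 : ℝ) < k ^ b := by positivity
  have hP0 : 0 < P := lt_of_lt_of_le (by positivity) hP
  have e1 : κ / (k ^ b) ^ 6 * (2 * (1 / P) / (κ / (k ^ b) ^ 6)) *
      (4 * (k ^ r * (k ^ b) ^ 3) * (k ^ b) ^ 2 * (1 / (κ * (k ^ b) ^ 2))) /
        (1 / (κ * (k ^ b) ^ 2)) ^ 3 = 8 * κ ^ 2 * (k ^ r * (k ^ b) ^ 9) / P := by
    field_simp
    ring
  rw [e1, div_div, div_le_div_iff₀ hP0 (by positivity)]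
  have h8 : 8 * κ ^ 2 ≤ κ * k ^ 4 := by
    have : (2 : ℝ) ^ 4 ≤ k ^ 4 := pow_le_pow_left₀ (by norm_num) hk 4
    norm_num at this
    nlinarith
  calc 8 * κ ^ 2 * (k ^ r * (k ^ b) ^ 9) * ((k ^ b) ^ 6 * k ^ y)
      ≤ κ * k ^ 4 * (k ^ r * (k ^ b) ^ 9) * ((k ^ b) ^ 6 * k ^ y) := by gcongr
    _ = κ * k ^ (r + 15 * b + y + 4) := by ring
    _ ≤ κ * P := by gcongr

/-- (d) of `E2` -/
theorem T4d (hk : 2 ≤ k) (hκ : 1 / 2 ≤ κ) (hκ1 : κ ≤ 1) {P : ℝ}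
    (hP : k ^ ((m + 11 * b + 1) * CL + 2 * b * CL + 6 * b + 1 + y) ≤ P) :
    (k ^ m * (k ^ b) ^ 11 + 1) ^ CL * (1 / P) / (1 / (κ * (k ^ b) ^ 2)) ^ CL ≤
      κ / (k ^ b) ^ 6 / k ^ y := by
  have hk1 : 1 ≤ k := by linarith
  have hk0 : 0 < k := by linarith
  have hκ0 : 0 < κ := by linarith
  have hBp : (0 : ℝ) < k ^ b := by positivity
  have hP0 : 0 < P := lt_of_lt_of_le (by positivity) hP
  have e1 : (k ^ m * (k ^ b) ^ 11 + 1) ^ CL * (1 / P) / (1 / (κ * (k ^ b) ^ 2)) ^ CL =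
      (k ^ m * (k ^ b) ^ 11 + 1) ^ CL * (κ * (k ^ b) ^ 2) ^ CL / P := by
    rw [one_div_pow]
    field_simp
  rw [e1, div_div, div_le_div_iff₀ hP0 (by positivity)]
  have h1 : (k ^ m * (k ^ b) ^ 11 + 1) ^ CL ≤ k ^ ((m + 11 * b + 1) * CL) := by
    rw [pow_mul]
    refine pow_le_pow_left₀ (by positivity) ?_ _
    have h2 : k ^ m * (k ^ b) ^ 11 = k ^ (m + 11 * b) := by ring
    have h3 : 1 ≤ k ^ (m + 11 * b) := one_le_pow₀ hk1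
    rw [h2, pow_succ]
    nlinarith
  have h2 : (κ * (k ^ b) ^ 2) ^ CL ≤ k ^ (2 * b * CL) := by
    rw [pow_mul k (2 * b)]
    refine pow_le_pow_left₀ (by positivity) ?_ _
    have h3 : (k ^ b) ^ 2 = k ^ (2 * b) := by ring
    rw [h3]
    have : 0 < k ^ (2 * b) := by positivity
    nlinarith
  have h4 : 1 ≤ κ * k := by nlinarith
  calc (k ^ m * (k ^ b) ^ 11 + 1) ^ CL * (κ * (k ^ b) ^ 2) ^ CL * ((k ^ b) ^ 6 * k ^ y)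
      ≤ k ^ ((m + 11 * b + 1) * CL) * k ^ (2 * b * CL) * ((k ^ b) ^ 6 * k ^ y) * (κ * k) := by
        have h5 : (k ^ m * (k ^ b) ^ 11 + 1) ^ CL * (κ * (k ^ b) ^ 2) ^ CL * ((k ^ b) ^ 6 * k ^ y) ≤
            k ^ ((m + 11 * b + 1) * CL) * k ^ (2 * b * CL) * ((k ^ b) ^ 6 * k ^ y) := by gcongr
        exact h5.trans (le_mul_of_one_le_right (by positivity) h4)
    _ = κ * k ^ ((m + 11 * b + 1) * CL + 2 * b * CL + 6 * b + 1 + y) := by ring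
    _ ≤ κ * P := by gcongr

end

end Crest.Agent.R338.P2

end
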