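import Crest.Agent.R338.P2Main

/-!
# Row 338, node P2 (helper714): the lattice of the map satisfies `NucOK`
-/

set_option autoImplicit false

noncomputable section

open MeasureTheory Crest.Quantum.QMA Crest.MathPhysics.CoulombProblem
open Crest.MathPhysics.ElectronicCoulomb
open Crest.Agent.Lib.PT

namespace Crest.Agent.R338.P2

/-- the conditions on the numerals -/
structure Good (C : Cst) (CA CC CW CL g x y : ℕ) : Prop where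
  c16 : 16 ≤ C.c
  cB2 : 2 * C.cB + 1 ≤ C.c
  cC : CC ≤ C.c
  cL : CL ≤ C.c
  l1 : (CC + 10) * C.cB ≤ C.l
  g1 : (C.l + CC + 11) * CW ≤ g
  g0 : 1 ≤ g
  x1 : (g + 11) * CA ≤ x
  y1 : x + 15 ≤ y
  r1 : x + g + y + 4 ≤ C.r
  m1 : 4 * C.r + 1 + y ≤ 2 * C.m
  m2 : C.r + 3 ≤ C.m
  b1 : 2 * g + C.r + 7 + y ≤ C.b
  b2 : y + 10 * CL + 6 ≤ 2 * C.b
  b3 : 2 * C.m + 3 ≤ 6 * C.b + 8 * C.r
  Z1 : ∀ k : ℕ, C.c ≤ k → (k : ℝ) ^ (C.r + 15 * C.b + y + 4) ≤ 2 ^ k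
  Z2 : ∀ k : ℕ, C.c ≤ k →
    (k : ℝ) ^ ((C.m + 11 * C.b + 1) * CL + 2 * C.b * CL + 6 * C.b + 1 + y) ≤ 2 ^ k
  Z3 : ∀ k : ℕ, C.c ≤ k → (k : ℝ) ^ (8 * C.b + 8) ≤ 2 ^ k

theorem exists_good (c0 CA CB CC CW CL : ℕ) : ∃ (C : Cst) (g x y : ℕ),
    Good C CA CC CW CL g x y ∧ c0 ≤ C.c ∧ C.cB = CB := by
  obtain ⟨l, hl⟩ : ∃ l, l = (CC + 10) * CB := ⟨_, rfl⟩
  obtain ⟨g, hg⟩ : ∃ g, g = (l + CC + 11) * CW + 1 := ⟨_, rfl⟩
  obtain ⟨x, hx⟩ : ∃ x, x = (g + 11) * CA := ⟨_, rfl⟩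
  obtain ⟨y, hy⟩ : ∃ y, y = x + 15 := ⟨_, rfl⟩
  obtain ⟨r, hr⟩ : ∃ r, r = x + g + y + 4 := ⟨_, rfl⟩
  obtain ⟨m, hm⟩ : ∃ m, m = 2 * r + y + 1 := ⟨_, rfl⟩
  obtain ⟨b, hb⟩ : ∃ b, b = 2 * g + r + 7 + y + (10 * CL + 6) + m + 3 := ⟨_, rfl⟩
  obtain ⟨k1, hk1⟩ := exists_pow_le_two_pow (r + 15 * b + y + 4)
  obtain ⟨k2, hk2⟩ := exists_pow_le_two_pow ((m + 11 * b + 1) * CL + 2 * b * CL + 6 * b + 1 + y)
  obtain ⟨k3, hk3⟩ := exists_pow_le_two_pow (8 * b + 8)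
  refine ⟨⟨16 + (2 * CB + 1) + CC + CL + c0 + k1 + k2 + k3, CB, l, b, r, m⟩, g, x, y, ?_, ?_, rfl⟩
  · exact
      { c16 := by show 16 ≤ 16 + (2 * CB + 1) + CC + CL + c0 + k1 + k2 + k3; omega
        cB2 := by show 2 * CB + 1 ≤ 16 + (2 * CB + 1) + CC + CL + c0 + k1 + k2 + k3; omega
        cC := by show CC ≤ 16 + (2 * CB + 1) + CC + CL + c0 + k1 + k2 + k3; omega
        cL := by show CL ≤ 16 + (2 * CB + 1) + CC + CL + c0 + k1 + k2 + k3; omega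
        l1 := hl.ge
        g1 := by show (l + CC + 11) * CW ≤ g; omega
        g0 := by omega
        x1 := hx.ge
        y1 := hy.ge
        r1 := hr.ge
        m1 := by show 4 * r + 1 + y ≤ 2 * m; omega
        m2 := by show r + 3 ≤ m; omega
        b1 := by show 2 * g + r + 7 + y ≤ b; omega
        b2 := by show y + 10 * CL + 6 ≤ 2 * b; omega
        b3 := by show 2 * m + 3 ≤ 6 * b + 8 * r; omega
        Z1 := fun k (hk : 16 + (2 * CB + 1) + CC + CL + c0 + k1 + k2 + k3 ≤ k) => hk1 k (by omega)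
        Z2 := fun k (hk : 16 + (2 * CB + 1) + CC + CL + c0 + k1 + k2 + k3 ≤ k) => hk2 k (by omega)
        Z3 := fun k (hk : 16 + (2 * CB + 1) + CC + CL + c0 + k1 + k2 + k3 ≤ k) => hk3 k (by omega) }
  · show c0 ≤ 16 + (2 * CB + 1) + CC + CL + c0 + k1 + k2 + k3
    omega

section
variable {C : Cst} {h : HInst} {CA CC CW CL g x y : ℕ}

/-- scaled displacement field of rational physical displacements -/
def dS (C : Cst) (h : HInst) (D : (Fin 3 → ℤ) → Fin 3 → ℚ) (α : Fin 3 → ℤ) : Pos3 :=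
  (1 / lamP C h) • WithLp.toLp 2 (fun c => ((D α c : ℚ) : ℝ))

theorem kP_ge (hG : Good C CA CC CW CL g x y) : 16 ≤ kP C h :=
  hG.c16.trans (c_le_kP C h (by have := hG.c16; omega))

theorem kP_ge_real (hG : Good C CA CC CW CL g x y) : (16 : ℝ) ≤ kP C h := by
  exact_mod_cast kP_ge hG

theorem kP_gec (hG : Good C CA CC CW CL g x y) : C.c ≤ kP C h :=
  c_le_kP C h (by have := hG.c16; omega)

theorem lamP_pos (hG : Good C CA CC CW CL g x y) : 0 < lamP C h := by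
  rw [lamP_eq]
  have := kP_ge_real (h := h) hG
  have := kap_pos
  positivity

theorem sP_pos (hG : Good C CA CC CW CL g x y) : 0 < sP C h := by
  rw [sP_eq]
  have := kP_ge_real (h := h) hG
  have := kap_pos
  positivity

theorem sP_cube (hG : Good C CA CC CW CL g x y) : sP C h ^ 3 = 4 * Real.pi * lamP C h / 3 := by
  rw [lamP_eq, sP_eq]
  have hk := kP_ge_real (h := h) hG
  have hκ := kap_pos
  have h4 := kap_pow4
  have hB : (0 : ℝ) < (kP C h : ℝ) ^ C.b := by positivity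
  have hpi := Real.pi_pos
  have h5 : kap ^ 4 * (4 * Real.pi) = 3 := by rw [h4]; field_simp
  field_simp
  linarith

theorem norm_gradient_le {f : Pos3 → ℝ} {x : Pos3} {G : ℝ} (hf : ‖fderiv ℝ f x‖ ≤ G) :
    ‖gradient f x‖ ≤ G := by
  unfold gradient
  rwa [LinearIsometryEquiv.norm_map]

theorem norm_le_of_comp {v : Pos3} {δ : ℝ} (hδ : 0 ≤ δ) (hv : ∀ c, |v c| ≤ δ) : ‖v‖ ≤ 2 * δ := by
  rw [EuclideanSpace.norm_eq]
  apply Real.sqrt_le_iff.2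
  refine ⟨by positivity, ?_⟩
  calc ∑ i, ‖v i‖ ^ 2 ≤ ∑ _i : Fin 3, δ ^ 2 := by
        refine Finset.sum_le_sum fun c _ => ?_
        rw [Real.norm_eq_abs]
        exact pow_le_pow_left₀ (abs_nonneg _) (hv c) 2
    _ = 3 * δ ^ 2 := by simp
    _ ≤ (2 * δ) ^ 2 := by nlinarith [sq_nonneg δ]

theorem dS_apply (D : (Fin 3 → ℤ) → Fin 3 → ℚ) (α : Fin 3 → ℤ) (c : Fin 3) :
    dS C h D α c = 1 / lamP C h * ((D α c : ℚ) : ℝ) := by
  simp [dS]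

theorem dapp (hG : Good C CA CC CW CL g x y) {D : (Fin 3 → ℤ) → Fin 3 → ℚ}
    (hD : ∀ α c, |((D α c : ℚ) : ℝ) - DexP C h α c| ≤ (1 / 2) ^ kP C h) (α : Fin 3 → ℤ) :
    ‖dS C h D α - (sP C h ^ 3 / (4 * Real.pi)) • gradient (wcP C h) (Lat.pt (sP C h) α)‖ ≤
      2 * (1 / 2 ^ kP C h) / lamP C h := by
  have hlam := lamP_pos (h := h) hG
  have e0 : 2 * (1 / 2 ^ kP C h) / lamP C h = 2 * ((1 / 2) ^ kP C h / lamP C h) := by
    rw [one_div_pow]; ring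
  rw [e0]
  refine norm_le_of_comp (by positivity) fun c => ?_
  have e1 : (dS C h D α - (sP C h ^ 3 / (4 * Real.pi)) •
      gradient (wcP C h) (Lat.pt (sP C h) α)) c =
      (((D α c : ℚ) : ℝ) - DexP C h α c) / lamP C h := by
    rw [PiLp.sub_apply, PiLp.smul_apply, dS_apply, smul_eq_mul, sP_cube hG]
    unfold DexP
    have hpi := Real.pi_pos
    field_simp
  rw [e1, abs_div, abs_of_pos hlam]
  exact div_le_div_of_nonneg_right (hD α c) hlam.le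

theorem n0P_real_le (hG : Good C CA CC CW CL g x y) (h1 : 1 ≤ h.n) :
    (n0P C h : ℝ) ≤ (kP C h : ℝ) ^ 9 := by
  exact_mod_cast n0P_le C h hG.c16 h1

theorem Gbound (hG : Good C CA CC CW CL g x y) (h1 : 1 ≤ h.n) :
    ((n0P C h : ℝ) + LamP C h + (kP C h : ℝ) ^ CC + 2) ^ CW ≤ (kP C h : ℝ) ^ g := by
  have hk := kP_ge_real (h := h) hG
  have hk1 : (1 : ℝ) ≤ kP C h := by linarith
  have h2 : (n0P C h : ℝ) + LamP C h + (kP C h : ℝ) ^ CC + 2 ≤ (kP C h : ℝ) ^ (C.l + CC + 11) := by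
    rw [LamP_cast]
    have a1 : (n0P C h : ℝ) ≤ (kP C h : ℝ) ^ (C.l + CC + 10) :=
      (n0P_real_le hG h1).trans (pow_le_pow_right₀ hk1 (by omega))
    have a2 : (kP C h : ℝ) ^ C.l ≤ (kP C h : ℝ) ^ (C.l + CC + 10) :=
      pow_le_pow_right₀ hk1 (by omega)
    have a3 : (kP C h : ℝ) ^ CC ≤ (kP C h : ℝ) ^ (C.l + CC + 10) :=
      pow_le_pow_right₀ hk1 (by omega)
    have a4 : (2 : ℝ) ≤ (kP C h : ℝ) ^ (C.l + CC + 10) := by
      calc (2 : ℝ) ≤ (kP C h : ℝ) ^ 1 := by rw [pow_one]; linarith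
        _ ≤ _ := pow_le_pow_right₀ hk1 (by omega)
    rw [show C.l + CC + 11 = (C.l + CC + 10) + 1 by ring, pow_succ]
    nlinarith [pow_pos (show (0 : ℝ) < kP C h by linarith) (C.l + CC + 10)]
  calc _ ≤ ((kP C h : ℝ) ^ (C.l + CC + 11)) ^ CW := by gcongr
    _ = (kP C h : ℝ) ^ ((C.l + CC + 11) * CW) := by rw [← pow_mul]
    _ ≤ _ := pow_le_pow_right₀ hk1 hG.g1

/-- the bound needed for small displacements -/
theorem dsmall_aux (hG : Good C CA CC CW CL g x y) :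
    2 * (1 / 2 ^ kP C h) / lamP C h + lamP C h / 3 * (kP C h : ℝ) ^ g ≤ sP C h / 8 := by
  have hk := kP_ge_real (h := h) hG
  have hk1 : (1 : ℝ) ≤ kP C h := by linarith
  have hk0 : (0 : ℝ) < kP C h := by linarith
  have hκ0 := kap_pos
  have hκ := kap_ge
  have hκ1 := kap_le
  set k : ℝ := (kP C h : ℝ) with hkdef
  have hs : 1 / k ^ (2 * C.b) ≤ sP C h := by rw [sP_eq]; exact s_ge hk1 hκ0 hκ1
  have hb1 := hG.b1
  have hy1 := hG.y1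
  -- first term
  have t1 : 2 * (1 / 2 ^ kP C h) / lamP C h ≤ 1 / k ^ (2 * C.b) / 16 := by
    have hZ := hG.Z3 (kP C h) (kP_gec hG)
    rw [← hkdef] at hZ
    have hP0 : (0 : ℝ) < 2 ^ kP C h := by positivity
    have e1 : 2 * (1 / 2 ^ kP C h) / lamP C h = 2 * (k ^ C.b) ^ 6 / kap / 2 ^ kP C h := by
      rw [lamP_eq]; field_simp; rfl
    rw [e1, div_le_iff₀ hP0]
    have h2 : 2 * (k ^ C.b) ^ 6 / kap ≤ 4 * k ^ (6 * C.b) := by
      rw [div_le_iff₀ hκ0, ← pow_mul, mul_comm C.b 6]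
      have : 0 < k ^ (6 * C.b) := by positivity
      nlinarith
    have h3 : 4 * k ^ (6 * C.b) * (k ^ (2 * C.b) * 16) ≤ 2 ^ kP C h := by
      refine le_trans ?_ hZ
      have h64 : (64 : ℝ) ≤ k ^ 8 := by
        have : (16 : ℝ) ^ 8 ≤ k ^ 8 := pow_le_pow_left₀ (by norm_num) hk 8
        norm_num at this
        linarith
      calc 4 * k ^ (6 * C.b) * (k ^ (2 * C.b) * 16) = 64 * k ^ (8 * C.b) := by ring
        _ ≤ k ^ 8 * k ^ (8 * C.b) := by gcongr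
        _ = k ^ (8 * C.b + 8) := by ring
    refine h2.trans ?_
    have e2 : 1 / k ^ (2 * C.b) / 16 * 2 ^ kP C h = 2 ^ kP C h / (k ^ (2 * C.b) * 16) := by
      field_simp
    rw [e2, le_div_iff₀ (by positivity)]
    exact h3
  -- second term
  have t2 : lamP C h / 3 * k ^ g ≤ 1 / k ^ (2 * C.b) / 16 := by
    have h1 : lamP C h * k ^ (g + 4) ≤ 1 / k ^ (2 * C.b) := by
      rw [lamP_eq]
      exact lam_mul_le hk1 hκ1 (by omega)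
    have h2 : 16 * k ^ g ≤ k ^ (g + 4) := by
      rw [pow_add]
      have : (16 : ℝ) ^ 4 ≤ k ^ 4 := pow_le_pow_left₀ (by norm_num) hk 4
      norm_num at this
      have h3 : 0 < k ^ g := by positivity
      nlinarith
    have hl := lamP_pos (h := h) hG
    have h3 : lamP C h * (16 * k ^ g) ≤ lamP C h * k ^ (g + 4) := by gcongr
    have h4 : 0 < lamP C h * k ^ g := by positivity
    rw [le_div_iff₀ (by norm_num)]
    nlinarith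
  linarith

/-- the radius of the displacement region -/
def LwD (C : Cst) (h : HInst) : ℝ := (MdP C h : ℝ) * sP C h

/-- the precision of the displacements -/
def epsD (C : Cst) (h : HInst) : ℝ := 2 * (1 / 2 ^ kP C h) / lamP C h

theorem LwD_ge (hG : Good C CA CC CW CL g x y) : 4 * (RP C h : ℝ) ≤ LwD C h := by
  have hk := kP_ge_real (h := h) hG
  have hκ0 := kap_pos
  have hκ1 := kap_le
  unfold LwD
  rw [MdP_cast, sP_eq, RP_cast]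
  set k : ℝ := (kP C h : ℝ) with hkdef
  have hB : 0 < k ^ C.b := by positivity
  have e1 : 4 * (k ^ C.r * (k ^ C.b) ^ 3) * (k ^ C.b) ^ 2 * (1 / (kap * (k ^ C.b) ^ 2)) =
      4 * (k ^ C.r * (k ^ C.b) ^ 3) / kap := by field_simp
  rw [e1, le_div_iff₀ hκ0]
  have : 0 < 4 * (k ^ C.r * (k ^ C.b) ^ 3) := by positivity
  nlinarith

theorem RP_pos (hG : Good C CA CC CW CL g x y) : (1 : ℝ) ≤ RP C h := by
  have hk := kP_ge_real (h := h) hG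
  rw [RP_cast]
  have h1 : (1 : ℝ) ≤ kP C h := by linarith
  have h2 : (1 : ℝ) ≤ (kP C h : ℝ) ^ C.r := one_le_pow₀ h1
  have h3 : (1 : ℝ) ≤ ((kP C h : ℝ) ^ C.b) ^ 3 := one_le_pow₀ (one_le_pow₀ h1)
  nlinarith

theorem RP_ge (hG : Good C CA CC CW CL g x y) {e : ℕ} (he : e ≤ C.r) :
    (kP C h : ℝ) ^ e ≤ RP C h := by
  have hk := kP_ge_real (h := h) hG
  rw [RP_cast]
  have h1 : (1 : ℝ) ≤ kP C h := by linarith
  have h2 : (kP C h : ℝ) ^ e ≤ (kP C h : ℝ) ^ C.r := pow_le_pow_right₀ h1 he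
  have h3 : (1 : ℝ) ≤ ((kP C h : ℝ) ^ C.b) ^ 3 := one_le_pow₀ (one_le_pow₀ h1)
  have h4 : 0 < (kP C h : ℝ) ^ C.r := by positivity
  nlinarith

/-- the calibrated amplitudes -/
theorem calFacts (hG : Good C CA CC CW CL g x y)
    (hCal : ∀ n k : ℕ, (CC * (n + 1)) ^ CC ≤ k → ∀ (j0 : ℝ) (J : ℕ → ℕ → ℝ),
      (∃! p : (ℕ → ℕ → ℝ) × (ℕ → ℝ), IsCal n k j0 J p.1 p.2) ∧
      (0 ≤ j0 → j0 ≤ 1 → (∀ i j, 0 ≤ J i j ∧ J i j ≤ 1) →
        ∀ (A : ℕ → ℕ → ℝ) (a : ℕ → ℝ), IsCal n k j0 J A a →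
          (∀ i j, |A i j| ≤ (k : ℝ) ^ CC) ∧ ∀ i, |a i| ≤ (k : ℝ) ^ CC)) (hv : h.Valid) :
    IsCal h.n (kP C h) (j0P C h) (JfP h) (AcP C h) (acP C h) ∧
      (∀ i j, |AcP C h i j| ≤ (kP C h : ℝ) ^ CC) ∧ ∀ i, |acP C h i| ≤ (kP C h : ℝ) ^ CC := by
  obtain ⟨h1, h2⟩ := hCal h.n (kP C h) (hCalk C h (by have := hG.c16; omega) hG.cC) (j0P C h) (JfP h)
  have hex : ∃ p : (ℕ → ℕ → ℝ) × (ℕ → ℝ), IsCal h.n (kP C h) (j0P C h) (JfP h) p.1 p.2 := h1.exists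
  have h3 : IsCal h.n (kP C h) (j0P C h) (JfP h) (AcP C h) (acP C h) := by
    unfold AcP acP calSol
    rw [dif_pos hex]
    exact hex.choose_spec
  have hk := kP_ge_real (h := h) hG
  have hj0 : 0 ≤ j0P C h := by unfold j0P; positivity
  have hn1 : (1 : ℝ) ≤ (h.n : ℝ) := by exact_mod_cast (by have := hv.1; omega : 1 ≤ h.n)
  have hq1 : (1 : ℝ) ≤ (h.q : ℝ) := by exact_mod_cast hv.2.1
  have hj1 : j0P C h ≤ 1 := by
    unfold j0P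
    rw [div_le_one (by positivity)]
    have a1 : (1 : ℝ) ≤ ((h.n : ℝ) * h.q) ^ C.cB := one_le_pow₀ (by nlinarith)
    have a2 : (1 : ℝ) ≤ (kP C h : ℝ) ^ 4 := one_le_pow₀ (by linarith)
    nlinarith
  have hJ : ∀ i j, 0 ≤ JfP h i j ∧ JfP h i j ≤ 1 := by
    intro i j
    obtain ⟨a1, a2⟩ := hv.2.2 i j
    unfold JfP
    exact ⟨by exact_mod_cast a1, by exact_mod_cast a2⟩
  exact ⟨h3, h2 hj0 hj1 hJ _ _ h3⟩

/-- the body of `WcStmt` for our data -/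
theorem wcFacts (hG : Good C CA CC CW CL g x y)
    (hWc : ∀ (n k : ℕ) (Lam Amax : ℝ) (A : ℕ → ℕ → ℝ) (a : ℕ → ℝ) (Lw : ℝ),
      1 ≤ n → 1 ≤ k → 1 ≤ Lam → 1 ≤ Amax → 1 ≤ Lw → (∀ i j, |A i j| ≤ Amax) → (∀ i, |a i| ≤ Amax) →
      let w := wpot n k Lam A a
      let wc := wcut Lw w
      let G := ((n0' n k : ℝ) + Lam + Amax + 2) ^ CW
      Continuous w ∧ (∀ x, |w x| ≤ G) ∧ (∀ x, |wc x| ≤ G) ∧ ContDiff ℝ 1 wc ∧
      (∀ x, (∀ c, |x c| ≤ Lw) → wc x = w x) ∧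
      (∀ x, (∃ c, 2 * Lw ≤ |x c|) → wc x = 0) ∧
      (∀ x, ‖fderiv ℝ wc x‖ ≤ G) ∧
      (∀ x v, ‖fderiv ℝ wc (x + v) - fderiv ℝ wc x‖ ≤ G * ‖v‖) ∧
      (∀ x v, ‖fderiv ℝ wc (x + v) + fderiv ℝ wc (x - v) - (2 : ℝ) • fderiv ℝ wc x‖ ≤ G * ‖v‖ ^ 2))
    (hv : h.Valid) (hA : ∀ i j, |AcP C h i j| ≤ (kP C h : ℝ) ^ CC)
    (ha : ∀ i, |acP C h i| ≤ (kP C h : ℝ) ^ CC) :
    Continuous (wP C h) ∧ (∀ x, |wP C h x| ≤ (kP C h : ℝ) ^ g) ∧
      (∀ x, |wcP C h x| ≤ (kP C h : ℝ) ^ g) ∧ ContDiff ℝ 1 (wcP C h) ∧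
      (∀ x : Pos3, (∀ c, |x c| ≤ 2 * (RP C h : ℝ)) → wcP C h x = wP C h x) ∧
      (∀ x : Pos3, (∃ c, 4 * (RP C h : ℝ) ≤ |x c|) → wcP C h x = 0) ∧
      (∀ x, ‖fderiv ℝ (wcP C h) x‖ ≤ (kP C h : ℝ) ^ g) ∧
      (∀ x v, ‖fderiv ℝ (wcP C h) (x + v) - fderiv ℝ (wcP C h) x‖ ≤ (kP C h : ℝ) ^ g * ‖v‖) ∧
      (∀ x v, ‖fderiv ℝ (wcP C h) (x + v) + fderiv ℝ (wcP C h) (x - v) -
        (2 : ℝ) • fderiv ℝ (wcP C h) x‖ ≤ (kP C h : ℝ) ^ g * ‖v‖ ^ 2) := by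
  have hk := kP_ge_real (h := h) hG
  have hkn := kP_ge (h := h) hG
  have hn1 : 1 ≤ h.n := by have := hv.1; omega
  have hR := RP_pos (h := h) hG
  have hLam : (1 : ℝ) ≤ (LamP C h : ℝ) := by
    rw [LamP_cast]; exact one_le_pow₀ (by linarith)
  have hAm : (1 : ℝ) ≤ (kP C h : ℝ) ^ CC := one_le_pow₀ (by linarith)
  obtain ⟨w1, w2, w3, w4, w5, w6, w7, w8, w9⟩ := hWc h.n (kP C h) (LamP C h) ((kP C h : ℝ) ^ CC)
    (AcP C h) (acP C h) (2 * (RP C h : ℝ)) hn1 (by omega) hLam hAm (by linarith) hA ha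
  have hGb := Gbound hG hn1
  refine ⟨w1, fun x => (w2 x).trans hGb, fun x => (w3 x).trans hGb, w4, w5, ?_,
    fun x => (w7 x).trans hGb, fun x v => (w8 x v).trans ?_, fun x v => (w9 x v).trans ?_⟩
  · rintro x ⟨c, hc⟩
    exact w6 x ⟨c, by linarith⟩
  · exact mul_le_mul_of_nonneg_right hGb (norm_nonneg _)
  · exact mul_le_mul_of_nonneg_right hGb (by positivity)

/-- the displacements of the map satisfy `Disp` -/
theorem disp_of (hG : Good C CA CC CW CL g x y) {D : (Fin 3 → ℤ) → Fin 3 → ℚ}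
    (hD : ∀ α c, |((D α c : ℚ) : ℝ) - DexP C h α c| ≤ (1 / 2) ^ kP C h)
    (hD0 : ∀ α, (∃ c, (MdP C h : ℤ) < |α c|) → D α = 0)
    (w4 : ContDiff ℝ 1 (wcP C h))
    (w6 : ∀ x : Pos3, (∃ c, 4 * (RP C h : ℝ) ≤ |x c|) → wcP C h x = 0)
    (w7 : ∀ x, ‖fderiv ℝ (wcP C h) x‖ ≤ (kP C h : ℝ) ^ g)
    (w8 : ∀ x v, ‖fderiv ℝ (wcP C h) (x + v) - fderiv ℝ (wcP C h) x‖ ≤ (kP C h : ℝ) ^ g * ‖v‖)
    (w9 : ∀ x v, ‖fderiv ℝ (wcP C h) (x + v) + fderiv ℝ (wcP C h) (x - v) -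
        (2 : ℝ) • fderiv ℝ (wcP C h) x‖ ≤ (kP C h : ℝ) ^ g * ‖v‖ ^ 2) :
    Lat.Disp (sP C h) (dS C h D) (wcP C h) (LwD C h) ((kP C h : ℝ) ^ g) (epsD C h) ∧
      ∀ α, ‖dS C h D α‖ ≤ sP C h / 8 := by
  have hs := sP_pos (h := h) hG
  have hl := lamP_pos (h := h) hG
  have hsm : ∀ α, ‖dS C h D α‖ ≤ sP C h / 8 := by
    intro α
    have h1 := dapp hG hD α
    have h2 := dsmall_aux (h := h) hG
    have h3 : ‖(sP C h ^ 3 / (4 * Real.pi)) • gradient (wcP C h) (Lat.pt (sP C h) α)‖ ≤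
        lamP C h / 3 * (kP C h : ℝ) ^ g := by
      rw [norm_smul, sP_cube hG]
      have hpi := Real.pi_pos
      have e1 : 4 * Real.pi * lamP C h / 3 / (4 * Real.pi) = lamP C h / 3 := by field_simp
      rw [e1, Real.norm_eq_abs, abs_of_pos (by positivity)]
      exact mul_le_mul_of_nonneg_left (norm_gradient_le (w7 _)) (by positivity)
    calc ‖dS C h D α‖ = ‖(dS C h D α - (sP C h ^ 3 / (4 * Real.pi)) •
          gradient (wcP C h) (Lat.pt (sP C h) α)) + (sP C h ^ 3 / (4 * Real.pi)) •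
          gradient (wcP C h) (Lat.pt (sP C h) α)‖ := by rw [sub_add_cancel]
      _ ≤ _ := (norm_add_le _ _).trans (add_le_add h1 h3)
      _ ≤ _ := h2
  refine ⟨⟨w4, ?_, w7, w8, w9, fun α => dapp hG hD α, ?_, fun α => (hsm α).trans (by linarith)⟩, hsm⟩
  · rintro x ⟨c, hc⟩
    exact w6 x ⟨c, (LwD_ge hG).trans hc.le⟩
  · rintro α ⟨c, hc⟩
    have h1 : D α = 0 := by
      refine hD0 α ⟨c, ?_⟩
      unfold LwD at hc
      rw [abs_mul, abs_of_pos hs, mul_comm] at hc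
      have h2 : (MdP C h : ℝ) < |(α c : ℝ)| := lt_of_mul_lt_mul_left hc hs.le
      exact_mod_cast h2
    unfold dS
    rw [h1]
    ext c
    simp

end

end Crest.Agent.R338.P2

end
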