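import Crest.Agent.R338.P2Defs
import Crest.Agent.R338.P2Arith

/-!
# Row 338, node P2 (helper714): `PartIIStmt` from the node statements
-/

set_option autoImplicit false

noncomputable section

open MeasureTheory Crest.Quantum.QMA Crest.MathPhysics.CoulombProblem
open Crest.MathPhysics.ElectronicCoulomb
open Crest.Agent.Lib.PT

namespace Crest.Agent.R338.P2

/-! ## `κ` -/

theorem kap_pow4 : kap ^ 4 = 3 / (4 * Real.pi) := by
  have h1 : kap ^ 4 = (kap ^ 2) ^ 2 := by ring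
  rw [h1]
  unfold kap
  rw [Real.sq_sqrt (Real.sqrt_nonneg _), Real.sq_sqrt (by positivity)]

theorem kap_nonneg : 0 ≤ kap := Real.sqrt_nonneg _

theorem kap_ge : 1 / 2 ≤ kap := by
  by_contra hlt
  push Not at hlt
  have h1 : kap ^ 4 < (1 / 2) ^ 4 := pow_lt_pow_left₀ hlt kap_nonneg (by norm_num)
  rw [kap_pow4, div_lt_iff₀ (by positivity)] at h1
  have := Real.pi_lt_four
  norm_num at h1
  linarith

theorem kap_le : kap ≤ 1 := by
  by_contra hlt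
  push Not at hlt
  have h1 : 1 ^ 4 < kap ^ 4 := pow_lt_pow_left₀ hlt (by norm_num) (by norm_num)
  rw [kap_pow4, lt_div_iff₀ (by positivity)] at h1
  have := Real.pi_gt_three
  linarith

theorem kap_pos : 0 < kap := lt_of_lt_of_le (by norm_num) kap_ge

/-! ## casts -/

section casts
variable (C : Cst) (h : HInst)

theorem BP_cast : (BP C h : ℝ) = (kP C h : ℝ) ^ C.b := by unfold BP; push_cast; rfl
theorem LamP_cast : (LamP C h : ℝ) = (kP C h : ℝ) ^ C.l := by unfold LamP; push_cast; rfl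
theorem RP_cast : (RP C h : ℝ) = (kP C h : ℝ) ^ C.r * ((kP C h : ℝ) ^ C.b) ^ 3 := by
  unfold RP; push_cast; rw [BP_cast]
theorem nLP_cast : (nLP C h : ℝ) = (kP C h : ℝ) ^ C.m * ((kP C h : ℝ) ^ C.b) ^ 11 := by
  unfold nLP; push_cast; rw [BP_cast]
theorem MdP_cast : (MdP C h : ℝ) =
    4 * ((kP C h : ℝ) ^ C.r * ((kP C h : ℝ) ^ C.b) ^ 3) * ((kP C h : ℝ) ^ C.b) ^ 2 := by
  unfold MdP; push_cast; rw [RP_cast, BP_cast]
theorem lamP_eq : lamP C h = kap / ((kP C h : ℝ) ^ C.b) ^ 6 := by unfold lamP; rw [BP_cast]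
theorem sP_eq : sP C h = 1 / (kap * ((kP C h : ℝ) ^ C.b) ^ 2) := by unfold sP; rw [BP_cast]
theorem AP_cast : (AP C h : ℝ) = ((kP C h : ℝ) ^ C.b) ^ 8 := by
  unfold AP; push_cast; rw [BP_cast]

end casts

/-! ## sizes of `k` -/

section ksize
variable (C : Cst) (h : HInst)

theorem base_pos (hc : 1 ≤ C.c) : 1 ≤ C.c * (h.n + 2) * (h.q + 1) :=
  Nat.one_le_iff_ne_zero.2 (by positivity)

theorem pow_le_kP (hc : 1 ≤ C.c) {e : ℕ} (he : e ≤ C.c) :
    (C.c * (h.n + 2) * (h.q + 1)) ^ e ≤ kP C h := by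
  unfold kP
  exact Nat.pow_le_pow_right (base_pos C h hc) he

theorem c_le_kP (hc : 1 ≤ C.c) : C.c ≤ kP C h := by
  refine le_trans ?_ (pow_le_kP C h hc (e := 1) hc)
  rw [pow_one, mul_assoc]
  exact Nat.le_mul_of_pos_right _ (by positivity)

theorem gen_le_kP (hc : 1 ≤ C.c) {X e : ℕ} (he : e ≤ C.c)
    (hX : X ≤ (C.c * (h.n + 2) * (h.q + 1)) ^ e) : X ≤ kP C h :=
  hX.trans (pow_le_kP C h hc he)

theorem hBHk (hc : 1 ≤ C.c) {CB : ℕ} (hCB : 2 * CB ≤ C.c) : (CB * h.n * h.q) ^ (2 * CB) ≤ kP C h := by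
  refine gen_le_kP C h hc (e := 2 * CB) hCB (Nat.pow_le_pow_left ?_ _)
  have : CB ≤ C.c := by omega
  gcongr <;> omega

theorem hCalk (hc : 1 ≤ C.c) {CC : ℕ} (hCC : CC ≤ C.c) : (CC * (h.n + 1)) ^ CC ≤ kP C h := by
  refine gen_le_kP C h hc (e := CC) hCC (Nat.pow_le_pow_left ?_ _)
  calc CC * (h.n + 1) ≤ C.c * (h.n + 2) := by gcongr; omega
    _ ≤ C.c * (h.n + 2) * (h.q + 1) := Nat.le_mul_of_pos_right _ (by positivity)

theorem hnqk (hc : C.cB + 1 ≤ C.c) : (h.n * h.q) ^ C.cB * h.q ≤ kP C h := by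
  refine gen_le_kP C h (by omega) (e := C.cB + 1) hc ?_
  have h1 : h.n * h.q ≤ C.c * (h.n + 2) * (h.q + 1) := by
    calc h.n * h.q ≤ (h.n + 2) * (h.q + 1) := by gcongr <;> omega
      _ ≤ C.c * ((h.n + 2) * (h.q + 1)) := Nat.le_mul_of_pos_left _ (by omega)
      _ = _ := by ring
  have h2 : h.q ≤ C.c * (h.n + 2) * (h.q + 1) := by
    calc h.q ≤ 1 * (h.q + 1) := by omega
      _ ≤ C.c * (h.n + 2) * (h.q + 1) := by
        gcongr
        exact Nat.one_le_iff_ne_zero.2 (by have : C.c ≠ 0 := by omega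
                                           positivity)
  rw [pow_succ]
  gcongr

theorem Yn_le (hc : 4 ≤ C.c) (h1 : 1 ≤ h.n) : Yn h.n ≤ kP C h := by
  refine gen_le_kP C h (by omega) (e := 3) (by omega) ?_
  have h2 : Yn h.n ≤ 32 * h.n ^ 3 := by
    unfold Yn
    nlinarith [pow_le_pow_right₀ h1 (show 2 ≤ 3 by norm_num)]
  have h3 : (4 * (h.n + 2) * 1) ^ 3 ≤ (C.c * (h.n + 2) * (h.q + 1)) ^ 3 := by
    gcongr
    omega
  refine h2.trans (le_trans ?_ h3)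
  nlinarith [pow_pos (show 0 < h.n by omega) 3, pow_pos (show 0 < h.n by omega) 2]

theorem n0P_le (hc : 16 ≤ C.c) (h1 : 1 ≤ h.n) : n0P C h ≤ kP C h ^ 9 := by
  have hY := Yn_le C h (by omega) h1
  have hk : 16 ≤ kP C h := hc.trans (c_le_kP C h (by omega))
  unfold n0P n0'
  calc 16 * (kP C h ^ 3) ^ 2 * Yn h.n ^ 2 ≤ kP C h * (kP C h ^ 3) ^ 2 * kP C h ^ 2 := by gcongr
    _ = kP C h ^ 9 := by ring

theorem n_le_n0P (hc : 1 ≤ C.c) (h1 : 1 ≤ h.n) : h.n ≤ n0P C h := by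
  have hk : 1 ≤ kP C h := hc.trans (c_le_kP C h hc)
  have hY : h.n ≤ Yn h.n := by
    unfold Yn
    nlinarith [pow_le_pow_right₀ h1 (show 1 ≤ 3 by norm_num)]
  unfold n0P n0'
  calc h.n ≤ 1 * 1 * h.n ^ 2 := by nlinarith
    _ ≤ 16 * (kP C h ^ 3) ^ 2 * Yn h.n ^ 2 := by
      have : 1 ≤ (kP C h ^ 3) ^ 2 := Nat.one_le_pow _ _ (Nat.pow_pos hk)
      gcongr
      norm_num

end ksize

end Crest.Agent.R338.P2

end
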