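import Crest.Agent.R338.P2Lat

/-!
# Row 338, node P2 (helper714): `NucOK` for the data of the map, and the size of the error
-/

set_option autoImplicit false

noncomputable section

open MeasureTheory Crest.Quantum.QMA Crest.MathPhysics.CoulombProblem
open Crest.MathPhysics.ElectronicCoulomb
open Crest.Agent.Lib.PT

namespace Crest.Agent.R338.P2

section
variable {C : Cst} {h : HInst} {CA CC CW CL g x y : ℕ}

/-- `eps2` -/
def E2P (C : Cst) (h : HInst) (CL g : ℕ) : ℝ :=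
  CL * ((RP C h : ℝ) ^ 4 / ((nLP C h : ℝ) * sP C h) ^ 2 +
    lamP C h * ((kP C h : ℝ) ^ g) ^ 2 * (sP C h ^ 2 * LwD C h + (kP C h : ℝ) * sP C h) +
    lamP C h * epsD C h * LwD C h / sP C h ^ 3 +
    ((nLP C h : ℝ) + 1) ^ CL * Real.exp (-(kP C h : ℝ) ^ 2) / sP C h ^ CL)

/-- `eps1` -/
def E1P (C : Cst) (h : HInst) (CL : ℕ) : ℝ :=
  CL * ((n0P C h : ℝ) + 2) ^ CL * lamP C h * (kP C h : ℝ) ^ 4 * sP C h

/-- `kF` -/
def kFP (C : Cst) (h : HInst) (CL : ℕ) : ℝ := CL * lamP C h * (kP C h : ℝ) ^ 3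

theorem CL_le (hG : Good C CA CC CW CL g x y) : (CL : ℝ) ≤ kP C h := by
  exact_mod_cast hG.cL.trans (kP_gec hG)

theorem n0P_two (hG : Good C CA CC CW CL g x y) (h1 : 1 ≤ h.n) :
    (n0P C h : ℝ) + 2 ≤ (kP C h : ℝ) ^ 10 := by
  have h2 := n0P_real_le hG h1
  have hk := kP_ge_real (h := h) hG
  have h3 : (1 : ℝ) ≤ (kP C h : ℝ) ^ 9 := one_le_pow₀ (by linarith)
  rw [pow_succ]
  nlinarith

theorem E1P_le (hG : Good C CA CC CW CL g x y) (h1 : 1 ≤ h.n) :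
    E1P C h CL ≤ lamP C h / (kP C h : ℝ) ^ y := by
  unfold E1P
  rw [lamP_eq, sP_eq]
  have hk := kP_ge_real (h := h) hG
  exact T3 (by linarith) kap_ge (CL_le hG) (Nat.cast_nonneg _) (n0P_two hG h1) hG.b2

theorem E1P_nonneg (hG : Good C CA CC CW CL g x y) : 0 ≤ E1P C h CL := by
  have := lamP_pos (h := h) hG
  have := sP_pos (h := h) hG
  unfold E1P
  positivity

theorem kFP_nonneg (hG : Good C CA CC CW CL g x y) : 0 ≤ kFP C h CL := by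
  have := lamP_pos (h := h) hG
  unfold kFP
  positivity

theorem LwD_eq : LwD C h = 4 * ((kP C h : ℝ) ^ C.r * ((kP C h : ℝ) ^ C.b) ^ 3) *
    ((kP C h : ℝ) ^ C.b) ^ 2 * (1 / (kap * ((kP C h : ℝ) ^ C.b) ^ 2)) := by
  unfold LwD
  rw [MdP_cast, sP_eq]

theorem E2P_le (hG : Good C CA CC CW CL g x y) :
    E2P C h CL g ≤ lamP C h / (kP C h : ℝ) ^ (x + 12) := by
  have hk := kP_ge_real (h := h) hG
  have hk1 : (1 : ℝ) ≤ kP C h := by linarith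
  have hk2 : (2 : ℝ) ≤ kP C h := by linarith
  have hl := lamP_pos (h := h) hG
  have a1 : (RP C h : ℝ) ^ 4 / ((nLP C h : ℝ) * sP C h) ^ 2 ≤ lamP C h / (kP C h : ℝ) ^ y := by
    rw [RP_cast, nLP_cast, sP_eq, lamP_eq]
    exact T4a hk2 kap_ge kap_le hG.m1
  have a2 : lamP C h * ((kP C h : ℝ) ^ g) ^ 2 * (sP C h ^ 2 * LwD C h + (kP C h : ℝ) * sP C h) ≤
      lamP C h / (kP C h : ℝ) ^ y := by
    rw [LwD_eq, sP_eq, lamP_eq]
    exact T4b hk2 kap_ge kap_le hG.b1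
  have a3 : lamP C h * epsD C h * LwD C h / sP C h ^ 3 ≤ lamP C h / (kP C h : ℝ) ^ y := by
    unfold epsD
    rw [LwD_eq, sP_eq, lamP_eq]
    exact T4c hk2 kap_ge kap_le (hG.Z1 _ (kP_gec hG))
  have a4 : ((nLP C h : ℝ) + 1) ^ CL * Real.exp (-(kP C h : ℝ) ^ 2) / sP C h ^ CL ≤
      lamP C h / (kP C h : ℝ) ^ y := by
    have e1 : Real.exp (-(kP C h : ℝ) ^ 2) = 1 / Real.exp ((kP C h : ℝ) ^ 2) := by
      rw [Real.exp_neg, one_div]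
    rw [e1, nLP_cast, sP_eq, lamP_eq]
    refine T4d hk2 kap_ge kap_le ((hG.Z2 _ (kP_gec hG)).trans ?_)
    have h3 : (2 : ℝ) ^ kP C h ≤ Real.exp (kP C h) := by
      have h2 : (2 : ℝ) ≤ Real.exp 1 := by have := Real.add_one_le_exp (1 : ℝ); linarith
      calc (2 : ℝ) ^ kP C h ≤ (Real.exp 1) ^ kP C h := pow_le_pow_left₀ (by norm_num) h2 _
        _ = Real.exp (kP C h) := by rw [← Real.exp_nat_mul, mul_one]
    refine h3.trans (Real.exp_le_exp.2 ?_)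
    nlinarith
  unfold E2P
  have hCL := CL_le (h := h) hG
  have hCL0 : (0 : ℝ) ≤ CL := Nat.cast_nonneg _
  have hkp : (0 : ℝ) < kP C h := by linarith
  calc _ ≤ (CL : ℝ) * (lamP C h / (kP C h : ℝ) ^ y + lamP C h / (kP C h : ℝ) ^ y +
        lamP C h / (kP C h : ℝ) ^ y + lamP C h / (kP C h : ℝ) ^ y) := by gcongr
    _ ≤ (kP C h : ℝ) * (lamP C h / (kP C h : ℝ) ^ y + lamP C h / (kP C h : ℝ) ^ y +
        lamP C h / (kP C h : ℝ) ^ y + lamP C h / (kP C h : ℝ) ^ y) := by gcongr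
    _ = lamP C h * (4 * (kP C h : ℝ) / (kP C h : ℝ) ^ y) := by ring
    _ ≤ lamP C h * ((kP C h : ℝ) ^ 2 / (kP C h : ℝ) ^ y) := by gcongr; nlinarith
    _ ≤ lamP C h * (1 / (kP C h : ℝ) ^ (x + 12)) :=
        mul_le_mul_of_nonneg_left (pow_div_le hk1 (by have := hG.y1; omega)) hl.le
    _ = _ := by ring

theorem LwD_pos (hG : Good C CA CC CW CL g x y) : 0 < LwD C h := by
  have h1 := LwD_ge (h := h) hG
  have h2 := RP_pos (h := h) hG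
  linarith

theorem epsD_pos (hG : Good C CA CC CW CL g x y) : 0 < epsD C h := by
  have := lamP_pos (h := h) hG
  unfold epsD
  positivity

theorem E2P_nonneg (hG : Good C CA CC CW CL g x y) : 0 ≤ E2P C h CL g := by
  have h1 := lamP_pos (h := h) hG
  have h2 := sP_pos (h := h) hG
  have h3 := LwD_pos (h := h) hG
  have h4 := epsD_pos (h := h) hG
  unfold E2P
  positivity

theorem lamP_le_pow (hG : Good C CA CC CW CL g x y) {p q : ℕ} (h1 : p + q ≤ 6 * C.b) :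
    lamP C h * (kP C h : ℝ) ^ p ≤ 1 / (kP C h : ℝ) ^ q := by
  have hk := kP_ge_real (h := h) hG
  rw [lamP_eq]
  exact lam_mul_le (by linarith) kap_le h1

theorem lamP_le_one (hG : Good C CA CC CW CL g x y) : lamP C h ≤ 1 := by
  have := lamP_le_pow (h := h) hG (p := 0) (q := 0) (by omega)
  simpa using this

/-- body of `LatStmt` -/
def LatBody (C : ℕ) : Prop := ∀ (n0 nL N : ℕ) (lam s K R Lw G Wb eps : ℝ)
  (d : (Fin 3 → ℤ) → Pos3) (w wc : Pos3 → ℝ) (e : Fin N ≃ {α // α ∈ Lat.Box nL}),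
  0 < lam → lam ≤ 1 → 0 < s → s ≤ 1 → s ^ 3 = 4 * Real.pi * lam / 3 → (C : ℝ) ≤ K → K * s ≤ 1 →
  (C : ℝ) ≤ R → 1 ≤ Lw → Lw + s ≤ nL * s → C * R ≤ nL * s → 1 ≤ G → 0 ≤ eps → 1 ≤ Wb →
  Lat.Disp s d wc Lw G eps → Continuous w → (∀ x, |w x| ≤ Wb) → (∀ x, |wc x| ≤ Wb) →
  (∀ x : Pos3, (∀ c, |x c| ≤ 2 * R) → wc x = w x) →
  C * (lam * Wb) ≤ R ^ 2 → C * ((nL : ℝ) * s) ^ 2 ≤ R ^ 8 →
  let E2 : ℝ := C * (R ^ 4 / ((nL : ℝ) * s) ^ 2 + lam * G ^ 2 * (s ^ 2 * Lw + K * s) +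
      lam * eps * Lw / s ^ 3 + ((nL : ℝ) + 1) ^ C * Real.exp (-K ^ 2) / s ^ C)
  E2 ≤ 1 →
  NucOK n0 lam (-(Lat.V0 lam s (1 / (K * s) ^ 2) nL 0)) R (C * ((n0 : ℝ) + 2) ^ C * lam * K ^ 4 * s)
    E2 (C * lam * K ^ 3) Wb (fun i => Lat.nuc s d (e i).1) w

theorem nucOK_of (hG : Good C CA CC CW CL g x y) (hLat : LatBody CL) {N : ℕ}
    {d : (Fin 3 → ℤ) → Pos3} (e : Fin N ≃ {α // α ∈ Lat.Box (nLP C h)})
    (hd : Lat.Disp (sP C h) d (wcP C h) (LwD C h) ((kP C h : ℝ) ^ g) (epsD C h))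
    (w1 : Continuous (wP C h)) (w2 : ∀ x, |wP C h x| ≤ (kP C h : ℝ) ^ g)
    (w3 : ∀ x, |wcP C h x| ≤ (kP C h : ℝ) ^ g)
    (w5 : ∀ x : Pos3, (∀ c, |x c| ≤ 2 * (RP C h : ℝ)) → wcP C h x = wP C h x) :
    NucOK (n0P C h) (lamP C h) (C0P C h) (RP C h) (E1P C h CL) (E2P C h CL g) (kFP C h CL)
      ((kP C h : ℝ) ^ g) (fun i => Lat.nuc (sP C h) d (e i).1) (wP C h) := by
  have hk := kP_ge_real (h := h) hG
  have hk1 : (1 : ℝ) ≤ kP C h := by linarith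
  have hk0 : (0 : ℝ) < kP C h := by linarith
  have hl := lamP_pos (h := h) hG
  have hl1 := lamP_le_one (h := h) hG
  have hs := sP_pos (h := h) hG
  have hκ0 := kap_pos
  have hκ1 := kap_le
  have hκ := kap_ge
  have hCLk := CL_le (h := h) hG
  have hCL0 : (0 : ℝ) ≤ CL := Nat.cast_nonneg _
  have hR1 := RP_ge (h := h) hG (e := 1) (by have := hG.r1; omega)
  rw [pow_one] at hR1
  have hb : 1 ≤ C.b := by have := hG.b1; omega
  have hs2 : sP C h ≤ 2 / (kP C h : ℝ) ^ (2 * C.b) := by rw [sP_eq]; exact s_le hk1 kap_ge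
  have hks : (kP C h : ℝ) * sP C h ≤ 1 := by
    have h1 : (kP C h : ℝ) * sP C h ≤ kP C h * (2 / (kP C h : ℝ) ^ (2 * C.b)) := by gcongr
    have h2 : (kP C h : ℝ) ^ 2 ≤ (kP C h : ℝ) ^ (2 * C.b) := pow_le_pow_right₀ hk1 (by omega)
    refine h1.trans ?_
    rw [← mul_div_assoc, div_le_one (by positivity)]
    nlinarith
  have hs1 : sP C h ≤ 1 := by nlinarith
  have hG1 : (1 : ℝ) ≤ (kP C h : ℝ) ^ g := one_le_pow₀ hk1
  -- nL s
  have hB : (0 : ℝ) < (kP C h : ℝ) ^ C.b := by positivity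
  have hB1 : (1 : ℝ) ≤ (kP C h : ℝ) ^ C.b := one_le_pow₀ hk1
  have hL : (nLP C h : ℝ) * sP C h = (kP C h : ℝ) ^ C.m * ((kP C h : ℝ) ^ C.b) ^ 9 / kap := by
    rw [nLP_cast, sP_eq]; field_simp
  have hLge : (kP C h : ℝ) ^ C.m * ((kP C h : ℝ) ^ C.b) ^ 9 ≤ (nLP C h : ℝ) * sP C h := by
    rw [hL, le_div_iff₀ hκ0]
    have : 0 < (kP C h : ℝ) ^ C.m * ((kP C h : ℝ) ^ C.b) ^ 9 := by positivity
    nlinarith
  have hLle : (nLP C h : ℝ) * sP C h ≤ 2 * ((kP C h : ℝ) ^ C.m * ((kP C h : ℝ) ^ C.b) ^ 9) := by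
    rw [hL, div_le_iff₀ hκ0]
    have : 0 < (kP C h : ℝ) ^ C.m * ((kP C h : ℝ) ^ C.b) ^ 9 := by positivity
    nlinarith
  have c1 : LwD C h + sP C h ≤ nLP C h * sP C h := by
    unfold LwD
    have h1 : (MdP C h : ℝ) + 1 ≤ nLP C h := by
      rw [MdP_cast, nLP_cast]
      set k : ℝ := (kP C h : ℝ)
      have h2 : k ^ (C.r + 3) ≤ k ^ C.m := pow_le_pow_right₀ hk1 hG.m2
      have h3 : (1 : ℝ) ≤ k ^ C.r := one_le_pow₀ hk1
      have h4 : (k ^ C.b) ^ 5 ≤ (k ^ C.b) ^ 11 := pow_le_pow_right₀ hB1 (by norm_num)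
      have h5 : (1 : ℝ) ≤ (k ^ C.b) ^ 5 := one_le_pow₀ hB1
      have h6 : (1 : ℝ) ≤ k ^ C.r * (k ^ C.b) ^ 5 := by nlinarith
      have h7 : (5 : ℝ) ≤ k ^ 3 := by
        have : (16 : ℝ) ^ 3 ≤ k ^ 3 := pow_le_pow_left₀ (by norm_num) hk 3
        norm_num at this; linarith
      calc 4 * (k ^ C.r * (k ^ C.b) ^ 3) * (k ^ C.b) ^ 2 + 1
          = 4 * (k ^ C.r * (k ^ C.b) ^ 5) + 1 := by ring
        _ ≤ 5 * (k ^ C.r * (k ^ C.b) ^ 5) := by linarith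
        _ ≤ k ^ 3 * (k ^ C.r * (k ^ C.b) ^ 5) := by gcongr
        _ = k ^ (C.r + 3) * (k ^ C.b) ^ 5 := by ring
        _ ≤ k ^ C.m * (k ^ C.b) ^ 11 := by gcongr
    calc (MdP C h : ℝ) * sP C h + sP C h = ((MdP C h : ℝ) + 1) * sP C h := by ring
      _ ≤ nLP C h * sP C h := by gcongr
  have c2 : (CL : ℝ) * (RP C h : ℝ) ≤ nLP C h * sP C h := by
    refine le_trans ?_ hLge
    rw [RP_cast]
    set k : ℝ := (kP C h : ℝ)
    have h2 : k ^ (C.r + 1) ≤ k ^ C.m := pow_le_pow_right₀ hk1 (by have := hG.m2; omega)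
    have h4 : (k ^ C.b) ^ 3 ≤ (k ^ C.b) ^ 9 := pow_le_pow_right₀ hB1 (by norm_num)
    calc (CL : ℝ) * (k ^ C.r * (k ^ C.b) ^ 3) ≤ k * (k ^ C.r * (k ^ C.b) ^ 3) := by gcongr
      _ = k ^ (C.r + 1) * (k ^ C.b) ^ 3 := by ring
      _ ≤ k ^ C.m * (k ^ C.b) ^ 9 := by gcongr
  have c3 : (CL : ℝ) * (lamP C h * (kP C h : ℝ) ^ g) ≤ (RP C h : ℝ) ^ 2 := by
    have h1 := lamP_le_pow (h := h) hG (p := g) (q := 0) (by have := hG.b1; omega)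
    rw [pow_zero, div_one] at h1
    have h2 : 0 < lamP C h * (kP C h : ℝ) ^ g := by positivity
    nlinarith [RP_pos (h := h) hG]
  have c4 : (CL : ℝ) * ((nLP C h : ℝ) * sP C h) ^ 2 ≤ (RP C h : ℝ) ^ 8 := by
    rw [RP_cast]
    have h0 : 0 ≤ (nLP C h : ℝ) * sP C h := by positivity
    set k : ℝ := (kP C h : ℝ)
    have h7 : (4 : ℝ) ≤ k ^ 2 := by nlinarith
    calc (CL : ℝ) * ((nLP C h : ℝ) * sP C h) ^ 2
        ≤ k * (2 * (k ^ C.m * (k ^ C.b) ^ 9)) ^ 2 := by gcongr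
      _ = 4 * (k * (k ^ C.m * (k ^ C.b) ^ 9) ^ 2) := by ring
      _ ≤ k ^ 2 * (k * (k ^ C.m * (k ^ C.b) ^ 9) ^ 2) := by gcongr
      _ = k ^ (2 * C.m + 3) * k ^ (18 * C.b) := by ring
      _ ≤ k ^ (6 * C.b + 8 * C.r) * k ^ (18 * C.b) :=
          mul_le_mul_of_nonneg_right (pow_le_pow_right₀ hk1 hG.b3) (by positivity)
      _ = (k ^ C.r * (k ^ C.b) ^ 3) ^ 8 := by ring
  have c5 : E2P C h CL g ≤ 1 := by
    refine (E2P_le hG).trans ?_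
    rw [div_le_one (by positivity)]
    exact hl1.trans (one_le_pow₀ hk1)
  have hLw1 : 1 ≤ LwD C h := by
    have := LwD_ge (h := h) hG
    have := RP_pos (h := h) hG
    linarith
  exact hLat (n0P C h) (nLP C h) N (lamP C h) (sP C h) (kP C h) (RP C h) (LwD C h)
    ((kP C h : ℝ) ^ g) ((kP C h : ℝ) ^ g) (epsD C h) d (wP C h) (wcP C h) e hl hl1 hs hs1
    (sP_cube hG) hCLk hks (hCLk.trans hR1) hLw1 c1 c2 hG1 (epsD_pos hG).le hG1 hd w1 w2 w3 w5 c3 c4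
    c5

end

end Crest.Agent.R338.P2

end
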