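import Crest.Agent.R338.P2Nuc

/-!
# Row 338, node P2 (helper714): `PartIIStmt` from the node statements, final assembly
-/

set_option autoImplicit false

noncomputable section

open MeasureTheory Crest.Quantum.QMA Crest.MathPhysics.CoulombProblem
open Crest.MathPhysics.ElectronicCoulomb
open Crest.Agent.Lib.PT

namespace Crest.Agent.R338.P2

section
variable {C : Cst} {h : HInst} {CA CC CW CL g x y : ℕ}

/-- error of Theorem AB for our data -/
def ErrP (C : Cst) (h : HInst) (CA CL g : ℕ) : ℝ :=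
  ((n0P C h : ℝ) + 2 + (kP C h : ℝ) ^ g) ^ CA *
    (lamP C h ^ 2 + kFP C h CL ^ 2 + E1P C h CL + E2P C h CL g + 1 / (RP C h : ℝ) ^ 2)

theorem X_le (hG : Good C CA CC CW CL g x y) (h1 : 1 ≤ h.n) :
    ((n0P C h : ℝ) + 2 + (kP C h : ℝ) ^ g) ^ CA ≤ (kP C h : ℝ) ^ x := by
  have hk := kP_ge_real (h := h) hG
  have hk1 : (1 : ℝ) ≤ kP C h := by linarith
  have h2 := n0P_two hG h1
  have h3 : (n0P C h : ℝ) + 2 + (kP C h : ℝ) ^ g ≤ (kP C h : ℝ) ^ (g + 11) := by
    have a1 : (kP C h : ℝ) ^ 10 ≤ (kP C h : ℝ) ^ (g + 10) := pow_le_pow_right₀ hk1 (by omega)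
    have a2 : (kP C h : ℝ) ^ g ≤ (kP C h : ℝ) ^ (g + 10) := pow_le_pow_right₀ hk1 (by omega)
    have a3 : (0 : ℝ) < (kP C h : ℝ) ^ (g + 10) := by positivity
    rw [show g + 11 = (g + 10) + 1 by ring, pow_succ]
    nlinarith
  calc _ ≤ ((kP C h : ℝ) ^ (g + 11)) ^ CA := by gcongr
    _ = (kP C h : ℝ) ^ ((g + 11) * CA) := by rw [← pow_mul]
    _ ≤ _ := pow_le_pow_right₀ hk1 hG.x1

theorem X_pos : (0 : ℝ) ≤ ((n0P C h : ℝ) + 2 + (kP C h : ℝ) ^ g) ^ CA := by positivity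

theorem kFP_le (hG : Good C CA CC CW CL g x y) {q : ℕ} (hq : 4 + q ≤ 6 * C.b) :
    kFP C h CL ≤ 1 / (kP C h : ℝ) ^ q := by
  have hk := kP_ge_real (h := h) hG
  unfold kFP
  rw [lamP_eq]
  exact kF_le (by linarith) kap_nonneg kap_le (CL_le hG) hq

theorem AB_cond (hG : Good C CA CC CW CL g x y) (h1 : 1 ≤ h.n) :
    ((n0P C h : ℝ) + 2 + (kP C h : ℝ) ^ g) ^ CA * (lamP C h + kFP C h CL) ≤ 1 := by
  have hk := kP_ge_real (h := h) hG
  have hk0 : (0 : ℝ) < kP C h := by linarith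
  have hX := X_le hG h1
  have hb := hG.b1
  have hy := hG.y1
  have a1 := lamP_le_pow (h := h) hG (p := 0) (q := x + 1) (by omega)
  rw [pow_zero, mul_one] at a1
  have a2 := kFP_le (h := h) hG (q := x + 1) (by omega)
  have hl := lamP_pos (h := h) hG
  have hF := kFP_nonneg (h := h) hG
  calc _ ≤ (kP C h : ℝ) ^ x * (1 / (kP C h : ℝ) ^ (x + 1) + 1 / (kP C h : ℝ) ^ (x + 1)) := by
        gcongr
    _ = 2 / kP C h := by
        rw [pow_succ]; field_simp; norm_num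
    _ ≤ 1 := by rw [div_le_one hk0]; linarith

theorem ErrP_le (hG : Good C CA CC CW CL g x y) (hv : h.Valid) :
    ErrP C h CA CL g ≤ lamP C h * j0P C h / (16 * h.q) := by
  have hk := kP_ge_real (h := h) hG
  have hk1 : (1 : ℝ) ≤ kP C h := by linarith
  have hk2 : (2 : ℝ) ≤ kP C h := by linarith
  have hk0 : (0 : ℝ) < kP C h := by linarith
  have h1 : 1 ≤ h.n := by have := hv.1; omega
  have hX := X_le hG h1
  have hb := hG.b1
  have hy := hG.y1
  have hr := hG.r1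
  have hl := lamP_pos (h := h) hG
  have hyx : lamP C h / (kP C h : ℝ) ^ y ≤ lamP C h / (kP C h : ℝ) ^ (x + 12) := by
    apply div_le_div_of_nonneg_left hl.le (by positivity)
    exact pow_le_pow_right₀ hk1 (by omega)
  have a1 : lamP C h ^ 2 ≤ lamP C h / (kP C h : ℝ) ^ (x + 12) := by
    refine le_trans ?_ hyx
    rw [lamP_eq]
    exact T1 hk1 kap_nonneg kap_le (by omega)
  have a2 : kFP C h CL ^ 2 ≤ lamP C h / (kP C h : ℝ) ^ (x + 12) := by
    refine le_trans ?_ hyx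
    unfold kFP
    rw [lamP_eq]
    exact T2 hk1 kap_nonneg kap_le (CL_le hG) (by omega)
  have a3 : E1P C h CL ≤ lamP C h / (kP C h : ℝ) ^ (x + 12) := (E1P_le hG h1).trans hyx
  have a4 := E2P_le (h := h) hG
  have a5 : 1 / (RP C h : ℝ) ^ 2 ≤ lamP C h / (kP C h : ℝ) ^ (x + 12) := by
    refine le_trans ?_ hyx
    rw [lamP_eq, RP_cast]
    exact T5 hk2 kap_ge (by omega)
  have hj : 1 / (kP C h : ℝ) ^ 5 ≤ j0P C h / h.q := by
    have hn1 : (1 : ℝ) ≤ (h.n : ℝ) := by exact_mod_cast h1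
    have hq1 : (1 : ℝ) ≤ (h.q : ℝ) := by exact_mod_cast hv.2.1
    have h3 : ((h.n : ℝ) * h.q) ^ C.cB * h.q ≤ kP C h := by
      exact_mod_cast hnqk C h (by have := hG.cB2; omega)
    unfold j0P
    rw [div_div]
    apply one_div_le_one_div_of_le (by positivity)
    calc ((h.n : ℝ) * h.q) ^ C.cB * (kP C h : ℝ) ^ 4 * h.q
        = (((h.n : ℝ) * h.q) ^ C.cB * h.q) * (kP C h : ℝ) ^ 4 := by ring
      _ ≤ kP C h * (kP C h : ℝ) ^ 4 := by gcongr
      _ = _ := by ring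
  have hsum0 : 0 ≤ lamP C h ^ 2 + kFP C h CL ^ 2 + E1P C h CL + E2P C h CL g +
      1 / (RP C h : ℝ) ^ 2 := by
    have := E1P_nonneg (h := h) hG
    have := E2P_nonneg (h := h) hG
    positivity
  unfold ErrP
  calc _ ≤ (kP C h : ℝ) ^ x * (5 * (lamP C h / (kP C h : ℝ) ^ (x + 12))) := by
        apply mul_le_mul hX (by linarith) hsum0 (by positivity)
    _ = lamP C h * (5 / (kP C h : ℝ) ^ 12) := by
        rw [pow_add]; field_simp
    _ ≤ lamP C h * (1 / (kP C h : ℝ) ^ 5 / 16) := by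
        refine mul_le_mul_of_nonneg_left ?_ hl.le
        rw [div_div, div_le_div_iff₀ (by positivity) (by positivity), one_mul]
        have h7 : (80 : ℝ) ≤ (kP C h : ℝ) ^ 7 := by
          have : (16 : ℝ) ^ 7 ≤ (kP C h : ℝ) ^ 7 := pow_le_pow_left₀ (by norm_num) hk 7
          norm_num at this; linarith
        calc 5 * ((kP C h : ℝ) ^ 5 * 16) = 80 * (kP C h : ℝ) ^ 5 := by ring
          _ ≤ (kP C h : ℝ) ^ 7 * (kP C h : ℝ) ^ 5 := by gcongr
          _ = _ := by ring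
    _ ≤ lamP C h * (j0P C h / h.q / 16) := by gcongr
    _ = _ := by
        rw [div_div, mul_div_assoc, mul_comm (h.q : ℝ) 16]

/-- the signal in physical units is at least `10` -/
theorem signal_ge (hG : Good C CA CC CW CL g x y) (hv : h.Valid) :
    10 ≤ j0P C h / h.q / lamP C h := by
  have hk := kP_ge_real (h := h) hG
  have hk1 : (1 : ℝ) ≤ kP C h := by linarith
  have h1 : 1 ≤ h.n := by have := hv.1; omega
  have hl := lamP_pos (h := h) hG
  have hb := hG.b1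
  have hj : 1 / (kP C h : ℝ) ^ 5 ≤ j0P C h / h.q := by
    have hn1 : (1 : ℝ) ≤ (h.n : ℝ) := by exact_mod_cast h1
    have hq1 : (1 : ℝ) ≤ (h.q : ℝ) := by exact_mod_cast hv.2.1
    have h3 : ((h.n : ℝ) * h.q) ^ C.cB * h.q ≤ kP C h := by
      exact_mod_cast hnqk C h (by have := hG.cB2; omega)
    unfold j0P
    rw [div_div]
    apply one_div_le_one_div_of_le (by positivity)
    calc ((h.n : ℝ) * h.q) ^ C.cB * (kP C h : ℝ) ^ 4 * h.q
        = (((h.n : ℝ) * h.q) ^ C.cB * h.q) * (kP C h : ℝ) ^ 4 := by ring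
      _ ≤ kP C h * (kP C h : ℝ) ^ 4 := by gcongr
      _ = _ := by ring
  have h2 := lamP_le_pow (h := h) hG (p := 0) (q := 6) (by omega)
  rw [pow_zero, mul_one] at h2
  rw [le_div_iff₀ hl]
  calc 10 * lamP C h ≤ 10 * (1 / (kP C h : ℝ) ^ 6) := by gcongr
    _ ≤ kP C h * (1 / (kP C h : ℝ) ^ 6) := by gcongr; linarith
    _ = 1 / (kP C h : ℝ) ^ 5 := by field_simp
    _ ≤ _ := hj

/-- reference energy (scaled) -/
def ErefP (C : Cst) (h : HInst) : ℝ :=
  EN (n0P C h) h.n - numEl (n0P C h) h.n * C0P C h + lamP C h * Ecc (n0P C h) (wP C h)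

/-- the constant of the shell problem -/
def cHP (C : Cst) (h : HInst) : ℝ := constH h.n (kP C h) (LamP C h) (j0P C h) (JfP h)

theorem thrP_eq : thrP C h =
    (ErefP C h + lamP C h * (cHP C h + j0P C h * ((h.e : ℝ) + 1 / (2 * (h.q : ℝ))))) /
      lamP C h ^ 2 := by
  unfold thrP ErefP cHP
  rfl

theorem yes_thr (hG : Good C CA CC CW CL g x y) (hv : h.Valid) :
    (ErefP C h + lamP C h * (cHP C h + j0P C h * (h.e : ℝ) + j0P C h / (16 * h.q)) +
      ErrP C h CA CL g) / lamP C h ^ 2 ≤ thrP C h - 5 / 8 := by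
  have hl := lamP_pos (h := h) hG
  have hE := ErrP_le (h := h) hG hv
  have hS := signal_ge (h := h) hG hv
  have hq1 : (0 : ℝ) < (h.q : ℝ) := by exact_mod_cast hv.2.1
  rw [thrP_eq, le_sub_iff_add_le, ← sub_nonneg]
  have e1 : (ErefP C h + lamP C h * (cHP C h + j0P C h * ((h.e : ℝ) + 1 / (2 * (h.q : ℝ))))) /
      lamP C h ^ 2 - ((ErefP C h + lamP C h * (cHP C h + j0P C h * (h.e : ℝ) +
        j0P C h / (16 * h.q)) + ErrP C h CA CL g) / lamP C h ^ 2 + 5 / 8) =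
      (lamP C h * j0P C h / (16 * h.q) - ErrP C h CA CL g) / lamP C h ^ 2 +
        (3 / 8 * (j0P C h / h.q / lamP C h) - 5 / 8) := by
    field_simp
    ring
  rw [e1]
  have h2 : 0 ≤ (lamP C h * j0P C h / (16 * h.q) - ErrP C h CA CL g) / lamP C h ^ 2 :=
    div_nonneg (by linarith) (by positivity)
  linarith

theorem no_thr (hG : Good C CA CC CW CL g x y) (hv : h.Valid) :
    thrP C h + 5 / 8 ≤ (ErefP C h + lamP C h * (cHP C h + j0P C h * ((h.e : ℝ) + 1 / h.q) -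
      j0P C h / (16 * h.q)) - ErrP C h CA CL g) / lamP C h ^ 2 := by
  have hl := lamP_pos (h := h) hG
  have hE := ErrP_le (h := h) hG hv
  have hS := signal_ge (h := h) hG hv
  have hq1 : (0 : ℝ) < (h.q : ℝ) := by exact_mod_cast hv.2.1
  rw [thrP_eq, ← sub_nonneg]
  have e1 : (ErefP C h + lamP C h * (cHP C h + j0P C h * ((h.e : ℝ) + 1 / h.q) -
      j0P C h / (16 * h.q)) - ErrP C h CA CL g) / lamP C h ^ 2 -
      ((ErefP C h + lamP C h * (cHP C h + j0P C h * ((h.e : ℝ) + 1 / (2 * (h.q : ℝ))))) /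
      lamP C h ^ 2 + 5 / 8) =
      (lamP C h * j0P C h / (16 * h.q) - ErrP C h CA CL g) / lamP C h ^ 2 +
        (3 / 8 * (j0P C h / h.q / lamP C h) - 5 / 8) := by
    field_simp
    ring
  rw [e1]
  have h2 : 0 ≤ (lamP C h * j0P C h / (16 * h.q) - ErrP C h CA CL g) / lamP C h ^ 2 :=
    div_nonneg (by linarith) (by positivity)
  linarith

end

/-! ## monotonicity and homogeneity -/

theorem InfLE_mono {n : ℕ} {W : Config n → ℝ} {a b : ℝ} (hab : a ≤ b) (h : InfEnergyLE W a) :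
    InfEnergyLE W b := by
  intro ε hε
  obtain ⟨Ψ, h1, h2, h3⟩ := h ε hε
  exact ⟨Ψ, h1, h2, h3.trans (by linarith)⟩

theorem InfGE_mono {n : ℕ} {W : Config n → ℝ} {a b : ℝ} (hab : b ≤ a) (h : InfEnergyGE W a) :
    InfEnergyGE W b := fun Ψ h1 h2 => hab.trans (h Ψ h1 h2)

theorem nrmSq_smul {n : ℕ} (c : ℝ) (ψ : (Fin n → Bool) → ℂ) :
    nrmSq (fun σ => (c : ℂ) * ψ σ) = c ^ 2 * nrmSq ψ := by
  unfold nrmSq
  rw [Finset.mul_sum]
  refine Finset.sum_congr rfl fun σ _ => ?_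
  rw [norm_mul, mul_pow, Complex.norm_real, Real.norm_eq_abs, sq_abs]

theorem swapExp_smul {n : ℕ} (i j : Fin n) (c : ℝ) (ψ : (Fin n → Bool) → ℂ) :
    swapExp i j (fun σ => (c : ℂ) * ψ σ) = c ^ 2 * swapExp i j ψ := by
  unfold swapExp
  rw [Finset.mul_sum]
  refine Finset.sum_congr rfl fun σ _ => ?_
  have e1 : (starRingEnd ℂ) ((c : ℂ) * ψ σ) * ((c : ℂ) * ψ (σ ∘ Equiv.swap i j)) =
      ((c ^ 2 : ℝ) : ℂ) * ((starRingEnd ℂ) (ψ σ) * ψ (σ ∘ Equiv.swap i j)) := by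
    rw [map_mul, Complex.conj_ofReal]
    push_cast
    ring
  rw [e1, Complex.re_ofReal_mul]

theorem heis_smul {n : ℕ} (J : Fin n → Fin n → ℝ) (c : ℝ) (ψ : (Fin n → Bool) → ℂ) :
    heis J (fun σ => (c : ℂ) * ψ σ) = c ^ 2 * heis J ψ := by
  unfold heis
  rw [Finset.mul_sum]
  refine Finset.sum_congr rfl fun i _ => ?_
  rw [Finset.mul_sum]
  refine Finset.sum_congr rfl fun j _ => ?_
  rw [nrmSq_smul, swapExp_smul]
  split_ifs
  · ring
  · ring

theorem nrmSq_nonneg {n : ℕ} (ψ : (Fin n → Bool) → ℂ) : 0 ≤ nrmSq ψ :=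
  Finset.sum_nonneg fun _ _ => by positivity

theorem heis_of_nrmSq_zero {n : ℕ} (J : Fin n → Fin n → ℝ) (ψ : (Fin n → Bool) → ℂ)
    (h0 : nrmSq ψ = 0) : heis J ψ = 0 := by
  have h1 : ψ = fun σ => ((0 : ℝ) : ℂ) * ψ σ := by
    funext σ
    have h2 : ‖ψ σ‖ ^ 2 = 0 := by
      unfold nrmSq at h0
      exact (Finset.sum_eq_zero_iff_of_nonneg (fun _ _ => by positivity)).1 h0 σ (Finset.mem_univ _)
    have h3 : ψ σ = 0 := by simpa using h2
    rw [h3]; simp
  rw [h1, heis_smul]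
  ring

theorem no_homog {n : ℕ} {J : Fin n → Fin n → ℝ} {e : ℝ}
    (h : ∀ ψ : (Fin n → Bool) → ℂ, nrmSq ψ = 1 → e ≤ heis J ψ) (ψ : (Fin n → Bool) → ℂ) :
    e * nrmSq ψ ≤ heis J ψ := by
  rcases (nrmSq_nonneg ψ).eq_or_lt with h0 | h0
  · rw [← h0, heis_of_nrmSq_zero J ψ h0.symm]; simp
  · have hs : 0 < √(nrmSq ψ) := Real.sqrt_pos.2 h0
    have h1 := h (fun σ => (((√(nrmSq ψ))⁻¹ : ℝ) : ℂ) * ψ σ) (by
      rw [nrmSq_smul, inv_pow, Real.sq_sqrt h0.le, inv_mul_cancel₀ h0.ne'])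
    rw [heis_smul, inv_pow, Real.sq_sqrt h0.le, ← div_eq_inv_mul, le_div_iff₀ h0] at h1
    exact h1

/-! ## the final composition -/

theorem realPos_eq {C : Cst} {h : HInst} {CA CC CW CL g x y : ℕ}
    (hG : Good C CA CC CW CL g x y) (D : (Fin 3 → ℤ) → Fin 3 → ℚ) (α : Fin 3 → ℤ) :
    realPos (fun c => (α c : ℚ) / (AP C h : ℚ) - D α c) =
      lamP C h • Lat.nuc (sP C h) (dS C h D) α := by
  have hl := lamP_pos (h := h) hG
  have hk := kP_ge_real (h := h) hG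
  have hκ0 := kap_pos
  have e1 : lamP C h * sP C h = 1 / (AP C h : ℝ) := by
    rw [lamP_eq, sP_eq, AP_cast]
    have hB : (0 : ℝ) < (kP C h : ℝ) ^ C.b := by positivity
    field_simp
  ext c
  unfold realPos Lat.nuc Lat.pt
  rw [PiLp.smul_apply, PiLp.sub_apply, dS_apply]
  simp only [smul_eq_mul, PiLp.toLp_apply]
  push_cast
  have e2 : lamP C h * (sP C h * (α c : ℝ) - 1 / lamP C h * (D α c : ℝ)) =
      lamP C h * sP C h * (α c : ℝ) - D α c := by
    field_simp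
  rw [e2, e1]
  ring

/-- distinctness of the (scaled) nuclei -/
theorem nuc_injective {s : ℝ} (hs : 0 < s) {d : (Fin 3 → ℤ) → Pos3} (hd : ∀ α, ‖d α‖ ≤ s / 8) :
    Function.Injective (Lat.nuc s d) := by
  intro α β hαβ
  by_contra hne
  have h1 : Lat.pt s α - Lat.pt s β = d α - d β := by
    unfold Lat.nuc at hαβ
    rw [sub_eq_sub_iff_sub_eq_sub] at hαβ
    exact hαβ
  have h2 : ‖Lat.pt s α - Lat.pt s β‖ ≤ s / 4 := by
    rw [h1]
    calc ‖d α - d β‖ ≤ ‖d α‖ + ‖d β‖ := norm_sub_le _ _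
      _ ≤ s / 8 + s / 8 := add_le_add (hd α) (hd β)
      _ = s / 4 := by ring
  obtain ⟨c, hc⟩ : ∃ c, α c ≠ β c := by
    by_contra hall
    push Not at hall
    exact hne (funext hall)
  have h3 : |(Lat.pt s α - Lat.pt s β) c| ≤ ‖Lat.pt s α - Lat.pt s β‖ := by
    have := PiLp.norm_apply_le (p := 2) (Lat.pt s α - Lat.pt s β) c
    rwa [Real.norm_eq_abs] at this
  have h4 : (Lat.pt s α - Lat.pt s β) c = s * ((α c : ℝ) - β c) := by
    rw [PiLp.sub_apply]
    unfold Lat.pt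
    simp only [PiLp.toLp_apply]
    ring
  have h5 : (1 : ℝ) ≤ |(α c : ℝ) - β c| := by
    have : (1 : ℤ) ≤ |α c - β c| := Int.one_le_abs (sub_ne_zero.2 hc)
    exact_mod_cast this
  rw [h4, abs_mul, abs_of_pos hs] at h3
  nlinarith

theorem partII_of (hAB : ThmABStmt) (hBH : ThmBHStmt) (hCal : CalStmt) (hWc : WcStmt)
    (hLat : LatStmt) (hSc : ScaleStmt) (hNum : NumStmt) : PartIIStmt := by
  obtain ⟨CA, hAB⟩ := hAB
  obtain ⟨CB, hCB1, hBH⟩ := hBH
  obtain ⟨CC, hCC1, hCal⟩ := hCal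
  obtain ⟨CW, hCW1, hWc⟩ := hWc
  obtain ⟨CL, hCL1, hLat⟩ := hLat
  obtain ⟨c0, hNum⟩ := hNum
  obtain ⟨C, g, x, y, hG, hc0, hcB⟩ := exists_good c0 CA CB CC CW CL
  obtain ⟨I, hI, hI'⟩ := hNum C hc0
  have key : ∀ h : HInst, h.Valid → (I h).Valid ∧
      (h.Yes → InfEnergyLE (I h).potential ((I h).lower : ℝ)) ∧
      (h.No → InfEnergyGE (I h).potential ((I h).upper : ℝ)) := by
    intro h hv
    obtain ⟨hel, ⟨l, D, hnd, hmem, hnuc, hD, hD0⟩, hlow, hup⟩ := hI' h hv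
    have hk := kP_ge_real (h := h) hG
    have hk0 : (0 : ℝ) < kP C h := by linarith
    have hn2 := hv.1
    have hn1 : 1 ≤ h.n := by omega
    have hl := lamP_pos (h := h) hG
    have hs := sP_pos (h := h) hG
    obtain ⟨hcal, hA, ha⟩ := calFacts hG hCal hv
    obtain ⟨w1, w2, w3, w4, w5, w6, w7, w8, w9⟩ := wcFacts hG hWc hv hA ha
    obtain ⟨hdisp, hsm⟩ := disp_of hG hD hD0 w4 w6 w7 w8 w9
    -- enumeration
    have hlen : (I h).nuclei.length = l.length := by rw [hnuc, List.length_map]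
    let e : Fin (I h).nuclei.length ≃ {α // α ∈ Lat.Box (nLP C h)} :=
      (finCongr hlen).trans ((hnd.getEquiv l).trans (Equiv.subtypeEquivRight hmem))
    have he : ∀ i : Fin (I h).nuclei.length, (e i).1 = l.get (finCongr hlen i) := fun i => rfl
    have hpos : (fun i : Fin (I h).nuclei.length => realPos ((I h).nuclei.get i)) =
        fun i => lamP C h • Lat.nuc (sP C h) (dS C h D) (e i).1 := by
      funext i
      rw [← realPos_eq hG, he]
      congr 1
      have h2 : (I h).nuclei.get i =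
          (l.map (fun α c => (α c : ℚ) / (AP C h : ℚ) - D α c)).get
            (finCongr (by rw [hnuc]) i) := by
        simp [hnuc]
      rw [h2]
      simp
    have hNuc := nucOK_of hG hLat e hdisp w1 w2 w3 w5
    -- Theorem AB
    have hkn := n_le_n0P C h (by have := hG.c16; omega) hn1
    have hab := hAB (n0P C h) h.n (hn1.trans hkn) hn1 (by nlinarith) (lamP C h) (C0P C h) (RP C h)
      (E1P C h CL) (E2P C h CL g) (kFP C h CL) ((kP C h : ℝ) ^ g) _ _ (wP C h) hNuc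
      (AB_cond hG hn1) ((X_le hG hn1).trans (RP_ge hG (by have := hG.r1; omega)))
      (E1P_nonneg hG) (E2P_nonneg hG) ((E2P_le hG).trans (by
        rw [div_le_one (by positivity)]
        exact (lamP_le_one hG).trans (one_le_pow₀ (by linarith))))
    -- Theorem BH
    have hLam : ((n0' h.n (kP C h) : ℝ) + (kP C h : ℝ) ^ CC) ^ CB ≤ (LamP C h : ℝ) := by
      rw [LamP_cast]
      have hk1 : (1 : ℝ) ≤ kP C h := by linarith
      have h1 : (n0' h.n (kP C h) : ℝ) + (kP C h : ℝ) ^ CC ≤ (kP C h : ℝ) ^ (CC + 10) := by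
        have a1 : (n0' h.n (kP C h) : ℝ) ≤ (kP C h : ℝ) ^ (CC + 9) :=
          (n0P_real_le hG hn1).trans (pow_le_pow_right₀ hk1 (by omega))
        have a2 : (kP C h : ℝ) ^ CC ≤ (kP C h : ℝ) ^ (CC + 9) := pow_le_pow_right₀ hk1 (by omega)
        have a3 : (0 : ℝ) < (kP C h : ℝ) ^ (CC + 9) := by positivity
        rw [show CC + 10 = (CC + 9) + 1 by ring, pow_succ]
        nlinarith
      calc _ ≤ ((kP C h : ℝ) ^ (CC + 10)) ^ CB := by gcongr
        _ = (kP C h : ℝ) ^ ((CC + 10) * CB) := by rw [← pow_mul]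
        _ ≤ _ := pow_le_pow_right₀ hk1 (by have := hG.l1; rwa [hcB] at this)
    have hJ : ∀ i j, 0 ≤ JfP h i j ∧ JfP h i j ≤ 1 := by
      intro i j
      obtain ⟨a1, a2⟩ := hv.2.2 i j
      unfold JfP
      exact ⟨by exact_mod_cast a1, by exact_mod_cast a2⟩
    have hj0eq : j0P C h = 1 / (((h.n : ℝ) * h.q) ^ CB * (kP C h : ℝ) ^ 4) := by
      unfold j0P; rw [hcB]
    have hcal2 : Calib h.n (kP C h) (1 / (((h.n : ℝ) * h.q) ^ CB * (kP C h : ℝ) ^ 4)) (JfP h)
        (AcP C h) (acP C h)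
        (1 / (((h.n : ℝ) * h.q) ^ CB * (kP C h : ℝ) ^ 4) / (((h.n : ℝ) * h.q) ^ CB)) := by
      rw [← hj0eq]
      have h0 : 0 ≤ j0P C h / (((h.n : ℝ) * h.q) ^ CB) := by unfold j0P; positivity
      obtain ⟨b1, b2⟩ := hcal.1
      exact ⟨fun i hi j hj hij => (b1 i hi j hj hij).trans h0, fun i hi => (b2 i hi).trans h0⟩
    have hbh := hBH h.n h.q (kP C h) hn2 hv.2.1
      (hBHk C h (by have := hG.c16; omega) (by have := hG.cB2; omega))
      (LamP C h) ((kP C h : ℝ) ^ CC) (JfP h) (AcP C h) (acP C h) hJ hA ha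
      (one_le_pow₀ (by linarith)) hLam hcal2
    rw [← hj0eq] at hbh
    obtain ⟨hab1, hab2⟩ := hab
    obtain ⟨hbh1, hbh2⟩ := hbh
    have hq1 : (0 : ℝ) < (h.q : ℝ) := by exact_mod_cast hv.2.1
    have hj0 : 0 ≤ j0P C h := by unfold j0P; positivity
    have hscale := fun a => hSc (NP C h) (I h).nuclei.length
      (fun i => Lat.nuc (sP C h) (dS C h D) (e i).1) (lamP C h) hl a
    -- transport of the potential
    have hpot : ∀ a : ℝ, (InfEnergyLE (unitNucleiPotential (n := NP C h)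
          fun i => lamP C h • Lat.nuc (sP C h) (dS C h D) (e i).1) a →
          InfEnergyLE (I h).potential a) ∧
        (InfEnergyGE (unitNucleiPotential (n := NP C h)
          fun i => lamP C h • Lat.nuc (sP C h) (dS C h D) (e i).1) a →
          InfEnergyGE (I h).potential a) := by
      intro a
      unfold Instance.potential
      rw [hpos, hel]
      exact ⟨id, id⟩
    refine ⟨⟨?_, ?_, ?_, ?_⟩, ?_, ?_⟩
    · -- nonempty
      intro h0
      have h1 : (0 : Fin 3 → ℤ) ∈ l := by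
        rw [hmem]
        unfold Lat.Box
        simp
      rw [hnuc, List.map_eq_nil_iff] at h0
      rw [h0] at h1
      exact absurd h1 (List.not_mem_nil)
    · -- nodup
      rw [hnuc]
      refine List.Nodup.map ?_ hnd
      intro α β hαβ
      have h1 : lamP C h • Lat.nuc (sP C h) (dS C h D) α = lamP C h • Lat.nuc (sP C h) (dS C h D) β := by
        rw [← realPos_eq hG, ← realPos_eq hG]
        exact congrArg realPos hαβ
      exact nuc_injective hs hsm (smul_right_injective _ hl.ne' h1)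
    · rw [hel]
      unfold NP numEl
      omega
    · rw [hup]
    · rintro ⟨ψ, hψ1, hψ2⟩
      obtain ⟨F, hF1, hF2, hF3⟩ := hbh1 ψ hψ1
      have h1 := hab1 (cHP C h + j0P C h * (h.e : ℝ) + j0P C h / (16 * h.q))
        ⟨F, hF1, hF2, hF3.trans (by
          have h3 : j0P C h * heis (fun i j : Fin h.n => JfP h i j) ψ ≤ j0P C h * (h.e : ℝ) :=
            mul_le_mul_of_nonneg_left hψ2 hj0
          unfold cHP
          linarith)⟩
      refine InfLE_mono ?_ ((hpot _).1 ((hscale _).1 h1))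
      have h2 := yes_thr (CA := CA) (CL := CL) hG hv
      have h3 := (abs_le.1 hlow).1
      have h4 : (ErefP C h + lamP C h * (cHP C h + j0P C h * (h.e : ℝ) + j0P C h / (16 * h.q)) +
        ErrP C h CA CL g) / lamP C h ^ 2 ≤ ((I h).lower : ℝ) := by linarith
      exact h4
    · intro hno
      have h0 : ∀ ψ : (Fin h.n → Bool) → ℂ, ((h.e : ℝ) + 1 / h.q) * nrmSq ψ ≤
          heis (fun i j : Fin h.n => JfP h i j) ψ := no_homog hno
      have h1 := hab2 (cHP C h + j0P C h * ((h.e : ℝ) + 1 / h.q) - j0P C h / (16 * h.q))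
        (hbh2 _ h0)
      refine InfGE_mono ?_ ((hpot _).2 ((hscale _).2 h1))
      have h2 := no_thr (CA := CA) (CL := CL) hG hv
      have h3 := (abs_le.1 hlow).2
      have h4 : (((I h).upper : ℚ) : ℝ) ≤ (ErefP C h + lamP C h * (cHP C h +
        j0P C h * ((h.e : ℝ) + 1 / h.q) - j0P C h / (16 * h.q)) - ErrP C h CA CL g) /
          lamP C h ^ 2 := by
        rw [hup]
        push_cast
        linarith
      exact h4
  refine ⟨fun h => ⟨(I h).code⟩, hI, fun h hv hy => ?_, fun h hv hn => ?_⟩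
  · exact ⟨I h, (key h hv).1, rfl, (key h hv).2.1 hy⟩
  · exact ⟨I h, (key h hv).1, rfl, (key h hv).2.2 hn⟩

end Crest.Agent.R338.P2

end
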