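import Crest.Agent.R338.Br2

/-!
# Row 338: the pair table, definitions of the arrays and block decomposition (helper896)

Sites of the XZ instance: `p < M` wires, `M ≤ p < M + T` clock qubits, `M + T ≤ p` mediators.
-/

set_option autoImplicit false
set_option linter.unusedSectionVars false
set_option linter.unusedSimpArgs false

namespace Crest.Agent.R338.PTab

open Crest.Agent.R338 RC

/-- numerical data of the clock Hamiltonian -/
structure ND where
  M : ℕ
  T : ℕ
  /-- kind of the gate `t`: `0,1,2` rotation, `3` controlled sign -/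
  kd : ℕ → ℕ
  /-- first wire of the gate `t` -/
  ga : ℕ → ℕ
  /-- second wire of the gate `t` (equal to the first one for rotations) -/
  gb : ℕ → ℕ
  /-- constrained wires -/
  con : ℕ → Bool
  /-- number of constrained wires -/
  nc : ℕ
  out : ℕ

/-- cosine of the angle of kind `k` -/
noncomputable def cosN (k : ℕ) : ℝ :=
  if k = 0 then Real.cos (Real.pi / 8) else if k = 1 then Real.cos (Real.pi / 4) else
    Real.cos (Real.pi / 2)

/-- sine of the angle of kind `k` -/
noncomputable def sinN (k : ℕ) : ℝ :=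
  if k = 0 then Real.sin (Real.pi / 8) else if k = 1 then Real.sin (Real.pi / 4) else
    Real.sin (Real.pi / 2)

theorem cosN_eq (k : Fin 3) : cosN (k : ℕ) = Real.cos (ang k) := by
  unfold cosN ang
  fin_cases k <;> simp

theorem sinN_eq (k : Fin 3) : sinN (k : ℕ) = Real.sin (ang k) := by
  unfold sinN ang
  fin_cases k <;> simp

namespace ND

variable (N : ND)

/-- `X`-fields -/
noncomputable def fx (Jp δ : ℝ) (p : ℕ) : ℝ :=
  if N.M ≤ p ∧ p < N.M + N.T ∧ N.kd (p - N.M) = 3 then -(Jp * δ ^ 2 / 16) else 0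

/-- `Z`-fields -/
noncomputable def fz (Jin Jp Jk δ : ℝ) (p : ℕ) : ℝ :=
  if p < N.M then (if p = N.out then 1 / 4 else 0) - (if N.con p then Jin / 4 else 0)
  else if p < N.M + N.T then
    (if p = N.M then Jin / 4 * N.nc - Jp / 4 else 0)
      + (if p + 1 = N.M + N.T then Jp / 4 - 1 / 4 else 0)
      + (if p + 1 < N.M + N.T then Jk / 4 else 0) - (if N.M < p then Jk / 4 else 0)
  else -(δ ^ 3 / 2)

/-- the pair is (wire of a rotation gate, its clock qubit) -/
def isR (p q : ℕ) : Bool :=
  decide (p < N.M) && decide (N.M ≤ q) && decide (q < N.M + N.T) && decide (N.kd (q - N.M) ≠ 3)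
    && decide (N.ga (q - N.M) = p)

/-- the pair is (clock qubit, mediator) -/
def isCM (p q : ℕ) : Bool :=
  decide (N.M ≤ p) && decide (p < N.M + N.T) && decide (N.M + N.T ≤ q)

/-- `X`-coefficient of the first factor -/
noncomputable def ax (p q : ℕ) : ℝ :=
  if N.isR p q then sinN (N.kd (q - N.M)) else if N.isCM p q then 1 else 0

/-- `Z`-coefficient of the first factor -/
noncomputable def az (p q : ℕ) : ℝ :=
  if N.isR p q then cosN (N.kd (q - N.M)) else if N.isCM p q then 0 else 1

/-- `X`-coefficient of the second factor -/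
noncomputable def bx (Jp δ : ℝ) (p q : ℕ) : ℝ :=
  if p < N.M then
    if q < N.M then 0
    else if q < N.M + N.T then
      if N.kd (q - N.M) = 3 then
        (if N.ga (q - N.M) = p then -(Jp / 4) else 0) + (if N.gb (q - N.M) = p then -(Jp / 4) else 0)
      else if N.ga (q - N.M) = p then -(Jp / 2) else 0
    else
      (if N.ga (q - (N.M + N.T)) = p then δ ^ 2 else 0)
        - (if N.gb (q - (N.M + N.T)) = p then δ ^ 2 else 0)
  else 0

/-- number of `CZ` gates on the pair of wires -/
noncomputable def ncz (p q : ℕ) : ℝ :=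
  ∑ t ∈ Finset.range N.T, if N.kd t = 3 ∧
    ((N.ga t = p ∧ N.gb t = q) ∨ (N.ga t = q ∧ N.gb t = p)) then (1 : ℝ) else 0

/-- `Z`-coefficient of the second factor -/
noncomputable def bz (Jin Jp Jk δ : ℝ) (p q : ℕ) : ℝ :=
  if q < N.M then -(2 * δ) * N.ncz p q
  else if p < N.M then
    if q < N.M + N.T then
      (if q = N.M ∧ N.con p = true then -(Jin / 4) else 0)
        + (if q + 1 = N.M + N.T ∧ p = N.out then -(1 / 4) else 0)
    else 0
  else if q < N.M + N.T then (if p + 1 = q then -(Jk / 4) else 0)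
  else if p < N.M + N.T then (if q = p + N.T ∧ N.kd (p - N.M) = 3 then Jp * δ ^ 2 / 16 else 0)
  else 0

/-- the constant -/
noncomputable def c0 (Jin Jp Jk δ : ℝ) : ℝ :=
  1 / 4 + Jin / 4 * N.nc + Jp / 2 + Jk / 4 * (N.T - 1) + N.T * (δ ^ 3 / 2)
    + 2 * δ * ∑ t ∈ Finset.range N.T, if N.kd t = 3 then (1 : ℝ) else 0

end ND

/-- numerical code of a gate: kind, first wire, second wire -/
def gnum {M : ℕ} (g : EG (Fin M)) : ℕ × ℕ × ℕ := (g.map fun a : Fin M => (a : ℕ)).num

@[simp] theorem gnum_rot {M : ℕ} (k : Fin 3) (a : Fin M) :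
    gnum (EG.rot k a) = ((k : ℕ), (a : ℕ), (a : ℕ)) := rfl

@[simp] theorem gnum_cz {M : ℕ} (a b : Fin M) :
    gnum (EG.cz a b) = (3, (a : ℕ), (b : ℕ)) := rfl

/-- numerical data of `d` -/
def CD.nd (d : CD) : ND where
  M := d.M
  T := d.T
  kd t := if h : t < d.T then (gnum (d.g ⟨t, h⟩)).1 else 0
  ga t := if h : t < d.T then (gnum (d.g ⟨t, h⟩)).2.1 else 0
  gb t := if h : t < d.T then (gnum (d.g ⟨t, h⟩)).2.2 else 0
  con a := if h : a < d.M then d.con ⟨a, h⟩ else false
  nc := (Finset.univ.filter fun a => d.con a = true).card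
  out := d.out

section nd
variable (d : CD)

@[simp] theorem nd_M : d.nd.M = d.M := rfl
@[simp] theorem nd_T : d.nd.T = d.T := rfl
@[simp] theorem nd_out : d.nd.out = (d.out : ℕ) := rfl

@[simp] theorem nd_kd (t : Fin d.T) : d.nd.kd t = (gnum (d.g t)).1 := by simp [CD.nd]
@[simp] theorem nd_ga (t : Fin d.T) : d.nd.ga t = (gnum (d.g t)).2.1 := by simp [CD.nd]
@[simp] theorem nd_gb (t : Fin d.T) : d.nd.gb t = (gnum (d.g t)).2.2 := by simp [CD.nd]
@[simp] theorem nd_con (a : Fin d.M) : d.nd.con a = d.con a := by simp [CD.nd]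

end nd

/-- XZ operators on `Fin n` with coefficient arrays indexed by natural numbers -/
noncomputable def XZop {n : ℕ} (fx fz : ℕ → ℝ) (ax az bx bz : ℕ → ℕ → ℝ) : Op (Fin n) :=
  ∑ p : Fin n, (fx p • X p + fz p • Z p) +
    ∑ p : Fin n, ∑ q : Fin n, if p < q then
      (ax p q • X p + az p q • Z p) * (bx p q • X q + bz p q • Z q) else 0

section blocks

variable (M T : ℕ)

/-- wire sites -/
def iw (a : Fin M) : Fin (M + T + T) := Fin.castAdd T (Fin.castAdd T a)
/-- clock sites -/
def ic (t : Fin T) : Fin (M + T + T) := Fin.castAdd T (Fin.natAdd M t)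
/-- mediator sites -/
def im (s : Fin T) : Fin (M + T + T) := Fin.natAdd (M + T) s

@[simp] theorem iw_val (a : Fin M) : ((iw M T a : Fin (M + T + T)) : ℕ) = a := rfl
@[simp] theorem ic_val (t : Fin T) : ((ic M T t : Fin (M + T + T)) : ℕ) = M + t := rfl
@[simp] theorem im_val (s : Fin T) : ((im M T s : Fin (M + T + T)) : ℕ) = M + T + s := rfl

/-- the layout -/
def lay : (Fin M ⊕ Fin T) ⊕ Fin T ≃ Fin (M + T + T) :=
  (Equiv.sumCongr finSumFinEquiv (Equiv.refl _)).trans finSumFinEquiv

@[simp] theorem lay_w (a : Fin M) : lay M T (Sum.inl (Sum.inl a)) = iw M T a := rfl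
@[simp] theorem lay_c (t : Fin T) : lay M T (Sum.inl (Sum.inr t)) = ic M T t := rfl
@[simp] theorem lay_m (t : Fin T) : lay M T (Sum.inr t) = im M T t := rfl

theorem sum3 {A : Type} [AddCommMonoid A] (f : Fin (M + T + T) → A) :
    ∑ p, f p = ∑ a, f (iw M T a) + ∑ t, f (ic M T t) + ∑ s, f (im M T s) := by
  rw [Fin.sum_univ_add, Fin.sum_univ_add]
  rfl

theorem pairs3 {A : Type} [AddCommMonoid A] (F : Fin (M + T + T) → Fin (M + T + T) → A) :
    ∑ p, ∑ q, (if p < q then F p q else 0) =
      (∑ a, ∑ b, if a < b then F (iw M T a) (iw M T b) else 0)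
      + (∑ a, ∑ t, F (iw M T a) (ic M T t))
      + (∑ a, ∑ s, F (iw M T a) (im M T s))
      + (∑ t, ∑ t', if t < t' then F (ic M T t) (ic M T t') else 0)
      + (∑ t, ∑ s, F (ic M T t) (im M T s))
      + (∑ s, ∑ s', if s < s' then F (im M T s) (im M T s') else 0) := by
  have h0 : ∀ p : Fin (M + T + T), ∑ q, (if p < q then F p q else 0) =
      ∑ b, (if p < iw M T b then F p (iw M T b) else 0)
      + ∑ t, (if p < ic M T t then F p (ic M T t) else 0)
      + ∑ s, (if p < im M T s then F p (im M T s) else 0) := fun p => sum3 M T _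
  rw [sum3 M T]
  simp only [h0]
  simp only [Fin.lt_def, iw_val, ic_val, im_val]
  have h1 : ∀ (a : Fin M) (t : Fin T), ((a : ℕ) < M + t) := fun a t => by omega
  have h2 : ∀ (a : Fin M) (t : Fin T), ((a : ℕ) < M + T + t) := fun a t => by omega
  have h3 : ∀ (a : Fin M) (t : Fin T), ¬ (M + (t : ℕ) < a) := fun a t => by omega
  have h4 : ∀ (a : Fin M) (t : Fin T), ¬ (M + T + (t : ℕ) < a) := fun a t => by omega
  have h5 : ∀ (s t : Fin T), (M + (s : ℕ) < M + T + t) := fun s t => by omega
  have h6 : ∀ (s t : Fin T), ¬ (M + T + (s : ℕ) < M + t) := fun s t => by omega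
  have h7 : ∀ (s t : Fin T), (M + (s : ℕ) < M + t) ↔ (s : ℕ) < t := fun s t => by omega
  have h8 : ∀ (s t : Fin T), (M + T + (s : ℕ) < M + T + t) ↔ (s : ℕ) < t := fun s t => by omega
  simp only [h1, h2, h3, h4, h5, h6, h7, h8, if_true, if_false, Finset.sum_add_distrib,
    Finset.sum_const_zero, zero_add]
  abel

end blocks

end Crest.Agent.R338.PTab
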