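import Crest.Agent.R338.PTab1

/-!
# Row 338: the pair table, expansion of `H_2` (helper896)
-/

set_option autoImplicit false
set_option linter.unusedSectionVars false
set_option linter.unusedSimpArgs false

namespace Crest.Agent.R338.PTab

open Crest.Agent.R338 RC

section basic
variable {ι : Type} [DecidableEq ι]

theorem proj1 (i j : ι) : (1 - Nb i) * Nb j = (1 / 4 : ℝ) • (1 + Z i - Z j - Z i * Z j : Op ι) := by
  rw [Nb_eq, Nb_eq]
  simp only [sub_mul, mul_sub, smul_sub, one_mul, mul_one, smul_mul_assoc, mul_smul_comm]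
  module

theorem proj2 (i j : ι) : Nb i * (1 - Nb j) = (1 / 4 : ℝ) • (1 - Z i + Z j - Z i * Z j : Op ι) := by
  rw [Nb_eq, Nb_eq]
  simp only [sub_mul, mul_sub, smul_sub, one_mul, mul_one, smul_mul_assoc, mul_smul_comm]
  module

theorem NbX (i j : ι) : Nb i * X j = (1 / 2 : ℝ) • (X j - Z i * X j : Op ι) := by
  rw [Nb_eq]
  simp only [sub_mul, smul_sub, one_mul, smul_mul_assoc]

variable {W : Type}

/-- one- and two-local part of the propagation term of time `t`, without the `X`-field -/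
noncomputable def gt (w : W → ι) (x : Op ι) (Jp : ℝ) : EG W → Op ι
  | EG.rot k a => (-(Jp / 2)) • ((Real.cos (ang k) • Z (w a) + Real.sin (ang k) • X (w a)) * x)
  | EG.cz a b => (-(Jp / 4)) • ((Z (w a) + Z (w b)) * x)

theorem gt_eq (w : W → ι) (x : Op ι) (Jp : ℝ) (g : EG W) :
    (-(Jp / 2)) • (gop w g * x) - (Jp / 4) • (zzop w g * x) =
      gt w x Jp g - (if isCZ g then (Jp / 4) • x else 0) := by
  cases g with
  | rot k a => simp [gop, zzop, gt, isCZ]
  | cz a b =>
    simp only [gop, zzop, gt, isCZ, if_true, smul_mul_assoc, sub_mul, add_mul, one_mul]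
    module

end basic

variable (d : CD) {ι : Type} [DecidableEq ι] (w : Fin d.M → ι) (c m : Fin d.T → ι)

/-- number of constrained wires, as a real number -/
noncomputable def ncR (d : CD) : ℝ := ∑ a : Fin d.M, if d.con a then (1 : ℝ) else 0

theorem ncR_eq (d : CD) : ncR d = d.nd.nc := by
  unfold ncR CD.nd
  simp

/-- number of `CZ` gates -/
noncomputable def nczR (d : CD) : ℝ := ∑ t : Fin d.T, if isCZ (d.g t) then (1 : ℝ) else 0

/-- expansion of `H_2` -/
theorem H2_expand (Jin Jp Jk δ : ℝ) (first last : Fin d.T) (hf : (first : ℕ) = 0)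
    (hl : (last : ℕ) + 1 = d.T) :
    d.H2 w c m Jin Jp Jk δ =
      (1 / 4 + Jin / 4 * ncR d + Jp / 2 + Jk / 4 * (d.T - 1) + d.T * (δ ^ 3 / 2)
        + 2 * δ * nczR d) • (1 : Op ι)
      + (1 / 4 : ℝ) • Z (w d.out) - (Jin / 4) • (∑ a : Fin d.M, if d.con a then Z (w a) else 0)
      + (Jin / 4 * ncR d - Jp / 4) • Z (c first) + (Jp / 4 - 1 / 4) • Z (c last)
      + (Jk / 4) • (∑ t : Fin d.T, if (t : ℕ) + 1 < d.T then Z (c t) else 0)
      - (Jk / 4) • (∑ t : Fin d.T, if 0 < (t : ℕ) then Z (c t) else 0)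
      - (Jp * δ ^ 2 / 16) • (∑ t : Fin d.T, if isCZ (d.g t) then X (c t) else 0)
      - (δ ^ 3 / 2) • (∑ t : Fin d.T, Z (m t))
      - (1 / 4 : ℝ) • (Z (w d.out) * Z (c last))
      - (Jin / 4) • (∑ a : Fin d.M, if d.con a then Z (w a) * Z (c first) else 0)
      - (Jk / 4) • (∑ t : Fin d.T, ∑ t' : Fin d.T,
          if (t' : ℕ) = (t : ℕ) + 1 then Z (c t) * Z (c t') else 0)
      + ∑ t : Fin d.T, gt w (X (c t)) Jp (d.g t)
      + (δ ^ 2) • (∑ t : Fin d.T, dop w (d.g t) * X (m t))
      + (Jp * δ ^ 2 / 16) • (∑ t : Fin d.T, if isCZ (d.g t) then Z (m t) * X (c t) else 0)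
      - (2 * δ) • (∑ t : Fin d.T, zzop w (d.g t)) := by
  have e1 : ∀ t : Fin d.T, ((t : ℕ) + 1 = d.T ↔ t = last) := fun t =>
    ⟨fun h => Fin.ext (by omega), fun h => by rw [h]; exact hl⟩
  have e2 : ∀ t : Fin d.T, ((t : ℕ) = 0 ↔ t = first) := fun t =>
    ⟨fun h => Fin.ext (by omega), fun h => by rw [h]; exact hf⟩
  have hT : 1 ≤ d.T := by omega
  -- clock term
  have k1 : (∑ t : Fin d.T, ∑ t' : Fin d.T,
        (if (t' : ℕ) = (t : ℕ) + 1 then (1 - Nb (c t)) * Nb (c t') else 0) : Op ι) =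
      (1 / 4 : ℝ) • (((d.T : ℝ) - 1) • (1 : Op ι)
        + (∑ t : Fin d.T, if (t : ℕ) + 1 < d.T then Z (c t) else 0)
        - (∑ t : Fin d.T, if 0 < (t : ℕ) then Z (c t) else 0)
        - (∑ t : Fin d.T, ∑ t' : Fin d.T,
          if (t' : ℕ) = (t : ℕ) + 1 then Z (c t) * Z (c t') else 0)) := by
    have s1 : ∀ (f : Fin d.T → Op ι), (∑ t : Fin d.T, ∑ t' : Fin d.T,
        (if (t' : ℕ) = (t : ℕ) + 1 then f t else 0)) =
        ∑ t : Fin d.T, if (t : ℕ) + 1 < d.T then f t else 0 := by
      intro f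
      refine Finset.sum_congr rfl fun t _ => ?_
      by_cases h : (t : ℕ) + 1 < d.T
      · rw [if_pos h, Finset.sum_eq_single ⟨(t : ℕ) + 1, h⟩]
        · simp
        · intro b _ hb
          rw [if_neg]
          intro hb'
          exact hb (Fin.ext hb')
        · intro h'; exact absurd (Finset.mem_univ _) h'
      · rw [if_neg h]
        refine Finset.sum_eq_zero fun t' _ => ?_
        rw [if_neg]
        have := t'.2
        omega
    have s2 : ∀ (f : Fin d.T → Op ι), (∑ t : Fin d.T, ∑ t' : Fin d.T,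
        (if (t' : ℕ) = (t : ℕ) + 1 then f t' else 0)) =
        ∑ t : Fin d.T, if 0 < (t : ℕ) then f t else 0 := by
      intro f
      rw [Finset.sum_comm]
      refine Finset.sum_congr rfl fun t' _ => ?_
      by_cases h : 0 < (t' : ℕ)
      · rw [if_pos h, Finset.sum_eq_single ⟨(t' : ℕ) - 1, by have := t'.2; omega⟩]
        · rw [if_pos]; simp; omega
        · intro b _ hb
          rw [if_neg]
          intro hb'
          apply hb
          apply Fin.ext
          simp
          omega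
        · intro h'; exact absurd (Finset.mem_univ _) h'
      · rw [if_neg h]
        refine Finset.sum_eq_zero fun t _ => ?_
        rw [if_neg]
        omega
    have s3 : (∑ t : Fin d.T, if (t : ℕ) + 1 < d.T then (1 : Op ι) else 0) =
        ((d.T : ℝ) - 1) • (1 : Op ι) := by
      have : ∀ t : Fin d.T, (if (t : ℕ) + 1 < d.T then (1 : Op ι) else 0) =
          (1 : Op ι) - (if t = last then (1 : Op ι) else 0) := by
        intro t
        by_cases h : t = last
        · rw [if_pos h, if_neg, sub_self]; rw [h]; omega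
        · rw [if_neg h, if_pos, sub_zero]
          have h1 := t.2
          have h2 : ¬ ((t : ℕ) + 1 = d.T) := fun h' => h ((e1 t).1 h')
          omega
      rw [Finset.sum_congr rfl fun t _ => this t, Finset.sum_sub_distrib, Finset.sum_ite_eq',
        if_pos (Finset.mem_univ _), Finset.sum_const, Finset.card_univ, Fintype.card_fin]
      rw [← Nat.cast_smul_eq_nsmul ℝ]
      module
    have s4 : ∀ t t' : Fin d.T,
        (if (t' : ℕ) = (t : ℕ) + 1 then (1 - Nb (c t)) * Nb (c t') else 0 : Op ι) =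
        (1 / 4 : ℝ) • ((if (t' : ℕ) = (t : ℕ) + 1 then (1 : Op ι) else 0)
          + (if (t' : ℕ) = (t : ℕ) + 1 then Z (c t) else 0)
          - (if (t' : ℕ) = (t : ℕ) + 1 then Z (c t') else 0)
          - (if (t' : ℕ) = (t : ℕ) + 1 then Z (c t) * Z (c t') else 0)) := by
      intro t t'
      by_cases h : (t' : ℕ) = (t : ℕ) + 1
      · simp only [if_pos h, proj1]
      · simp only [if_neg h]; simp
    rw [Finset.sum_congr rfl fun t _ => Finset.sum_congr rfl fun t' _ => s4 t t']
    simp only [← Finset.smul_sum, Finset.sum_sub_distrib, Finset.sum_add_distrib]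
    rw [s1 (fun _ => 1), s1 (fun t => Z (c t)), s2 (fun t => Z (c t)), s3]
  have k2 : (∑ a : Fin d.M, (if d.con a then Nb (w a) * (1 - Nb (c first)) else 0) : Op ι) =
      (1 / 4 : ℝ) • ((ncR d) • (1 : Op ι) - (∑ a : Fin d.M, if d.con a then Z (w a) else 0)
        + (ncR d) • Z (c first)
        - (∑ a : Fin d.M, if d.con a then Z (w a) * Z (c first) else 0)) := by
    have s4 : ∀ a : Fin d.M,
        (if d.con a then Nb (w a) * (1 - Nb (c first)) else 0 : Op ι) =
        (1 / 4 : ℝ) • ((if d.con a then (1 : ℝ) else 0) • (1 : Op ι)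
          - (if d.con a then Z (w a) else 0)
          + (if d.con a then (1 : ℝ) else 0) • Z (c first)
          - (if d.con a then Z (w a) * Z (c first) else 0)) := by
      intro a
      cases h : d.con a
      · simp
      · simp only [if_true, proj2, one_smul]
    rw [Finset.sum_congr rfl fun a _ => s4 a]
    simp only [← Finset.smul_sum, Finset.sum_sub_distrib, Finset.sum_add_distrib,
      ← Finset.sum_smul]
    rfl
  have k3 : ∀ t : Fin d.T, (-(Jp / 2)) • (gop w (d.g t) * X (c t)) - (Jp / 4) • (zzop w (d.g t) * X (c t))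
      + d.gadg w c m Jp δ t =
      gt w (X (c t)) Jp (d.g t) + (δ ^ 3 / 2) • (1 : Op ι) - (δ ^ 3 / 2) • Z (m t)
      + (δ ^ 2) • (dop w (d.g t) * X (m t))
      - (Jp * δ ^ 2 / 16) • (if isCZ (d.g t) then X (c t) else 0)
      + (Jp * δ ^ 2 / 16) • (if isCZ (d.g t) then Z (m t) * X (c t) else 0)
      + (2 * δ * (if isCZ (d.g t) then (1 : ℝ) else 0)) • (1 : Op ι)
      - (2 * δ) • zzop w (d.g t) := by
    intro t
    rw [gt_eq, CD.gadg, Nb_eq]
    cases hg : d.g t with
    | rot k a =>
      simp only [isCZ, Bool.false_eq_true, if_false, zzop]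
      module
    | cz a b =>
      simp only [isCZ, if_true, smul_mul_assoc, sub_mul, one_mul]
      module
  have k4 : d.H2 w c m Jin Jp Jk δ = d.Hdiag w c Jin Jp Jk
      + ∑ t : Fin d.T, ((-(Jp / 2)) • (gop w (d.g t) * X (c t))
        - (Jp / 4) • (zzop w (d.g t) * X (c t)) + d.gadg w c m Jp δ t) := by
    unfold CD.H2 CD.HL CD.HK
    simp only [Finset.sum_add_distrib, Finset.sum_sub_distrib, ← Finset.smul_sum]
    module
  rw [k4, Finset.sum_congr rfl fun t _ => k3 t]
  unfold CD.Hdiag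
  simp only [e1, e2, Finset.sum_ite_eq', Finset.mem_univ, if_true]
  rw [k1, k2, proj1]
  simp only [Finset.sum_add_distrib, Finset.sum_sub_distrib, ← Finset.smul_sum,
    ← Finset.sum_smul, ← Finset.mul_sum, Finset.sum_const, Finset.card_univ, Fintype.card_fin]
  rw [Nb_eq, Nb_eq, ← Nat.cast_smul_eq_nsmul ℝ]
  unfold nczR
  module

end Crest.Agent.R338.PTab
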