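import Crest.Agent.R338.PTab2

/-!
# Row 338: the pair table, `H_2` as an XZ operator (helper896)
-/

set_option autoImplicit false
set_option linter.unusedSectionVars false
set_option linter.unusedSimpArgs false
set_option maxHeartbeats 1000000

namespace Crest.Agent.R338.PTab

open Crest.Agent.R338 RC

theorem osub {ι : Type} (a b : ℝ) (A : Op ι) : (a - b) • A = a • A - b • A := sub_smul a b A

theorem oneg {ι : Type} (a : ℝ) (A : Op ι) : (-a) • A = -(a • A) := neg_smul a A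

section
variable (d : CD) (Jin Jp Jk δ : ℝ)

theorem kd3_iff (t : Fin d.T) : (gnum (d.g t)).1 = 3 ↔ isCZ (d.g t) = true := by
  cases d.g t with
  | rot k a => simp [isCZ]; omega
  | cz a b => simp [isCZ]

theorem fx_w (a : Fin d.M) : d.nd.fx Jp δ (a : ℕ) = 0 := by
  unfold ND.fx
  rw [if_neg]
  rintro ⟨h, _⟩
  simp at h
  omega

theorem fx_c (t : Fin d.T) : d.nd.fx Jp δ (d.M + t) =
    if isCZ (d.g t) then -(Jp * δ ^ 2 / 16) else 0 := by
  unfold ND.fx
  have h : (d.nd.M ≤ d.M + (t : ℕ) ∧ d.M + (t : ℕ) < d.nd.M + d.nd.T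
      ∧ d.nd.kd (d.M + t - d.nd.M) = 3) ↔ isCZ (d.g t) = true := by
    have e : d.M + (t : ℕ) - d.nd.M = t := by simp
    rw [e, nd_kd, kd3_iff]
    simp
  simp only [h]

theorem fx_m (s : Fin d.T) : d.nd.fx Jp δ (d.M + d.T + s) = 0 := by
  unfold ND.fx
  rw [if_neg]
  rintro ⟨_, h, _⟩
  simp only [nd_M, nd_T] at h
  omega

theorem fz_w (a : Fin d.M) : d.nd.fz Jin Jp Jk δ (a : ℕ) =
    (if a = d.out then 1 / 4 else 0) - (if d.con a then Jin / 4 else 0) := by
  unfold ND.fz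
  rw [if_pos (by simp), nd_con, nd_out]
  simp only [Fin.ext_iff]

theorem fz_c (t : Fin d.T) : d.nd.fz Jin Jp Jk δ (d.M + t) =
    (if (t : ℕ) = 0 then Jin / 4 * d.nd.nc - Jp / 4 else 0)
      + (if (t : ℕ) + 1 = d.T then Jp / 4 - 1 / 4 else 0)
      + (if (t : ℕ) + 1 < d.T then Jk / 4 else 0) - (if 0 < (t : ℕ) then Jk / 4 else 0) := by
  unfold ND.fz
  rw [if_neg (by simp), if_pos (by simp)]
  have h1 : (d.M + (t : ℕ) = d.nd.M) ↔ (t : ℕ) = 0 := by simp
  have h2 : (d.M + (t : ℕ) + 1 = d.nd.M + d.nd.T) ↔ (t : ℕ) + 1 = d.T := by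
    simp only [nd_M, nd_T]; omega
  have h3 : (d.M + (t : ℕ) + 1 < d.nd.M + d.nd.T) ↔ (t : ℕ) + 1 < d.T := by
    simp only [nd_M, nd_T]; omega
  have h4 : (d.nd.M < d.M + (t : ℕ)) ↔ 0 < (t : ℕ) := by simp
  simp only [h1, h2, h3, h4]

theorem fz_m (s : Fin d.T) : d.nd.fz Jin Jp Jk δ (d.M + d.T + s) = -(δ ^ 3 / 2) := by
  unfold ND.fz
  rw [if_neg (by simp only [nd_M]; omega), if_neg (by simp only [nd_M, nd_T]; omega)]

/-- the pair term -/
noncomputable def P (p q : Fin (d.M + d.T + d.T)) : Op (Fin (d.M + d.T + d.T)) :=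
  (d.nd.ax p q • X p + d.nd.az p q • Z p) *
    (d.nd.bx Jp δ p q • X q + d.nd.bz Jin Jp Jk δ p q • Z q)

theorem isR_ww (a b : Fin d.M) : d.nd.isR a b = false := by
  have : ¬ d.M ≤ (b : ℕ) := by omega
  unfold ND.isR; simp [this]

theorem isCM_w (a : Fin d.M) (q : ℕ) : d.nd.isCM a q = false := by
  have : ¬ d.M ≤ (a : ℕ) := by omega
  unfold ND.isCM; simp [this]

theorem ax_ff {N : ND} {p q : ℕ} (h1 : N.isR p q = false) (h2 : N.isCM p q = false) :
    N.ax p q = 0 := by simp [ND.ax, h1, h2]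

theorem az_ff {N : ND} {p q : ℕ} (h1 : N.isR p q = false) (h2 : N.isCM p q = false) :
    N.az p q = 1 := by simp [ND.az, h1, h2]

theorem ax_ft {N : ND} {p q : ℕ} (h1 : N.isR p q = false) (h2 : N.isCM p q = true) :
    N.ax p q = 1 := by simp [ND.ax, h1, h2]

theorem az_ft {N : ND} {p q : ℕ} (h1 : N.isR p q = false) (h2 : N.isCM p q = true) :
    N.az p q = 0 := by simp [ND.az, h1, h2]

theorem ax_t {N : ND} {p q : ℕ} (h1 : N.isR p q = true) :
    N.ax p q = sinN (N.kd (q - N.M)) := by simp [ND.ax, h1]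

theorem az_t {N : ND} {p q : ℕ} (h1 : N.isR p q = true) :
    N.az p q = cosN (N.kd (q - N.M)) := by simp [ND.az, h1]

theorem P_ww (a b : Fin d.M) : P d Jin Jp Jk δ (iw _ _ a) (iw _ _ b) =
    (-(2 * δ) * d.nd.ncz a b) • (Z (iw _ _ a) * Z (iw _ _ b)) := by
  unfold P
  simp only [iw_val]
  rw [ax_ff (isR_ww d a b) (isCM_w d a b), az_ff (isR_ww d a b) (isCM_w d a b)]
  have h1 : d.nd.bx Jp δ a b = 0 := by
    unfold ND.bx; rw [if_pos (by simp), if_pos (by simp)]
  have h2 : d.nd.bz Jin Jp Jk δ a b = -(2 * δ) * d.nd.ncz a b := by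
    unfold ND.bz; rw [if_pos (by simp)]
  rw [h1, h2]
  simp only [zero_smul, zero_add, one_smul, mul_smul_comm]

/-- sum over the pairs of wires -/
theorem sum_ww (hd : d.Ok) : (∑ a : Fin d.M, ∑ b : Fin d.M,
      if a < b then P d Jin Jp Jk δ (iw _ _ a) (iw _ _ b) else 0) =
    (-(2 * δ)) • ∑ t : Fin d.T, zzop (iw d.M d.T) (d.g t) := by
  have e1 : ∀ a b : Fin d.M, (if a < b then P d Jin Jp Jk δ (iw _ _ a) (iw _ _ b) else 0) =
      (-(2 * δ)) • ∑ t : Fin d.T, (if a < b ∧ (gnum (d.g t)).1 = 3 ∧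
        (((gnum (d.g t)).2.1 = a ∧ (gnum (d.g t)).2.2 = b) ∨
         ((gnum (d.g t)).2.1 = b ∧ (gnum (d.g t)).2.2 = a)) then
          Z (iw d.M d.T a) * Z (iw d.M d.T b) else 0) := by
    intro a b
    by_cases h : a < b
    · rw [if_pos h, P_ww, ND.ncz, nd_T, Finset.sum_range, mul_smul, Finset.sum_smul]
      congr 1
      refine Finset.sum_congr rfl fun t _ => ?_
      simp only [nd_kd, nd_ga, nd_gb, h, true_and]
      split_ifs <;> simp
    · rw [if_neg h]
      simp [h]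
  rw [Finset.sum_congr rfl fun a _ => Finset.sum_congr rfl fun b _ => e1 a b]
  simp only [← Finset.smul_sum]
  congr 1
  have e2 : (∑ a : Fin d.M, ∑ b : Fin d.M, ∑ t : Fin d.T, (if a < b ∧ (gnum (d.g t)).1 = 3 ∧
        (((gnum (d.g t)).2.1 = a ∧ (gnum (d.g t)).2.2 = b) ∨
         ((gnum (d.g t)).2.1 = b ∧ (gnum (d.g t)).2.2 = a)) then
          Z (iw d.M d.T a) * Z (iw d.M d.T b) else 0 : Op (Fin (d.M + d.T + d.T)))) =
      ∑ t : Fin d.T, ∑ a : Fin d.M, ∑ b : Fin d.M, (if a < b ∧ (gnum (d.g t)).1 = 3 ∧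
        (((gnum (d.g t)).2.1 = a ∧ (gnum (d.g t)).2.2 = b) ∨
         ((gnum (d.g t)).2.1 = b ∧ (gnum (d.g t)).2.2 = a)) then
          Z (iw d.M d.T a) * Z (iw d.M d.T b) else 0) := by
    rw [Finset.sum_comm' (s := Finset.univ) (t := fun _ => Finset.univ) (t' := Finset.univ)
      (s' := fun _ => Finset.univ) (by simp)]
    rw [Finset.sum_congr rfl fun b _ => Finset.sum_comm]
    rw [Finset.sum_comm]
    refine Finset.sum_congr rfl fun t _ => ?_
    rw [Finset.sum_comm]
  rw [e2]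
  refine Finset.sum_congr rfl fun t _ => ?_
  have hw := hd.wf t
  cases hg : d.g t with
  | rot k a =>
    have : ¬ ((k : ℕ) = 3) := by omega
    simp [zzop, this]
  | cz x y =>
    rw [hg] at hw
    have hxy : x ≠ y := hw
    simp only [gnum_cz, true_and, zzop]
    rcases lt_or_gt_of_ne hxy with h | h
    · rw [Finset.sum_eq_single x, Finset.sum_eq_single y]
      · rw [if_pos]; exact ⟨h, Or.inl ⟨rfl, rfl⟩⟩
      · intro b _ hb
        rw [if_neg]
        rintro ⟨h1, h2 | h2⟩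
        · exact hb (Fin.ext h2.2.symm)
        · exact hxy (Fin.ext h2.2.symm)
      · intro h'; exact absurd (Finset.mem_univ _) h'
      · intro a _ ha
        refine Finset.sum_eq_zero fun b _ => ?_
        rw [if_neg]
        rintro ⟨h1, h2 | h2⟩
        · exact ha (Fin.ext h2.1.symm)
        · have h3 : x = b := Fin.ext h2.1
          have h4 : y = a := Fin.ext h2.2
          rw [← h3, ← h4] at h1
          exact absurd h1 (not_lt_of_gt h)
      · intro h'; exact absurd (Finset.mem_univ _) h'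
    · rw [Finset.sum_eq_single y, Finset.sum_eq_single x]
      · rw [if_pos ⟨h, Or.inr ⟨rfl, rfl⟩⟩]
        exact (Z_comm _ _).eq
      · intro b _ hb
        rw [if_neg]
        rintro ⟨h1, h2 | h2⟩
        · exact hxy (Fin.ext h2.1)
        · exact hb (Fin.ext h2.1.symm)
      · intro h'; exact absurd (Finset.mem_univ _) h'
      · intro a _ ha
        refine Finset.sum_eq_zero fun b _ => ?_
        rw [if_neg]
        rintro ⟨h1, h2 | h2⟩
        · have h3 : x = a := Fin.ext h2.1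
          have h4 : y = b := Fin.ext h2.2
          rw [← h3, ← h4] at h1
          exact absurd h1 (not_lt_of_gt h)
        · exact ha (Fin.ext h2.2.symm)
      · intro h'; exact absurd (Finset.mem_univ _) h'

/-- gate part of the wire-clock pair -/
noncomputable def gtA {ι : Type} [DecidableEq ι] (w : Fin d.M → ι) (x : Op ι) (Jp : ℝ)
    (a : Fin d.M) : EG (Fin d.M) → Op ι
  | EG.rot k a' => if a = a' then
      (-(Jp / 2)) • ((Real.cos (ang k) • Z (w a) + Real.sin (ang k) • X (w a)) * x) else 0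
  | EG.cz a' b' => (if a = a' then (-(Jp / 4)) • (Z (w a) * x) else 0)
      + (if a = b' then (-(Jp / 4)) • (Z (w a) * x) else 0)

theorem sum_gtA {ι : Type} [DecidableEq ι] (w : Fin d.M → ι) (x : Op ι) (g : EG (Fin d.M)) :
    ∑ a : Fin d.M, gtA d w x Jp a g = gt w x Jp g := by
  cases g with
  | rot k a' => simp only [gtA, gt, Finset.sum_ite_eq', Finset.mem_univ, if_true]
  | cz a' b' =>
    simp only [gtA, gt, Finset.sum_add_distrib, Finset.sum_ite_eq', Finset.mem_univ, if_true,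
      add_mul, smul_add]

theorem P_wc (hd : d.Ok) (a : Fin d.M) (t : Fin d.T) :
    P d Jin Jp Jk δ (iw _ _ a) (ic _ _ t) =
      gtA d (iw _ _) (X (ic _ _ t)) Jp a (d.g t)
      + (if (t : ℕ) = 0 ∧ d.con a = true then
          (-(Jin / 4)) • (Z (iw _ _ a) * Z (ic _ _ t)) else 0)
      + (if (t : ℕ) + 1 = d.T ∧ a = d.out then
          (-(1 / 4 : ℝ)) • (Z (iw _ _ a) * Z (ic _ _ t)) else 0) := by
  unfold P
  simp only [iw_val, ic_val]
  have hbz : d.nd.bz Jin Jp Jk δ a (d.M + t) =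
      (if (t : ℕ) = 0 ∧ d.con a = true then (-(Jin / 4)) else 0)
        + (if (t : ℕ) + 1 = d.T ∧ a = d.out then -(1 / 4 : ℝ) else 0) := by
    unfold ND.bz
    rw [if_neg (by simp), if_pos (by simp), if_pos (by simp), nd_con]
    have h1 : (d.M + (t : ℕ) = d.nd.M ∧ d.con a = true) ↔ ((t : ℕ) = 0 ∧ d.con a = true) := by
      simp
    have h2 : (d.M + (t : ℕ) + 1 = d.nd.M + d.nd.T ∧ (a : ℕ) = d.nd.out) ↔
        ((t : ℕ) + 1 = d.T ∧ a = d.out) := by
      simp only [nd_M, nd_T, nd_out, Fin.ext_iff]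
      constructor
      · rintro ⟨h, h'⟩; exact ⟨by omega, h'⟩
      · rintro ⟨h, h'⟩; exact ⟨by omega, h'⟩
    simp only [h1, h2]
  have hbx : d.nd.bx Jp δ a (d.M + t) =
      if (gnum (d.g t)).1 = 3 then
        (if (gnum (d.g t)).2.1 = a then -(Jp / 4) else 0)
          + (if (gnum (d.g t)).2.2 = a then -(Jp / 4) else 0)
      else if (gnum (d.g t)).2.1 = a then -(Jp / 2) else 0 := by
    unfold ND.bx
    rw [if_pos (by simp), if_neg (by simp), if_pos (by simp)]
    have e : d.M + (t : ℕ) - d.nd.M = t := by simp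
    rw [e, nd_kd, nd_ga, nd_gb]
  have hR : d.nd.isR a (d.M + t) = (decide ((gnum (d.g t)).1 ≠ 3)
      && decide ((gnum (d.g t)).2.1 = a)) := by
    unfold ND.isR
    have e : d.M + (t : ℕ) - d.nd.M = t := by simp
    rw [e, nd_kd, nd_ga]
    simp
  have ekd : d.M + (t : ℕ) - d.nd.M = t := by simp
  rw [hbz, hbx]
  cases hg : d.g t with
  | rot k a' =>
    have hk : ¬ ((k : ℕ) = 3) := by omega
    by_cases h : a = a'
    · subst h
      have h1 : ¬ ((t : ℕ) = 0 ∧ d.con a = true) := by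
          rintro ⟨h1, h2⟩
          have := hd.first t h1
          rw [hg] at this
          injection this with _ h3
          rw [h3, hd.conD] at h2
          exact absurd h2 (by decide)
      have h2 : ¬ ((t : ℕ) + 1 = d.T ∧ a = d.out) := by
          rintro ⟨h1, h2⟩
          have := hd.last t h1
          rw [hg] at this
          injection this with _ h3
          exact hd.outD (by rw [← h2, h3])
      have hR' : d.nd.isR a (d.M + t) = true := by
        rw [hR, hg]; simp [hk]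
      rw [ax_t hR', az_t hR', ekd, nd_kd, hg, if_neg h1, if_neg h2, if_neg h1, if_neg h2]
      simp only [gnum_rot, hk, if_false, if_true, cosN_eq, sinN_eq, add_zero, zero_smul, gtA]
      rw [mul_smul_comm, add_comm (Real.sin (ang k) • X (iw d.M d.T a))]
    · have h' : ¬ ((a' : ℕ) = a) := fun h'' => h (Fin.ext h''.symm)
      have hR' : d.nd.isR a (d.M + t) = false := by
        rw [hR, hg]; simp [h']
      rw [ax_ff hR' (isCM_w d a _), az_ff hR' (isCM_w d a _)]
      simp only [gnum_rot, hk, h, h', if_false, zero_smul, zero_add, one_smul, gtA]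
      rw [mul_smul_comm]
      split_ifs <;> simp only [add_smul, zero_smul, zero_add, add_zero]
  | cz a' b' =>
    have hR' : d.nd.isR a (d.M + t) = false := by
      rw [hR, hg]; simp
    rw [ax_ff hR' (isCM_w d a _), az_ff hR' (isCM_w d a _)]
    simp only [gnum_cz, if_true, gtA, zero_smul, zero_add, one_smul]
    have h1 : ((a' : ℕ) = a) ↔ a = a' := ⟨fun h => Fin.ext h.symm, fun h => by rw [h]⟩
    have h2 : ((b' : ℕ) = a) ↔ a = b' := ⟨fun h => Fin.ext h.symm, fun h => by rw [h]⟩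
    simp only [h1, h2, mul_add, mul_smul_comm, add_smul, ite_smul, zero_smul, mul_ite, mul_zero]
    abel

/-- sum over the wire-clock pairs -/
theorem sum_wc (hd : d.Ok) (first last : Fin d.T) (hf : (first : ℕ) = 0)
    (hl : (last : ℕ) + 1 = d.T) :
    (∑ a : Fin d.M, ∑ t : Fin d.T, P d Jin Jp Jk δ (iw _ _ a) (ic _ _ t)) =
      ∑ t : Fin d.T, gt (iw d.M d.T) (X (ic _ _ t)) Jp (d.g t)
      - (Jin / 4) • (∑ a : Fin d.M, if d.con a then Z (iw d.M d.T a) * Z (ic _ _ first) else 0)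
      - (1 / 4 : ℝ) • (Z (iw _ _ d.out) * Z (ic _ _ last)) := by
  have e1 : ∀ t : Fin d.T, ((t : ℕ) + 1 = d.T ↔ t = last) := fun t =>
    ⟨fun h => Fin.ext (by omega), fun h => by rw [h]; exact hl⟩
  have e2 : ∀ t : Fin d.T, ((t : ℕ) = 0 ↔ t = first) := fun t =>
    ⟨fun h => Fin.ext (by omega), fun h => by rw [h]; exact hf⟩
  rw [Finset.sum_congr rfl fun a _ => Finset.sum_congr rfl fun t _ => P_wc d Jin Jp Jk δ hd a t]
  simp only [Finset.sum_add_distrib]
  have s1 : (∑ a : Fin d.M, ∑ t : Fin d.T, gtA d (iw d.M d.T) (X (ic _ _ t)) Jp a (d.g t)) =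
      ∑ t : Fin d.T, gt (iw d.M d.T) (X (ic _ _ t)) Jp (d.g t) := by
    rw [Finset.sum_comm]
    exact Finset.sum_congr rfl fun t _ => sum_gtA d Jp _ _ _
  have s2 : (∑ a : Fin d.M, ∑ t : Fin d.T, (if (t : ℕ) = 0 ∧ d.con a = true then
          (-(Jin / 4)) • (Z (iw _ _ a) * Z (ic _ _ t)) else 0 : Op (Fin (d.M + d.T + d.T)))) =
      (-(Jin / 4)) • (∑ a : Fin d.M, if d.con a then Z (iw d.M d.T a) * Z (ic _ _ first) else 0) := by
    rw [Finset.smul_sum]
    refine Finset.sum_congr rfl fun a _ => ?_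
    simp only [e2, ite_and, Finset.sum_ite_eq', Finset.mem_univ, if_true]
    split_ifs
    · rfl
    · rw [smul_zero]
  have s3 : (∑ a : Fin d.M, ∑ t : Fin d.T, (if (t : ℕ) + 1 = d.T ∧ a = d.out then
          (-(1 / 4 : ℝ)) • (Z (iw _ _ a) * Z (ic _ _ t)) else 0 : Op (Fin (d.M + d.T + d.T)))) =
      (-(1 / 4 : ℝ)) • (Z (iw _ _ d.out) * Z (ic _ _ last)) := by
    simp only [e1, ite_and, Finset.sum_ite_eq', Finset.mem_univ, if_true]
  rw [s1, s2, s3]
  module

theorem P_wm (a : Fin d.M) (s : Fin d.T) :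
    P d Jin Jp Jk δ (iw _ _ a) (im _ _ s) =
      ((if (gnum (d.g s)).2.1 = a then δ ^ 2 else 0) - (if (gnum (d.g s)).2.2 = a then δ ^ 2 else 0))
        • (Z (iw _ _ a) * X (im _ _ s)) := by
  unfold P
  simp only [iw_val, im_val]
  have hR : d.nd.isR a (d.M + d.T + s) = false := by
    have : ¬ (d.M + d.T + (s : ℕ) < d.M + d.T) := by omega
    unfold ND.isR
    simp [this]
  have hbz : d.nd.bz Jin Jp Jk δ a (d.M + d.T + s) = 0 := by
    unfold ND.bz
    rw [if_neg (by simp only [nd_M]; omega), if_pos (by simp),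
      if_neg (by simp only [nd_M, nd_T]; omega)]
  have hbx : d.nd.bx Jp δ a (d.M + d.T + s) =
      (if (gnum (d.g s)).2.1 = a then δ ^ 2 else 0)
        - (if (gnum (d.g s)).2.2 = a then δ ^ 2 else 0) := by
    unfold ND.bx
    rw [if_pos (by simp), if_neg (by simp only [nd_M]; omega),
      if_neg (by simp only [nd_M, nd_T]; omega)]
    have e : d.M + d.T + (s : ℕ) - (d.nd.M + d.nd.T) = s := by simp
    rw [e, nd_ga, nd_gb]
  rw [ax_ff hR (isCM_w d a _), az_ff hR (isCM_w d a _), hbz, hbx]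
  simp only [zero_smul, zero_add, one_smul, add_zero, mul_smul_comm]

theorem sum_wm : (∑ a : Fin d.M, ∑ s : Fin d.T, P d Jin Jp Jk δ (iw _ _ a) (im _ _ s)) =
    (δ ^ 2) • (∑ s : Fin d.T, dop (iw d.M d.T) (d.g s) * X (im _ _ s)) := by
  rw [Finset.sum_congr rfl fun a _ => Finset.sum_congr rfl fun t _ => P_wm d Jin Jp Jk δ a t]
  rw [Finset.sum_comm, Finset.smul_sum]
  refine Finset.sum_congr rfl fun s _ => ?_
  cases d.g s with
  | rot k a' =>
    rw [dop, zero_mul, smul_zero]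
    refine Finset.sum_eq_zero fun x _ => ?_
    rw [gnum_rot]
    by_cases h : (a' : ℕ) = x <;> simp [h]
  | cz x y =>
    have h1 : ∀ a : Fin d.M, (if (gnum (EG.cz x y)).2.1 = a then δ ^ 2 else 0) =
        if a = x then δ ^ 2 else 0 := by
      intro a
      by_cases h : a = x
      · subst h; simp
      · rw [if_neg h, if_neg]; intro h'; exact h (Fin.ext h'.symm)
    have h2 : ∀ a : Fin d.M, (if (gnum (EG.cz x y)).2.2 = a then δ ^ 2 else 0) =
        if a = y then δ ^ 2 else 0 := by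
      intro a
      by_cases h : a = y
      · subst h; simp
      · rw [if_neg h, if_neg]; intro h'; exact h (Fin.ext h'.symm)
    simp only [h1, h2, dop, osub, ite_smul, zero_smul, Finset.sum_sub_distrib,
      Finset.sum_ite_eq', Finset.mem_univ, if_true, sub_mul, smul_sub]

theorem P_cc (t t' : Fin d.T) :
    P d Jin Jp Jk δ (ic _ _ t) (ic _ _ t') =
      (if (t' : ℕ) = (t : ℕ) + 1 then -(Jk / 4) else 0) • (Z (ic _ _ t) * Z (ic _ _ t')) := by
  unfold P
  simp only [ic_val]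
  have hR : d.nd.isR (d.M + t) (d.M + t') = false := by
    unfold ND.isR
    simp
  have hCM : d.nd.isCM (d.M + t) (d.M + t') = false := by
    unfold ND.isCM
    simp
  have hbz : d.nd.bz Jin Jp Jk δ (d.M + t) (d.M + t') =
      (if (t' : ℕ) = (t : ℕ) + 1 then -(Jk / 4) else 0) := by
    unfold ND.bz
    rw [if_neg (by simp), if_neg (by simp), if_pos (by simp)]
    have h : (d.M + (t : ℕ) + 1 = d.M + t') ↔ (t' : ℕ) = (t : ℕ) + 1 := by omega
    simp only [h]
  have hbx : d.nd.bx Jp δ (d.M + t) (d.M + t') = 0 := by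
    unfold ND.bx
    rw [if_neg (by simp)]
  rw [ax_ff hR hCM, az_ff hR hCM, hbz, hbx]
  simp only [zero_smul, zero_add, one_smul, add_zero, mul_smul_comm]

theorem sum_cc : (∑ t : Fin d.T, ∑ t' : Fin d.T,
      if t < t' then P d Jin Jp Jk δ (ic _ _ t) (ic _ _ t') else 0) =
    (-(Jk / 4)) • (∑ t : Fin d.T, ∑ t' : Fin d.T,
          if (t' : ℕ) = (t : ℕ) + 1 then Z (ic d.M d.T t) * Z (ic d.M d.T t') else 0) := by
  simp only [Finset.smul_sum]
  refine Finset.sum_congr rfl fun t _ => Finset.sum_congr rfl fun t' _ => ?_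
  rw [P_cc]
  by_cases h : (t' : ℕ) = (t : ℕ) + 1
  · have : t < t' := by rw [Fin.lt_def]; omega
    simp only [if_pos h, if_pos this]
  · simp only [if_neg h, zero_smul, ite_self, smul_zero]

theorem P_cm (t s : Fin d.T) :
    P d Jin Jp Jk δ (ic _ _ t) (im _ _ s) =
      (if s = t ∧ isCZ (d.g t) = true then Jp * δ ^ 2 / 16 else 0) •
        (X (ic _ _ t) * Z (im _ _ s)) := by
  unfold P
  simp only [ic_val, im_val]
  have hR : d.nd.isR (d.M + t) (d.M + d.T + s) = false := by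
    unfold ND.isR
    simp
  have hCM : d.nd.isCM (d.M + t) (d.M + d.T + s) = true := by
    unfold ND.isCM
    simp
  have hbz : d.nd.bz Jin Jp Jk δ (d.M + t) (d.M + d.T + s) =
      (if s = t ∧ isCZ (d.g t) = true then Jp * δ ^ 2 / 16 else 0) := by
    unfold ND.bz
    rw [if_neg (by simp only [nd_M]; omega), if_neg (by simp),
      if_neg (by simp only [nd_M, nd_T]; omega), if_pos (by simp)]
    have e : d.M + (t : ℕ) - d.nd.M = t := by simp
    rw [e, nd_kd]
    have h : (d.M + d.T + (s : ℕ) = d.M + t + d.nd.T) ↔ s = t := by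
      rw [Fin.ext_iff, nd_T]; omega
    simp only [h, kd3_iff]
  have hbx : d.nd.bx Jp δ (d.M + t) (d.M + d.T + s) = 0 := by
    unfold ND.bx
    rw [if_neg (by simp)]
  rw [ax_ft hR hCM, az_ft hR hCM, hbz, hbx]
  simp only [zero_smul, zero_add, one_smul, add_zero, mul_smul_comm]

theorem sum_cm : (∑ t : Fin d.T, ∑ s : Fin d.T, P d Jin Jp Jk δ (ic _ _ t) (im _ _ s)) =
    (Jp * δ ^ 2 / 16) • (∑ t : Fin d.T,
      if isCZ (d.g t) then Z (im d.M d.T t) * X (ic d.M d.T t) else 0) := by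
  rw [Finset.smul_sum]
  refine Finset.sum_congr rfl fun t _ => ?_
  rw [Finset.sum_congr rfl fun s _ => P_cm d Jin Jp Jk δ t s]
  simp only [ite_and, ite_smul, zero_smul, Finset.sum_ite_eq', Finset.mem_univ, if_true]
  have hne : ic d.M d.T t ≠ im d.M d.T t := by
    intro h
    have := congrArg Fin.val h
    simp at this
    have h2 := t.2
    omega
  rw [(X_Z_comm hne).eq]
  split_ifs <;> simp

theorem P_mm (s s' : Fin d.T) : P d Jin Jp Jk δ (im _ _ s) (im _ _ s') = 0 := by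
  unfold P
  simp only [im_val]
  have hbz : d.nd.bz Jin Jp Jk δ (d.M + d.T + s) (d.M + d.T + s') = 0 := by
    unfold ND.bz
    rw [if_neg (by simp only [nd_M]; omega), if_neg (by simp only [nd_M]; omega),
      if_neg (by simp only [nd_M, nd_T]; omega), if_neg (by simp only [nd_M, nd_T]; omega)]
  have hbx : d.nd.bx Jp δ (d.M + d.T + s) (d.M + d.T + s') = 0 := by
    unfold ND.bx
    rw [if_neg (by simp only [nd_M]; omega)]
  rw [hbz, hbx]
  simp

/-- **the two-local form is an XZ operator** -/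
theorem H2_eq_XZ (hd : d.Ok) :
    d.H2 (iw _ _) (ic _ _) (im _ _) Jin Jp Jk δ =
      (d.nd.c0 Jin Jp Jk δ) • (1 : Op (Fin (d.M + d.T + d.T))) +
        XZop (d.nd.fx Jp δ) (d.nd.fz Jin Jp Jk δ) d.nd.ax d.nd.az (d.nd.bx Jp δ)
          (d.nd.bz Jin Jp Jk δ) := by
  have hT := hd.hT
  let first : Fin d.T := ⟨0, by omega⟩
  let last : Fin d.T := ⟨d.T - 1, by omega⟩
  have hf : (first : ℕ) = 0 := rfl
  have hl : (last : ℕ) + 1 = d.T := by change d.T - 1 + 1 = d.T; omega
  have e1 : ∀ t : Fin d.T, ((t : ℕ) + 1 = d.T ↔ t = last) := fun t =>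
    ⟨fun h => Fin.ext (by omega), fun h => by rw [h]; exact hl⟩
  have e2 : ∀ t : Fin d.T, ((t : ℕ) = 0 ↔ t = first) := fun t =>
    ⟨fun h => Fin.ext (by omega), fun h => by rw [h]⟩
  rw [H2_expand d (iw _ _) (ic _ _) (im _ _) Jin Jp Jk δ first last hf hl]
  unfold XZop
  have hpair := pairs3 d.M d.T (P d Jin Jp Jk δ)
  have hP : (∑ p : Fin (d.M + d.T + d.T), ∑ q : Fin (d.M + d.T + d.T), if p < q then
      (d.nd.ax p q • X p + d.nd.az p q • Z p) *
        (d.nd.bx Jp δ p q • X q + d.nd.bz Jin Jp Jk δ p q • Z q) else 0) =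
      ∑ p, ∑ q, (if p < q then P d Jin Jp Jk δ p q else 0) := rfl
  rw [hP, hpair, sum_ww d Jin Jp Jk δ hd, sum_wc d Jin Jp Jk δ hd first last hf hl, sum_wm, sum_cc,
    sum_cm]
  simp only [P_mm, ite_self, Finset.sum_const_zero, add_zero]
  rw [sum3 d.M d.T]
  simp only [iw_val, ic_val, im_val, fx_w, fx_c, fx_m, fz_w, fz_c, fz_m, zero_smul, zero_add]
  have s1 : (∑ a : Fin d.M, ((if a = d.out then (1 / 4 : ℝ) else 0)
      - (if d.con a then Jin / 4 else 0)) • Z (iw d.M d.T a)) =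
      (1 / 4 : ℝ) • Z (iw _ _ d.out)
        - (Jin / 4) • (∑ a : Fin d.M, if d.con a then Z (iw d.M d.T a) else 0) := by
    simp only [osub, Finset.sum_sub_distrib, ite_smul, zero_smul, Finset.sum_ite_eq',
      Finset.mem_univ, if_true]
    rw [Finset.smul_sum]
    congr 1
    refine Finset.sum_congr rfl fun a _ => ?_
    split_ifs <;> simp
  have s2 : (∑ t : Fin d.T, ((if isCZ (d.g t) = true then -(Jp * δ ^ 2 / 16) else 0)
        • X (ic d.M d.T t)
      + ((if (t : ℕ) = 0 then Jin / 4 * d.nd.nc - Jp / 4 else 0)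
      + (if (t : ℕ) + 1 = d.T then Jp / 4 - 1 / 4 else 0)
      + (if (t : ℕ) + 1 < d.T then Jk / 4 else 0) - (if 0 < (t : ℕ) then Jk / 4 else 0))
        • Z (ic d.M d.T t))) =
      (-(Jp * δ ^ 2 / 16)) • (∑ t : Fin d.T, if isCZ (d.g t) then X (ic d.M d.T t) else 0)
      + (Jin / 4 * ncR d - Jp / 4) • Z (ic _ _ first) + (Jp / 4 - 1 / 4) • Z (ic _ _ last)
      + (Jk / 4) • (∑ t : Fin d.T, if (t : ℕ) + 1 < d.T then Z (ic d.M d.T t) else 0)
      - (Jk / 4) • (∑ t : Fin d.T, if 0 < (t : ℕ) then Z (ic d.M d.T t) else 0) := by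
    simp only [osub, add_smul, Finset.sum_sub_distrib, Finset.sum_add_distrib, ite_smul,
      zero_smul, e1, e2, Finset.sum_ite_eq', Finset.mem_univ, if_true, ncR_eq]
    simp only [Finset.smul_sum, smul_ite, smul_zero]
    abel
  rw [s1, s2]
  have hc0 : d.nd.c0 Jin Jp Jk δ = (1 / 4 + Jin / 4 * ncR d + Jp / 2 + Jk / 4 * (d.T - 1)
      + d.T * (δ ^ 3 / 2) + 2 * δ * nczR d) := by
    unfold ND.c0 nczR
    rw [ncR_eq, nd_T, Finset.sum_range]
    simp only [nd_kd, kd3_iff]
  rw [hc0, ← Finset.smul_sum]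
  module

end

end Crest.Agent.R338.PTab
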