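import Crest.Agent.Lib.PT.ListFns2
import Crest.Agent.Lib.PT.ArithRat
import Crest.Agent.Lib.PT.OfTM
import Crest.Prelude.Def_QMA

/-!
# Row 338, node I.5a: poly-time readers for the codes of Def_GateCircuit

`IsRd A C R` : the reader `R : List Bool → α × List Bool` is poly-time, does not lengthen the
rest, and `sz (R w).1 + A * |rest| ≤ A * |w| + C`.
-/

set_option autoImplicit false

namespace Crest.Agent.R338.RCP

open Crest.Agent.Lib.PT Crest.Quantum.GateCircuit Crest.Quantum.QMA

variable {α β : Type} [PTCode α] [PTCode β]

/-- poly-time readers with a size potential -/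
structure IsRd (A C : ℕ) (R : List Bool → α × List Bool) : Prop where
  ptf : PTF R
  len : ∀ w, (R w).2.length ≤ w.length
  pot : ∀ w, sz (R w).1 + A * (R w).2.length ≤ A * w.length + C

/-! ### natural numbers -/

/-- value of a bit list -/
def val (x : List Bool) : ℕ := x.foldr (fun b n => Nat.bit b n) 0

theorem val_bits (n : ℕ) : val n.bits = n := by
  unfold val
  induction n using Nat.binaryRec' with
  | zero => simp
  | bit b n h ih => rw [Nat.bits_append_bit n b h]; simp [ih]

theorem sz_val (l : List Bool) : sz (val l) ≤ l.length := by
  unfold val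
  rw [sz_nat]
  induction l with
  | nil => simp
  | cons b l ih =>
    simp only [List.foldr_cons, List.length_cons]
    exact (Arith.size_bit_le _ _).trans (by omega)

/-- read a natural number -/
def natR (w : List Bool) : ℕ × List Bool := (val (Crest.Agent.Lib.PT.fst w), Crest.Agent.Lib.PT.snd w)

theorem natCode_append (n : ℕ) (r : List Bool) : natCode n ++ r = pair n.bits r := by
  unfold natCode
  generalize n.bits = l
  induction l with
  | nil => simp [pair_nil]
  | cons b l ih => simp only [pair_cons, ← ih]; simp

theorem natR_natCode (n : ℕ) (r : List Bool) : natR (natCode n ++ r) = (n, r) := by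
  rw [natR, natCode_append, fst_pair, snd_pair, val_bits]

theorem natR_isRd : IsRd 1 0 natR where
  ptf := by
    have h1 : PTF (fun w : List Bool => val (Crest.Agent.Lib.PT.fst w)) := by
      unfold val
      exact PTF.ofBits (PT.toPTF_list PT.fst)
    have h2 : PTF (fun w : List Bool => Crest.Agent.Lib.PT.snd w) := PT.toPTF_list PT.snd
    exact PTF.prodMk h1 h2
  len w := length_snd_le w
  pot w := by
    have h1 := length_fst_add_snd w
    have h2 := sz_val (Crest.Agent.Lib.PT.fst w)
    simp only [natR]
    omega

/-! ### pairs, skipping a bit -/

/-- read two items -/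
def pairR (R : List Bool → α × List Bool) (S : List Bool → β × List Bool) (w : List Bool) :
    (α × β) × List Bool := (((R w).1, (S (R w).2).1), (S (R w).2).2)

theorem pairR_isRd {A C A' C' : ℕ} {R : List Bool → α × List Bool} {S : List Bool → β × List Bool}
    (hR : IsRd A C R) (hS : IsRd A' C' S) : IsRd (2 * A + A') (2 * C + C' + 1) (pairR R S) where
  ptf := by
    have h1 := hR.ptf
    have h2 := hS.ptf
    unfold pairR
    fun_prop
  len w := (hS.len _).trans (hR.len _)
  pot w := by
    have h1 := hR.pot w
    have h2 := hS.pot (R w).2
    have h3 := hR.len w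
    have h4 := hS.len (R w).2
    simp only [pairR, sz_prod]
    nlinarith

/-- skip a bit -/
def skipR (R : List Bool → α × List Bool) (w : List Bool) : α × List Bool := R w.tail

theorem skipR_isRd {A C : ℕ} {R : List Bool → α × List Bool} (hR : IsRd A C R) :
    IsRd A C (skipR R) where
  ptf := by
    have h1 := hR.ptf
    unfold skipR
    fun_prop
  len w := (hR.len _).trans (by simp)
  pot w := by
    have h1 := hR.pot w.tail
    have h2 : w.tail.length ≤ w.length := by simp
    simp only [skipR]
    nlinarith

/-- read a bit -/
def bitR (w : List Bool) : Bool × List Bool := (w.head?.getD false, w.tail)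

theorem bitR_isRd : IsRd 0 1 bitR where
  ptf := by
    unfold bitR
    fun_prop
  len w := by simp [bitR]
  pot w := by simp [bitR]

/-! ### lists -/

/-- one step of reading a list -/
def listStep (R : List Bool → α × List Bool) (s : List α × List Bool × Bool) :
    List α × List Bool × Bool :=
  bif s.2.2 then s else
    bif s.2.1.head?.getD false then ((R s.2.1.tail).1 :: s.1, (R s.2.1.tail).2, false)
    else (s.1, s.2.1.tail, true)

/-- read a list -/
def listR (R : List Bool → α × List Bool) (w : List Bool) : List α × List Bool :=
  (((listStep R)^[w.length + 1] ([], w, false)).1.reverse,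
    ((listStep R)^[w.length + 1] ([], w, false)).2.1)

theorem listStep_len {A C : ℕ} {R : List Bool → α × List Bool} (hR : IsRd A C R)
    (s : List α × List Bool × Bool) : (listStep R s).2.1.length ≤ s.2.1.length := by
  rcases s with ⟨a, l, b⟩
  unfold listStep
  rcases b with _ | _
  · rcases l with _ | ⟨x, l⟩
    · simp
    · rcases x with _ | _
      · simp
      · have := hR.len l
        simp; omega
  · simp

theorem listStep_pot {A C : ℕ} {R : List Bool → α × List Bool} (hR : IsRd A C R)
    (s : List α × List Bool × Bool) :
    sz (listStep R s).1 + (2 * A + 2 * C + 1) * (listStep R s).2.1.length ≤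
      sz s.1 + (2 * A + 2 * C + 1) * s.2.1.length := by
  rcases s with ⟨a, l, b⟩
  unfold listStep
  rcases b with _ | _
  · rcases l with _ | ⟨x, l⟩
    · simp
    · rcases x with _ | _
      · simp
      · have h1 := hR.pot l
        have h2 := hR.len l
        simp only [List.head?_cons, Option.getD_some, cond_false, cond_true, List.tail_cons, sz_cons,
          List.length_cons]
        nlinarith
  · simp

theorem listStep_iter_pot {A C : ℕ} {R : List Bool → α × List Bool} (hR : IsRd A C R)
    (w : List Bool) (k : ℕ) :
    sz ((listStep R)^[k] ([], w, false)).1 +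
      (2 * A + 2 * C + 1) * ((listStep R)^[k] ([], w, false)).2.1.length ≤
      (2 * A + 2 * C + 1) * w.length ∧
    ((listStep R)^[k] ([], w, false)).2.1.length ≤ w.length := by
  induction k with
  | zero => simp
  | succ k ih =>
    rw [Function.iterate_succ_apply']
    have h1 := listStep_pot hR ((listStep R)^[k] ([], w, false))
    have h2 := listStep_len hR ((listStep R)^[k] ([], w, false))
    omega

theorem listR_isRd {A C : ℕ} {R : List Bool → α × List Bool} (hR : IsRd A C R) :
    IsRd (2 * A + 2 * C + 1) 0 (listR R) where
  ptf := by
    have h0 := hR.ptf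
    have hs : PTF (fun s : List α × List Bool × Bool => listStep R s) := by
      unfold listStep
      fun_prop
    have h : PTF (fun w : List Bool => (listStep R)^[w.length + 1]
        (([], w, false) : List α × List Bool × Bool)) := by
      refine PTF.iterate' (n := fun w : List Bool => w.length + 1)
        (f := fun (_ : List Bool) (s : List α × List Bool × Bool) => listStep R s)
        (a := fun w : List Bool => (([], w, false) : List α × List Bool × Bool))
        (by fun_prop) (PTF.comp hs PTF.snd) (by fun_prop)
        (B := fun w => 2 * ((2 * A + 2 * C + 1) * w.length) + 1 + (2 * (3 * w.length) + 1 + 1)) ?_ ?_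
      · have : PB (fun w : List Bool => w.length) := (PTU.length (γ := List Bool) PTF.id).pb
        fun_prop
      · intro w i _
        have h1 := listStep_iter_pot hR w i
        change sz ((listStep R)^[i] ([], w, false)) ≤ _
        rw [sz_prod, sz_prod, sz_listBool, sz_bool]
        omega
    exact PTF.prodMk (PTF.reverse (PTF.comp PTF.fst h)) (PTF.comp PTF.fst (PTF.comp PTF.snd h))
  len w := (listStep_iter_pot hR w _).2
  pot w := by
    have := (listStep_iter_pot hR w (w.length + 1)).1
    simp only [listR, sz_reverse]
    omega

omit [PTCode α] in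
theorem listStep_done (R : List Bool → α × List Bool) (a : List α) (r : List Bool) (k : ℕ) :
    (listStep R)^[k] (a, r, true) = (a, r, true) := by
  induction k with
  | zero => rfl
  | succ k ih => rw [Function.iterate_succ_apply', ih]; rfl

omit [PTCode α] in
/-- correctness of the list reader -/
theorem listR_listCode {γ : Type} (R : List Bool → α × List Bool) (c : γ → List Bool) (f : γ → α)
    (l : List γ) (h : ∀ a ∈ l, ∀ r, R (c a ++ r) = (f a, r)) (r : List Bool) :
    listR R (listCode c l ++ r) = (l.map f, r) := by
  have key : ∀ (l : List γ) (acc : List α), (∀ a ∈ l, ∀ r, R (c a ++ r) = (f a, r)) →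
      (listStep R)^[l.length + 1] (acc, listCode c l ++ r, false) =
        ((l.map f).reverse ++ acc, r, true) := by
    intro l
    induction l with
    | nil =>
      intro acc _
      simp [listCode, listStep]
    | cons a l ih =>
      intro acc h
      rw [List.length_cons, Function.iterate_succ_apply]
      have h1 : listStep R (acc, listCode c (a :: l) ++ r, false) =
          (f a :: acc, listCode c l ++ r, false) := by
        have h2 : listCode c (a :: l) ++ r = true :: (c a ++ (listCode c l ++ r)) := by
          simp [listCode]
        rw [h2]
        simp only [listStep, List.head?_cons, Option.getD_some, cond_false, cond_true,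
          List.tail_cons]
        rw [h a (by simp)]
      rw [h1, ih _ (fun a' ha' => h a' (by simp [ha']))]
      simp
  have hlen : l.length + 1 ≤ (listCode c l ++ r).length + 1 := by
    have : ∀ l : List γ, l.length ≤ (listCode c l).length := by
      intro l
      unfold listCode
      induction l with
      | nil => simp
      | cons a l ih => simp only [List.map_cons, List.flatten_cons, List.length_append,
          List.length_cons] at ih ⊢; omega
    have := this l
    rw [List.length_append]
    omega
  obtain ⟨k, hk⟩ := Nat.exists_eq_add_of_le hlen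
  have : (listStep R)^[(listCode c l ++ r).length + 1] ([], listCode c l ++ r, false) =
      ((l.map f).reverse ++ [], r, true) := by
    rw [hk, add_comm, Function.iterate_add_apply, key l [] h, listStep_done]
  unfold listR
  rw [this]
  simp

/-! ### gates and verifier circuits -/

/-- index of a primitive -/
def primIdx : Prim → ℕ
  | Prim.x => 0 | Prim.h => 1 | Prim.s => 2 | Prim.sdg => 3 | Prim.t => 4 | Prim.tdg => 5

theorem primCode_eq (g : Prim) : primCode g = natCode (primIdx g) := by cases g <;> rfl

/-- numerical data of a gate: primitive, controls, target -/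
abbrev GD : Type := ℕ × List ℕ × ℕ

/-- the data of a controlled gate -/
def gdat {N : ℕ} : Gate N 0 → GD
  | Gate.ctrl g cs t => (primIdx g, cs.map (fun c : Fin N => (c : ℕ)), (t : ℕ))
  | Gate.oracle _ t => (0, [], (t : ℕ))

/-- read a gate -/
def gateR : List Bool → GD × List Bool := skipR (pairR natR (pairR (listR natR) natR))

theorem gateR_gateCode {N : ℕ} (g : Gate N 0) (hg : IsCtrlGate g) (r : List Bool) :
    gateR (gateCode g ++ r) = (gdat g, r) := by
  rcases g with ⟨g, cs, t⟩ | ⟨q, t⟩
  · simp only [gateR, skipR, gateCode, List.cons_append, List.tail_cons, List.append_assoc, pairR,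
      primCode_eq, natR_natCode]
    rw [listR_listCode natR (fun c : Fin N => natCode c) (fun c : Fin N => (c : ℕ)) cs
      (fun a _ r => natR_natCode _ _)]
    simp only [natR_natCode, gdat]
  · exact absurd hg (fun h => h)

theorem gateR_isRd : ∃ A C, IsRd A C gateR :=
  ⟨_, _, skipR_isRd (pairR_isRd natR_isRd (pairR_isRd (listR_isRd natR_isRd) natR_isRd))⟩

/-- numerical data of a verifier: wires, witness wires, gates, output -/
abbrev VD : Type := ℕ × ℕ × List GD × ℕ

/-- the data of a verifier -/
def vdat (V : VCirc) : VD := (V.N, V.w, V.gates.map gdat, (V.out : ℕ))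

/-- read a verifier -/
def vR : List Bool → VD × List Bool := pairR natR (pairR natR (pairR (listR gateR) natR))

theorem vR_vcode (V : VCirc) (hV : ∀ g ∈ V.gates, IsCtrlGate g) :
    vR (vcode V) = (vdat V, []) := by
  have h : vcode V = natCode V.N ++ (natCode V.w ++ (listCode gateCode V.gates ++
      (natCode (V.out : ℕ) ++ []))) := by
    simp [vcode]
  rw [h]
  simp only [vR, pairR, natR_natCode]
  rw [listR_listCode gateR gateCode gdat V.gates (fun g hg r => gateR_gateCode g (hV g hg) r)]
  simp only [natR_natCode, vdat]

theorem ptf_vR : PTF vR := by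
  obtain ⟨A, C, h⟩ := gateR_isRd
  exact (pairR_isRd natR_isRd (pairR_isRd natR_isRd (pairR_isRd (listR_isRd h) natR_isRd))).ptf

/-- the data of a poly-time uniform family are poly-time -/
theorem ptf_vdat (V : List Bool → VCirc) (hV : ∀ x, ∀ g ∈ (V x).gates, IsCtrlGate g)
    (gen : List Bool → List Bool) (hgen : Crest.Complexity.PolyTime gen)
    (h : ∀ x, gen x = vcode (V x)) : PTF (fun x : Bits => vdat (V x.val)) := by
  have h1 : PTF (fun x : List Bool => vR (gen x)) := PTF.comp ptf_vR (PTF.of_polyTime hgen)
  have h2 : PTF (fun x : Bits => vR (gen x.val)) := PTF.comp (g := fun x : List Bool => vR (gen x))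
    (f := fun x : Bits => x.val) h1 (PTF.bitsVal PTF.id)
  refine PTF.of_eq (PTF.comp PTF.fst h2) (fun x => ?_)
  rw [h, vR_vcode _ (hV x.val)]

end Crest.Agent.R338.RCP
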