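import Crest.Agent.R338.RCDefs

/-!
# Row 338, node I.1: real circuits — semantics of the words

`mact κ a` : a wire-`a` matrix depending on the other wires.  All words are such.
-/

set_option autoImplicit false

namespace Crest.Agent.R338.RC

open Function Crest.Quantum.GateCircuit Crest.Quantum.QMA

section mact

variable {W : Type} [DecidableEq W]

/-- `2×2` matrices -/
abbrev M2 : Type := Bool → Bool → ℝ

/-- product -/
def mmul (A B : M2) : M2 := fun x y => A x false * B false y + A x true * B true y

/-- identity -/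
def mone : M2 := fun x y => if x = y then 1 else 0

/-- `Z` -/
def mz : M2 := fun x y => if x = y then (if x = true then -1 else 1) else 0

/-- `X` -/
def mx : M2 := fun x y => if x = y then 0 else 1

/-- apply on wire `a` a matrix depending on the configuration -/
def mact (κ : (W → Bool) → M2) (a : W) (Ψ : RVec W) : RVec W :=
  fun σ => κ σ (σ a) false * Ψ (update σ a false) + κ σ (σ a) true * Ψ (update σ a true)

theorem mact_mact (κ κ' : (W → Bool) → M2) (a : W) (h : ∀ σ b, κ' (update σ a b) = κ' σ)
    (Ψ : RVec W) : mact κ a (mact κ' a Ψ) = mact (fun σ => mmul (κ σ) (κ' σ)) a Ψ := by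
  funext σ
  simp only [mact, mmul, update_self, update_idem, h]
  ring

theorem rot_act (k : Fin 3) (a : W) (Ψ : RVec W) :
    (EG.rot k a).act Ψ = mact (fun _ => rmat k) a Ψ := rfl

/-- control matrix -/
def cmat (b : Bool) : M2 := if b then mz else mone

theorem mone_act (a : W) (κ : (W → Bool) → M2) (Ψ : RVec W) (σ : W → Bool) (h : κ σ = mone) :
    mact κ a Ψ σ = Ψ σ := by
  simp only [mact, h, mone]
  rcases hb : σ a with _ | _
  · simp only [if_true, one_mul]
    rw [show update σ a false = σ by rw [← hb, update_eq_self]]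
    simp
  · simp only [if_true, one_mul]
    rw [show update σ a true = σ by rw [← hb, update_eq_self]]
    simp

theorem mz_act (a : W) (κ : (W → Bool) → M2) (Ψ : RVec W) (σ : W → Bool) (h : κ σ = mz) :
    mact κ a Ψ σ = if σ a = true then - Ψ σ else Ψ σ := by
  simp only [mact, h, mz]
  rcases hb : σ a with _ | _
  · rw [show update σ a false = σ by rw [← hb, update_eq_self]]
    simp
  · rw [show update σ a true = σ by rw [← hb, update_eq_self]]
    simp

theorem cz_act (c a : W) (Ψ : RVec W) :
    (EG.cz c a).act Ψ = mact (fun σ => cmat (σ c)) a Ψ := by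
  funext σ
  rcases hb : σ c with _ | _
  · rw [mone_act a _ Ψ σ (by simp [cmat, hb])]
    simp [EG.act, hb]
  · rw [mz_act a _ Ψ σ (by simp [cmat, hb])]
    simp [EG.act, hb]

theorem mact_congr {κ κ' : (W → Bool) → M2} (h : ∀ σ, κ σ = κ' σ) (a : W) (Ψ : RVec W) :
    mact κ a Ψ = mact κ' a Ψ := by rw [funext h]

theorem run_nil (Ψ : RVec W) : run [] Ψ = Ψ := rfl
theorem run_cons (g : EG W) (w : List (EG W)) (Ψ : RVec W) : run (g :: w) Ψ = run w (g.act Ψ) := rfl
theorem run_append (w w' : List (EG W)) (Ψ : RVec W) : run (w ++ w') Ψ = run w' (run w Ψ) := by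
  simp [run, List.foldl_append]

end mact

/-! ### matrix identities -/

theorem rmat_sq (k : Fin 3) : mmul (rmat k) (rmat k) = mone := by
  funext x y
  have h := Real.sin_sq_add_cos_sq (ang k)
  rcases x with _ | _ <;> rcases y with _ | _ <;> simp only [mmul, rmat, mone] <;> simp <;>
    nlinarith

theorem mmul_assoc (A B C : M2) : mmul (mmul A B) C = mmul A (mmul B C) := by
  funext x y
  simp only [mmul]; ring

theorem mmul_one (A : M2) : mmul A mone = A := by
  funext x y
  rcases y with _ | _ <;> simp [mmul, mone]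

theorem one_mmul (A : M2) : mmul mone A = A := by
  funext x y
  rcases x with _ | _ <;> simp [mmul, mone]

theorem mz_sq : mmul mz mz = mone := by
  funext x y
  rcases x with _ | _ <;> rcases y with _ | _ <;> simp [mmul, mz, mone]

theorem cmat_sq (b : Bool) : mmul (cmat b) (cmat b) = mone := by
  rcases b with _ | _
  · simp [cmat, one_mmul]
  · simp [cmat, mz_sq]

theorem ang0 : ang 0 = Real.pi / 8 := by simp [ang]
theorem ang1 : ang 1 = Real.pi / 4 := by simp [ang]
theorem ang2 : ang 2 = Real.pi / 2 := by
  unfold ang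
  rw [if_neg (by decide), if_neg (by decide)]

/-- the matrix `R(θ)` for any angle -/
noncomputable def rm (θ : ℝ) : M2
  | false, false => Real.cos θ
  | false, true => Real.sin θ
  | true, false => Real.sin θ
  | true, true => -Real.cos θ

/-- rotation by `θ` -/
noncomputable def rotm (θ : ℝ) : M2
  | false, false => Real.cos θ
  | false, true => -Real.sin θ
  | true, false => Real.sin θ
  | true, true => Real.cos θ

theorem rmat_eq (k : Fin 3) : rmat k = rm (ang k) := by
  funext x y
  rcases x with _ | _ <;> rcases y with _ | _ <;> rfl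

theorem rm_z_rm (θ : ℝ) : mmul (rm θ) (mmul mz (rm θ)) = rm (2 * θ) := by
  funext x y
  rcases x with _ | _ <;> rcases y with _ | _ <;>
    simp [mmul, rm, mz, Real.cos_two_mul', Real.sin_two_mul] <;> ring

theorem rm_mul_rm (θ φ : ℝ) : mmul (rm θ) (rm φ) = rotm (θ - φ) := by
  funext x y
  rcases x with _ | _ <;> rcases y with _ | _ <;>
    simp [mmul, rm, rotm, Real.cos_sub, Real.sin_sub] <;> ring

theorem rm_mz (θ : ℝ) : mmul (rm θ) mz = rotm θ := by
  funext x y
  rcases x with _ | _ <;> rcases y with _ | _ <;> simp [mmul, rm, rotm, mz]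

theorem mz_rm (θ : ℝ) : mmul mz (rm θ) = rotm (-θ) := by
  funext x y
  rcases x with _ | _ <;> rcases y with _ | _ <;> simp [mmul, rm, rotm, mz]

theorem rm_half_pi : rm (Real.pi / 2) = mx := by
  funext x y
  rcases x with _ | _ <;> rcases y with _ | _ <;> simp [rm, mx]

theorem rz0 : mmul (rmat 0) (mmul mz (rmat 0)) = rm (Real.pi / 4) := by
  rw [rmat_eq, rm_z_rm, ang0]; congr 1; ring

theorem rz1 : mmul (rmat 1) (mmul mz (rmat 1)) = mx := by
  rw [rmat_eq, rm_z_rm, ang1, ← rm_half_pi]; congr 1; ring

/-- the AND matrix -/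
noncomputable def andm (a b : Bool) : M2 :=
  mmul (rmat 0) (mmul (cmat b) (mmul (rmat 0) (mmul (cmat a) (mmul (rmat 0)
    (mmul (cmat b) (rmat 0))))))

theorem andm_ff : andm false false = mone := by
  simp only [andm, cmat, Bool.false_eq_true, if_false, one_mmul]
  rw [rmat_sq, mmul_one, rmat_sq]

theorem andm_tf : andm true false = mz := by
  simp only [andm, cmat, Bool.false_eq_true, if_false, if_true, one_mmul]
  rw [rmat_sq, mmul_one, ← mmul_assoc, rmat_sq, one_mmul]

theorem andm_ft : andm false true = mone := by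
  simp only [andm, cmat, Bool.false_eq_true, if_false, if_true, one_mmul]
  rw [← mmul_assoc (rmat 0) (rmat 0), rmat_sq, one_mmul, ← mmul_assoc mz mz, mz_sq, one_mmul,
    rmat_sq]

theorem andm_tt : andm true true = mx := by
  have h : mmul (rmat 0) (mmul mz (mmul (rmat 0) (mmul mz (mmul (rmat 0) (mmul mz (rmat 0)))))) =
      mmul (rm (Real.pi / 4)) (mmul mz (rm (Real.pi / 4))) := by
    rw [← rz0]
    simp only [mmul_assoc]
  simp only [andm, cmat, if_true]
  rw [h, rm_z_rm, ← rm_half_pi]
  congr 1
  ring

section words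

variable {W : Type} [DecidableEq W]

theorem run_andW (a b c : W) (hac : a ≠ c) (hbc : b ≠ c) (Ψ : RVec W) :
    run (andW a b c) Ψ = mact (fun σ => andm (σ a) (σ b)) c Ψ := by
  have ha : ∀ (σ : W → Bool) x, cmat (update σ c x a) = cmat (σ a) := fun σ x => by
    rw [update_of_ne hac]
  have hb : ∀ (σ : W → Bool) x, cmat (update σ c x b) = cmat (σ b) := fun σ x => by
    rw [update_of_ne hbc]
  simp only [andW, run_cons, run_nil, rot_act, cz_act]
  rw [mact_mact _ _ _ (fun σ x => by first | rfl | exact hb σ x | exact ha σ x),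
    mact_mact _ _ _ (fun σ x => by first | rfl | exact hb σ x | exact ha σ x),
    mact_mact _ _ _ (fun σ x => by first | rfl | exact hb σ x | exact ha σ x),
    mact_mact _ _ _ (fun σ x => by first | rfl | exact hb σ x | exact ha σ x),
    mact_mact _ _ _ (fun σ x => by first | rfl | exact hb σ x | exact ha σ x),
    mact_mact _ _ _ (fun σ x => by first | rfl | exact hb σ x | exact ha σ x)]
  refine mact_congr (fun σ => ?_) _ _
  simp only [mmul_assoc, andm]

/-- the effect of AND on states supported on `σ c = false` -/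
theorem run_andW_apply (a b c : W) (hac : a ≠ c) (hbc : b ≠ c) (Ψ : RVec W)
    (h : ∀ σ : W → Bool, σ c = true → Ψ σ = 0) (σ : W → Bool) :
    run (andW a b c) Ψ σ = if σ c = (σ a && σ b) then Ψ (update σ c false) else 0 := by
  rw [run_andW a b c hac hbc]
  simp only [mact]
  rw [h (update σ c true) (by simp)]
  rcases ha : σ a with _ | _ <;> rcases hb : σ b with _ | _ <;> rcases hc : σ c with _ | _ <;>
    simp [andm_ff, andm_ft, andm_tf, andm_tt, mone, mz, mx]

theorem run_three (k : Fin 3) (c t : W) (hct : c ≠ t) (Ψ : RVec W) :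
    run [EG.rot k t, EG.cz c t, EG.rot k t] Ψ =
      mact (fun σ => mmul (rmat k) (mmul (cmat (σ c)) (rmat k))) t Ψ := by
  have hc : ∀ (σ : W → Bool) x, cmat (update σ t x c) = cmat (σ c) := fun σ x => by
    rw [update_of_ne hct]
  simp only [run_cons, run_nil, rot_act, cz_act]
  rw [mact_mact _ _ _ (fun σ x => by first | rfl | exact hc σ x),
    mact_mact _ _ _ (fun σ x => by first | rfl | exact hc σ x)]
  refine mact_congr (fun σ => ?_) _ _
  simp only [mmul_assoc]

theorem run_phW (k : Fin 3) (y r : W) (h : y ≠ r) (Ψ : RVec W) :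
    run (phW k y r) Ψ = mact (fun σ => if σ y = true then rotm (2 * ang k) else mone) r Ψ := by
  have hc : ∀ (σ : W → Bool) x, cmat (update σ r x y) = cmat (σ y) := fun σ x => by
    rw [update_of_ne h]
  simp only [phW, run_cons, run_nil, rot_act, cz_act]
  rw [mact_mact _ _ _ (fun σ x => by first | rfl | exact hc σ x),
    mact_mact _ _ _ (fun σ x => by first | rfl | exact hc σ x),
    mact_mact _ _ _ (fun σ x => by first | rfl | exact hc σ x)]
  refine mact_congr (fun σ => ?_) _ _
  rcases hy : σ y with _ | _
  · simp [cmat, mmul_one, rmat_sq]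
  · simp only [cmat, if_true]
    rw [rmat_eq, ← rm_mz, ← rm_z_rm]
    simp only [mmul_assoc]

theorem run_phW_rev (k : Fin 3) (y r : W) (h : y ≠ r) (Ψ : RVec W) :
    run (phW k y r).reverse Ψ =
      mact (fun σ => if σ y = true then rotm (-(2 * ang k)) else mone) r Ψ := by
  have hc : ∀ (σ : W → Bool) x, cmat (update σ r x y) = cmat (σ y) := fun σ x => by
    rw [update_of_ne h]
  simp only [phW, List.reverse_cons, List.reverse_nil, List.nil_append, List.cons_append,
    run_cons, run_nil, rot_act, cz_act]
  rw [mact_mact _ _ _ (fun σ x => by first | rfl | exact hc σ x),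
    mact_mact _ _ _ (fun σ x => by first | rfl | exact hc σ x),
    mact_mact _ _ _ (fun σ x => by first | rfl | exact hc σ x)]
  refine mact_congr (fun σ => ?_) _ _
  rcases hy : σ y with _ | _
  · simp [cmat, one_mmul, mmul_one, rmat_sq]
  · simp only [cmat, if_true]
    rw [rmat_eq, ← mz_rm, ← rm_z_rm]
    simp only [mmul_assoc]

/-! ### involutions, palindromes -/

theorem act_act (g : EG W) (hg : g.WF) (Ψ : RVec W) : g.act (g.act Ψ) = Ψ := by
  rcases g with ⟨k, a⟩ | ⟨a, b⟩
  · rw [rot_act, rot_act, mact_mact _ _ _ (by intros; rfl)]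
    funext σ
    exact mone_act a _ Ψ σ (rmat_sq k)
  · funext σ
    simp only [EG.act]
    split_ifs <;> simp

theorem run_reverse_run (w : List (EG W)) (hw : ∀ g ∈ w, g.WF) (Ψ : RVec W) :
    run w.reverse (run w Ψ) = Ψ := by
  induction w generalizing Ψ with
  | nil => rfl
  | cons g w ih =>
    rw [run_cons, List.reverse_cons, run_append, ih (fun g' h' => hw g' (List.mem_cons_of_mem _ h')),
      run_cons, run_nil, act_act g (hw g List.mem_cons_self)]

omit [DecidableEq W] in
theorem andW_reverse (a b c : W) : (andW a b c).reverse = andW a b c := rfl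

end words

end Crest.Agent.R338.RC
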