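import Mathlib

/-!
Row 338 (S0529), node SC: antisymmetric tensors, one- and two-body operators, frozen core.
helper426.
-/

set_option autoImplicit false
set_option linter.unusedSectionVars false
set_option linter.unusedVariables false

open Finset Function

namespace Crest.Agent.R338.SC

section Basic

variable {ι Ω : Type*} [Fintype ι] [DecidableEq ι] [Fintype Ω] [DecidableEq Ω]

/-- antisymmetric tensors -/
def Anti (C : (ι → Ω) → ℂ) : Prop :=
  ∀ (σ : Equiv.Perm ι) (ω : ι → Ω), C (ω ∘ σ) = ((Equiv.Perm.sign σ : ℤ) : ℂ) * C ω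

/-- one-body operator `∑ᵢ Mᵢ` -/
noncomputable def one (M : Ω → Ω → ℂ) (C : (ι → Ω) → ℂ) (ω : ι → Ω) : ℂ :=
  ∑ i, ∑ β, M (ω i) β * C (update ω i β)

/-- the two-body term of the ordered pair `(i, j)` -/
noncomputable def pair (W : Ω → Ω → Ω → Ω → ℂ) (C : (ι → Ω) → ℂ) (ω : ι → Ω) (i j : ι) : ℂ :=
  ∑ β, ∑ δ, W (ω i) β (ω j) δ * C (update (update ω i β) j δ)

/-- two-body operator, sum over ordered pairs `i ≠ j` (no factor `1/2`) -/
noncomputable def two (W : Ω → Ω → Ω → Ω → ℂ) (C : (ι → Ω) → ℂ) (ω : ι → Ω) : ℂ :=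
  ∑ i, ∑ j, if i = j then 0 else pair W C ω i j

/-- inner product of tensors -/
noncomputable def ip (C D : (ι → Ω) → ℂ) : ℂ := ∑ ω, starRingEnd ℂ (C ω) * D ω

theorem sign_mul_self (σ : Equiv.Perm ι) :
    ((Equiv.Perm.sign σ : ℤ) : ℂ) * ((Equiv.Perm.sign σ : ℤ) : ℂ) = 1 := by
  have h := Int.units_mul_self (Equiv.Perm.sign σ)
  have h2 : ((Equiv.Perm.sign σ : ℤ)) * ((Equiv.Perm.sign σ : ℤ)) = 1 := by
    rw [← Units.val_mul, h]; rfl
  exact_mod_cast h2

theorem Anti.swap {C : (ι → Ω) → ℂ} (hC : Anti C) {i j : ι} (h : i ≠ j) (ω : ι → Ω) :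
    C (ω ∘ Equiv.swap i j) = - C ω := by
  rw [hC, Equiv.Perm.sign_swap h]; simp

theorem Anti.zero_of_eq {C : (ι → Ω) → ℂ} (hC : Anti C) {i j : ι} (h : i ≠ j) {ω : ι → Ω}
    (e : ω i = ω j) : C ω = 0 := by
  have h1 := hC.swap h ω
  have h2 : ω ∘ Equiv.swap i j = ω := by
    ext k
    simp only [comp_apply]
    by_cases hki : k = i
    · subst hki; rw [Equiv.swap_apply_left, e]
    · by_cases hkj : k = j
      · subst hkj; rw [Equiv.swap_apply_right, e]
      · rw [Equiv.swap_apply_of_ne_of_ne hki hkj]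
  rw [h2] at h1
  have h3 : C ω + C ω = 0 := by nth_rewrite 1 [h1]; ring
  have : (2 : ℂ) * C ω = 0 := by rw [two_mul]; exact h3
  simpa using this

theorem Anti.injective {C : (ι → Ω) → ℂ} (hC : Anti C) {ω : ι → Ω} (h : C ω ≠ 0) :
    Function.Injective ω := by
  intro i j e
  by_contra hij
  exact h (hC.zero_of_eq hij e)

theorem update_comp_perm (ω : ι → Ω) (σ : Equiv.Perm ι) (i : ι) (β : Ω) :
    update (ω ∘ σ) i β = update ω (σ i) β ∘ σ := by
  ext k
  by_cases h : k = i
  · subst h; simp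
  · rw [update_of_ne h, comp_apply, comp_apply, update_of_ne (fun e => h (σ.injective e))]

theorem Anti.one {M : Ω → Ω → ℂ} {C : (ι → Ω) → ℂ} (hC : Anti C) : Anti (one M C) := by
  intro σ ω
  unfold SC.one
  rw [Finset.mul_sum, ← Equiv.sum_comp σ (fun i => ((Equiv.Perm.sign σ : ℤ) : ℂ) *
    ∑ β, M (ω i) β * C (update ω i β))]
  refine Finset.sum_congr rfl fun i _ => ?_
  rw [Finset.mul_sum]
  refine Finset.sum_congr rfl fun β _ => ?_
  rw [update_comp_perm, hC, comp_apply]; ring

theorem pair_comp_perm {W : Ω → Ω → Ω → Ω → ℂ} {C : (ι → Ω) → ℂ} (hC : Anti C)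
    (σ : Equiv.Perm ι) (ω : ι → Ω) (i j : ι) :
    pair W C (ω ∘ σ) i j = ((Equiv.Perm.sign σ : ℤ) : ℂ) * pair W C ω (σ i) (σ j) := by
  unfold pair
  rw [Finset.mul_sum]
  refine Finset.sum_congr rfl fun β _ => ?_
  rw [Finset.mul_sum]
  refine Finset.sum_congr rfl fun δ _ => ?_
  rw [update_comp_perm, update_comp_perm, hC, comp_apply, comp_apply]; ring

theorem Anti.two {W : Ω → Ω → Ω → Ω → ℂ} {C : (ι → Ω) → ℂ} (hC : Anti C) : Anti (two W C) := by
  intro σ ω
  unfold SC.two
  rw [Finset.mul_sum, ← Equiv.sum_comp σ (fun i => ((Equiv.Perm.sign σ : ℤ) : ℂ) *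
    ∑ j, if i = j then 0 else pair W C ω i j)]
  refine Finset.sum_congr rfl fun i _ => ?_
  rw [Finset.mul_sum, ← Equiv.sum_comp σ (fun j => ((Equiv.Perm.sign σ : ℤ) : ℂ) *
    (if σ i = j then 0 else pair W C ω (σ i) j))]
  refine Finset.sum_congr rfl fun j _ => ?_
  simp only [EmbeddingLike.apply_eq_iff_eq]
  split_ifs with h
  · simp
  · rw [pair_comp_perm hC]

theorem Anti.add {C D : (ι → Ω) → ℂ} (hC : Anti C) (hD : Anti D) : Anti (C + D) := by
  intro σ ω
  simp only [Pi.add_apply]; rw [hC, hD]; ring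

theorem Anti.smul {C : (ι → Ω) → ℂ} (hC : Anti C) (a : ℂ) : Anti (a • C) := by
  intro σ ω
  simp only [Pi.smul_apply, smul_eq_mul]; rw [hC]; ring

/-- exchanging the two entries at `i ≠ j` -/
theorem Anti.exch {C : (ι → Ω) → ℂ} (hC : Anti C) {i j : ι} (h : i ≠ j) (ω : ι → Ω) (β δ : Ω) :
    C (update (update ω i β) j δ) = - C (update (update ω i δ) j β) := by
  rw [← hC.swap h]
  congr 1
  ext k
  simp only [comp_apply]
  by_cases hkj : k = j
  · subst hkj
    rw [update_self, Equiv.swap_apply_right, update_of_ne h, update_self]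
  · rw [update_of_ne hkj]
    by_cases hki : k = i
    · subst hki
      rw [update_self, Equiv.swap_apply_left, update_self]
    · rw [update_of_ne hki, Equiv.swap_apply_of_ne_of_ne hki hkj, update_of_ne hkj,
        update_of_ne hki]

end Basic

section Core

variable {K J V : Type*} [Fintype K] [DecidableEq K] [Fintype J] [DecidableEq J]
  [Fintype V] [DecidableEq V]

/-- put the core orbitals on the core positions, `v` on the others -/
def emb (v : J → V) : K ⊕ J → K ⊕ V := Sum.map id v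

@[simp] theorem emb_inl (v : J → V) (c : K) : emb v (Sum.inl c : K ⊕ J) = Sum.inl c := rfl
@[simp] theorem emb_inr (v : J → V) (j : J) :
    (emb v (Sum.inr j : K ⊕ J) : K ⊕ V) = Sum.inr (v j) := rfl

/-- tensors supported on tuples with full core -/
def Full (p : (K ⊕ J → K ⊕ V) → ℂ) : Prop := ∀ ω, p ω ≠ 0 → ∀ c : K, ∃ i, ω i = Sum.inl c

/-- the valence tensor -/
def val (p : (K ⊕ J → K ⊕ V) → ℂ) (v : J → V) : ℂ := p (emb v)

theorem update_inr (v : J → V) (j : J) (b : V) :
    update (emb v : K ⊕ J → K ⊕ V) (Sum.inr j) (Sum.inr b) = emb (update v j b) := by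
  ext k
  rcases k with c | l
  · simp
  · by_cases h : l = j
    · subst h; simp
    · rw [update_of_ne (by simpa using h)]; simp [update_of_ne h]

theorem update_inl_self (v : J → V) (c : K) :
    update (emb v : K ⊕ J → K ⊕ V) (Sum.inl c) (Sum.inl c) = emb v := by
  conv_rhs => rw [← update_eq_self (Sum.inl c) (emb v : K ⊕ J → K ⊕ V)]
  simp

theorem emb_comp_perm (v : J → V) (π : Equiv.Perm J) :
    (emb v : K ⊕ J → K ⊕ V) ∘ (Equiv.Perm.sumCongr 1 π) = emb (v ∘ π) := by
  ext k
  rcases k with c | l <;> simp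

theorem Anti.val {p : (K ⊕ J → K ⊕ V) → ℂ} (hp : Anti p) : Anti (val p) := by
  intro π v
  unfold SC.val
  rw [← emb_comp_perm, hp]
  simp [Equiv.Perm.sign_sumCongr]

variable {p : (K ⊕ J → K ⊕ V) → ℂ}

/-- replacing a core orbital at its own core position by something else kills `p` -/
theorem upd_core (hp : Anti p) (hf : Full p) (v : J → V) (c : K) (β : K ⊕ V) (h : β ≠ Sum.inl c) :
    p (update (emb v) (Sum.inl c) β) = 0 := by
  by_contra hne
  obtain ⟨i, hi⟩ := hf _ hne c
  by_cases hic : i = Sum.inl c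
  · subst hic; rw [update_self] at hi; exact h hi
  · rw [update_of_ne hic] at hi
    rcases i with c' | j
    · simp only [emb_inl, Sum.inl.injEq] at hi; exact hic (by rw [hi])
    · simp at hi

/-- a core orbital on a valence position kills `p` -/
theorem upd_val (hp : Anti p) (v : J → V) (j : J) (c : K) :
    p (update (emb v) (Sum.inr j) (Sum.inl c)) = 0 := by
  apply hp.zero_of_eq (i := Sum.inr j) (j := Sum.inl c) (by simp)
  rw [update_self, update_of_ne (by simp)]; rfl

theorem one_emb (hp : Anti p) (hf : Full p) (M : K ⊕ V → K ⊕ V → ℂ) (v : J → V) :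
    one M p (emb v) = (∑ c : K, M (Sum.inl c) (Sum.inl c)) * val p v +
      one (fun a b : V => M (Sum.inr a) (Sum.inr b)) (val p) v := by
  unfold one
  rw [Fintype.sum_sum_type]
  congr 1
  · rw [Finset.sum_mul]
    refine Finset.sum_congr rfl fun c _ => ?_
    rw [Finset.sum_eq_single (Sum.inl c)]
    · rw [update_inl_self]; rfl
    · intro β _ hβ; rw [upd_core hp hf v c β hβ, mul_zero]
    · intro h; exact absurd (Finset.mem_univ _) h
  · refine Finset.sum_congr rfl fun j _ => ?_
    rw [Fintype.sum_sum_type]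
    rw [Finset.sum_eq_zero (s := (univ : Finset K)), zero_add]
    · refine Finset.sum_congr rfl fun b _ => ?_
      rw [update_inr]; rfl
    · intro c _; rw [upd_val hp, mul_zero]

/-- core-core pair -/
theorem pair_ll (hp : Anti p) (hf : Full p) (W : K ⊕ V → K ⊕ V → K ⊕ V → K ⊕ V → ℂ) (v : J → V)
    {c c' : K} (h : c ≠ c') :
    pair W p (emb v) (Sum.inl c) (Sum.inl c') =
      (W (Sum.inl c) (Sum.inl c) (Sum.inl c') (Sum.inl c') -
        W (Sum.inl c) (Sum.inl c') (Sum.inl c') (Sum.inl c)) * val p v := by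
  unfold pair
  have hne : (Sum.inl c : K ⊕ J) ≠ Sum.inl c' := by simpa using h
  have hne' : (Sum.inl c : K ⊕ V) ≠ Sum.inl c' := by simpa using h
  have key : ∀ β δ : K ⊕ V, ¬ (β = Sum.inl c ∧ δ = Sum.inl c') →
      ¬ (β = Sum.inl c' ∧ δ = Sum.inl c) →
      p (update (update (emb v) (Sum.inl c) β) (Sum.inl c') δ) = 0 := by
    intro β δ h1 h2
    by_contra hn
    have hinj := hp.injective hn
    obtain ⟨i, hi⟩ := hf _ hn c
    obtain ⟨i', hi'⟩ := hf _ hn c'
    have a1 : β = Sum.inl c ∨ δ = Sum.inl c := by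
      by_cases e1 : i = Sum.inl c'
      · subst e1; rw [update_self] at hi; exact Or.inr hi
      · rw [update_of_ne e1] at hi
        by_cases e2 : i = Sum.inl c
        · subst e2; rw [update_self] at hi; exact Or.inl hi
        · rw [update_of_ne e2] at hi
          rcases i with k | j
          · simp only [emb_inl, Sum.inl.injEq] at hi; exact absurd (by rw [hi]) e2
          · simp at hi
    have a2 : β = Sum.inl c' ∨ δ = Sum.inl c' := by
      by_cases e1 : i' = Sum.inl c'
      · subst e1; rw [update_self] at hi'; exact Or.inr hi'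
      · rw [update_of_ne e1] at hi'
        by_cases e2 : i' = Sum.inl c
        · subst e2; rw [update_self] at hi'; exact Or.inl hi'
        · rw [update_of_ne e2] at hi'
          rcases i' with k | j
          · simp only [emb_inl, Sum.inl.injEq] at hi'; exact absurd (by rw [hi']) e1
          · simp at hi'
    rcases a1 with a1 | a1 <;> rcases a2 with a2 | a2
    · exact hne' (a1.symm.trans a2)
    · exact h1 ⟨a1, a2⟩
    · exact h2 ⟨a2, a1⟩
    · exact hne' (a1.symm.trans a2)
  have hv1 : p (update (update (emb v) (Sum.inl c) (Sum.inl c)) (Sum.inl c') (Sum.inl c')) =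
      val p v := by
    rw [update_inl_self, update_inl_self]; rfl
  have hv2 : p (update (update (emb v) (Sum.inl c) (Sum.inl c')) (Sum.inl c') (Sum.inl c)) =
      - val p v := by
    rw [hp.exch hne, hv1]
  rw [Fintype.sum_eq_add (Sum.inl c) (Sum.inl c') hne']
  · rw [Finset.sum_eq_single (Sum.inl c'), Finset.sum_eq_single (Sum.inl c), hv1, hv2]
    · simp only [emb_inl]; ring
    · intro δ _ hδ
      rw [key _ _ (fun e => hne' e.1.symm) (fun e => hδ e.2), mul_zero]
    · intro h; exact absurd (Finset.mem_univ _) h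
    · intro δ _ hδ
      rw [key _ _ (fun e => hδ e.2) (fun e => hne' e.1), mul_zero]
    · intro h; exact absurd (Finset.mem_univ _) h
  · rintro β ⟨hb1, hb2⟩
    refine Finset.sum_eq_zero fun δ _ => ?_
    rw [key _ _ (fun e => hb1 e.1) (fun e => hb2 e.1), mul_zero]

end Core

end Crest.Agent.R338.SC
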