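import Crest.Agent.R338.SC1

/-!
Row 338 (S0529), node SC: Slater-Condon rules for a frozen core (continued). helper426.
-/

set_option autoImplicit false
set_option linter.unusedSectionVars false
set_option linter.unusedVariables false

open Finset Function

namespace Crest.Agent.R338.SC

section Basic

variable {ι Ω : Type*} [Fintype ι] [DecidableEq ι] [Fintype Ω] [DecidableEq Ω]

theorem pair_comm (W : Ω → Ω → Ω → Ω → ℂ) (C : (ι → Ω) → ℂ) (ω : ι → Ω) {i j : ι} (h : i ≠ j) :
    pair W C ω i j = pair (fun a b c d => W c d a b) C ω j i := by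
  unfold pair
  rw [Finset.sum_comm]
  refine Finset.sum_congr rfl fun δ _ => Finset.sum_congr rfl fun β _ => ?_
  rw [update_comm h]

end Basic

section Core

variable {K J V : Type*} [Fintype K] [DecidableEq K] [Fintype J] [DecidableEq J]
  [Fintype V] [DecidableEq V]

variable {p : (K ⊕ J → K ⊕ V) → ℂ}

/-- core-valence pair -/
theorem pair_lr (hp : Anti p) (hf : Full p) (W : K ⊕ V → K ⊕ V → K ⊕ V → K ⊕ V → ℂ) (v : J → V)
    (c : K) (j : J) :
    pair W p (emb v) (Sum.inl c) (Sum.inr j) =
      ∑ b, (W (Sum.inl c) (Sum.inl c) (Sum.inr (v j)) (Sum.inr b) -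
        W (Sum.inl c) (Sum.inr b) (Sum.inr (v j)) (Sum.inl c)) * val p (update v j b) := by
  have hne : (Sum.inl c : K ⊕ J) ≠ Sum.inr j := by simp
  have e1 : ∀ b : V, p (update (update (emb v) (Sum.inl c) (Sum.inl c)) (Sum.inr j) (Sum.inr b)) =
      val p (update v j b) := by
    intro b; rw [update_inl_self, update_inr]; rfl
  have e2 : ∀ c' : K, p (update (update (emb v) (Sum.inl c) (Sum.inl c)) (Sum.inr j)
      (Sum.inl c')) = 0 := by
    intro c'; rw [update_inl_self, upd_val hp]
  have e3 : ∀ b : V, p (update (update (emb v) (Sum.inl c) (Sum.inr b)) (Sum.inr j) (Sum.inl c)) =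
      - val p (update v j b) := by
    intro b; rw [hp.exch hne, e1]
  have e4 : ∀ c' : K, p (update (update (emb v) (Sum.inl c) (Sum.inl c')) (Sum.inr j)
      (Sum.inl c)) = 0 := by
    intro c'; rw [hp.exch hne, e2, neg_zero]
  have e5 : ∀ β δ : K ⊕ V, β ≠ Sum.inl c → δ ≠ Sum.inl c →
      p (update (update (emb v) (Sum.inl c) β) (Sum.inr j) δ) = 0 := by
    intro β δ h1 h2
    by_contra hn
    obtain ⟨i, hi⟩ := hf _ hn c
    by_cases a1 : i = Sum.inr j
    · subst a1; rw [update_self] at hi; exact h2 hi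
    · rw [update_of_ne a1] at hi
      by_cases a2 : i = Sum.inl c
      · subst a2; rw [update_self] at hi; exact h1 hi
      · rw [update_of_ne a2] at hi
        rcases i with k | l
        · simp only [emb_inl, Sum.inl.injEq] at hi; exact absurd (by rw [hi]) a2
        · simp at hi
  unfold pair
  have main : ∀ β : K ⊕ V, (∑ δ, W (emb v (Sum.inl c : K ⊕ J)) β (emb v (Sum.inr j : K ⊕ J)) δ *
      p (update (update (emb v) (Sum.inl c) β) (Sum.inr j) δ)) =
      if β = Sum.inl c then ∑ b, W (Sum.inl c) (Sum.inl c) (Sum.inr (v j)) (Sum.inr b) *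
        val p (update v j b)
      else W (Sum.inl c) β (Sum.inr (v j)) (Sum.inl c) *
        p (update (update (emb v) (Sum.inl c) β) (Sum.inr j) (Sum.inl c)) := by
    intro β
    split_ifs with hβ
    · subst hβ
      rw [Fintype.sum_sum_type, Finset.sum_eq_zero (s := (univ : Finset K)), zero_add]
      · refine Finset.sum_congr rfl fun b _ => ?_
        rw [e1]; rfl
      · intro c' _; rw [e2, mul_zero]
    · rw [Finset.sum_eq_single (Sum.inl c)]
      · rfl
      · intro δ _ hδ; rw [e5 _ _ hβ hδ, mul_zero]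
      · intro h; exact absurd (Finset.mem_univ _) h
  rw [Finset.sum_congr rfl fun β _ => main β, Fintype.sum_sum_type,
    Finset.sum_eq_single (s := (univ : Finset K)) c]
  · rw [if_pos rfl, ← Finset.sum_add_distrib]
    refine Finset.sum_congr rfl fun b _ => ?_
    rw [if_neg (by simp), e3]; ring
  · intro c' _ hc'
    rw [if_neg (by simpa using hc'), e4, mul_zero]
  · intro h; exact absurd (Finset.mem_univ _) h

/-- valence-valence pair -/
theorem pair_rr (hp : Anti p) (hf : Full p) (W : K ⊕ V → K ⊕ V → K ⊕ V → K ⊕ V → ℂ) (v : J → V)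
    {j l : J} (h : j ≠ l) :
    pair W p (emb v) (Sum.inr j) (Sum.inr l) =
      pair (fun a b c d : V => W (Sum.inr a) (Sum.inr b) (Sum.inr c) (Sum.inr d)) (val p) v j l := by
  have hne : (Sum.inr j : K ⊕ J) ≠ Sum.inr l := by simpa using h
  unfold pair
  rw [Fintype.sum_sum_type, Finset.sum_eq_zero (s := (univ : Finset K)), zero_add]
  · refine Finset.sum_congr rfl fun b _ => ?_
    rw [Fintype.sum_sum_type, Finset.sum_eq_zero (s := (univ : Finset K)), zero_add]
    · refine Finset.sum_congr rfl fun d _ => ?_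
      rw [update_inr, update_inr]; rfl
    · intro c _
      rw [update_inr, upd_val hp, mul_zero]
  · intro c _
    refine Finset.sum_eq_zero fun δ _ => ?_
    rw [hp.zero_of_eq (i := Sum.inr j) (j := Sum.inl c) (by simp), mul_zero]
    rw [update_of_ne hne, update_self, update_of_ne (by simp), update_of_ne (by simp)]; rfl

/-- core energy, two-body part (sum over ordered pairs, to be halved) -/
noncomputable def coreTwo (W : K ⊕ V → K ⊕ V → K ⊕ V → K ⊕ V → ℂ) : ℂ :=
  ∑ c : K, ∑ c' : K, (W (Sum.inl c) (Sum.inl c) (Sum.inl c') (Sum.inl c') -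
        W (Sum.inl c) (Sum.inl c') (Sum.inl c') (Sum.inl c))

/-- mean field of the core -/
noncomputable def coreField (W : K ⊕ V → K ⊕ V → K ⊕ V → K ⊕ V → ℂ) (a b : V) : ℂ :=
  ∑ c : K, (W (Sum.inl c) (Sum.inl c) (Sum.inr a) (Sum.inr b) -
        W (Sum.inl c) (Sum.inr b) (Sum.inr a) (Sum.inl c))

/-- Slater-Condon rule for the two-body operator, frozen core -/
theorem two_emb (hp : Anti p) (hf : Full p) (W : K ⊕ V → K ⊕ V → K ⊕ V → K ⊕ V → ℂ)
    (hW : ∀ a b c d, W a b c d = W c d a b) (v : J → V) :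
    two W p (emb v) = coreTwo W * val p v + 2 * one (coreField W) (val p) v +
      two (fun a b c d : V => W (Sum.inr a) (Sum.inr b) (Sum.inr c) (Sum.inr d)) (val p) v := by
  have hW' : (fun a b c d => W c d a b) = W := by
    funext a b c d; exact (hW a b c d).symm
  have hlr : ∀ (c : K) (j : J), pair W p (emb v) (Sum.inr j) (Sum.inl c) =
      pair W p (emb v) (Sum.inl c) (Sum.inr j) := by
    intro c j
    rw [pair_comm W p (emb v) (i := (Sum.inr j : K ⊕ J)) (j := Sum.inl c) (by simp), hW']
  have hll : ∀ c c' : K, (if (Sum.inl c : K ⊕ J) = Sum.inl c' then (0 : ℂ)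
      else pair W p (emb v) (Sum.inl c) (Sum.inl c')) =
      (W (Sum.inl c) (Sum.inl c) (Sum.inl c') (Sum.inl c') -
        W (Sum.inl c) (Sum.inl c') (Sum.inl c') (Sum.inl c)) * val p v := by
    intro c c'
    split_ifs with h
    · rw [Sum.inl.injEq] at h; subst h; ring
    · exact pair_ll hp hf W v (by simpa using h)
  have hrr : ∀ j l : J, (if (Sum.inr j : K ⊕ J) = Sum.inr l then (0 : ℂ)
      else pair W p (emb v) (Sum.inr j) (Sum.inr l)) =
      if j = l then 0 else pair (fun a b c d : V => W (Sum.inr a) (Sum.inr b) (Sum.inr c)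
        (Sum.inr d)) (val p) v j l := by
    intro j l
    by_cases h : j = l
    · subst h; simp
    · rw [if_neg (by simpa using h), if_neg h]
      exact pair_rr hp hf W v h
  have hcross : (∑ c : K, ∑ j : J, pair W p (emb v) (Sum.inl c) (Sum.inr j)) =
      one (coreField W) (val p) v := by
    unfold one coreField
    rw [Finset.sum_comm]
    refine Finset.sum_congr rfl fun j _ => ?_
    simp_rw [pair_lr hp hf W v]
    rw [Finset.sum_comm]
    refine Finset.sum_congr rfl fun b _ => ?_
    rw [Finset.sum_mul]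
  unfold two
  rw [Fintype.sum_sum_type]
  simp_rw [Fintype.sum_sum_type]
  rw [Finset.sum_add_distrib, Finset.sum_add_distrib]
  have s1 : (∑ c : K, ∑ c' : K, (if (Sum.inl c : K ⊕ J) = Sum.inl c' then (0 : ℂ)
      else pair W p (emb v) (Sum.inl c) (Sum.inl c'))) = coreTwo W * val p v := by
    unfold coreTwo
    simp_rw [hll, Finset.sum_mul]
  have s2 : (∑ c : K, ∑ j : J, (if (Sum.inl c : K ⊕ J) = Sum.inr j then (0 : ℂ)
      else pair W p (emb v) (Sum.inl c) (Sum.inr j))) = one (coreField W) (val p) v := by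
    rw [← hcross]
    refine Finset.sum_congr rfl fun c _ => Finset.sum_congr rfl fun j _ => ?_
    rw [if_neg (by simp)]
  have s3 : (∑ j : J, ∑ c : K, (if (Sum.inr j : K ⊕ J) = Sum.inl c then (0 : ℂ)
      else pair W p (emb v) (Sum.inr j) (Sum.inl c))) = one (coreField W) (val p) v := by
    rw [← hcross, Finset.sum_comm]
    refine Finset.sum_congr rfl fun c _ => Finset.sum_congr rfl fun j _ => ?_
    rw [if_neg (by simp), hlr]
  rw [s1, s2, s3]
  simp_rw [hrr]
  ring

end Core

end Crest.Agent.R338.SC
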