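import Crest.Agent.R338.SC2

/-!
Row 338 (S0529), node SC: sums of symmetric functions over tuples with full core; the maps
between full-core antisymmetric tensors and valence tensors. helper426.
-/

set_option autoImplicit false
set_option linter.unusedSectionVars false
set_option linter.unusedVariables false

open Finset Function

namespace Crest.Agent.R338.SC

variable {K J V : Type*} [Fintype K] [DecidableEq K] [Fintype J] [DecidableEq J]
  [Fintype V] [DecidableEq V]

theorem emb_injective_iff (v : J → V) :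
    Function.Injective (emb v : K ⊕ J → K ⊕ V) ↔ Function.Injective v := by
  constructor
  · intro h i j e
    have := @h (Sum.inr i) (Sum.inr j) (by simp [e])
    simpa using this
  · intro h
    exact Sum.map_injective.2 ⟨Function.injective_id, h⟩

theorem exists_perm_of_full {ω : K ⊕ J → K ⊕ V} (hinj : Function.Injective ω)
    (hfull : ∀ c : K, ∃ i, ω i = Sum.inl c) :
    ∃ (τ : Equiv.Perm (K ⊕ J)) (v : J → V), emb v = ω ∘ τ := by
  classical
  choose pos hpos using hfull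
  have hposinj : Function.Injective pos := by
    intro a b e
    have := hpos a
    rw [e, hpos b] at this
    simpa using this.symm
  obtain ⟨g, hg⟩ := Finset.exists_equiv_extend_of_card_eq (α := K ⊕ J) (β := K ⊕ J)
    (t := Finset.univ) (by simp) (s := Finset.univ.image (Sum.inl : K → K ⊕ J))
    (f := fun x => Sum.elim pos (fun j => Sum.inr j) x) (by simp) (by
      intro x hx y hy e
      simp only [Finset.coe_image, Finset.coe_univ, Set.image_univ, Set.mem_range] at hx hy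
      obtain ⟨a, rfl⟩ := hx
      obtain ⟨b, rfl⟩ := hy
      simp only [Sum.elim_inl] at e
      rw [hposinj e])
  let τ : Equiv.Perm (K ⊕ J) := g.trans (Equiv.subtypeUnivEquiv (by simp))
  have hτ : ∀ c, τ (Sum.inl c) = pos c := by
    intro c
    have := hg (Sum.inl c) (by simp)
    simpa [τ] using this
  have h2 : ∀ j : J, ∃ b : V, ω (τ (Sum.inr j)) = Sum.inr b := by
    intro j
    rcases h : ω (τ (Sum.inr j)) with c | b
    · exfalso
      have h3 : ω (τ (Sum.inl c)) = Sum.inl c := by rw [hτ, hpos]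
      have := hinj (h.trans h3.symm)
      have := τ.injective this
      simp at this
    · exact ⟨b, rfl⟩
  choose v hv using h2
  refine ⟨τ, v, ?_⟩
  ext k
  rcases k with c | j
  · simp [hτ, hpos]
  · simp [hv]

theorem fiber_mem {v0 v : J → V} (hv0 : Function.Injective v0) {σ0 σ : Equiv.Perm (K ⊕ J)}
    (hx : (emb v : K ⊕ J → K ⊕ V) ∘ σ = emb v0 ∘ σ0) :
    ∃ π : Equiv.Perm J, v = v0 ∘ π ∧ σ = (Equiv.Perm.sumCongr 1 π)⁻¹ * σ0 := by
  have h1 : (emb v : K ⊕ J → K ⊕ V) = emb v0 ∘ (σ0 * σ⁻¹ : Equiv.Perm (K ⊕ J)) := by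
    ext k
    have := congrFun hx (σ⁻¹ k)
    simpa [Equiv.Perm.mul_apply] using this
  set τ : Equiv.Perm (K ⊕ J) := σ0 * σ⁻¹ with hτ
  have hinj : Function.Injective (emb v0 : K ⊕ J → K ⊕ V) := (emb_injective_iff v0).2 hv0
  have hfix : ∀ c : K, τ (Sum.inl c) = Sum.inl c := by
    intro c
    have := congrFun h1 (Sum.inl c)
    simp only [emb_inl, comp_apply] at this
    exact (hinj (this.symm.trans (emb_inl v0 c).symm))
  have hmaps : Set.MapsTo τ (Set.range (Sum.inl : K → K ⊕ J)) (Set.range Sum.inl) := by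
    rintro _ ⟨c, rfl⟩
    exact ⟨c, (hfix c).symm⟩
  obtain ⟨⟨π1, π⟩, hπ⟩ := Equiv.Perm.mem_sumCongrHom_range_of_perm_mapsTo_inl hmaps
  have hπ' : Equiv.Perm.sumCongr π1 π = τ := hπ
  have hπ1 : π1 = 1 := by
    ext c
    have := congrArg (fun (e : Equiv.Perm (K ⊕ J)) => e (Sum.inl c)) hπ'
    simp only [Equiv.Perm.sumCongr_apply, Sum.map_inl] at this
    rw [hfix] at this
    simpa using this
  subst hπ1
  refine ⟨π, ?_, ?_⟩
  · have h2 : (emb v : K ⊕ J → K ⊕ V) = emb (v0 ∘ π) := by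
      rw [h1, ← emb_comp_perm, hπ']
    funext j
    have := congrFun h2 (Sum.inr j)
    simpa using this
  · rw [hπ', hτ]; simp [mul_inv_rev]

theorem card_fiber {v0 : J → V} (hv0 : Function.Injective v0) (σ0 : Equiv.Perm (K ⊕ J)) :
    ((Finset.univ : Finset ((J → V) × Equiv.Perm (K ⊕ J))).filter
      (fun x => (emb x.1 : K ⊕ J → K ⊕ V) ∘ x.2 = emb v0 ∘ σ0)).card = (Fintype.card J).factorial := by
  classical
  rw [← Fintype.card_perm (α := J), ← Finset.card_univ]
  symm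
  refine Finset.card_bij (fun π _ => (v0 ∘ π, (Equiv.Perm.sumCongr 1 π)⁻¹ * σ0)) ?_ ?_ ?_
  · intro π _
    simp only [Finset.mem_filter, Finset.mem_univ, true_and]
    rw [← emb_comp_perm]
    ext k
    simp [Equiv.Perm.mul_apply]
  · intro π _ π' _ h
    simp only [Prod.mk.injEq] at h
    have h2 := mul_right_cancel h.2
    have h3 := inv_injective h2
    ext j
    have := congrArg (fun (e : Equiv.Perm (K ⊕ J)) => e (Sum.inr j)) h3
    simpa using this
  · intro x hx
    simp only [Finset.mem_filter, Finset.mem_univ, true_and] at hx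
    obtain ⟨π, h1, h2⟩ := fiber_mem hv0 hx
    exact ⟨π, Finset.mem_univ _, Prod.ext h1.symm h2.symm⟩

/-- sums of symmetric functions supported on injective tuples with full core -/
theorem sum_sym (f : (K ⊕ J → K ⊕ V) → ℂ)
    (hsym : ∀ (σ : Equiv.Perm (K ⊕ J)) (ω : K ⊕ J → K ⊕ V), f (ω ∘ σ) = f ω)
    (hinj : ∀ ω, f ω ≠ 0 → Function.Injective ω)
    (hfull : ∀ ω, f ω ≠ 0 → ∀ c : K, ∃ i, ω i = Sum.inl c) :
    ((Fintype.card J).factorial : ℂ) * ∑ ω, f ω =
      ((Fintype.card (K ⊕ J)).factorial : ℂ) * ∑ v : J → V, f (emb v) := by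
  classical
  have h1 : ∑ x : (J → V) × Equiv.Perm (K ⊕ J), f ((emb x.1 : K ⊕ J → K ⊕ V) ∘ x.2) =
      ((Fintype.card (K ⊕ J)).factorial : ℂ) * ∑ v : J → V, f (emb v) := by
    rw [Fintype.sum_prod_type, Finset.mul_sum]
    refine Finset.sum_congr rfl fun v _ => ?_
    simp_rw [hsym]
    rw [Finset.sum_const, Finset.card_univ, Fintype.card_perm, nsmul_eq_mul]
  rw [← h1, ← Finset.sum_fiberwise (s := Finset.univ)
    (g := fun x : (J → V) × Equiv.Perm (K ⊕ J) => (emb x.1 : K ⊕ J → K ⊕ V) ∘ x.2), Finset.mul_sum]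
  refine Finset.sum_congr rfl fun ω _ => ?_
  have h2 : ∑ x ∈ Finset.univ.filter (fun x : (J → V) × Equiv.Perm (K ⊕ J) =>
      (emb x.1 : K ⊕ J → K ⊕ V) ∘ x.2 = ω), f ((emb x.1 : K ⊕ J → K ⊕ V) ∘ x.2) =
      ((Finset.univ.filter (fun x : (J → V) × Equiv.Perm (K ⊕ J) =>
      (emb x.1 : K ⊕ J → K ⊕ V) ∘ x.2 = ω)).card : ℂ) * f ω := by
    rw [← nsmul_eq_mul, ← Finset.sum_const]
    refine Finset.sum_congr rfl fun x hx => ?_
    rw [(Finset.mem_filter.1 hx).2]
  rw [h2]
  by_cases hω : f ω = 0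
  · rw [hω]; simp
  · obtain ⟨τ, v, hv⟩ := exists_perm_of_full (hinj ω hω) (hfull ω hω)
    have hω' : ω = emb v ∘ (τ⁻¹ : Equiv.Perm (K ⊕ J)) := by
      rw [hv]; ext k; simp
    have hvinj : Function.Injective v := by
      rw [← emb_injective_iff (K := K), hv]
      exact (hinj ω hω).comp τ.injective
    rw [hω', card_fiber hvinj]


/-- the full-core tensor of a valence tensor -/
noncomputable def up (D : (J → V) → ℂ) (ω : K ⊕ J → K ⊕ V) : ℂ :=
  ((Fintype.card J).factorial : ℂ)⁻¹ * ∑ σ : Equiv.Perm (K ⊕ J),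
    ((Equiv.Perm.sign σ : ℤ) : ℂ) * ∑ v : J → V, if (emb v : K ⊕ J → K ⊕ V) = ω ∘ σ then D v else 0

theorem up_anti (D : (J → V) → ℂ) : Anti (up (K := K) D) := by
  intro ρ ω
  unfold up
  rw [← Equiv.sum_comp (Equiv.mulLeft ρ) (fun σ => ((Equiv.Perm.sign σ : ℤ) : ℂ) *
    ∑ v : J → V, if (emb v : K ⊕ J → K ⊕ V) = ω ∘ σ then D v else 0)]
  rw [Finset.mul_sum, Finset.mul_sum, Finset.mul_sum]
  refine Finset.sum_congr rfl fun σ _ => ?_
  have h1 : (ω ∘ ρ) ∘ σ = ω ∘ (Equiv.mulLeft ρ σ : Equiv.Perm (K ⊕ J)) := by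
    ext k; simp
  rw [h1]
  have h2 : ((Equiv.Perm.sign (Equiv.mulLeft ρ σ : Equiv.Perm (K ⊕ J)) : ℤ) : ℂ) =
      ((Equiv.Perm.sign ρ : ℤ) : ℂ) * ((Equiv.Perm.sign σ : ℤ) : ℂ) := by
    rw [Equiv.coe_mulLeft, Equiv.Perm.sign_mul]; push_cast; rfl
  rw [h2]
  have h3 := sign_mul_self ρ
  linear_combination (-((Fintype.card J).factorial : ℂ)⁻¹ * ((Equiv.Perm.sign σ : ℤ) : ℂ) *
    (∑ v : J → V, if (emb v : K ⊕ J → K ⊕ V) = ω ∘ (Equiv.mulLeft ρ σ : Equiv.Perm (K ⊕ J))
      then D v else 0)) * h3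

theorem up_full (D : (J → V) → ℂ) : Full (up (K := K) D) := by
  intro ω hω c
  unfold up at hω
  have h1 := right_ne_zero_of_mul hω
  obtain ⟨σ, _, hσ⟩ := Finset.exists_ne_zero_of_sum_ne_zero h1
  obtain ⟨v, _, hv⟩ := Finset.exists_ne_zero_of_sum_ne_zero (right_ne_zero_of_mul hσ)
  have h2 : (emb v : K ⊕ J → K ⊕ V) = ω ∘ σ := by
    by_contra h; rw [if_neg h] at hv; exact hv rfl
  exact ⟨σ (Sum.inl c), by have := congrFun h2 (Sum.inl c); simpa using this.symm⟩

theorem val_up {D : (J → V) → ℂ} (hD : Anti D) : val (up (K := K) D) = D := by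
  classical
  funext v0
  by_cases hv0 : Function.Injective v0
  · unfold val up
    have h1 : (∑ σ : Equiv.Perm (K ⊕ J), ((Equiv.Perm.sign σ : ℤ) : ℂ) *
        ∑ v : J → V, if (emb v : K ⊕ J → K ⊕ V) = emb v0 ∘ σ then D v else 0) =
        ∑ x ∈ (Finset.univ : Finset ((J → V) × Equiv.Perm (K ⊕ J))).filter
          (fun x => (emb x.1 : K ⊕ J → K ⊕ V) ∘ x.2 = emb v0 ∘ (1 : Equiv.Perm (K ⊕ J))), D v0 := by
      rw [Finset.sum_filter, Fintype.sum_prod_type, Finset.sum_comm]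
      rw [← Equiv.sum_comp (Equiv.inv (Equiv.Perm (K ⊕ J)))]
      refine Finset.sum_congr rfl fun σ _ => ?_
      rw [Finset.mul_sum]
      refine Finset.sum_congr rfl fun v _ => ?_
      simp only [Equiv.inv_apply, Equiv.Perm.sign_inv]
      have hiff : ((emb v : K ⊕ J → K ⊕ V) = emb v0 ∘ (σ⁻¹ : Equiv.Perm (K ⊕ J))) ↔
          ((emb v : K ⊕ J → K ⊕ V) ∘ σ = emb v0 ∘ (1 : Equiv.Perm (K ⊕ J))) := by
        constructor
        · intro h; rw [h]; ext k; simp
        · intro h; ext k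
          have := congrFun h (σ⁻¹ k)
          simpa using this
      by_cases hc : (emb v : K ⊕ J → K ⊕ V) = emb v0 ∘ (σ⁻¹ : Equiv.Perm (K ⊕ J))
      · rw [if_pos hc, if_pos (hiff.1 hc)]
        obtain ⟨π, e1, e2⟩ := fiber_mem hv0 (hiff.1 hc)
        rw [e1, hD, e2]
        rw [mul_one, Equiv.Perm.sign_inv, Equiv.Perm.sign_sumCongr, Equiv.Perm.sign_one, one_mul,
          ← mul_assoc, sign_mul_self, one_mul]
      · rw [if_neg hc, if_neg (fun h => hc (hiff.2 h)), mul_zero]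
    rw [h1, Finset.sum_const, card_fiber hv0, nsmul_eq_mul, ← mul_assoc, inv_mul_cancel₀, one_mul]
    exact_mod_cast Nat.factorial_ne_zero _
  · have h2 : D v0 = 0 := by
      by_contra h; exact hv0 (hD.injective h)
    have h3 : up (K := K) D (emb v0) = 0 := by
      by_contra h
      exact hv0 ((emb_injective_iff v0).1 ((up_anti D).injective h))
    rw [h2]; exact h3

/-- transfer of forms -/
theorem ip_transfer {p q : (K ⊕ J → K ⊕ V) → ℂ} (hp : Anti p) (hf : Full p) (hq : Anti q) :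
    ((Fintype.card J).factorial : ℂ) * ip p q =
      ((Fintype.card (K ⊕ J)).factorial : ℂ) * ∑ v : J → V, starRingEnd ℂ (val p v) * q (emb v) := by
  unfold ip
  have hne : ∀ ω, starRingEnd ℂ (p ω) * q ω ≠ 0 → p ω ≠ 0 := by
    intro ω h h0; apply h; rw [h0]; simp
  rw [sum_sym (fun ω => starRingEnd ℂ (p ω) * q ω)]
  · rfl
  · intro σ ω
    rw [hp, hq, map_mul]
    have h3 := sign_mul_self σ
    have h4 : starRingEnd ℂ ((Equiv.Perm.sign σ : ℤ) : ℂ) = ((Equiv.Perm.sign σ : ℤ) : ℂ) := by simp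
    rw [h4]
    linear_combination (starRingEnd ℂ (p ω) * q ω) * h3
  · intro ω h; exact hp.injective (hne ω h)
  · intro ω h; exact hf ω (hne ω h)

theorem ip_self_transfer {p : (K ⊕ J → K ⊕ V) → ℂ} (hp : Anti p) (hf : Full p) :
    ((Fintype.card J).factorial : ℂ) * ip p p =
      ((Fintype.card (K ⊕ J)).factorial : ℂ) * ip (val p) (val p) :=
  ip_transfer hp hf hp

theorem one_transfer {p : (K ⊕ J → K ⊕ V) → ℂ} (hp : Anti p) (hf : Full p)
    (M : K ⊕ V → K ⊕ V → ℂ) :
    ((Fintype.card J).factorial : ℂ) * ip p (one M p) =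
      ((Fintype.card (K ⊕ J)).factorial : ℂ) * ((∑ c : K, M (Sum.inl c) (Sum.inl c)) *
        ip (val p) (val p) + ip (val p) (one (fun a b : V => M (Sum.inr a) (Sum.inr b)) (val p))) := by
  rw [ip_transfer hp hf hp.one]
  congr 1
  simp_rw [one_emb hp hf]
  unfold ip
  rw [Finset.mul_sum, ← Finset.sum_add_distrib]
  refine Finset.sum_congr rfl fun v _ => ?_
  ring

theorem two_transfer {p : (K ⊕ J → K ⊕ V) → ℂ} (hp : Anti p) (hf : Full p)
    (W : K ⊕ V → K ⊕ V → K ⊕ V → K ⊕ V → ℂ) (hW : ∀ a b c d, W a b c d = W c d a b) :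
    ((Fintype.card J).factorial : ℂ) * ip p (two W p) =
      ((Fintype.card (K ⊕ J)).factorial : ℂ) * (coreTwo W * ip (val p) (val p) +
        2 * ip (val p) (one (coreField W) (val p)) +
        ip (val p) (two (fun a b c d : V => W (Sum.inr a) (Sum.inr b) (Sum.inr c) (Sum.inr d))
          (val p))) := by
  rw [ip_transfer hp hf hp.two]
  congr 1
  simp_rw [two_emb hp hf W hW]
  unfold ip
  rw [Finset.mul_sum, Finset.mul_sum, ← Finset.sum_add_distrib, ← Finset.sum_add_distrib]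
  refine Finset.sum_congr rfl fun v _ => ?_
  ring

end Crest.Agent.R338.SC
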