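import Mathlib

/-!
Row 338, shared tensor conventions (part 3 of the blueprint).

`N` electrons, spatial orbitals `α` (finite type), spin `Fin 2`.  A tensor is a function
`C : (Fin N → Fin 2 × α) → ℂ`; electron `k` sits in spin-orbital `ω k`.
-/

noncomputable section

namespace Crest.Agent.R338.Tens

open scoped BigOperators

variable {N : ℕ} {α : Type*} [Fintype α] [DecidableEq α]

/-- antisymmetric tensors -/
def Antisym (C : (Fin N → Fin 2 × α) → ℂ) : Prop :=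
  ∀ (σ : Equiv.Perm (Fin N)) (ω : Fin N → Fin 2 × α),
    C (fun i => ω (σ i)) = ((Equiv.Perm.sign σ : ℤ) : ℂ) * C ω

/-- squared norm -/
def nsq (C : (Fin N → Fin 2 × α) → ℂ) : ℝ := ∑ ω, ‖C ω‖ ^ 2

/-- move electron `k` to the spatial orbital `b`, keeping its spin -/
def mv (ω : Fin N → Fin 2 × α) (k : Fin N) (b : α) : Fin N → Fin 2 × α :=
  Function.update ω k ((ω k).1, b)

/-- one-body form `∑_k ∑_ω ∑_b conj C(ω) w_{ω_k b} C(ω[k→b])` (spin diagonal) -/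
def oneF (w : α → α → ℝ) (C : (Fin N → Fin 2 × α) → ℂ) : ℂ :=
  ∑ ω, ∑ k, ∑ b, (starRingEnd ℂ) (C ω) * ((w (ω k).2 b : ℝ) : ℂ) * C (mv ω k b)

/-- two-body form `∑_{k<l} ∑_ω ∑_{b,d} conj C(ω) W_{ω_k b | ω_l d} C(ω[k→b,l→d])` -/
def twoF (W : α → α → α → α → ℝ) (C : (Fin N → Fin 2 × α) → ℂ) : ℂ :=
  ∑ ω, ∑ k, ∑ l, ∑ b, ∑ d, if k < l then
    (starRingEnd ℂ) (C ω) * ((W (ω k).2 b (ω l).2 d : ℝ) : ℂ) * C (mv (mv ω k b) l d) else 0

end Crest.Agent.R338.Tens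

end
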