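import Crest.Agent.R338.SC3
import Crest.Agent.R338.Tens

/-!
Row 338 (S0529), node SC: transport along equivalences and the frozen core theorem in the
conventions of `Tens.lean`. helper426.
-/

set_option autoImplicit false
set_option linter.unusedSectionVars false
set_option linter.unusedVariables false

open Finset Function

namespace Crest.Agent.R338.SC

section Transport

variable {ι Ω ι' Ω' : Type*} [Fintype ι] [DecidableEq ι] [Fintype Ω] [DecidableEq Ω]
  [Fintype ι'] [DecidableEq ι'] [Fintype Ω'] [DecidableEq Ω']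

/-- transport of a tensor -/
def tr (e : ι ≃ ι') (g : Ω ≃ Ω') (C : (ι → Ω) → ℂ) (ω : ι' → Ω') : ℂ := C (g.symm ∘ ω ∘ e)

theorem ip_tr (e : ι ≃ ι') (g : Ω ≃ Ω') (C D : (ι → Ω) → ℂ) :
    ip (tr e g C) (tr e g D) = ip C D := by
  unfold ip tr
  rw [← Equiv.sum_comp (Equiv.arrowCongr e g)]
  refine Finset.sum_congr rfl fun ω _ => ?_
  have h : (g.symm ∘ (Equiv.arrowCongr e g) ω ∘ e) = ω := by
    ext k; simp [Equiv.arrowCongr]
  rw [h]

theorem tr_update (e : ι ≃ ι') (g : Ω ≃ Ω') (ω : ι' → Ω') (i : ι) (β : Ω) :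
    g.symm ∘ update ω (e i) (g β) ∘ e = update (g.symm ∘ ω ∘ e) i β := by
  ext k
  by_cases h : k = i
  · subst h; simp
  · simp [update_of_ne h, update_of_ne (fun h' => h (e.injective h') : e k ≠ e i)]

theorem one_tr (e : ι ≃ ι') (g : Ω ≃ Ω') (M : Ω → Ω → ℂ) (C : (ι → Ω) → ℂ) :
    one (fun a b => M (g.symm a) (g.symm b)) (tr e g C) = tr e g (one M C) := by
  funext ω
  unfold one tr
  rw [← Equiv.sum_comp e]
  refine Finset.sum_congr rfl fun i _ => ?_
  rw [← Equiv.sum_comp g]
  refine Finset.sum_congr rfl fun β _ => ?_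
  rw [tr_update]; simp

theorem pair_tr (e : ι ≃ ι') (g : Ω ≃ Ω') (W : Ω → Ω → Ω → Ω → ℂ) (C : (ι → Ω) → ℂ)
    (ω : ι' → Ω') (i j : ι) :
    pair (fun a b c d => W (g.symm a) (g.symm b) (g.symm c) (g.symm d)) (tr e g C) ω (e i) (e j) =
      pair W C (g.symm ∘ ω ∘ e) i j := by
  unfold pair tr
  rw [← Equiv.sum_comp g]
  refine Finset.sum_congr rfl fun β _ => ?_
  rw [← Equiv.sum_comp g]
  refine Finset.sum_congr rfl fun δ _ => ?_
  rw [tr_update, tr_update]; simp

theorem two_tr (e : ι ≃ ι') (g : Ω ≃ Ω') (W : Ω → Ω → Ω → Ω → ℂ) (C : (ι → Ω) → ℂ) :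
    two (fun a b c d => W (g.symm a) (g.symm b) (g.symm c) (g.symm d)) (tr e g C) =
      tr e g (two W C) := by
  funext ω
  unfold two
  rw [← Equiv.sum_comp e]
  show _ = ∑ i, ∑ j, if i = j then 0 else pair W C (g.symm ∘ ω ∘ e) i j
  refine Finset.sum_congr rfl fun i _ => ?_
  rw [← Equiv.sum_comp e]
  refine Finset.sum_congr rfl fun j _ => ?_
  rw [pair_tr]
  simp only [EmbeddingLike.apply_eq_iff_eq]

theorem anti_tr (e : ι ≃ ι') (g : Ω ≃ Ω') {C : (ι → Ω) → ℂ} (hC : Anti C) : Anti (tr e g C) := by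
  intro σ ω
  unfold tr
  have h := hC (e.symm.permCongr σ) (g.symm ∘ ω ∘ e)
  rw [Equiv.Perm.sign_permCongr] at h
  rw [← h]
  congr 1
  ext k; simp [Equiv.permCongr_apply]

theorem tr_symm (e : ι ≃ ι') (g : Ω ≃ Ω') (C : (ι' → Ω') → ℂ) :
    tr e g (tr e.symm g.symm C) = C := by
  funext ω
  unfold tr
  congr 1
  ext k; simp

theorem symm_tr (e : ι ≃ ι') (g : Ω ≃ Ω') (C : (ι → Ω) → ℂ) :
    tr e.symm g.symm (tr e g C) = C := by
  funext ω
  unfold tr
  congr 1
  ext k; simp

end Transport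

section Spin

open Crest.Agent.R338.Tens

variable {N : ℕ} {α : Type*} [Fintype α] [DecidableEq α]

/-- spin-diagonal one-body matrix -/
noncomputable def sM (w : α → α → ℝ) (x y : Fin 2 × α) : ℂ :=
  if x.1 = y.1 then ((w x.2 y.2 : ℝ) : ℂ) else 0

/-- spin-diagonal two-body tensor -/
noncomputable def sW (W : α → α → α → α → ℝ) (x y z u : Fin 2 × α) : ℂ :=
  if x.1 = y.1 ∧ z.1 = u.1 then ((W x.2 y.2 z.2 u.2 : ℝ) : ℂ) else 0

theorem antisym_iff (C : (Fin N → Fin 2 × α) → ℂ) : Antisym C ↔ Anti C := Iff.rfl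

theorem nsq_eq (C : (Fin N → Fin 2 × α) → ℂ) : ((nsq C : ℝ) : ℂ) = ip C C := by
  unfold nsq ip
  push_cast
  refine Finset.sum_congr rfl fun ω _ => ?_
  rw [mul_comm, Complex.mul_conj, Complex.normSq_eq_norm_sq]; push_cast; rfl

theorem oneF_eq (w : α → α → ℝ) (C : (Fin N → Fin 2 × α) → ℂ) :
    oneF w C = ip C (one (sM w) C) := by
  unfold oneF ip one
  refine Finset.sum_congr rfl fun ω _ => ?_
  rw [Finset.mul_sum]
  refine Finset.sum_congr rfl fun i _ => ?_
  rw [Fintype.sum_prod_type, Finset.sum_eq_single (ω i).1]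
  · rw [Finset.mul_sum]
    refine Finset.sum_congr rfl fun b _ => ?_
    simp only [sM, if_true, mv]; ring
  · intro s _ hs
    refine Finset.sum_eq_zero fun b _ => ?_
    simp only [sM]
    rw [if_neg (fun h => hs h.symm), zero_mul]
  · intro h; exact absurd (Finset.mem_univ _) h

theorem pair_sW (W : α → α → α → α → ℝ) (C : (Fin N → Fin 2 × α) → ℂ) (ω : Fin N → Fin 2 × α)
    {k l : Fin N} (h : k ≠ l) :
    pair (sW W) C ω k l = ∑ b, ∑ d, ((W (ω k).2 b (ω l).2 d : ℝ) : ℂ) * C (mv (mv ω k b) l d) := by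
  unfold pair
  rw [Fintype.sum_prod_type, Finset.sum_eq_single (ω k).1]
  · refine Finset.sum_congr rfl fun b _ => ?_
    rw [Fintype.sum_prod_type, Finset.sum_eq_single (ω l).1]
    · refine Finset.sum_congr rfl fun d _ => ?_
      simp only [sW, mv, and_self, if_true]
      rw [update_of_ne h.symm]
    · intro s _ hs
      refine Finset.sum_eq_zero fun d _ => ?_
      simp only [sW]
      rw [if_neg (fun h => hs h.2.symm), zero_mul]
    · intro h; exact absurd (Finset.mem_univ _) h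
  · intro s _ hs
    refine Finset.sum_eq_zero fun b _ => Finset.sum_eq_zero fun y _ => ?_
    simp only [sW]
    rw [if_neg (fun h => hs h.1.symm), zero_mul]
  · intro h; exact absurd (Finset.mem_univ _) h

/-- sums over `k < l` of a symmetric function -/
theorem sum_lt_symm (f : Fin N → Fin N → ℂ) (hf : ∀ k l, f k l = f l k) :
    (∑ k, ∑ l, if k = l then 0 else f k l) = 2 * ∑ k, ∑ l, if k < l then f k l else 0 := by
  have h1 : (∑ k, ∑ l, if l < k then f k l else 0) = ∑ k, ∑ l, if k < l then f k l else 0 := by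
    rw [Finset.sum_comm]
    refine Finset.sum_congr rfl fun k _ => Finset.sum_congr rfl fun l _ => ?_
    rw [hf]
  rw [two_mul]
  nth_rewrite 2 [← h1]
  rw [← Finset.sum_add_distrib]
  refine Finset.sum_congr rfl fun k _ => ?_
  rw [← Finset.sum_add_distrib]
  refine Finset.sum_congr rfl fun l _ => ?_
  rcases lt_trichotomy k l with h | h | h
  · rw [if_neg h.ne, if_pos h, if_neg h.asymm, add_zero]
  · subst h; simp
  · rw [if_neg h.ne', if_neg h.asymm, if_pos h, zero_add]

theorem twoF_eq (W : α → α → α → α → ℝ) (hW : ∀ a b c d, W a b c d = W c d a b)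
    (C : (Fin N → Fin 2 × α) → ℂ) :
    2 * twoF W C = ip C (two (sW W) C) := by
  have hsW : (fun a b c d => sW W c d a b) = sW W := by
    funext a b c d
    unfold sW
    rw [hW]
    congr 1
    rw [and_comm]
  unfold ip two
  have h1 : ∀ ω : Fin N → Fin 2 × α, (∑ k, ∑ l, if k = l then 0 else pair (sW W) C ω k l) =
      2 * ∑ k, ∑ l, if k < l then pair (sW W) C ω k l else 0 := by
    intro ω
    have hcongr : (∑ k, ∑ l, if k = l then 0 else pair (sW W) C ω k l) =
        ∑ k, ∑ l, if k = l then 0 else (if k = l then 0 else pair (sW W) C ω k l) := by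
      refine Finset.sum_congr rfl fun k _ => Finset.sum_congr rfl fun l _ => ?_
      split_ifs <;> rfl
    rw [hcongr, sum_lt_symm]
    · congr 1
      refine Finset.sum_congr rfl fun k _ => Finset.sum_congr rfl fun l _ => ?_
      by_cases h : k < l
      · rw [if_pos h, if_pos h, if_neg h.ne]
      · rw [if_neg h, if_neg h]
    · intro k l
      by_cases h : k = l
      · subst h; rfl
      · rw [if_neg h, if_neg (Ne.symm h), pair_comm _ _ _ h, hsW]
  simp_rw [h1]
  unfold twoF
  rw [Finset.mul_sum]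
  refine Finset.sum_congr rfl fun ω _ => ?_
  rw [Finset.mul_sum, Finset.mul_sum, Finset.mul_sum]
  refine Finset.sum_congr rfl fun k _ => ?_
  rw [Finset.mul_sum, Finset.mul_sum, Finset.mul_sum]
  refine Finset.sum_congr rfl fun l _ => ?_
  by_cases h : k < l
  · simp only [if_pos h]
    rw [pair_sW W C ω h.ne]
    rw [Finset.mul_sum, Finset.mul_sum, Finset.mul_sum]
    refine Finset.sum_congr rfl fun b _ => ?_
    rw [Finset.mul_sum, Finset.mul_sum, Finset.mul_sum]
    refine Finset.sum_congr rfl fun d _ => ?_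
    ring
  · simp [if_neg h]

end Spin

end Crest.Agent.R338.SC
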