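import Crest.Agent.R338.SC4

/-!
Row 338 (S0529), node SC: THE FROZEN CORE THEOREM (B.2) in the conventions of `Tens.lean`.
helper426.
-/

set_option autoImplicit false
set_option linter.unusedSectionVars false
set_option linter.unusedVariables false

open Finset Function

namespace Crest.Agent.R338.SC

open Crest.Agent.R338.Tens

variable {N n : ℕ} {α : Type*} [Fintype α] [DecidableEq α] (cr : α → Prop) [DecidablePred cr]

/-- every core spin-orbital is occupied on the support of `C` -/
def FullCore (C : (Fin N → Fin 2 × α) → ℂ) : Prop :=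
  ∀ ω, C ω ≠ 0 → ∀ (s : Fin 2) (a : α), cr a → ∃ i, ω i = (s, a)

/-- splitting the spin-orbitals into core and valence -/
def split : Fin 2 × α ≃ (Fin 2 × {a // cr a}) ⊕ (Fin 2 × {a // ¬ cr a}) :=
  ((Equiv.refl (Fin 2)).prodCongr (Equiv.sumCompl cr).symm).trans
    (Equiv.prodSumDistrib (Fin 2) {a // cr a} {a // ¬ cr a})

theorem split_symm_inl (x : Fin 2 × {a // cr a}) :
    (split cr).symm (Sum.inl x) = (x.1, x.2.1) := by
  simp [split]

theorem split_symm_inr (x : Fin 2 × {a // ¬ cr a}) :
    (split cr).symm (Sum.inr x) = (x.1, x.2.1) := by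
  simp [split]

/-- two-body core energy `∑_{c,c'} (2 W_{cc|c'c'} - W_{cc'|c'c})` -/
noncomputable def coreW (W : α → α → α → α → ℝ) : ℝ :=
  ∑ c : {a // cr a}, ∑ c' : {a // cr a}, (2 * W c c c' c' - W c c' c' c)

/-- mean field of the core `F_ab = ∑_c (2 W_{cc|ab} - W_{cb|ac})` -/
noncomputable def field (W : α → α → α → α → ℝ) (a b : α) : ℝ :=
  ∑ c : {a // cr a}, (2 * W c c a b - W c b a c)

/-- one-body core energy `2 ∑_c w_cc` -/
noncomputable def coreOne (w : α → α → ℝ) : ℝ := 2 * ∑ c : {a // cr a}, w c c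

theorem field_spin (W : α → α → α → α → ℝ) :
    coreField (fun a b c d => sW W ((split cr).symm a) ((split cr).symm b) ((split cr).symm c)
      ((split cr).symm d)) =
      sM (fun a b : {a // ¬ cr a} => field cr W a b) := by
  funext x y
  unfold coreField sM field
  simp only [split_symm_inl, split_symm_inr, sW]
  rw [Fintype.sum_prod_type]
  simp only [true_and]
  by_cases h : x.1 = y.1
  · simp only [h, if_true]
    have h2 : ∀ s : Fin 2, (∑ c : {a // cr a}, (((W c c x.2 y.2 : ℝ) : ℂ) -
        if s = y.1 ∧ y.1 = s then ((W c y.2 x.2 c : ℝ) : ℂ) else 0)) =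
        (∑ c : {a // cr a}, ((W c c x.2 y.2 : ℝ) : ℂ)) -
        if s = y.1 then (∑ c : {a // cr a}, ((W c y.2 x.2 c : ℝ) : ℂ)) else 0 := by
      intro s
      by_cases hs : s = y.1
      · subst hs; simp [Finset.sum_sub_distrib]
      · have : ¬ (s = y.1 ∧ y.1 = s) := fun h => hs h.1
        simp [hs, this]
    simp_rw [h2]
    rw [Finset.sum_sub_distrib, Finset.sum_ite_eq' Finset.univ y.1]
    simp only [Finset.mem_univ, if_true, Finset.sum_const, Finset.card_univ, Fintype.card_fin,
      nsmul_eq_mul]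
    push_cast
    rw [Finset.sum_sub_distrib, Finset.mul_sum]
  · simp only [h, if_false]
    refine Finset.sum_eq_zero fun s _ => Finset.sum_eq_zero fun c _ => ?_
    have : ¬ (s = y.1 ∧ x.1 = s) := fun hh => h (hh.2.trans hh.1)
    simp [this]

theorem coreTwo_spin (W : α → α → α → α → ℝ) :
    coreTwo (fun a b c d => sW W ((split cr).symm a) ((split cr).symm b) ((split cr).symm c)
      ((split cr).symm d)) = 2 * ((coreW cr W : ℝ) : ℂ) := by
  unfold coreTwo coreW
  simp only [split_symm_inl, sW]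
  simp only [Fintype.sum_prod_type]
  simp only [true_and, if_true]
  have h2 : ∀ (s : Fin 2) (c : {a // cr a}), (∑ s' : Fin 2, ∑ c' : {a // cr a},
      (((W c c c' c' : ℝ) : ℂ) - if s = s' ∧ s' = s then ((W c c' c' c : ℝ) : ℂ) else 0)) =
      ∑ c' : {a // cr a}, (2 * ((W c c c' c' : ℝ) : ℂ) - ((W c c' c' c : ℝ) : ℂ)) := by
    intro s c
    rw [Finset.sum_comm]
    refine Finset.sum_congr rfl fun c' _ => ?_
    rw [Finset.sum_sub_distrib]
    have h3 : (∑ s' : Fin 2, if s = s' ∧ s' = s then ((W c c' c' c : ℝ) : ℂ) else 0) =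
        ((W c c' c' c : ℝ) : ℂ) := by
      rw [Finset.sum_eq_single s]
      · simp
      · intro t _ ht
        rw [if_neg (fun h => ht h.2)]
      · intro h; exact absurd (Finset.mem_univ _) h
    rw [h3]
    simp
  simp_rw [h2]
  simp only [Finset.sum_const, Finset.card_univ, Fintype.card_fin, nsmul_eq_mul]
  push_cast
  rfl

theorem coreOne_spin (w : α → α → ℝ) :
    (∑ c : Fin 2 × {a // cr a}, sM w ((split cr).symm (Sum.inl c)) ((split cr).symm (Sum.inl c))) =
      ((coreOne cr w : ℝ) : ℂ) := by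
  unfold coreOne
  simp only [split_symm_inl, sM, if_true]
  rw [Fintype.sum_prod_type]
  simp

/-- the identities satisfied by a full-core tensor and its valence tensor -/
structure Frozen (w : α → α → ℝ) (W : α → α → α → α → ℝ) (κ : ℝ)
    (C : (Fin N → Fin 2 × α) → ℂ) (D : (Fin n → Fin 2 × {a // ¬ cr a}) → ℂ) : Prop where
  nsq : Tens.nsq C = κ * Tens.nsq D
  one : oneF w C = (κ : ℂ) * (((coreOne cr w * Tens.nsq D : ℝ) : ℂ) + oneF (fun a b : {a // ¬ cr a} => w a b) D)
  two : twoF W C = (κ : ℂ) * (((coreW cr W * Tens.nsq D : ℝ) : ℂ) +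
    oneF (fun a b : {a // ¬ cr a} => field cr W a b) D +
      twoF (fun a b c d : {a // ¬ cr a} => W a b c d) D)

/-- the index equivalence -/
noncomputable def posEquiv (hN : N = 2 * Fintype.card {a // cr a} + n) :
    Fin N ≃ (Fin 2 × {a // cr a}) ⊕ Fin n :=
  Fintype.equivOfCardEq (by simp [hN])

theorem frozen_core_tr (w : α → α → ℝ) (W : α → α → α → α → ℝ)
    (hW : ∀ a b c d, W a b c d = W c d a b) (hN : N = 2 * Fintype.card {a // cr a} + n)
    {C : (Fin N → Fin 2 × α) → ℂ} (hC : Antisym C)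
    (hf : Full (tr (posEquiv cr hN) (split cr) C)) :
    Frozen cr w W ((N.factorial : ℝ) / (n.factorial : ℝ)) C
      (val (tr (posEquiv cr hN) (split cr) C)) := by
  set p := tr (posEquiv cr hN) (split cr) C with hpdef
  have hp : Anti p := anti_tr _ _ ((antisym_iff C).1 hC)
  have hn0 : ((n.factorial : ℕ) : ℂ) ≠ 0 := by exact_mod_cast Nat.factorial_ne_zero n
  have hcard : Fintype.card ((Fin 2 × {a // cr a}) ⊕ Fin n) = N := by simp [hN]
  have hip : ip p p = ip C C := ip_tr _ _ C C
  have hκ : (((N.factorial : ℝ) / (n.factorial : ℝ) : ℝ) : ℂ) =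
      ((N.factorial : ℕ) : ℂ) / ((n.factorial : ℕ) : ℂ) := by push_cast; rfl
  refine ⟨?_, ?_, ?_⟩
  · have h := ip_self_transfer hp hf
    rw [hcard, Fintype.card_fin, hip] at h
    have h2 : ((Tens.nsq C : ℝ) : ℂ) =
        (((N.factorial : ℝ) / (n.factorial : ℝ) * Tens.nsq (val p) : ℝ) : ℂ) := by
      rw [Complex.ofReal_mul, hκ, nsq_eq, nsq_eq]
      field_simp
      linear_combination h
    exact_mod_cast h2
  · have h := one_transfer hp hf (fun a b => sM w ((split cr).symm a) ((split cr).symm b))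
    rw [hcard, Fintype.card_fin, one_tr, ip_tr] at h
    rw [oneF_eq, hκ]
    have e1 : (fun a b : Fin 2 × {a // ¬ cr a} =>
        sM w ((split cr).symm (Sum.inr a)) ((split cr).symm (Sum.inr b))) =
        sM (fun a b : {a // ¬ cr a} => w a b) := by
      funext x y; simp only [split_symm_inr, sM]
    rw [e1, coreOne_spin] at h
    rw [oneF_eq, Complex.ofReal_mul, nsq_eq]
    field_simp
    linear_combination h
  · have hsW : ∀ a b c d, (fun a b c d => sW W ((split cr).symm a) ((split cr).symm b)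
        ((split cr).symm c) ((split cr).symm d)) a b c d =
        (fun a b c d => sW W ((split cr).symm a) ((split cr).symm b)
        ((split cr).symm c) ((split cr).symm d)) c d a b := by
      intro a b c d
      simp only [sW]
      rw [hW]
      congr 1
      rw [and_comm]
    have h := two_transfer hp hf _ hsW
    rw [hcard, Fintype.card_fin, two_tr, ip_tr, ← twoF_eq W hW, coreTwo_spin, field_spin] at h
    have e1 : (fun a b c d : Fin 2 × {a // ¬ cr a} =>
        sW W ((split cr).symm (Sum.inr a)) ((split cr).symm (Sum.inr b))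
          ((split cr).symm (Sum.inr c)) ((split cr).symm (Sum.inr d))) =
        sW (fun a b c d : {a // ¬ cr a} => W a b c d) := by
      funext x y z u; simp only [split_symm_inr, sW]
    have h' : ((n.factorial : ℕ) : ℂ) * (2 * twoF W C) = ((N.factorial : ℕ) : ℂ) *
        (2 * ((coreW cr W : ℝ) : ℂ) * ip (val p) (val p) +
          2 * ip (val p) (SC.one (sM fun a b : {a // ¬ cr a} => field cr W a b) (val p)) +
          2 * twoF (fun a b c d : {a // ¬ cr a} => W a b c d) (val p)) := by
      rw [twoF_eq (fun a b c d : {a // ¬ cr a} => W a b c d) (fun a b c d => hW a b c d), ← e1]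
      exact h
    rw [hκ, oneF_eq, Complex.ofReal_mul, nsq_eq]
    field_simp
    linear_combination h' / 2

theorem full_tr_iff (hN : N = 2 * Fintype.card {a // cr a} + n) (C : (Fin N → Fin 2 × α) → ℂ) :
    FullCore cr C ↔ Full (tr (posEquiv cr hN) (split cr) C) := by
  constructor
  · intro h ω hω c
    obtain ⟨i, hi⟩ := h _ hω c.1 c.2.1 c.2.2
    refine ⟨posEquiv cr hN i, ?_⟩
    have h2 : (split cr).symm (ω (posEquiv cr hN i)) = (c.1, c.2.1) := hi
    rw [Equiv.symm_apply_eq] at h2
    rw [h2, ← split_symm_inl, Equiv.apply_symm_apply]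
  · intro h ω hω s a ha
    have h1 : tr (posEquiv cr hN) (split cr) C
        ((split cr) ∘ ω ∘ (posEquiv cr hN).symm) ≠ 0 := by
      have : (split cr).symm ∘ ((split cr) ∘ ω ∘ (posEquiv cr hN).symm) ∘ (posEquiv cr hN) = ω := by
        ext k <;> simp
      unfold tr
      rw [this]; exact hω
    obtain ⟨i, hi⟩ := h _ h1 (s, ⟨a, ha⟩)
    refine ⟨(posEquiv cr hN).symm i, ?_⟩
    have h2 : split cr (ω ((posEquiv cr hN).symm i)) = Sum.inl (s, ⟨a, ha⟩) := hi
    rw [← Equiv.eq_symm_apply, split_symm_inl] at h2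
    exact h2

/-- **FROZEN CORE, down.** -/
theorem frozen_core_down (w : α → α → ℝ) (W : α → α → α → α → ℝ)
    (hW : ∀ a b c d, W a b c d = W c d a b) (hN : N = 2 * Fintype.card {a // cr a} + n)
    {C : (Fin N → Fin 2 × α) → ℂ} (hC : Antisym C) (hf : FullCore cr C) :
    ∃ D : (Fin n → Fin 2 × {a // ¬ cr a}) → ℂ, Antisym D ∧
      Frozen cr w W ((N.factorial : ℝ) / (n.factorial : ℝ)) C D :=
  ⟨val (tr (posEquiv cr hN) (split cr) C),
    (antisym_iff _).2 (anti_tr (posEquiv cr hN) (split cr) ((antisym_iff C).1 hC)).val,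
    frozen_core_tr cr w W hW hN hC ((full_tr_iff cr hN C).1 hf)⟩

/-- **FROZEN CORE, up.** -/
theorem frozen_core_up (w : α → α → ℝ) (W : α → α → α → α → ℝ)
    (hW : ∀ a b c d, W a b c d = W c d a b) (hN : N = 2 * Fintype.card {a // cr a} + n)
    {D : (Fin n → Fin 2 × {a // ¬ cr a}) → ℂ} (hD : Antisym D) :
    ∃ C : (Fin N → Fin 2 × α) → ℂ, Antisym C ∧ FullCore cr C ∧
      Frozen cr w W ((N.factorial : ℝ) / (n.factorial : ℝ)) C D := by
  set p : ((Fin 2 × {a // cr a}) ⊕ Fin n → (Fin 2 × {a // cr a}) ⊕ (Fin 2 × {a // ¬ cr a})) → ℂ :=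
    up D with hpdef
  have hp : Anti p := up_anti D
  have hfp : Full p := up_full D
  have htr : tr (posEquiv cr hN) (split cr) (tr (posEquiv cr hN).symm (split cr).symm p) = p :=
    tr_symm _ _ p
  have hC : Antisym (tr (posEquiv cr hN).symm (split cr).symm p) :=
    (antisym_iff _).2 (anti_tr _ _ hp)
  refine ⟨tr (posEquiv cr hN).symm (split cr).symm p, hC, ?_, ?_⟩
  · rw [full_tr_iff cr hN, htr]; exact hfp
  · have h := frozen_core_tr cr w W hW hN hC (by rw [htr]; exact hfp)
    rw [htr, hpdef, val_up ((antisym_iff D).1 hD)] at h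
    exact h

end Crest.Agent.R338.SC
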