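import Crest.Agent.R338.SC5
import Crest.Agent.R338.Br
import Crest.Agent.R338.XF4

/-!
Row 338 (S0529), node SC: the tensor form `BF` of `TA0` on core-full tensors versus the
`shellForm` of `Iface`. helper426.
-/

set_option autoImplicit false
set_option linter.unusedSectionVars false
set_option linter.unusedVariables false

open Finset Function
open Crest.MathPhysics.ElectronicCoulomb

noncomputable section

namespace Crest.Agent.R338.SC

/-! ### real forms -/

section RealForms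

variable {Ω : Type} [Fintype Ω] [DecidableEq Ω] {k : ℕ}

theorem form1_eq (h : Ω → Ω → ℝ) (D : (Fin k → Ω) → ℂ) :
    form1 h D = (ip D (one (fun a b => ((h a b : ℝ) : ℂ)) D)).re := by
  unfold form1 ip one
  rw [Finset.sum_comm, Complex.re_sum]
  refine Finset.sum_congr rfl fun v _ => ?_
  rw [Finset.mul_sum, Complex.re_sum]
  refine Finset.sum_congr rfl fun i _ => ?_
  rw [Finset.mul_sum, Complex.re_sum]
  refine Finset.sum_congr rfl fun b _ => ?_
  rw [← Complex.re_ofReal_mul]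
  congr 1
  ring

theorem form2_eq (W : Ω → Ω → Ω → Ω → ℝ) (hW : ∀ a b c d, W a b c d = W c d a b)
    (D : (Fin k → Ω) → ℂ) :
    2 * form2 W D = (ip D (two (fun a b c d => ((W a b c d : ℝ) : ℂ)) D)).re := by
  have hsW : (fun a b c d => ((W c d a b : ℝ) : ℂ)) = (fun a b c d => ((W a b c d : ℝ) : ℂ)) := by
    funext a b c d
    rw [hW]
  have h1 : ∀ ω : Fin k → Ω, two (fun a b c d => ((W a b c d : ℝ) : ℂ)) D ω =
      2 * ∑ i, ∑ j, if i < j then pair (fun a b c d => ((W a b c d : ℝ) : ℂ)) D ω i j else 0 := by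
    intro ω
    unfold two
    have hcongr : (∑ i, ∑ j, if i = j then 0 else
        pair (fun a b c d => ((W a b c d : ℝ) : ℂ)) D ω i j) =
        ∑ i, ∑ j, if i = j then 0 else (if i = j then 0 else
        pair (fun a b c d => ((W a b c d : ℝ) : ℂ)) D ω i j) := by
      refine Finset.sum_congr rfl fun i _ => Finset.sum_congr rfl fun j _ => ?_
      split_ifs <;> rfl
    rw [hcongr, sum_lt_symm]
    · congr 1
      refine Finset.sum_congr rfl fun i _ => Finset.sum_congr rfl fun j _ => ?_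
      by_cases h : i < j
      · rw [if_pos h, if_pos h, if_neg h.ne]
      · rw [if_neg h, if_neg h]
    · intro i j
      by_cases h : i = j
      · subst h; rfl
      · rw [if_neg h, if_neg (Ne.symm h), pair_comm _ _ _ h, hsW]
  unfold ip form2
  simp_rw [h1]
  rw [Complex.re_sum]
  have h2 : ∀ ω : Fin k → Ω, (starRingEnd ℂ (D ω) * (2 * ∑ i, ∑ j, if i < j then
      pair (fun a b c d => ((W a b c d : ℝ) : ℂ)) D ω i j else 0)).re =
      2 * ∑ i, ∑ j, if i < j then ∑ b, ∑ d, W (ω i) b (ω j) d *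
        (starRingEnd ℂ (D ω) * D (update (update ω i b) j d)).re else 0 := by
    intro ω
    have e1 : (starRingEnd ℂ (D ω) * (2 * ∑ i, ∑ j, if i < j then
      pair (fun a b c d => ((W a b c d : ℝ) : ℂ)) D ω i j else 0)) = ((2 : ℝ) : ℂ) *
      ∑ i, ∑ j, if i < j then starRingEnd ℂ (D ω) *
        pair (fun a b c d => ((W a b c d : ℝ) : ℂ)) D ω i j else 0 := by
      rw [← mul_assoc, mul_comm (starRingEnd ℂ (D ω)) 2, mul_assoc, Finset.mul_sum]
      push_cast
      congr 1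
      refine Finset.sum_congr rfl fun i _ => ?_
      rw [Finset.mul_sum]
      refine Finset.sum_congr rfl fun j _ => ?_
      split_ifs <;> simp
    rw [e1, Complex.re_ofReal_mul, Complex.re_sum]
    congr 1
    refine Finset.sum_congr rfl fun i _ => ?_
    rw [Complex.re_sum]
    refine Finset.sum_congr rfl fun j _ => ?_
    split_ifs
    · unfold pair
      rw [Finset.mul_sum, Complex.re_sum]
      refine Finset.sum_congr rfl fun b _ => ?_
      rw [Finset.mul_sum, Complex.re_sum]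
      refine Finset.sum_congr rfl fun d _ => ?_
      rw [← Complex.re_ofReal_mul]
      congr 1
      ring
    · simp
  simp_rw [h2]
  rw [← Finset.mul_sum]
  congr 1
  have h3 : ∀ (i j : Fin k), (if i < j then ∑ v : Fin k → Ω, ∑ b, ∑ d, W (v i) b (v j) d *
        (starRingEnd ℂ (D v) * D (update (update v i b) j d)).re else 0) =
      ∑ v : Fin k → Ω, if i < j then ∑ b, ∑ d, W (v i) b (v j) d *
        (starRingEnd ℂ (D v) * D (update (update v i b) j d)).re else 0 := by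
    intro i j
    split_ifs
    · rfl
    · simp
  simp_rw [h3]
  conv_rhs => rw [Finset.sum_comm]
  refine Finset.sum_congr rfl fun i _ => ?_
  rw [Finset.sum_comm]

end RealForms


/-! ### the form of `TA0` -/

variable {n0 : ℕ}

theorem TA_oneF_eq {N : ℕ} (h : TA.Sp n0 → TA.Sp n0 → ℝ) (C : TA.Ten N n0) :
    TA.oneF h C = (Tens.oneF h C).re := by
  unfold TA.oneF Tens.oneF
  rw [Finset.sum_comm, Complex.re_sum]
  refine Finset.sum_congr rfl fun ω _ => ?_
  rw [Complex.re_sum]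
  refine Finset.sum_congr rfl fun i _ => ?_
  rw [Complex.re_sum]
  refine Finset.sum_congr rfl fun b _ => ?_
  rw [mul_comm, ← Complex.re_ofReal_mul]
  congr 1
  unfold Tens.mv
  ring

theorem TA_twoF_eq {N : ℕ} (V : TA.Sp n0 → TA.Sp n0 → TA.Sp n0 → TA.Sp n0 → ℝ)
    (C : TA.Ten N n0) : TA.twoF V C = (Tens.twoF V C).re := by
  unfold TA.twoF Tens.twoF
  rw [Complex.re_sum]
  have h3 : ∀ (i j : Fin N), (if i < j then ∑ ω : Fin N → TA.Orb n0, ∑ b : TA.Sp n0,
      ∑ d : TA.Sp n0, (starRingEnd ℂ (C ω) * C (Function.update (Function.update ω i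
        ((ω i).1, b)) j ((ω j).1, d))).re * V (ω i).2 b (ω j).2 d else 0) =
      ∑ ω : Fin N → TA.Orb n0, if i < j then ∑ b : TA.Sp n0,
      ∑ d : TA.Sp n0, (starRingEnd ℂ (C ω) * C (Function.update (Function.update ω i
        ((ω i).1, b)) j ((ω j).1, d))).re * V (ω i).2 b (ω j).2 d else 0 := by
    intro i j
    split_ifs
    · rfl
    · simp
  simp_rw [h3]
  have h4 : ∀ i : Fin N, (∑ j : Fin N, ∑ ω : Fin N → TA.Orb n0, if i < j then ∑ b : TA.Sp n0,
      ∑ d : TA.Sp n0, (starRingEnd ℂ (C ω) * C (Function.update (Function.update ω i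
        ((ω i).1, b)) j ((ω j).1, d))).re * V (ω i).2 b (ω j).2 d else 0) =
      ∑ ω : Fin N → TA.Orb n0, ∑ j : Fin N, if i < j then ∑ b : TA.Sp n0,
      ∑ d : TA.Sp n0, (starRingEnd ℂ (C ω) * C (Function.update (Function.update ω i
        ((ω i).1, b)) j ((ω j).1, d))).re * V (ω i).2 b (ω j).2 d else 0 := by
    intro i
    rw [Finset.sum_comm]
  simp_rw [h4]
  rw [Finset.sum_comm]
  refine Finset.sum_congr rfl fun ω _ => ?_
  rw [Complex.re_sum]
  refine Finset.sum_congr rfl fun i _ => ?_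
  rw [Complex.re_sum]
  refine Finset.sum_congr rfl fun j _ => ?_
  rw [Complex.re_sum]
  by_cases hij : i < j
  · simp only [if_pos hij]
    refine Finset.sum_congr rfl fun b _ => ?_
    rw [Complex.re_sum]
    refine Finset.sum_congr rfl fun d _ => ?_
    rw [mul_comm, ← Complex.re_ofReal_mul]
    congr 1
    unfold Tens.mv
    rw [update_of_ne hij.ne']
    ring
  · simp [if_neg hij]

theorem tsq_eq {N : ℕ} (C : TA.Ten N n0) : TA.tsq C = Tens.nsq C := rfl

/-- the core predicate -/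
def crP (n0 : ℕ) (a : TA.Sp n0) : Prop := TA.deg3 a.1 < n0

instance (n0 : ℕ) : DecidablePred (crP n0) := fun a => by unfold crP; infer_instance

theorem coreFull_iff {N : ℕ} (C : TA.Ten N n0) : TA.CoreFull C ↔ FullCore (crP n0) C := by
  constructor
  · intro h ω hω s a ha
    exact h ω hω (s, a) ha
  · intro h ω hω o ho
    exact h ω hω o.1 o.2 ho

theorem mem_core' (m : Idx) : m ∈ core n0 ↔ TA.deg3 m < n0 := XF.mem_core n0 m

theorem mem_shell' (m : Idx) : m ∈ shell n0 ↔ TA.deg3 m = n0 := XF.mem_shell n0 m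

/-- core orbitals -/
def coreEquiv (n0 : ℕ) : {a : TA.Sp n0 // crP n0 a} ≃ {m : Idx // m ∈ core n0} where
  toFun a := ⟨a.1.1, (mem_core' _).2 a.2⟩
  invFun m := ⟨⟨m.1, ((mem_core' _).1 m.2).le⟩, (mem_core' _).1 m.2⟩
  left_inv a := rfl
  right_inv m := rfl

/-- valence orbitals -/
def valEquiv (n0 : ℕ) : {a : TA.Sp n0 // ¬ crP n0 a} ≃ {m : Idx // m ∈ shell n0} where
  toFun a := ⟨a.1.1, (mem_shell' _).2 (le_antisymm a.1.2 (not_lt.1 a.2))⟩
  invFun m := ⟨⟨m.1, ((mem_shell' _).1 m.2).le⟩, not_lt.2 ((mem_shell' _).1 m.2).ge⟩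
  left_inv a := rfl
  right_inv m := rfl

theorem sum_core_sub (f : Idx → ℝ) :
    ∑ c : {a : TA.Sp n0 // crP n0 a}, f c.1.1 = ∑ c ∈ core n0, f c := by
  rw [← Finset.sum_coe_sort (core n0) f]
  exact Equiv.sum_comp (coreEquiv n0) (fun m : {m : Idx // m ∈ core n0} => f m.1)

theorem card_core_sub : Fintype.card {a : TA.Sp n0 // crP n0 a} = (core n0).card := by
  rw [Fintype.card_congr (coreEquiv n0), Fintype.card_coe]

theorem Nel_eq (Nv : ℕ) :
    TA.Nel n0 Nv = 2 * Fintype.card {a : TA.Sp n0 // crP n0 a} + Nv := by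
  rw [card_core_sub, XF.card_core_choose]; rfl

theorem Nel_eq_numEl (Nv : ℕ) : TA.Nel n0 Nv = numEl n0 Nv := by
  rw [XF.numEl_eq]; rfl

/-- the two-body tensor on the orbitals of `TA0` -/
abbrev WT (n0 : ℕ) (a b c d : TA.Sp n0) : ℝ := TA.W4 a.1 b.1 c.1 d.1

theorem coreOne_eq (w : Pos3 → ℝ) : coreOne (crP n0) (fun a b => TA.wI w a.1 b.1) =
    2 * ∑ c ∈ core n0, w1 w c c := by
  unfold coreOne
  rw [← sum_core_sub (fun c => w1 w c c)]
  simp_rw [Br.w1_eq]

theorem coreW_eq : coreW (crP n0) (WT n0) =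
    ∑ c ∈ core n0, ∑ c' ∈ core n0, (2 * W4 c c c' c' - W4 c c' c c') := by
  unfold coreW
  rw [← sum_core_sub (fun c => ∑ c' ∈ core n0, (2 * W4 c c c' c' - W4 c c' c c'))]
  refine Finset.sum_congr rfl fun c _ => ?_
  rw [← sum_core_sub (fun c' => (2 * W4 c.1.1 c.1.1 c' c' - W4 c.1.1 c' c.1.1 c'))]
  refine Finset.sum_congr rfl fun c' _ => ?_
  rw [Br.W4_eq, Br.W4_eq, ← Br.TA_W4_eq, ← Br.TA_W4_eq]
  congr 1
  exact CE.W_swap_right _ _ _ _

theorem field_eq (a b : TA.Sp n0) : field (crP n0) (WT n0) a b = fock n0 a.1 b.1 := by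
  unfold field fock
  rw [← sum_core_sub (fun c => 2 * W4 a.1 b.1 c c - W4 a.1 c c b.1)]
  refine Finset.sum_congr rfl fun c _ => ?_
  rw [Br.W4_eq, Br.W4_eq, ← Br.TA_W4_eq, ← Br.TA_W4_eq]
  have e1 : TA.W4 c.1.1 c.1.1 a.1 b.1 = TA.W4 a.1 b.1 c.1.1 c.1.1 := CE.W_symm _ _ _ _
  have e2 : TA.W4 c.1.1 b.1 a.1 c.1.1 = TA.W4 a.1 c.1.1 c.1.1 b.1 := CE.W_symm _ _ _ _
  rw [← e1, ← e2]

theorem Ecc_eq (w : Pos3 → ℝ) : coreOne (crP n0) (fun a b => TA.wI w a.1 b.1) +
    coreW (crP n0) (WT n0) = Ecc n0 w := by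
  rw [coreOne_eq, coreW_eq]; rfl

theorem BF_eq {N : ℕ} (w : Pos3 → ℝ) (C : TA.Ten N n0) :
    TA.BF w C = (Tens.oneF (fun a b => TA.wI w a.1 b.1) C + Tens.twoF (WT n0) C).re := by
  unfold TA.BF
  rw [TA_oneF_eq, TA_twoF_eq, Complex.add_re]

/-- shell form in terms of a tensor on `{a // ¬ crP a}` -/
theorem shellForm_tr {k : ℕ} (w : Pos3 → ℝ) (D : (Fin k → Fin 2 × {a : TA.Sp n0 // ¬ crP n0 a}) → ℂ) :
    shellForm n0 w (tr (Equiv.refl (Fin k)) ((Equiv.refl (Fin 2)).prodCongr (valEquiv n0)) D) =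
      (Tens.oneF (fun a b : {a : TA.Sp n0 // ¬ crP n0 a} => TA.wI w a.1.1 b.1.1) D +
      Tens.oneF (fun a b : {a : TA.Sp n0 // ¬ crP n0 a} => field (crP n0) (WT n0) a.1 b.1) D +
      Tens.twoF (fun a b c d : {a : TA.Sp n0 // ¬ crP n0 a} => WT n0 a.1 b.1 c.1 d.1) D).re := by
  set g : Fin 2 × {a : TA.Sp n0 // ¬ crP n0 a} ≃ Val n0 :=
    (Equiv.refl (Fin 2)).prodCongr (valEquiv n0) with hg
  have hW : ∀ a b c d : {a : TA.Sp n0 // ¬ crP n0 a},
      (fun a b c d : {a : TA.Sp n0 // ¬ crP n0 a} => WT n0 a.1 b.1 c.1 d.1) a b c d =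
      (fun a b c d : {a : TA.Sp n0 // ¬ crP n0 a} => WT n0 a.1 b.1 c.1 d.1) c d a b :=
    fun a b c d => CE.W_symm _ _ _ _
  unfold shellForm
  have h1 : form1 (fun p p' : Val n0 => if p.1 = p'.1 then w1 w p.2.1 p'.2.1 +
      fock n0 p.2.1 p'.2.1 else 0) (tr (Equiv.refl (Fin k)) g D) =
      (Tens.oneF (fun a b : {a : TA.Sp n0 // ¬ crP n0 a} => TA.wI w a.1.1 b.1.1) D +
      Tens.oneF (fun a b : {a : TA.Sp n0 // ¬ crP n0 a} =>
        field (crP n0) (WT n0) a.1 b.1) D).re := by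
    rw [form1_eq, oneF_eq, oneF_eq]
    obtain ⟨M0, hM0⟩ : ∃ M0 : Fin 2 × {a : TA.Sp n0 // ¬ crP n0 a} →
        Fin 2 × {a : TA.Sp n0 // ¬ crP n0 a} → ℂ, M0 = (fun x y =>
          sM (fun a b : {a : TA.Sp n0 // ¬ crP n0 a} =>
          TA.wI w a.1.1 b.1.1) x y + sM (fun a b : {a : TA.Sp n0 // ¬ crP n0 a} =>
        field (crP n0) (WT n0) a.1 b.1) x y) := ⟨_, rfl⟩
    have e1 : (fun a b : Val n0 => (((if a.1 = b.1 then w1 w a.2.1 b.2.1 +
        fock n0 a.2.1 b.2.1 else 0 : ℝ)) : ℂ)) =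
        fun a b => M0 (g.symm a) (g.symm b) := by
      rw [hM0]
      funext a b
      have ha1 : (g.symm a).1 = a.1 := rfl
      have hb1 : (g.symm b).1 = b.1 := rfl
      have ha2 : (g.symm a).2.1.1 = a.2.1 := rfl
      have hb2 : (g.symm b).2.1.1 = b.2.1 := rfl
      simp only [sM, ha1, hb1]
      by_cases h : a.1 = b.1
      · rw [if_pos h, if_pos h, if_pos h, Br.w1_eq, field_eq, ha2, hb2]
        push_cast; rfl
      · rw [if_neg h, if_neg h, if_neg h]; simp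
    rw [e1, one_tr, ip_tr, hM0]
    congr 1
    unfold ip one
    rw [← Finset.sum_add_distrib]
    refine Finset.sum_congr rfl fun v _ => ?_
    rw [← mul_add, ← Finset.sum_add_distrib]
    congr 1
    refine Finset.sum_congr rfl fun i _ => ?_
    rw [← Finset.sum_add_distrib]
    refine Finset.sum_congr rfl fun b _ => ?_
    ring
  have h2 : form2 (fun p p' r r' : Val n0 => if p.1 = p'.1 ∧ r.1 = r'.1 then
      W4 p.2.1 p'.2.1 r.2.1 r'.2.1 else 0) (tr (Equiv.refl (Fin k)) g D) =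
      (Tens.twoF (fun a b c d : {a : TA.Sp n0 // ¬ crP n0 a} => WT n0 a.1 b.1 c.1 d.1) D).re := by
    have h3 := form2_eq (fun p p' r r' : Val n0 => if p.1 = p'.1 ∧ r.1 = r'.1 then
      W4 p.2.1 p'.2.1 r.2.1 r'.2.1 else 0) (by
        intro a b c d
        rw [Br.W4_symm]
        congr 1
        rw [and_comm]) (tr (Equiv.refl (Fin k)) g D)
    have e1 : (fun a b c d : Val n0 => (((if a.1 = b.1 ∧ c.1 = d.1 then
        W4 a.2.1 b.2.1 c.2.1 d.2.1 else 0 : ℝ)) : ℂ)) =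
        fun a b c d => sW (fun a b c d : {a : TA.Sp n0 // ¬ crP n0 a} =>
          WT n0 a.1 b.1 c.1 d.1) (g.symm a) (g.symm b) (g.symm c) (g.symm d) := by
      funext a b c d
      have ha1 : (g.symm a).1 = a.1 := rfl
      have hb1 : (g.symm b).1 = b.1 := rfl
      have hc1 : (g.symm c).1 = c.1 := rfl
      have hd1 : (g.symm d).1 = d.1 := rfl
      have ha2 : (g.symm a).2.1.1 = a.2.1 := rfl
      have hb2 : (g.symm b).2.1.1 = b.2.1 := rfl
      have hc2 : (g.symm c).2.1.1 = c.2.1 := rfl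
      have hd2 : (g.symm d).2.1.1 = d.2.1 := rfl
      simp only [sW, ha1, hb1, hc1, hd1]
      by_cases h : a.1 = b.1 ∧ c.1 = d.1
      · rw [if_pos h, if_pos h, Br.W4_eq, WT, ha2, hb2, hc2, hd2, ← Br.TA_W4_eq]
      · rw [if_neg h, if_neg h]; simp
    rw [e1, two_tr, ip_tr, ← twoF_eq _ hW] at h3
    have h4 : ((2 : ℂ) * Tens.twoF (fun a b c d : {a : TA.Sp n0 // ¬ crP n0 a} =>
        WT n0 a.1 b.1 c.1 d.1) D).re = 2 * (Tens.twoF (fun a b c d :
          {a : TA.Sp n0 // ¬ crP n0 a} => WT n0 a.1 b.1 c.1 d.1) D).re := by simp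
    rw [h4] at h3
    linarith
  rw [h1, h2, ← Complex.add_re]

theorem tnSq_tr {k : ℕ} (D : (Fin k → Fin 2 × {a : TA.Sp n0 // ¬ crP n0 a}) → ℂ) :
    tnSq (tr (Equiv.refl (Fin k)) ((Equiv.refl (Fin 2)).prodCongr (valEquiv n0)) D) =
      Tens.nsq D := by
  unfold tnSq Tens.nsq tr
  rw [← Equiv.sum_comp (Equiv.arrowCongr (Equiv.refl (Fin k))
    ((Equiv.refl (Fin 2)).prodCongr (valEquiv n0)))]
  refine Finset.sum_congr rfl fun ω _ => ?_
  congr 3

/-- **core-full tensors, down**: a core-full tensor has a valence tensor with proportional norm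
and form. -/
theorem BF_down {Nv : ℕ} (w : Pos3 → ℝ) {C : TA.Ten (TA.Nel n0 Nv) n0} (hC : TA.Anti C)
    (hF : TA.CoreFull C) : ∃ D : (Fin Nv → Val n0) → ℂ, AntiSym D ∧
      TA.tsq C = ((TA.Nel n0 Nv).factorial / Nv.factorial : ℝ) * tnSq D ∧
      TA.BF w C = ((TA.Nel n0 Nv).factorial / Nv.factorial : ℝ) *
        (Ecc n0 w * tnSq D + shellForm n0 w D) := by
  obtain ⟨D, hD, hfr⟩ := frozen_core_down (crP n0) (fun a b => TA.wI w a.1 b.1) (WT n0)
    (fun a b c d => CE.W_symm _ _ _ _) (Nel_eq Nv) (C := C) hC ((coreFull_iff C).1 hF)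
  refine ⟨tr (Equiv.refl (Fin Nv)) ((Equiv.refl (Fin 2)).prodCongr (valEquiv n0)) D,
    anti_tr _ _ hD, ?_, ?_⟩
  · rw [tnSq_tr, tsq_eq]; exact hfr.nsq
  · rw [tnSq_tr, shellForm_tr, BF_eq, hfr.one, hfr.two, ← Ecc_eq]
    rw [← mul_add, Complex.re_ofReal_mul]
    congr 1
    simp only [Complex.add_re, Complex.ofReal_re]
    ring

/-- **core-full tensors, up** -/
theorem BF_up {Nv : ℕ} (w : Pos3 → ℝ) {D : (Fin Nv → Val n0) → ℂ} (hD : AntiSym D) :
    ∃ C : TA.Ten (TA.Nel n0 Nv) n0, TA.Anti C ∧ TA.CoreFull C ∧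
      TA.tsq C = ((TA.Nel n0 Nv).factorial / Nv.factorial : ℝ) * tnSq D ∧
      TA.BF w C = ((TA.Nel n0 Nv).factorial / Nv.factorial : ℝ) *
        (Ecc n0 w * tnSq D + shellForm n0 w D) := by
  set g : Fin 2 × {a : TA.Sp n0 // ¬ crP n0 a} ≃ Val n0 :=
    (Equiv.refl (Fin 2)).prodCongr (valEquiv n0) with hg
  set D' := tr (Equiv.refl (Fin Nv)).symm g.symm D with hD'
  have hD'a : Tens.Antisym D' := anti_tr _ _ hD
  have htr : tr (Equiv.refl (Fin Nv)) g D' = D := tr_symm _ _ D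
  obtain ⟨C, hC, hF, hfr⟩ := frozen_core_up (crP n0) (fun a b => TA.wI w a.1 b.1) (WT n0)
    (fun a b c d => CE.W_symm _ _ _ _) (Nel_eq Nv) hD'a
  refine ⟨C, hC, (coreFull_iff C).2 hF, ?_, ?_⟩
  · rw [← htr, tnSq_tr, tsq_eq]; exact hfr.nsq
  · rw [← htr, tnSq_tr, shellForm_tr, BF_eq, hfr.one, hfr.two, ← Ecc_eq]
    rw [← mul_add, Complex.re_ofReal_mul]
    congr 1
    simp only [Complex.add_re, Complex.ofReal_re]
    ring

end Crest.Agent.R338.SC
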