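import Crest.Agent.R338.SCB

/-!
Row 338 (S0529): existence of a normalized antisymmetric core-full tensor, bounds of `EN`
(requests of helper64 for Theorem A). helper426.
-/

set_option autoImplicit false
set_option linter.unusedSectionVars false
set_option linter.unusedVariables false

open Finset Function
open Crest.MathPhysics.ElectronicCoulomb

noncomputable section

namespace Crest.Agent.R338.SC

variable {N n0 : ℕ}

/-! ### Slater tensors -/

/-- the (not normalized) Slater tensor of `o` -/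
def slater (o : Fin N → TA.Orb n0) : TA.Ten N n0 := fun ω =>
  ∑ σ : Equiv.Perm (Fin N), if ω = o ∘ σ then ((Equiv.Perm.sign σ : ℤ) : ℂ) else 0

theorem slater_anti (o : Fin N → TA.Orb n0) : TA.Anti (slater o) := by
  intro σ ω
  unfold slater
  rw [Finset.mul_sum]
  refine Fintype.sum_equiv (Equiv.mulRight σ⁻¹) _ _ ?_
  intro τ
  have h1 : ((fun i => ω (σ i)) = o ∘ τ) ↔ (ω = o ∘ ⇑((Equiv.mulRight σ⁻¹) τ)) := by
    constructor
    · intro h
      funext i
      have := congrFun h (σ⁻¹ i)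
      simpa using this
    · intro h
      funext i
      rw [h]
      simp
  by_cases h : (fun i => ω (σ i)) = o ∘ τ
  · rw [if_pos h, if_pos (h1.1 h)]
    have h2 : ((Equiv.Perm.sign ((Equiv.mulRight σ⁻¹) τ) : ℤ) : ℂ) =
        ((Equiv.Perm.sign τ : ℤ) : ℂ) * ((Equiv.Perm.sign σ : ℤ) : ℂ) := by
      simp [Equiv.Perm.sign_mul]
    rw [h2]
    have h3 : ((Equiv.Perm.sign σ : ℤ) : ℂ) * ((Equiv.Perm.sign σ : ℤ) : ℂ) = 1 := by
      rcases Int.units_eq_one_or (Equiv.Perm.sign σ) with h | h <;> rw [h] <;> simp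
    linear_combination (-((Equiv.Perm.sign τ : ℤ) : ℂ)) * h3
  · rw [if_neg h, if_neg (fun h' => h (h1.2 h')), mul_zero]

theorem slater_self {o : Fin N → TA.Orb n0} (ho : Injective o) : slater o o = 1 := by
  unfold slater
  rw [Finset.sum_eq_single (1 : Equiv.Perm (Fin N))]
  · simp
  · intro σ _ hσ
    rw [if_neg]
    intro h
    apply hσ
    ext i
    have := congrFun h i
    have h2 := ho this
    simpa using (congrArg Fin.val h2.symm)
  · intro h; exact absurd (Finset.mem_univ _) h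

theorem slater_range {o : Fin N → TA.Orb n0} {ω : Fin N → TA.Orb n0} (h : slater o ω ≠ 0) :
    ∀ x, (∃ i, o i = x) → ∃ i, ω i = x := by
  intro x ⟨i, hi⟩
  unfold slater at h
  obtain ⟨σ, _, hσ⟩ := Finset.exists_ne_zero_of_sum_ne_zero h
  have h1 : ω = o ∘ σ := by
    by_contra h'
    rw [if_neg h'] at hσ
    exact hσ rfl
  refine ⟨σ⁻¹ i, ?_⟩
  rw [h1]
  simp [hi]

/-! ### counting orbitals -/

theorem card_shell_sub :
    2 * Fintype.card {a : TA.Sp n0 // ¬ crP n0 a} = (n0 + 1) * (n0 + 2) := by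
  rw [Fintype.card_congr (valEquiv n0), Fintype.card_coe, XF.card_shell]

theorem card_orb : Fintype.card (TA.Orb n0) =
    2 * Fintype.card {a : TA.Sp n0 // crP n0 a} + (n0 + 1) * (n0 + 2) := by
  rw [← card_shell_sub, ← mul_add, ← Fintype.card_sum,
    Fintype.card_congr (Equiv.sumCompl (crP n0))]
  simp

theorem card_coreOrb : #{o : TA.Orb n0 | crP n0 o.2} =
    2 * Fintype.card {a : TA.Sp n0 // crP n0 a} := by
  have h : (univ.filter fun o : TA.Orb n0 => crP n0 o.2) =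
      (univ : Finset (Fin 2)) ×ˢ (univ.filter fun a : TA.Sp n0 => crP n0 a) := by
    ext o
    simp
  rw [h, Finset.card_product, Fintype.card_subtype]
  simp

theorem exists_embedding {Nv : ℕ} (hNv : Nv ≤ (n0 + 1) * (n0 + 2)) :
    ∃ o : Fin (TA.Nel n0 Nv) → TA.Orb n0, Injective o ∧
      ∀ x : TA.Orb n0, TA.deg3 x.2.1 < n0 → ∃ i, o i = x := by
  obtain ⟨T, hT1, _, hT2⟩ := Finset.exists_subsuperset_card_eq
    (s := (univ.filter fun o : TA.Orb n0 => crP n0 o.2)) (t := univ) (n := TA.Nel n0 Nv)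
    (Finset.subset_univ _) (by rw [card_coreOrb, Nel_eq]; omega)
    (by rw [Finset.card_univ, card_orb, Nel_eq]; omega)
  have e : Fin (TA.Nel n0 Nv) ≃ T := (Finset.equivFinOfCardEq hT2).symm
  refine ⟨fun i => (e i).1, fun a b h => e.injective (Subtype.ext h), fun x hx => ?_⟩
  have hxT : x ∈ T := hT1 (by simp only [Finset.mem_filter, Finset.mem_univ, true_and]; exact hx)
  exact ⟨e.symm ⟨x, hxT⟩, by simp⟩

/-- there is a normalized antisymmetric core-full tensor -/
theorem exists_unit_tensor (n0 Nv : ℕ) (hNv : Nv ≤ (n0 + 1) * (n0 + 2)) :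
    ∃ C : TA.Ten (TA.Nel n0 Nv) n0, TA.Anti C ∧ TA.CoreFull C ∧ TA.tsq C = 1 := by
  obtain ⟨o, ho, hcore⟩ := exists_embedding (n0 := n0) hNv
  have hA := slater_anti o
  have hF : TA.CoreFull (slater o) := fun ω hω x hx => slater_range hω x (hcore x hx)
  have h1 : ‖slater o o‖ ^ 2 ≤ TA.tsq (slater o) := by
    unfold TA.tsq
    exact Finset.single_le_sum (f := fun ω => ‖slater o ω‖ ^ 2)
      (fun _ _ => sq_nonneg _) (Finset.mem_univ o)
  rw [slater_self ho] at h1
  have h2 : 0 < TA.tsq (slater o) := by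
    have : (0 : ℝ) < ‖(1 : ℂ)‖ ^ 2 := by simp
    linarith
  refine ⟨_, Anti_smul (√(TA.tsq (slater o)))⁻¹ hA, CoreFull_smul (√(TA.tsq (slater o)))⁻¹ hF, ?_⟩
  rw [tsq_smul, inv_pow, Real.sq_sqrt h2.le]
  exact inv_mul_cancel₀ h2.ne'

/-! ### bounds of the unperturbed energy -/

theorem EN_nonneg (n0 Nv : ℕ) : 0 ≤ TA.EN n0 Nv := by
  unfold TA.EN
  positivity

theorem sum_shells (n0 : ℕ) : ∑ n ∈ range n0, (((n : ℝ) + 1) * (n + 2)) =
    2 * ((n0 + 2).choose 3 : ℝ) := by
  have h1 : 6 * ((n0 + 2).choose 3) = n0 * (n0 + 1) * (n0 + 2) := by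
    rw [← XF.card_core_choose]; exact XF.card_core n0
  have h2 : (6 : ℝ) * ((n0 + 2).choose 3 : ℝ) = (n0 : ℝ) * (n0 + 1) * (n0 + 2) := by
    exact_mod_cast h1
  have h3 : ∑ n ∈ range n0, (((n : ℝ) + 1) * (n + 2)) = (n0 : ℝ) * (n0 + 1) * (n0 + 2) / 3 := by
    clear h1 h2
    induction n0 with
    | zero => simp
    | succ n ih => rw [Finset.sum_range_succ, ih]; push_cast; ring
  rw [h3]
  linarith

theorem EN_le (n0 Nv : ℕ) : TA.EN n0 Nv ≤ (TA.Nel n0 Nv : ℝ) * ((n0 : ℝ) + 3 / 2) := by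
  unfold TA.EN TA.Nel
  have h : ∑ n ∈ range n0, ((n : ℝ) + 3 / 2) * (n + 1) * (n + 2) ≤
      ∑ n ∈ range n0, ((n0 : ℝ) + 3 / 2) * (((n : ℝ) + 1) * (n + 2)) := by
    refine Finset.sum_le_sum fun n hn => ?_
    have hn' : (n : ℝ) ≤ n0 := by exact_mod_cast (Finset.mem_range.1 hn).le
    rw [mul_assoc]
    exact mul_le_mul_of_nonneg_right (by linarith) (by positivity)
  rw [← Finset.mul_sum, sum_shells] at h
  push_cast
  linarith

end Crest.Agent.R338.SC
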