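import Crest.Agent.R338.SC6

/-!
Row 338 (S0529), node SCB: full-core tensors versus shell form, in the form consumed by P2.
helper426.
-/

set_option autoImplicit false

open Finset Function
open Crest.MathPhysics.ElectronicCoulomb

noncomputable section

namespace Crest.Agent.R338.SC

variable {n0 : ℕ}

theorem tsq_smul {N : ℕ} (c : ℝ) (C : TA.Ten N n0) :
    TA.tsq (fun ω => (c : ℂ) * C ω) = c ^ 2 * TA.tsq C := by
  unfold TA.tsq
  rw [Finset.mul_sum]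
  refine Finset.sum_congr rfl fun ω _ => ?_
  rw [norm_mul, mul_pow, Complex.norm_real, Real.norm_eq_abs, sq_abs]

theorem re_smul_aux (c : ℝ) (x y : ℂ) :
    (starRingEnd ℂ ((c : ℂ) * x) * ((c : ℂ) * y)).re = c ^ 2 * (starRingEnd ℂ x * y).re := by
  rw [map_mul, Complex.conj_ofReal]
  have : (c : ℂ) * starRingEnd ℂ x * ((c : ℂ) * y) = ((c ^ 2 : ℝ) : ℂ) * (starRingEnd ℂ x * y) := by
    push_cast; ring
  rw [this, Complex.re_ofReal_mul]

theorem BF_smul {N : ℕ} (w : Pos3 → ℝ) (c : ℝ) (C : TA.Ten N n0) :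
    TA.BF w (fun ω => (c : ℂ) * C ω) = c ^ 2 * TA.BF w C := by
  unfold TA.BF TA.oneF TA.twoF
  simp_rw [re_smul_aux]
  rw [mul_add, Finset.mul_sum, Finset.mul_sum]
  congr 1
  · refine Finset.sum_congr rfl fun i _ => ?_
    rw [Finset.mul_sum]
    refine Finset.sum_congr rfl fun ω _ => ?_
    rw [Finset.mul_sum]
    refine Finset.sum_congr rfl fun b _ => ?_
    ring
  · refine Finset.sum_congr rfl fun i _ => ?_
    rw [Finset.mul_sum]
    refine Finset.sum_congr rfl fun j _ => ?_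
    split_ifs
    · rw [Finset.mul_sum]
      refine Finset.sum_congr rfl fun ω _ => ?_
      rw [Finset.mul_sum]
      refine Finset.sum_congr rfl fun b _ => ?_
      rw [Finset.mul_sum]
      refine Finset.sum_congr rfl fun d _ => ?_
      ring
    · simp

theorem Anti_smul {N : ℕ} (c : ℝ) {C : TA.Ten N n0} (hC : TA.Anti C) :
    TA.Anti (fun ω => (c : ℂ) * C ω) := by
  intro σ ω
  simp only
  rw [hC]; ring

theorem CoreFull_smul {N : ℕ} (c : ℝ) {C : TA.Ten N n0} (hC : TA.CoreFull C) :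
    TA.CoreFull (fun ω => (c : ℂ) * C ω) := by
  intro ω hω o ho
  exact hC ω (right_ne_zero_of_mul hω) o ho

theorem kap_pos (n0 Nv : ℕ) : (0 : ℝ) < ((TA.Nel n0 Nv).factorial / Nv.factorial : ℝ) := by
  have h1 : (0 : ℝ) < ((TA.Nel n0 Nv).factorial : ℝ) := by exact_mod_cast Nat.factorial_pos _
  have h2 : (0 : ℝ) < (Nv.factorial : ℝ) := by exact_mod_cast Nat.factorial_pos _
  positivity

/-- **SCB, lower half.** -/
theorem SCB_lower {Nv : ℕ} (w : Pos3 → ℝ) (β : ℝ)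
    (h : ∀ D : (Fin Nv → Val n0) → ℂ, AntiSym D → β * tnSq D ≤ shellForm n0 w D)
    (T : TA.Ten (TA.Nel n0 Nv) n0) (hT : TA.Anti T) (hF : TA.CoreFull T) :
    (Ecc n0 w + β) * TA.tsq T ≤ TA.BF w T := by
  obtain ⟨D, hD, h1, h2⟩ := BF_down w hT hF
  rw [h1, h2]
  have h3 := h D hD
  have hk := kap_pos n0 Nv
  calc (Ecc n0 w + β) * (((TA.Nel n0 Nv).factorial / Nv.factorial : ℝ) * tnSq D)
      = ((TA.Nel n0 Nv).factorial / Nv.factorial : ℝ) * (Ecc n0 w * tnSq D + β * tnSq D) := by ring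
    _ ≤ _ := mul_le_mul_of_nonneg_left (by linarith) hk.le

/-- **SCB, upper half.** -/
theorem SCB_upper {Nv : ℕ} (w : Pos3 → ℝ) (β : ℝ)
    (h : ∃ D : (Fin Nv → Val n0) → ℂ, AntiSym D ∧ tnSq D = 1 ∧ shellForm n0 w D ≤ β) :
    ∃ T : TA.Ten (TA.Nel n0 Nv) n0, TA.Anti T ∧ TA.CoreFull T ∧ TA.tsq T = 1 ∧
      TA.BF w T ≤ Ecc n0 w + β := by
  obtain ⟨D, hD, hn, hle⟩ := h
  obtain ⟨C, hC, hF, h1, h2⟩ := BF_up (n0 := n0) w hD
  have hk := kap_pos n0 Nv
  set κ : ℝ := ((TA.Nel n0 Nv).factorial / Nv.factorial : ℝ) with hκ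
  have hs : (√κ)⁻¹ ^ 2 = κ⁻¹ := by rw [inv_pow, Real.sq_sqrt hk.le]
  refine ⟨fun ω => (((√κ)⁻¹ : ℝ) : ℂ) * C ω, Anti_smul _ hC, CoreFull_smul _ hF, ?_, ?_⟩
  · rw [tsq_smul, hs, h1, hn, mul_one, inv_mul_cancel₀ hk.ne']
  · rw [BF_smul, hs, h2, ← mul_assoc, inv_mul_cancel₀ hk.ne', one_mul, hn, mul_one]
    linarith

end Crest.Agent.R338.SC
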