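import Mathlib

/-!
# Row 338: Lemma S (second order Schur lemma) and Lemma S1 (first order version)

Energy form on `P × Q`:
`e p q = re ⟪p, A p⟫ + 2 re ⟪V p, q⟫ + re ⟪q, D0 q⟫ + re ⟪q, D1 q⟫`.
The inverse of `D0` on the range of `V` is given by a map `R : P → Q` with `D0 (R p) = V p`.
-/

set_option autoImplicit false

namespace Crest.Agent.R338

open RCLike

section SchurAbstract

variable {𝕜 : Type*} [RCLike 𝕜]
variable {P Q : Type*} [NormedAddCommGroup P] [InnerProductSpace 𝕜 P]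
  [NormedAddCommGroup Q] [InnerProductSpace 𝕜 Q]

local notation "⟪" x ", " y "⟫" => inner 𝕜 x y

/-- Cauchy–Schwarz for a nonnegative symmetric form, in the form used below. -/
lemma norm_le_of_form {D0 : Q →ₗ[𝕜] Q} {g v : ℝ} (hg : 0 < g)
    (hD0 : ∀ q, g * ‖q‖ ^ 2 ≤ re ⟪q, D0 q⟫) {r w : Q} (hr : D0 r = w) {x : ℝ}
    (hw : ‖w‖ ≤ v * x) (hv : 0 ≤ v * x) : ‖r‖ ≤ v / g * x := by
  have h1 : g * ‖r‖ ^ 2 ≤ ‖r‖ * ‖w‖ := by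
    calc g * ‖r‖ ^ 2 ≤ re ⟪r, D0 r⟫ := hD0 r
      _ = re ⟪r, w⟫ := by rw [hr]
      _ ≤ ‖r‖ * ‖w‖ := re_inner_le_norm _ _
  rcases (norm_nonneg r).eq_or_lt with h0 | h0
  · rw [← h0]
    have : v / g * x = v * x / g := by ring
    rw [this]
    positivity
  · have h2 : g * ‖r‖ ≤ ‖w‖ := by
      have : ‖r‖ * (g * ‖r‖) ≤ ‖r‖ * ‖w‖ := by nlinarith
      exact le_of_mul_le_mul_left this h0
    have h3 : g * ‖r‖ ≤ v * x := h2.trans hw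
    have : v / g * x = v * x / g := by ring
    rw [this, le_div_iff₀ hg]
    linarith

/-- **Lemma S, lower bound.**  For every `(p, q)`,
`e p q ≥ (μ - 2 v² (d + a + 2 v²/g)/g²) (‖p‖² + ‖q‖²)` as soon as
`Heff p = re ⟪p, A p⟫ - re ⟪R p, V p⟫ ≥ μ ‖p‖²`. -/
theorem schur_lower {A : P →ₗ[𝕜] P} {V R : P →ₗ[𝕜] Q} {D0 D1 : Q →ₗ[𝕜] Q}
    {g d v a μ : ℝ} (hg : 0 < g) (hd : 0 ≤ d) (hv : 0 ≤ v) (ha : 0 ≤ a)
    (hD0s : ∀ x y, ⟪D0 x, y⟫ = ⟪x, D0 y⟫)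
    (hD0 : ∀ q, g * ‖q‖ ^ 2 ≤ re ⟪q, D0 q⟫)
    (hD1 : ∀ q, |re ⟪q, D1 q⟫| ≤ d * ‖q‖ ^ 2)
    (hV : ∀ p, ‖V p‖ ≤ v * ‖p‖)
    (hR : ∀ p, D0 (R p) = V p)
    (hsmall : d + a + 2 * v ^ 2 / g ≤ g / 2)
    (hμa : |μ| ≤ a + v ^ 2 / g)
    (hμ : ∀ p, μ * ‖p‖ ^ 2 ≤ re ⟪p, A p⟫ - re ⟪R p, V p⟫)
    (p : P) (q : Q) :
    (μ - 2 * v ^ 2 * (d + a + 2 * v ^ 2 / g) / g ^ 2) * (‖p‖ ^ 2 + ‖q‖ ^ 2) ≤
      re ⟪p, A p⟫ + 2 * re ⟪V p, q⟫ + re ⟪q, D0 q⟫ + re ⟪q, D1 q⟫ := by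
  set s : ℝ := d + a + 2 * v ^ 2 / g with hs
  set err : ℝ := 2 * v ^ 2 * s / g ^ 2 with herr
  have hvg : 0 ≤ v ^ 2 / g := by positivity
  have hs0 : 0 ≤ s := by
    have : 0 ≤ 2 * v ^ 2 / g := by positivity
    rw [hs]; linarith
  have herr0 : 0 ≤ err := by rw [herr]; positivity
  -- |E| ≤ a + 2 v²/g where E = μ - err
  have herr1 : err ≤ v ^ 2 / g := by
    rw [herr, div_le_div_iff₀ (by positivity) hg]
    have : v ^ 2 * s ≤ v ^ 2 * (g / 2) := by nlinarith [sq_nonneg v]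
    nlinarith [mul_le_mul_of_nonneg_right this hg.le]
  have hE : |μ - err| ≤ a + 2 * v ^ 2 / g := by
    have h1 : |μ - err| ≤ |μ| + |err| := abs_sub _ _
    rw [abs_of_nonneg herr0] at h1
    have : 2 * v ^ 2 / g = v ^ 2 / g + v ^ 2 / g := by ring
    rw [this]; linarith
  set x : ℝ := s / g with hx
  have hx0 : 0 ≤ x := by rw [hx]; positivity
  have hx1 : x ≤ 1 / 2 := by
    rw [hx, div_le_iff₀ hg]; linarith
  -- lower bound on the Q part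
  have hQ : (1 - x) * re ⟪q, D0 q⟫ ≤ re ⟪q, D0 q⟫ + re ⟪q, D1 q⟫ - (μ - err) * ‖q‖ ^ 2 := by
    have h1 := hD1 q
    have h2 := hD0 q
    have h3 : -(d * ‖q‖ ^ 2) ≤ re ⟪q, D1 q⟫ := by
      have := neg_abs_le (re ⟪q, D1 q⟫); linarith
    have h4 : (μ - err) * ‖q‖ ^ 2 ≤ (a + 2 * v ^ 2 / g) * ‖q‖ ^ 2 := by
      have : μ - err ≤ a + 2 * v ^ 2 / g := (le_abs_self _).trans hE
      nlinarith [sq_nonneg ‖q‖]
    have h5 : x * (g * ‖q‖ ^ 2) ≤ x * re ⟪q, D0 q⟫ := mul_le_mul_of_nonneg_left h2 hx0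
    have h6 : x * (g * ‖q‖ ^ 2) = s * ‖q‖ ^ 2 := by
      rw [hx]; field_simp
    have h7 : s * ‖q‖ ^ 2 = d * ‖q‖ ^ 2 + (a + 2 * v ^ 2 / g) * ‖q‖ ^ 2 := by rw [hs]; ring
    linarith
  -- complete the square: (1-x) <q+R p/(1-x), D0 (..)> ≥ 0
  have hx2 : 0 < 1 - x := by linarith
  set c : ℝ := (1 - x)⁻¹ with hc
  have hc0 : 0 < c := by rw [hc]; positivity
  have hcx : (1 - x) * c = 1 := by rw [hc]; field_simp
  have hsq : 0 ≤ (1 - x) * re ⟪q, D0 q⟫ + 2 * re ⟪V p, q⟫ + c * re ⟪R p, V p⟫ := by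
    have h1 : 0 ≤ re ⟪q + (c : 𝕜) • R p, D0 (q + (c : 𝕜) • R p)⟫ := by
      refine le_trans ?_ (hD0 _); positivity
    have h2 : re ⟪q + (c : 𝕜) • R p, D0 (q + (c : 𝕜) • R p)⟫ =
        re ⟪q, D0 q⟫ + 2 * c * re ⟪V p, q⟫ + c ^ 2 * re ⟪R p, V p⟫ := by
      have e1 : D0 (q + (c : 𝕜) • R p) = D0 q + (c : 𝕜) • V p := by
        rw [map_add, map_smul, hR]
      rw [e1, inner_add_left, inner_add_right, inner_add_right, inner_smul_left, inner_smul_left,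
        inner_smul_right, inner_smul_right]
      have e2 : ⟪R p, D0 q⟫ = ⟪V p, q⟫ := by rw [← hD0s, hR]
      have e3 : re ⟪q, V p⟫ = re ⟪V p, q⟫ := by rw [inner_re_symm]
      rw [e2]
      simp only [conj_ofReal, map_add, re_ofReal_mul]
      rw [e3]
      ring
    rw [h2] at h1
    have h3 := mul_nonneg hx2.le h1
    have h4 : (1 - x) * (re ⟪q, D0 q⟫ + 2 * c * re ⟪V p, q⟫ + c ^ 2 * re ⟪R p, V p⟫) =
        (1 - x) * re ⟪q, D0 q⟫ + 2 * ((1 - x) * c) * re ⟪V p, q⟫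
          + ((1 - x) * c) * c * re ⟪R p, V p⟫ := by ring
    rw [h4, hcx] at h3
    linarith
  -- bound on ⟪R p, V p⟫
  have hRV0 : 0 ≤ re ⟪R p, V p⟫ := by
    have := hD0 (R p)
    rw [hR] at this
    refine le_trans ?_ this; positivity
  have hRn : ‖R p‖ ≤ v / g * ‖p‖ :=
    norm_le_of_form hg hD0 (hR p) (hV p) (by positivity)
  have hRV : re ⟪R p, V p⟫ ≤ v ^ 2 / g * ‖p‖ ^ 2 := by
    calc re ⟪R p, V p⟫ ≤ ‖R p‖ * ‖V p‖ := re_inner_le_norm _ _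
      _ ≤ (v / g * ‖p‖) * (v * ‖p‖) := by
          apply mul_le_mul hRn (hV p) (norm_nonneg _) (by positivity)
      _ = v ^ 2 / g * ‖p‖ ^ 2 := by ring
  -- (c - 1) ≤ 2 x
  have hc1 : c - 1 ≤ 2 * x := by
    have : c ≤ 1 + 2 * x := by
      rw [hc, inv_le_comm₀ hx2 (by linarith), inv_eq_one_div, div_le_iff₀ (by linarith)]
      nlinarith
    linarith
  have hc2 : (c - 1) * re ⟪R p, V p⟫ ≤ err * ‖p‖ ^ 2 := by
    calc (c - 1) * re ⟪R p, V p⟫ ≤ 2 * x * re ⟪R p, V p⟫ :=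
          mul_le_mul_of_nonneg_right hc1 hRV0
      _ ≤ 2 * x * (v ^ 2 / g * ‖p‖ ^ 2) := mul_le_mul_of_nonneg_left hRV (by positivity)
      _ = err * ‖p‖ ^ 2 := by rw [hx, herr]; field_simp
  have := hμ p
  nlinarith [sq_nonneg ‖p‖, sq_nonneg ‖q‖]

/-- **Lemma S, upper bound.**  The trial vector `(p, -R p)` has Rayleigh quotient at most
`μ + v² (d + a + v²/g)/g²` as soon as `Heff p ≤ μ ‖p‖²`. -/
theorem schur_upper {A : P →ₗ[𝕜] P} {V R : P →ₗ[𝕜] Q} {D0 D1 : Q →ₗ[𝕜] Q}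
    {g d v a μ : ℝ} (hg : 0 < g) (hd : 0 ≤ d) (hv : 0 ≤ v) (ha : 0 ≤ a)
    (hD0 : ∀ q, g * ‖q‖ ^ 2 ≤ re ⟪q, D0 q⟫)
    (hD1 : ∀ q, |re ⟪q, D1 q⟫| ≤ d * ‖q‖ ^ 2)
    (hV : ∀ p, ‖V p‖ ≤ v * ‖p‖)
    (hR : ∀ p, D0 (R p) = V p)
    (hμa : |μ| ≤ a + v ^ 2 / g)
    (p : P) (hμ : re ⟪p, A p⟫ - re ⟪R p, V p⟫ ≤ μ * ‖p‖ ^ 2) :
    re ⟪p, A p⟫ + 2 * re ⟪V p, -R p⟫ + re ⟪-R p, D0 (-R p)⟫ + re ⟪-R p, D1 (-R p)⟫ ≤
      (μ + v ^ 2 * (d + a + v ^ 2 / g) / g ^ 2) * (‖p‖ ^ 2 + ‖-R p‖ ^ 2) := by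
  have hRn : ‖R p‖ ≤ v / g * ‖p‖ :=
    norm_le_of_form hg hD0 (hR p) (hV p) (by positivity)
  have hRn2 : ‖R p‖ ^ 2 ≤ v ^ 2 / g ^ 2 * ‖p‖ ^ 2 := by
    have := pow_le_pow_left₀ (norm_nonneg _) hRn 2
    calc ‖R p‖ ^ 2 ≤ (v / g * ‖p‖) ^ 2 := this
      _ = v ^ 2 / g ^ 2 * ‖p‖ ^ 2 := by ring
  have e1 : re ⟪V p, -R p⟫ = - re ⟪R p, V p⟫ := by
    rw [inner_neg_right, map_neg, inner_re_symm]
  have e2 : re ⟪-R p, D0 (-R p)⟫ = re ⟪R p, V p⟫ := by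
    rw [map_neg, inner_neg_neg, hR]
  have e3 : re ⟪-R p, D1 (-R p)⟫ = re ⟪R p, D1 (R p)⟫ := by
    rw [map_neg, inner_neg_neg]
  have h1 : re ⟪R p, D1 (R p)⟫ ≤ d * ‖R p‖ ^ 2 := (le_abs_self _).trans (hD1 _)
  have h2 : d * ‖R p‖ ^ 2 ≤ d * (v ^ 2 / g ^ 2 * ‖p‖ ^ 2) := mul_le_mul_of_nonneg_left hRn2 hd
  rw [e1, e2, e3, norm_neg]
  have h3 : -(a + v ^ 2 / g) ≤ μ := by
    have := neg_abs_le μ; linarith
  have h4 : -(μ * ‖R p‖ ^ 2) ≤ (a + v ^ 2 / g) * (v ^ 2 / g ^ 2 * ‖p‖ ^ 2) := by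
    have h41 : -μ * ‖R p‖ ^ 2 ≤ (a + v ^ 2 / g) * ‖R p‖ ^ 2 :=
      mul_le_mul_of_nonneg_right (by linarith) (sq_nonneg _)
    have h42 : (a + v ^ 2 / g) * ‖R p‖ ^ 2 ≤ (a + v ^ 2 / g) * (v ^ 2 / g ^ 2 * ‖p‖ ^ 2) :=
      mul_le_mul_of_nonneg_left hRn2 (by positivity)
    linarith
  have h5 : 0 ≤ v ^ 2 * (d + a + v ^ 2 / g) / g ^ 2 * ‖R p‖ ^ 2 := by positivity
  have h6 : v ^ 2 * (d + a + v ^ 2 / g) / g ^ 2 * ‖p‖ ^ 2 =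
      d * (v ^ 2 / g ^ 2 * ‖p‖ ^ 2) + (a + v ^ 2 / g) * (v ^ 2 / g ^ 2 * ‖p‖ ^ 2) := by ring
  nlinarith

end SchurAbstract

section FirstOrder

/-- **Lemma S1** (first order version), purely numerical form: if the energy of a vector with
components of norm `np`, `nq` is at least `α np² - 2 v np nq + g nq²` and `α < g`, then it is at
least `(α - v²/(g - α)) (np² + nq²)`. -/
theorem schur1_numeric {α g v np nq : ℝ} (h : α < g) :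
    (α - v ^ 2 / (g - α)) * (np ^ 2 + nq ^ 2) ≤ α * np ^ 2 - 2 * v * np * nq + g * nq ^ 2 := by
  have hg : 0 < g - α := by linarith
  have h1 : 0 ≤ ((g - α) * nq - v * np) ^ 2 / (g - α) := by positivity
  have h2 : ((g - α) * nq - v * np) ^ 2 / (g - α) =
      (g - α) * nq ^ 2 - 2 * v * np * nq + v ^ 2 / (g - α) * np ^ 2 := by
    field_simp
    ring
  have h3 : 0 ≤ v ^ 2 / (g - α) * nq ^ 2 := by positivity
  nlinarith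

/-- Lemma S1 with the hypothesis only on `|α| ≤ a < g`. -/
theorem schur1_numeric' {α a g v np nq : ℝ} (ha : |α| ≤ a) (h : a < g) :
    (α - v ^ 2 / (g - a)) * (np ^ 2 + nq ^ 2) ≤ α * np ^ 2 - 2 * v * np * nq + g * nq ^ 2 := by
  have h0 : α ≤ a := (le_abs_self α).trans ha
  have hg : 0 < g - a := by linarith
  have h1 := schur1_numeric (α := α) (g := g) (v := v) (np := np) (nq := nq) (by linarith)
  refine le_trans ?_ h1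
  apply mul_le_mul_of_nonneg_right _ (by positivity)
  have : v ^ 2 / (g - α) ≤ v ^ 2 / (g - a) :=
    div_le_div_of_nonneg_left (sq_nonneg v) hg (by linarith)
  linarith

end FirstOrder

end Crest.Agent.R338
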