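import Mathlib
import Crest.Agent.R338.Schur

/-!
Row 338 (S0529), node SX: superexchange.  `n` fermions with spin on `n` sites, as antisymmetric
coefficient functions on configurations `Fin n → Fin n × Bool`.

This file: configurations, hopping operators `K a b`, adjoints, norm bounds, antisymmetry.
-/

set_option autoImplicit false
set_option maxSynthPendingDepth 3

open scoped ComplexConjugate BigOperators
open Function

namespace Crest.Agent.R338.SX

/-- configurations: electron `k` sits at site `(f k).1` with spin `(f k).2` -/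
abbrev Cfg (n : ℕ) := Fin n → Fin n × Bool

/-- coefficient space -/
abbrev X (n : ℕ) := EuclideanSpace ℂ (Cfg n)

variable {n : ℕ}

/-- move electron `k` to site `b`, keeping its spin -/
def mv (f : Cfg n) (k : Fin n) (b : Fin n) : Cfg n := update f k (b, (f k).2)

@[simp] theorem mv_same (f : Cfg n) (k b : Fin n) : mv f k b k = (b, (f k).2) := by simp [mv]

theorem mv_ne (f : Cfg n) {k l : Fin n} (b : Fin n) (h : l ≠ k) : mv f k b l = f l := by
  simp [mv, h]

theorem mv_mv_same (f : Cfg n) (k a b : Fin n) : mv (mv f k a) k b = mv f k b := by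
  funext l
  by_cases h : l = k
  · subst h; simp
  · rw [mv_ne _ _ h, mv_ne _ _ h, mv_ne _ _ h]

theorem mv_self (f : Cfg n) (k : Fin n) : mv f k (f k).1 = f := by
  funext l
  by_cases h : l = k
  · subst h; simp
  · rw [mv_ne _ _ h]

theorem mv_comp (f : Cfg n) (σ : Equiv.Perm (Fin n)) (k b : Fin n) :
    mv (f ∘ σ) k b = mv f (σ k) b ∘ σ := by
  funext l
  by_cases h : l = k
  · subst h; simp
  · have h' : σ l ≠ σ k := fun e => h (σ.injective e)
    rw [mv_ne _ _ h, comp_apply, comp_apply, mv_ne _ _ h']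

/-- the one-electron part of the hopping operator -/
def Kk (a b k : Fin n) : X n →ₗ[ℂ] X n where
  toFun c := WithLp.toLp 2 (fun f => if (f k).1 = a then c (mv f k b) else 0)
  map_add' x y := by
    ext f
    by_cases h : (f k).1 = a <;> simp [h]
  map_smul' r x := by
    ext f
    by_cases h : (f k).1 = a <;> simp [h]

theorem Kk_apply (a b k : Fin n) (c : X n) (f : Cfg n) :
    Kk a b k c f = if (f k).1 = a then c (mv f k b) else 0 := rfl

/-- hopping from `b` to `a` : `(K a b c) f = ∑_k [site k = a] c (move k to b)` -/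
def K (a b : Fin n) : X n →ₗ[ℂ] X n := ∑ k, Kk a b k

theorem K_apply (a b : Fin n) (c : X n) (f : Cfg n) :
    K a b c f = ∑ k, if (f k).1 = a then c (mv f k b) else 0 := by
  simp [K, Kk_apply]

/-- the involution-type reindexing: configurations with electron `k` at `a` correspond to those
with electron `k` at `b` -/
theorem sum_mv {M : Type*} [AddCommMonoid M] (a b k : Fin n) (F : Cfg n → Cfg n → M) :
    (∑ f : Cfg n, if (f k).1 = a then F f (mv f k b) else 0) =
      ∑ g : Cfg n, if (g k).1 = b then F (mv g k a) g else 0 := by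
  rw [← Finset.sum_filter, ← Finset.sum_filter]
  refine Finset.sum_bij' (fun f _ => mv f k b) (fun g _ => mv g k a) ?_ ?_ ?_ ?_ ?_
  · intro f hf; simp
  · intro g hg; simp
  · intro f hf
    simp only [Finset.mem_filter, Finset.mem_univ, true_and] at hf
    rw [mv_mv_same, ← hf, mv_self]
  · intro g hg
    simp only [Finset.mem_filter, Finset.mem_univ, true_and] at hg
    rw [mv_mv_same, ← hg, mv_self]
  · intro f hf
    simp only [Finset.mem_filter, Finset.mem_univ, true_and] at hf
    rw [mv_mv_same, ← hf, mv_self]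

theorem inner_def (c d : X n) : inner ℂ c d = ∑ f, conj (c f) * d f := by
  rw [PiLp.inner_apply]
  refine Finset.sum_congr rfl fun f _ => ?_
  rw [RCLike.inner_apply, mul_comm]

theorem Kk_adj (a b k : Fin n) (c d : X n) :
    inner ℂ (Kk a b k c) d = inner ℂ c (Kk b a k d) := by
  rw [inner_def, inner_def]
  have h1 : ∀ f, conj (Kk a b k c f) * d f =
      if (f k).1 = a then conj (c (mv f k b)) * d f else 0 := by
    intro f
    rw [Kk_apply]
    by_cases h : (f k).1 = a <;> simp [h]
  have h2 : ∀ f, conj (c f) * Kk b a k d f =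
      if (f k).1 = b then conj (c f) * d (mv f k a) else 0 := by
    intro f
    rw [Kk_apply]
    by_cases h : (f k).1 = b <;> simp [h]
  simp_rw [h1, h2]
  exact sum_mv a b k (fun f g => conj (c g) * d f)

theorem K_adj (a b : Fin n) (c d : X n) :
    inner ℂ (K a b c) d = inner ℂ c (K b a d) := by
  simp only [K, LinearMap.sum_apply, sum_inner, inner_sum]
  exact Finset.sum_congr rfl fun k _ => Kk_adj a b k c d

theorem norm_sq_def (c : X n) : ‖c‖ ^ 2 = ∑ f, ‖c f‖ ^ 2 := by
  rw [EuclideanSpace.norm_sq_eq]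

theorem Kk_norm (a b k : Fin n) (c : X n) : ‖Kk a b k c‖ ≤ ‖c‖ := by
  rw [← sq_le_sq₀ (norm_nonneg _) (norm_nonneg _), norm_sq_def, norm_sq_def]
  have h1 : ∀ f, ‖Kk a b k c f‖ ^ 2 = if (f k).1 = a then ‖c (mv f k b)‖ ^ 2 else 0 := by
    intro f
    rw [Kk_apply]
    by_cases h : (f k).1 = a <;> simp [h]
  simp_rw [h1]
  rw [sum_mv a b k (fun f g => ‖c g‖ ^ 2)]
  refine Finset.sum_le_sum fun g _ => ?_
  split_ifs
  · exact le_rfl
  · positivity

theorem K_norm (a b : Fin n) (c : X n) : ‖K a b c‖ ≤ n * ‖c‖ := by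
  rw [K, LinearMap.sum_apply]
  refine (norm_sum_le _ _).trans ?_
  refine (Finset.sum_le_sum fun k _ => Kk_norm a b k c).trans ?_
  simp

/-- the hopping operator -/
def hop (t : Fin n → Fin n → ℝ) : X n →ₗ[ℂ] X n := ∑ a, ∑ b, ((t a b : ℝ) : ℂ) • K a b

theorem hop_apply (t : Fin n → Fin n → ℝ) (c : X n) :
    hop t c = ∑ a, ∑ b, ((t a b : ℝ) : ℂ) • K a b c := by
  simp [hop, LinearMap.sum_apply]

theorem hop_sum (t : Fin n → Fin n → ℝ) (c : X n) (f : Cfg n) :
    hop t c f = ∑ k, ∑ j, ((t (f k).1 j : ℝ) : ℂ) * c (mv f k j) := by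
  rw [hop_apply]
  simp only [PiLp.smul_apply, WithLp.ofLp_sum, Finset.sum_apply, smul_eq_mul, K_apply]
  have h1 : ∀ a, (∑ b, ((t a b : ℝ) : ℂ) * ∑ k, if (f k).1 = a then c (mv f k b) else 0) =
      ∑ k, if (f k).1 = a then ∑ b, ((t a b : ℝ) : ℂ) * c (mv f k b) else 0 := by
    intro a
    simp_rw [Finset.mul_sum]
    rw [Finset.sum_comm]
    refine Finset.sum_congr rfl fun k _ => ?_
    split_ifs
    · rfl
    · simp
  simp_rw [h1]
  rw [Finset.sum_comm]
  refine Finset.sum_congr rfl fun k _ => ?_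
  rw [Finset.sum_ite_eq]
  simp

theorem hop_symm {t : Fin n → Fin n → ℝ} (ht : ∀ a b, t a b = t b a) : (hop t).IsSymmetric := by
  intro c d
  simp only [hop_apply, sum_inner, inner_sum, inner_smul_left, inner_smul_right, K_adj,
    Complex.conj_ofReal]
  rw [Finset.sum_comm]
  refine Finset.sum_congr rfl fun a _ => Finset.sum_congr rfl fun b _ => ?_
  rw [ht b a]

theorem hop_norm (t : Fin n → Fin n → ℝ) (c : X n) :
    ‖hop t c‖ ≤ (n * ∑ a, ∑ b, |t a b|) * ‖c‖ := by
  rw [hop_apply]
  refine (norm_sum_le _ _).trans ?_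
  rw [Finset.mul_sum, Finset.sum_mul]
  refine Finset.sum_le_sum fun a _ => ?_
  refine (norm_sum_le _ _).trans ?_
  rw [Finset.mul_sum, Finset.sum_mul]
  refine Finset.sum_le_sum fun b _ => ?_
  rw [norm_smul, Complex.norm_real, Real.norm_eq_abs]
  calc |t a b| * ‖K a b c‖ ≤ |t a b| * (n * ‖c‖) := by gcongr; exact K_norm a b c
    _ = (n * |t a b|) * ‖c‖ := by ring

/-- antisymmetric coefficient functions -/
def antiS (n : ℕ) : Submodule ℂ (X n) where
  carrier := {c | ∀ (σ : Equiv.Perm (Fin n)) (f : Cfg n),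
    c (f ∘ σ) = ((Equiv.Perm.sign σ : ℤ) : ℂ) * c f}
  add_mem' := by
    intro x y hx hy σ f
    have h1 := hx σ f
    have h2 := hy σ f
    simp only [PiLp.add_apply, h1, h2]
    ring
  zero_mem' := by intro σ f; simp
  smul_mem' := by
    intro r x hx σ f
    have h1 := hx σ f
    simp only [PiLp.smul_apply, h1, smul_eq_mul]
    ring

theorem mem_antiS {c : X n} : c ∈ antiS n ↔ ∀ (σ : Equiv.Perm (Fin n)) (f : Cfg n),
    c (f ∘ σ) = ((Equiv.Perm.sign σ : ℤ) : ℂ) * c f := Iff.rfl

theorem K_anti (a b : Fin n) {c : X n} (hc : c ∈ antiS n) : K a b c ∈ antiS n := by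
  intro σ f
  rw [K_apply, K_apply, Finset.mul_sum]
  have h1 : ∀ k, (if ((f ∘ σ) k).1 = a then c (mv (f ∘ σ) k b) else 0) =
      (fun l => ((Equiv.Perm.sign σ : ℤ) : ℂ) * if (f l).1 = a then c (mv f l b) else 0) (σ k) := by
    intro k
    rw [mv_comp]
    simp only [comp_apply]
    split_ifs
    · exact hc σ _
    · simp
  simp_rw [h1]
  exact Equiv.sum_comp σ (fun l => ((Equiv.Perm.sign σ : ℤ) : ℂ) *
    if (f l).1 = a then c (mv f l b) else 0)

theorem hop_anti (t : Fin n → Fin n → ℝ) {c : X n} (hc : c ∈ antiS n) : hop t c ∈ antiS n := by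
  rw [hop_apply]
  refine Submodule.sum_mem _ fun a _ => Submodule.sum_mem _ fun b _ => ?_
  exact Submodule.smul_mem _ _ (K_anti a b hc)

end Crest.Agent.R338.SX
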