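import Crest.Agent.R338.SX1

/-!
Row 338 (S0529), node SX: superexchange, part 2.  One-electron-per-site configurations,
occupation numbers, the isometry from spin vectors, second order term.
-/

set_option autoImplicit false
set_option maxSynthPendingDepth 3

open scoped ComplexConjugate BigOperators
open Function

namespace Crest.Agent.R338.SX

variable {n : ℕ}

/-- one electron per site -/
def B (f : Cfg n) : Prop := Bijective fun k => (f k).1

theorem B_iff_inj (f : Cfg n) : B f ↔ Injective fun k => (f k).1 :=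
  (Finite.injective_iff_bijective).symm

theorem B_comp {f : Cfg n} (σ : Equiv.Perm (Fin n)) : B (f ∘ σ) ↔ B f := by
  constructor
  · intro h
    have : (fun k => (f k).1) = (fun k => ((f ∘ σ) k).1) ∘ σ.symm := by
      funext k; simp
    show Bijective _
    rw [this]
    exact h.comp σ.symm.bijective
  · intro h
    exact h.comp σ.bijective

/-- occupation number -/
def occ (f : Cfg n) (i : Fin n) : ℤ := ∑ k, if (f k).1 = i then 1 else 0

theorem occ_sum (f : Cfg n) : ∑ i, (occ f i - 1) = 0 := by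
  simp only [occ, Finset.sum_sub_distrib]
  rw [Finset.sum_comm]
  simp

theorem occ_comp (f : Cfg n) (σ : Equiv.Perm (Fin n)) (i : Fin n) : occ (f ∘ σ) i = occ f i := by
  simp only [occ, comp_apply]
  exact Equiv.sum_comp σ (fun k => if (f k).1 = i then (1 : ℤ) else 0)

theorem occ_B {f : Cfg n} (h : B f) (i : Fin n) : occ f i = 1 := by
  have h1 : occ f i = ∑ k, if k = i then (1 : ℤ) else 0 :=
    h.sum_comp (fun k => if k = i then (1 : ℤ) else 0)
  rw [h1]; simp

theorem B_of_occ {f : Cfg n} (h : ∀ i, occ f i = 1) : B f := by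
  rw [B_iff_inj]
  intro k l hkl
  by_contra hne
  have h1 := h (f k).1
  have h2 : (2 : ℤ) ≤ occ f (f k).1 := by
    have : ∑ x ∈ ({k, l} : Finset (Fin n)), (if (f x).1 = (f k).1 then (1 : ℤ) else 0) ≤
        occ f (f k).1 := by
      refine Finset.sum_le_univ_sum_of_nonneg fun x => ?_
      split_ifs <;> norm_num
    rw [Finset.sum_pair hne] at this
    simp only [if_true] at this
    have h3 : (f l).1 = (f k).1 := hkl.symm
    rw [h3] at this
    simpa using this
  omega

/-- occupation numbers after moving an electron -/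
theorem occ_mv (f : Cfg n) (k a i : Fin n) :
    occ (mv f k a) i = occ f i + (if a = i then 1 else 0) - (if (f k).1 = i then 1 else 0) := by
  have h1 : ∀ g : Cfg n, occ g i = (if (g k).1 = i then 1 else 0) +
      ∑ l ∈ Finset.univ.erase k, if (g l).1 = i then (1 : ℤ) else 0 := by
    intro g
    exact (Finset.add_sum_erase _ _ (Finset.mem_univ k)).symm
  rw [h1 (mv f k a), h1 f]
  have h2 : (∑ l ∈ Finset.univ.erase k, if (mv f k a l).1 = i then (1 : ℤ) else 0) =
      ∑ l ∈ Finset.univ.erase k, if (f l).1 = i then (1 : ℤ) else 0 := by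
    refine Finset.sum_congr rfl fun l hl => ?_
    rw [mv_ne f a (Finset.ne_of_mem_erase hl)]
  rw [h2, mv_same]
  ring

/-- charge energy -/
noncomputable def G (D : Fin n → Fin n → ℝ) (f : Cfg n) : ℝ :=
  (1 / 2) * ∑ i, ∑ j, D i j * (((occ f i - 1 : ℤ) : ℝ) * ((occ f j - 1 : ℤ) : ℝ))

theorem G_comp (D : Fin n → Fin n → ℝ) (f : Cfg n) (σ : Equiv.Perm (Fin n)) :
    G D (f ∘ σ) = G D f := by
  simp only [G, occ_comp]

theorem G_B (D : Fin n → Fin n → ℝ) {f : Cfg n} (h : B f) : G D f = 0 := by
  simp [G, occ_B h]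

/-- charge transfer energy -/
noncomputable def Del (D : Fin n → Fin n → ℝ) (a b : Fin n) : ℝ := (D a a + D b b) / 2 - D a b

theorem Del_symm {D : Fin n → Fin n → ℝ} (hD : ∀ a b, D a b = D b a) (a b : Fin n) :
    Del D a b = Del D b a := by
  simp only [Del]; rw [hD a b]; ring

/-- the charge energy of the configuration `1 + e_a - e_b` is `Del a b` -/
theorem G_transfer {D : Fin n → Fin n → ℝ} (hD : ∀ a b, D a b = D b a) {f : Cfg n}
    {a b : Fin n} (hf : ∀ i, occ f i - 1 = (if a = i then 1 else 0) - (if b = i then 1 else 0)) :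
    G D f = Del D a b := by
  have h1 : ∀ i j, D i j * (((occ f i - 1 : ℤ) : ℝ) * ((occ f j - 1 : ℤ) : ℝ)) =
      (if a = i then (if a = j then D i j else 0) else 0) -
      (if a = i then (if b = j then D i j else 0) else 0) -
      (if b = i then (if a = j then D i j else 0) else 0) +
      (if b = i then (if b = j then D i j else 0) else 0) := by
    intro i j
    rw [hf i, hf j]
    split_ifs <;> push_cast <;> ring
  simp only [G, h1, Finset.sum_add_distrib, Finset.sum_sub_distrib]
  have h2 : ∀ x y : Fin n, (∑ i, ∑ j, if x = i then (if y = j then D i j else 0) else 0) = D x y := by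
    intro x y
    rw [Finset.sum_eq_single x]
    · simp
    · intro b _ hb
      simp [Ne.symm hb]
    · simp
  rw [h2, h2, h2, h2]
  simp only [Del]
  rw [hD b a]
  ring

/-- one electron per site: the space of spin degrees of freedom -/
def PS (n : ℕ) : Submodule ℂ (X n) where
  carrier := {c | c ∈ antiS n ∧ ∀ f, ¬ B f → c f = 0}
  add_mem' := by
    rintro x y ⟨hx, hx'⟩ ⟨hy, hy'⟩
    refine ⟨(antiS n).add_mem hx hy, fun f hf => ?_⟩
    simp [hx' f hf, hy' f hf]
  zero_mem' := ⟨(antiS n).zero_mem, fun f _ => by simp⟩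
  smul_mem' := by
    rintro r x ⟨hx, hx'⟩
    refine ⟨(antiS n).smul_mem r hx, fun f hf => ?_⟩
    simp [hx' f hf]

def QS (n : ℕ) : Submodule ℂ (X n) where
  carrier := {c | c ∈ antiS n ∧ ∀ f, B f → c f = 0}
  add_mem' := by
    rintro x y ⟨hx, hx'⟩ ⟨hy, hy'⟩
    refine ⟨(antiS n).add_mem hx hy, fun f hf => ?_⟩
    simp [hx' f hf, hy' f hf]
  zero_mem' := ⟨(antiS n).zero_mem, fun f _ => by simp⟩
  smul_mem' := by
    rintro r x ⟨hx, hx'⟩
    refine ⟨(antiS n).smul_mem r hx, fun f hf => ?_⟩
    simp [hx' f hf]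

theorem PQ_orth {p q : X n} (hp : p ∈ PS n) (hq : q ∈ QS n) : inner ℂ p q = 0 := by
  rw [inner_def]
  refine Finset.sum_eq_zero fun f _ => ?_
  by_cases h : B f
  · rw [hq.2 f h, mul_zero]
  · rw [hp.2 f h]; simp

/-- splitting an antisymmetric vector -/
theorem exists_split {c : X n} (hc : c ∈ antiS n) :
    ∃ p ∈ PS n, ∃ q ∈ QS n, c = p + q := by
  classical
  refine ⟨WithLp.toLp 2 (fun f => if B f then c f else 0), ⟨?_, ?_⟩,
    WithLp.toLp 2 (fun f => if B f then 0 else c f), ⟨?_, ?_⟩, ?_⟩
  · intro σ f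
    by_cases h : B f
    · have h' : B (f ∘ σ) := (B_comp σ).2 h
      simp [h, h', hc σ f]
    · have h' : ¬ B (f ∘ σ) := fun h2 => h ((B_comp σ).1 h2)
      simp [h, h']
  · intro f hf; simp [hf]
  · intro σ f
    by_cases h : B f
    · have h' : B (f ∘ σ) := (B_comp σ).2 h
      simp [h, h']
    · have h' : ¬ B (f ∘ σ) := fun h2 => h ((B_comp σ).1 h2)
      simp [h, h', hc σ f]
  · intro f hf; simp [hf]
  · ext f
    by_cases h : B f <;> simp [h]

/-- support of `K a b p` : occupation numbers `1 + e_a - e_b` -/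
theorem K_supp {a b : Fin n} {p : X n} (hp : p ∈ PS n) {f : Cfg n}
    (h : K a b p f ≠ 0) :
    ∀ i, occ f i - 1 = (if a = i then 1 else 0) - (if b = i then 1 else 0) := by
  rw [K_apply] at h
  obtain ⟨k, -, hk⟩ := Finset.exists_ne_zero_of_sum_ne_zero h
  have h1 : (f k).1 = a := by
    by_contra h1; simp [h1] at hk
  rw [if_pos h1] at hk
  have h2 : B (mv f k b) := by
    by_contra h2; exact hk (hp.2 _ h2)
  intro i
  have h3 := occ_mv f k b i
  rw [occ_B h2, h1] at h3
  omega

theorem K_mem_Q {a b : Fin n} (hab : a ≠ b) {p : X n} (hp : p ∈ PS n) : K a b p ∈ QS n := by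
  refine ⟨K_anti a b hp.1, fun f hf => ?_⟩
  by_contra h
  have h1 := K_supp hp h a
  rw [occ_B hf] at h1
  simp [hab.symm] at h1

/-- orthogonality of different transfers -/
theorem K_orth {a b a' b' : Fin n} (hab : a ≠ b) (hab' : a' ≠ b') (hne : (a, b) ≠ (a', b'))
    {p : X n} (hp : p ∈ PS n) : inner ℂ (K a b p) (K a' b' p) = 0 := by
  rw [inner_def]
  refine Finset.sum_eq_zero fun f _ => ?_
  by_cases h1 : K a b p f = 0
  · rw [h1]; simp
  by_cases h2 : K a' b' p f = 0
  · rw [h2]; simp
  exfalso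
  have e1 := K_supp hp h1
  have e2 := K_supp hp h2
  apply hne
  have ea : a = a' := by
    have := e1 a
    rw [e2 a] at this
    by_contra hne'
    simp only [if_true, if_neg hab.symm, if_neg (Ne.symm hne')] at this
    split_ifs at this <;> omega
  have eb : b = b' := by
    have := e1 b
    rw [e2 b] at this
    by_contra hne'
    simp only [if_true, if_neg hab, if_neg (Ne.symm hne')] at this
    split_ifs at this <;> omega
  rw [ea, eb]

/-- diagonal operator -/
noncomputable def diag (g : Cfg n → ℝ) : X n →ₗ[ℂ] X n where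
  toFun c := WithLp.toLp 2 (fun f => ((g f : ℝ) : ℂ) * c f)
  map_add' x y := by ext f; simp [mul_add]
  map_smul' r x := by ext f; simp [mul_left_comm]

theorem diag_apply (g : Cfg n → ℝ) (c : X n) (f : Cfg n) :
    diag g c f = ((g f : ℝ) : ℂ) * c f := rfl

theorem diag_symm (g : Cfg n → ℝ) : (diag g).IsSymmetric := by
  intro c d
  rw [inner_def, inner_def]
  refine Finset.sum_congr rfl fun f _ => ?_
  rw [diag_apply, diag_apply, map_mul, Complex.conj_ofReal]
  ring

theorem diag_inner (g : Cfg n → ℝ) (c : X n) :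
    RCLike.re (inner ℂ c (diag g c)) = ∑ f, g f * ‖c f‖ ^ 2 := by
  rw [inner_def, map_sum]
  refine Finset.sum_congr rfl fun f _ => ?_
  rw [diag_apply]
  have : conj (c f) * (((g f : ℝ) : ℂ) * c f) = (((g f) * ‖c f‖ ^ 2 : ℝ) : ℂ) := by
    rw [mul_left_comm, Complex.conj_mul']
    push_cast; ring
  rw [this]
  exact Complex.ofReal_re _

theorem diag_K {D : Fin n → Fin n → ℝ} (hD : ∀ a b, D a b = D b a) {a b : Fin n} {p : X n}
    (hp : p ∈ PS n) : diag (G D) (K a b p) = ((Del D a b : ℝ) : ℂ) • K a b p := by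
  ext f
  rw [diag_apply, PiLp.smul_apply, smul_eq_mul]
  by_cases h : K a b p f = 0
  · rw [h]; simp
  · rw [G_transfer hD (K_supp hp h)]

end Crest.Agent.R338.SX
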