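import Crest.Agent.R338.SX2

/-!
Row 338 (S0529), node SX: superexchange, part 3.  The isometry `Phi` from spin vectors onto `PS`
and the second order term.
-/

set_option autoImplicit false
set_option maxSynthPendingDepth 3

open scoped ComplexConjugate BigOperators
open Function

namespace Crest.Agent.R338.SX

variable {n : ℕ}

/-- spin vectors -/
abbrev Sp (n : ℕ) := (Fin n → Bool) → ℂ

/-- configuration of electrons: electron `k` at site `π k` with spin `s (π k)` -/
def cfg (π : Equiv.Perm (Fin n)) (s : Fin n → Bool) : Cfg n := fun k => (π k, s (π k))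

theorem B_cfg (π : Equiv.Perm (Fin n)) (s : Fin n → Bool) : B (cfg π s) := π.bijective

theorem exists_cfg {f : Cfg n} (h : B f) : ∃ π s, f = cfg π s := by
  refine ⟨Equiv.ofBijective _ h, fun i => (f ((Equiv.ofBijective _ h).symm i)).2, ?_⟩
  funext k
  refine Prod.ext rfl ?_
  simp only [cfg, Equiv.symm_apply_apply]

theorem cfg_inj {π π' : Equiv.Perm (Fin n)} {s s' : Fin n → Bool} (h : cfg π s = cfg π' s') :
    π = π' ∧ s = s' := by
  have h1 : π = π' := by
    ext k
    have := congrArg Prod.fst (congrFun h k)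
    exact congrArg _ this
  subst h1
  refine ⟨rfl, ?_⟩
  funext i
  have := congrArg Prod.snd (congrFun h (π.symm i))
  simpa [cfg] using this

theorem cfg_comp (π τ : Equiv.Perm (Fin n)) (s : Fin n → Bool) :
    cfg π s ∘ τ = cfg (π * τ) s := by
  funext k; rfl

/-- sums over one-per-site configurations -/
theorem sum_B {M : Type*} [AddCommMonoid M] (F : Cfg n → M) (hF : ∀ f, ¬ B f → F f = 0) :
    ∑ f, F f = ∑ π : Equiv.Perm (Fin n), ∑ s : Fin n → Bool, F (cfg π s) := by
  classical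
  rw [← Finset.sum_product']
  have hinj : Injective (fun x : Equiv.Perm (Fin n) × (Fin n → Bool) => cfg x.1 x.2) := by
    rintro ⟨π, s⟩ ⟨π', s'⟩ h
    obtain ⟨h1, h2⟩ := cfg_inj h
    exact Prod.ext h1 h2
  have h1 : ∑ x ∈ (Finset.univ : Finset (Equiv.Perm (Fin n))) ×ˢ
      (Finset.univ : Finset (Fin n → Bool)), F (cfg x.1 x.2) =
      ∑ f ∈ (Finset.univ.image (fun x : Equiv.Perm (Fin n) × (Fin n → Bool) => cfg x.1 x.2)), F f := by
    rw [Finset.sum_image (fun x _ y _ h => hinj h)]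
    rfl
  rw [h1]
  symm
  refine Finset.sum_subset (Finset.subset_univ _) fun f _ hf => hF f fun hB => hf ?_
  obtain ⟨π, s, rfl⟩ := exists_cfg hB
  exact Finset.mem_image.2 ⟨(π, s), Finset.mem_univ _, rfl⟩

/-- the spin vector of `c` -/
def spin (c : X n) : Sp n := fun s => c (cfg 1 s)

theorem PS_cfg {p : X n} (hp : p ∈ PS n) (π : Equiv.Perm (Fin n)) (s : Fin n → Bool) :
    p (cfg π s) = ((Equiv.Perm.sign π : ℤ) : ℂ) * spin p s := by
  have := hp.1 π (cfg 1 s)
  rw [cfg_comp, one_mul] at this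
  exact this

open Classical in
/-- the vector in `PS` with given spin vector -/
noncomputable def Phi (χ : Sp n) : X n := WithLp.toLp 2 (fun f =>
  if h : B f then ((Equiv.Perm.sign (Equiv.ofBijective _ h) : ℤ) : ℂ) *
    χ (fun i => (f ((Equiv.ofBijective _ h).symm i)).2) else 0)

theorem Phi_cfg (χ : Sp n) (π : Equiv.Perm (Fin n)) (s : Fin n → Bool) :
    Phi χ (cfg π s) = ((Equiv.Perm.sign π : ℤ) : ℂ) * χ s := by
  have h : B (cfg π s) := B_cfg π s
  have e : Equiv.ofBijective (fun k => (cfg π s k).1) h = π := by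
    ext k; rfl
  have e2 : (fun i => (cfg π s ((Equiv.ofBijective _ h).symm i)).2) = s := by
    funext i
    rw [e]
    simp [cfg]
  simp only [Phi]
  rw [dif_pos h]
  simp only [e2]
  rw [e]

theorem Phi_nB (χ : Sp n) {f : Cfg n} (h : ¬ B f) : Phi χ f = 0 := by
  simp only [Phi]
  rw [dif_neg h]

theorem sign_mul_c (π τ : Equiv.Perm (Fin n)) :
    ((Equiv.Perm.sign (π * τ) : ℤ) : ℂ) =
      ((Equiv.Perm.sign τ : ℤ) : ℂ) * ((Equiv.Perm.sign π : ℤ) : ℂ) := by
  rw [Equiv.Perm.sign_mul]; push_cast; ring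

theorem sign_sq_c (π : Equiv.Perm (Fin n)) :
    ((Equiv.Perm.sign π : ℤ) : ℂ) * ((Equiv.Perm.sign π : ℤ) : ℂ) = 1 := by
  rw [← Int.cast_mul, ← Units.val_mul, Int.units_mul_self]; simp

theorem Phi_mem (χ : Sp n) : Phi χ ∈ PS n := by
  refine ⟨fun σ f => ?_, fun f hf => Phi_nB χ hf⟩
  by_cases h : B f
  · obtain ⟨π, s, rfl⟩ := exists_cfg h
    rw [cfg_comp, Phi_cfg, Phi_cfg, sign_mul_c]
    ring
  · have h' : ¬ B (f ∘ σ) := fun h2 => h ((B_comp σ).1 h2)
    rw [Phi_nB χ h, Phi_nB χ h', mul_zero]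

theorem spin_Phi (χ : Sp n) : spin (Phi χ) = χ := by
  funext s
  rw [spin, Phi_cfg]; simp

theorem Phi_spin {p : X n} (hp : p ∈ PS n) : Phi (spin p) = p := by
  ext f
  by_cases h : B f
  · obtain ⟨π, s, rfl⟩ := exists_cfg h
    rw [Phi_cfg, PS_cfg hp]
  · rw [Phi_nB _ h, hp.2 f h]

/-- squared norm of a spin vector -/
noncomputable def nsq (χ : Sp n) : ℝ := ∑ s, ‖χ s‖ ^ 2

/-- `⟨χ, SWAP_{ab} χ⟩` (real part) -/
noncomputable def swapE (a b : Fin n) (χ : Sp n) : ℝ :=
  ∑ s, (conj (χ s) * χ (s ∘ Equiv.swap a b)).re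

theorem nsq_nonneg (χ : Sp n) : 0 ≤ nsq χ := Finset.sum_nonneg fun _ _ => by positivity

theorem norm_sq_PS {p : X n} (hp : p ∈ PS n) : ‖p‖ ^ 2 = n.factorial * nsq (spin p) := by
  rw [norm_sq_def, sum_B (fun f => ‖p f‖ ^ 2) (fun f hf => by rw [hp.2 f hf]; simp)]
  have h1 : ∀ π : Equiv.Perm (Fin n), ∑ s, ‖p (cfg π s)‖ ^ 2 = nsq (spin p) := by
    intro π
    refine Finset.sum_congr rfl fun s _ => ?_
    rw [PS_cfg hp, norm_mul]
    have : ‖((Equiv.Perm.sign π : ℤ) : ℂ)‖ = 1 := by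
      rcases Int.units_eq_one_or (Equiv.Perm.sign π) with h | h <;> simp [h]
    rw [this, one_mul]
  simp_rw [h1]
  simp [Fintype.card_perm]

/-- The exchanged configuration. -/
theorem mv_mv_swap (π : Equiv.Perm (Fin n)) (s : Fin n → Bool) {a b : Fin n} (hab : a ≠ b) :
    mv (mv (cfg π s) (π.symm b) a) (π.symm a) b =
      cfg (Equiv.swap a b * π) (s ∘ Equiv.swap a b) := by
  funext k
  by_cases h1 : k = π.symm a
  · subst h1
    rw [mv_same, mv_ne _ _ (fun e => hab (π.symm.injective e))]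
    simp [cfg, Equiv.Perm.mul_apply]
  · rw [mv_ne _ _ h1]
    by_cases h2 : k = π.symm b
    · subst h2
      rw [mv_same]
      simp [cfg, Equiv.Perm.mul_apply]
    · rw [mv_ne _ _ h2]
      have h3 : π k ≠ a := fun e => h1 (by rw [← e]; simp)
      have h4 : π k ≠ b := fun e => h2 (by rw [← e]; simp)
      have h5 : Equiv.swap a b (π k) = π k := Equiv.swap_apply_of_ne_of_ne h3 h4
      simp [cfg, Equiv.Perm.mul_apply, h5]

/-- `K_{ba} K_{ab}` on one-per-site configurations -/
theorem KK_cfg {a b : Fin n} (hab : a ≠ b) {p : X n} (hp : p ∈ PS n) (π : Equiv.Perm (Fin n))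
    (s : Fin n → Bool) :
    K b a (K a b p) (cfg π s) = ((Equiv.Perm.sign π : ℤ) : ℂ) *
      (spin p s - spin p (s ∘ Equiv.swap a b)) := by
  rw [K_apply, Finset.sum_eq_single (π.symm b)]
  · have hb : (cfg π s (π.symm b)).1 = b := by simp [cfg]
    rw [if_pos hb, K_apply]
    have hne : π.symm a ≠ π.symm b := fun e => hab (π.symm.injective e)
    have h1 : ∀ k, k ≠ π.symm a → k ≠ π.symm b →
        (mv (cfg π s) (π.symm b) a k).1 ≠ a := by
      intro k hk1 hk2
      rw [mv_ne _ _ hk2]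
      intro e
      apply hk1
      have : π k = a := e
      rw [← this]; simp
    rw [← Finset.sum_subset (Finset.subset_univ {π.symm a, π.symm b}) (fun k _ hk => by
      simp only [Finset.mem_insert, Finset.mem_singleton, not_or] at hk
      rw [if_neg (h1 k hk.1 hk.2)])]
    rw [Finset.sum_pair hne]
    have ea : (mv (cfg π s) (π.symm b) a (π.symm a)).1 = a := by
      rw [mv_ne _ _ hne]; simp [cfg]
    have eb : (mv (cfg π s) (π.symm b) a (π.symm b)).1 = a := by
      rw [mv_same]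
    rw [if_pos ea, if_pos eb, mv_mv_swap π s hab, mv_mv_same]
    have e2 : mv (cfg π s) (π.symm b) b = cfg π s := by
      have h7 := mv_self (cfg π s) (π.symm b)
      rw [hb] at h7
      exact h7
    rw [e2, PS_cfg hp, PS_cfg hp, sign_mul_c, Equiv.Perm.sign_swap hab]
    push_cast
    ring
  · intro k _ hk
    rw [if_neg]
    intro e
    apply hk
    have : π k = b := e
    rw [← this]; simp
  · intro h; exact absurd (Finset.mem_univ _) h

theorem K_norm_sq {a b : Fin n} (hab : a ≠ b) {p : X n} (hp : p ∈ PS n) :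
    RCLike.re (inner ℂ (K a b p) (K a b p)) =
      n.factorial * (nsq (spin p) - swapE a b (spin p)) := by
  rw [K_adj, inner_def, sum_B _ (fun f hf => by rw [hp.2 f hf]; simp)]
  have h1 : ∀ π : Equiv.Perm (Fin n), ∀ s : Fin n → Bool,
      conj (p (cfg π s)) * K b a (K a b p) (cfg π s) =
        conj (spin p s) * (spin p s - spin p (s ∘ Equiv.swap a b)) := by
    intro π s
    rw [KK_cfg hab hp, PS_cfg hp, map_mul, map_intCast]
    calc ((Equiv.Perm.sign π : ℤ) : ℂ) * conj (spin p s) * (((Equiv.Perm.sign π : ℤ) : ℂ) *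
          (spin p s - spin p (s ∘ Equiv.swap a b)))
        = (((Equiv.Perm.sign π : ℤ) : ℂ) * ((Equiv.Perm.sign π : ℤ) : ℂ)) *
          (conj (spin p s) * (spin p s - spin p (s ∘ Equiv.swap a b))) := by ring
      _ = _ := by rw [sign_sq_c, one_mul]
  simp_rw [h1]
  rw [Finset.sum_const, Finset.card_univ, Fintype.card_perm, Fintype.card_fin, nsmul_eq_mul]
  have h2 : (∑ s, conj (spin p s) * (spin p s - spin p (s ∘ Equiv.swap a b))) =
      ∑ s, ((‖spin p s‖ ^ 2 : ℝ) : ℂ) - ∑ s, conj (spin p s) * spin p (s ∘ Equiv.swap a b) := by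
    rw [← Finset.sum_sub_distrib]
    refine Finset.sum_congr rfl fun s _ => ?_
    rw [mul_sub, Complex.conj_mul']
    push_cast; ring
  rw [h2]
  simp only [RCLike.re_to_complex, Complex.mul_re, Complex.natCast_re, Complex.natCast_im,
    zero_mul, sub_zero, Complex.sub_re, Complex.re_sum, Complex.ofReal_re]
  rw [nsq, swapE]
  simp only [Complex.mul_re]

end Crest.Agent.R338.SX
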