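import Mathlib

/-!
Row 338 (S0529): second and first order Schur (perturbation) lemmas.

`schur_lower`, `schur_upper`: Hermitian form `[[A, V*],[V, D0 + D1]]` on `P ⊕ Q` with
`D0 ≥ g` on `Q`, `|D1| ≤ d`, `‖V‖ ≤ v`, `|A| ≤ a`, and `W = D0⁻¹ V`; effective form
`A - V* D0⁻¹ V` on `P`.
-/

set_option autoImplicit false
set_option linter.unusedSectionVars false
set_option linter.unusedVariables false

open scoped ComplexConjugate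
open RCLike

namespace Crest.Agent.R338.SG

section Two

variable {𝕜 : Type*} [RCLike 𝕜]
variable {P Q : Type*} [NormedAddCommGroup P] [InnerProductSpace 𝕜 P]
  [NormedAddCommGroup Q] [InnerProductSpace 𝕜 Q]

local notation "⟪" x ", " y "⟫" => inner 𝕜 x y

/-- completing the square -/
theorem complete_square {D0 : Q →ₗ[𝕜] Q} (hs : D0.IsSymmetric) {g : ℝ} (hg : 0 ≤ g)
    (hD : ∀ q, g * ‖q‖ ^ 2 ≤ re ⟪q, D0 q⟫) (w q : Q) {t : ℝ} (ht : 0 < t) :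
    -(t⁻¹ * re ⟪D0 w, w⟫) ≤ t * re ⟪q, D0 q⟫ + 2 * re ⟪D0 w, q⟫ := by
  have h0 : 0 ≤ re ⟪(t : 𝕜) • q + w, D0 ((t : 𝕜) • q + w)⟫ :=
    (mul_nonneg hg (sq_nonneg _)).trans (hD _)
  have h1 : re ⟪(t : 𝕜) • q + w, D0 ((t : 𝕜) • q + w)⟫ =
      t * (t * re ⟪q, D0 q⟫ + 2 * re ⟪D0 w, q⟫) + re ⟪D0 w, w⟫ := by
    have e1 : ⟪w, D0 q⟫ = ⟪D0 w, q⟫ := (hs w q).symm
    have e2 : ⟪q, D0 w⟫ = ⟪D0 q, w⟫ := (hs q w).symm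
    have e3 : re ⟪D0 q, w⟫ = re ⟪D0 w, q⟫ := by
      rw [hs q w, ← inner_conj_symm, conj_re]
    have e4 : ⟪w, D0 w⟫ = ⟪D0 w, w⟫ := (hs w w).symm
    rw [map_add, map_smul, inner_add_left, inner_add_right, inner_add_right, inner_smul_left,
      inner_smul_left, inner_smul_right, inner_smul_right, e1, e2, e4, conj_ofReal]
    simp only [map_add, re_ofReal_mul]
    rw [e3]
    ring
  rw [h1] at h0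
  have h2 : 0 ≤ t⁻¹ * (t * (t * re ⟪q, D0 q⟫ + 2 * re ⟪D0 w, q⟫) + re ⟪D0 w, w⟫) :=
    mul_nonneg (inv_nonneg.2 ht.le) h0
  have h3 : t⁻¹ * (t * (t * re ⟪q, D0 q⟫ + 2 * re ⟪D0 w, q⟫) + re ⟪D0 w, w⟫) =
      (t * re ⟪q, D0 q⟫ + 2 * re ⟪D0 w, q⟫) + t⁻¹ * re ⟪D0 w, w⟫ := by
    field_simp
  linarith

/-- bounds on `W = D0⁻¹ V` -/
theorem norm_le_of_coercive {D0 : Q →ₗ[𝕜] Q} {g : ℝ} (hg : 0 < g)
    (hD : ∀ q, g * ‖q‖ ^ 2 ≤ re ⟪q, D0 q⟫) (w : Q) : g * ‖w‖ ≤ ‖D0 w‖ := by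
  have h1 : g * ‖w‖ ^ 2 ≤ ‖w‖ * ‖D0 w‖ := (hD w).trans (re_inner_le_norm w (D0 w))
  rcases (norm_nonneg w).eq_or_lt with h0 | h0
  · rw [← h0, mul_zero]; exact norm_nonneg _
  · have : ‖w‖ * (g * ‖w‖) ≤ ‖w‖ * ‖D0 w‖ := by nlinarith
    exact le_of_mul_le_mul_left this h0

theorem eff_bounds {D0 : Q →ₗ[𝕜] Q} {g v : ℝ} (hg : 0 < g)
    (hD : ∀ q, g * ‖q‖ ^ 2 ≤ re ⟪q, D0 q⟫) {V W : Q} {r : ℝ} (hW : D0 W = V)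
    (hV : ‖V‖ ≤ v * r) (hv : 0 ≤ v) (hr : 0 ≤ r) :
    ‖W‖ ≤ v / g * r ∧ 0 ≤ re ⟪V, W⟫ ∧ re ⟪V, W⟫ ≤ v ^ 2 / g * r ^ 2 := by
  have h1 : g * ‖W‖ ≤ ‖V‖ := by rw [← hW]; exact norm_le_of_coercive hg hD W
  have h2 : ‖W‖ ≤ v / g * r := by
    rw [div_mul_eq_mul_div, le_div_iff₀ hg]; linarith
  refine ⟨h2, ?_, ?_⟩
  · have : re ⟪V, W⟫ = re ⟪W, D0 W⟫ := by
      rw [hW, ← inner_conj_symm, conj_re]
    rw [this]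
    exact (mul_nonneg hg.le (sq_nonneg _)).trans (hD W)
  · calc re ⟪V, W⟫ ≤ ‖V‖ * ‖W‖ := re_inner_le_norm V W
      _ ≤ (v * r) * (v / g * r) := mul_le_mul hV h2 (norm_nonneg _) (by positivity)
      _ = v ^ 2 / g * r ^ 2 := by ring

/-- **Second order Schur lemma, lower bound.**  `m` is any bound for `|μ|`. -/
theorem schur_lower {D0 : Q →ₗ[𝕜] Q} (hs : D0.IsSymmetric) {g v d m μ : ℝ} (hg : 0 < g)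
    (hv : 0 ≤ v) (hd : 0 ≤ d)
    (hD : ∀ q, g * ‖q‖ ^ 2 ≤ re ⟪q, D0 q⟫) {A : P → ℝ} {V W : P → Q} {D1 : Q → ℝ}
    (hW : ∀ p, D0 (W p) = V p) (hV : ∀ p, ‖V p‖ ≤ v * ‖p‖)
    (hD1 : ∀ q, |D1 q| ≤ d * ‖q‖ ^ 2)
    (hm : |μ| ≤ m) (hc : d + m + v ^ 2 / g ≤ g / 2)
    (hμ : ∀ p, μ * ‖p‖ ^ 2 ≤ A p - re ⟪V p, W p⟫) (p : P) (q : Q) :
    (μ - 2 * v ^ 2 * (d + m + v ^ 2 / g) / g ^ 2) * (‖p‖ ^ 2 + ‖q‖ ^ 2) ≤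
      A p + 2 * re ⟪V p, q⟫ + re ⟪q, D0 q⟫ + D1 q := by
  have hm0 : 0 ≤ m := (abs_nonneg _).trans hm
  set S := d + m + v ^ 2 / g with hS
  have hvg : 0 ≤ v ^ 2 / g := by positivity
  have hS0 : 0 ≤ S := by rw [hS]; positivity
  set err := 2 * v ^ 2 * S / g ^ 2 with herr
  have herr0 : 0 ≤ err := by rw [herr]; positivity
  have herr1 : err ≤ v ^ 2 / g := by
    rw [herr, div_le_div_iff₀ (by positivity) hg]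
    have h2 : 0 ≤ v ^ 2 * g := by positivity
    calc 2 * v ^ 2 * S * g = (v ^ 2 * g) * (2 * S) := by ring
      _ ≤ (v ^ 2 * g) * g := by
          apply mul_le_mul_of_nonneg_left _ h2; linarith
      _ = v ^ 2 * g ^ 2 := by ring
  set x := S / g with hx
  have hx0 : 0 ≤ x := by rw [hx]; positivity
  have hx1 : x ≤ 1 / 2 := by
    rw [hx, div_le_iff₀ hg]; linarith
  set t := 1 - x with ht
  have ht0 : 0 < t := by linarith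
  obtain ⟨-, b2, b3⟩ := eff_bounds hg hD (hW p) (hV p) hv (norm_nonneg _)
  have hcs := complete_square hs hg.le hD (W p) q ht0
  rw [hW p] at hcs
  have h5 := (abs_le.1 (hD1 q)).1
  have h6 := hD q
  have h7 := hμ p
  have h8 := abs_le.1 hm
  -- the `Q` block
  have hQ : (μ - err + d) * ‖q‖ ^ 2 ≤ x * re ⟪q, D0 q⟫ := by
    have h9 : μ - err + d ≤ x * g := by
      have : x * g = S := by rw [hx]; field_simp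
      rw [this, hS]; linarith [h8.2]
    calc (μ - err + d) * ‖q‖ ^ 2 ≤ (x * g) * ‖q‖ ^ 2 :=
          mul_le_mul_of_nonneg_right h9 (sq_nonneg _)
      _ = x * (g * ‖q‖ ^ 2) := by ring
      _ ≤ x * re ⟪q, D0 q⟫ := mul_le_mul_of_nonneg_left h6 hx0
  -- the `P` block
  have htinv : t⁻¹ ≤ 1 + 2 * x := by
    rw [inv_le_iff_one_le_mul₀ ht0, ht]
    nlinarith
  have hP : t⁻¹ * re ⟪V p, W p⟫ ≤ re ⟪V p, W p⟫ + err * ‖p‖ ^ 2 := by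
    calc t⁻¹ * re ⟪V p, W p⟫ ≤ (1 + 2 * x) * re ⟪V p, W p⟫ :=
          mul_le_mul_of_nonneg_right htinv b2
      _ = re ⟪V p, W p⟫ + 2 * x * re ⟪V p, W p⟫ := by ring
      _ ≤ re ⟪V p, W p⟫ + 2 * x * (v ^ 2 / g * ‖p‖ ^ 2) := by gcongr
      _ = re ⟪V p, W p⟫ + err * ‖p‖ ^ 2 := by
          rw [herr, hx]; field_simp
  have e1 : t * re ⟪q, D0 q⟫ = re ⟪q, D0 q⟫ - x * re ⟪q, D0 q⟫ := by rw [ht]; ring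
  nlinarith

/-- **Second order Schur lemma, upper bound.** -/
theorem schur_upper {D0 : Q →ₗ[𝕜] Q} {g v d m μ : ℝ} (hg : 0 < g)
    (hv : 0 ≤ v) (hd : 0 ≤ d)
    (hD : ∀ q, g * ‖q‖ ^ 2 ≤ re ⟪q, D0 q⟫) {A : P → ℝ} {V W : P → Q} {D1 : Q → ℝ}
    (hW : ∀ p, D0 (W p) = V p) (hV : ∀ p, ‖V p‖ ≤ v * ‖p‖)
    (hD1 : ∀ q, |D1 q| ≤ d * ‖q‖ ^ 2)
    (hm : |μ| ≤ m) {p : P} (hμ : A p - re ⟪V p, W p⟫ ≤ μ * ‖p‖ ^ 2) :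
    A p + 2 * re ⟪V p, -W p⟫ + re ⟪-W p, D0 (-W p)⟫ + D1 (-W p) ≤
    (μ + 2 * v ^ 2 * (d + m + v ^ 2 / g) / g ^ 2) * (‖p‖ ^ 2 + ‖-W p‖ ^ 2) := by
  have hm0 : 0 ≤ m := (abs_nonneg _).trans hm
  set S := d + m + v ^ 2 / g with hS
  have hvg : 0 ≤ v ^ 2 / g := by positivity
  have hS0 : 0 ≤ S := by rw [hS]; positivity
  set err := 2 * v ^ 2 * S / g ^ 2 with herr
  have herr0 : 0 ≤ err := by rw [herr]; positivity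
  obtain ⟨b1, b2, b3⟩ := eff_bounds hg hD (hW p) (hV p) hv (norm_nonneg _)
  have e1 : re ⟪-W p, D0 (-W p)⟫ = re ⟪V p, W p⟫ := by
    rw [map_neg, inner_neg_neg, hW p, ← inner_conj_symm, conj_re]
  have e2 : re ⟪V p, -W p⟫ = -re ⟪V p, W p⟫ := by rw [inner_neg_right, map_neg]
  have h5 := (abs_le.1 (hD1 (-W p))).2
  rw [norm_neg] at h5 ⊢
  have h8 := abs_le.1 hm
  have hW2 : ‖W p‖ ^ 2 ≤ (v / g) ^ 2 * ‖p‖ ^ 2 := by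
    calc ‖W p‖ ^ 2 ≤ (v / g * ‖p‖) ^ 2 := pow_le_pow_left₀ (norm_nonneg _) b1 2
      _ = (v / g) ^ 2 * ‖p‖ ^ 2 := by ring
  have h10 : (d - μ) * ‖W p‖ ^ 2 ≤ err * ‖p‖ ^ 2 := by
    calc (d - μ) * ‖W p‖ ^ 2 ≤ (d + m) * ‖W p‖ ^ 2 :=
          mul_le_mul_of_nonneg_right (by linarith [h8.1]) (sq_nonneg _)
      _ ≤ (d + m) * ((v / g) ^ 2 * ‖p‖ ^ 2) :=
          mul_le_mul_of_nonneg_left hW2 (by linarith)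
      _ ≤ (2 * S) * ((v / g) ^ 2 * ‖p‖ ^ 2) :=
          mul_le_mul_of_nonneg_right (by rw [hS]; linarith) (by positivity)
      _ = err * ‖p‖ ^ 2 := by rw [herr]; field_simp
  rw [e1, e2]
  have h11 : 0 ≤ err * ‖W p‖ ^ 2 := by positivity
  nlinarith

/-- **First order Schur lemma, lower bound** (no structure on the `Q` block except the gap). -/
theorem schur1_lower {g v μ : ℝ} {A : P → ℝ} {D : Q → ℝ} {C : P → Q → ℝ}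
    (hD : ∀ q, g * ‖q‖ ^ 2 ≤ D q) (hC : ∀ p q, |C p q| ≤ v * ‖p‖ * ‖q‖)
    (hgap : |μ| < g)
    (hμ : ∀ p, μ * ‖p‖ ^ 2 ≤ A p) (p : P) (q : Q) :
    (μ - v ^ 2 / (g - |μ|)) * (‖p‖ ^ 2 + ‖q‖ ^ 2) ≤ A p + 2 * C p q + D q := by
  have hg' : 0 < g - |μ| := by linarith
  set r := v ^ 2 / (g - |μ|) with hr
  have hr0 : 0 ≤ r := by positivity
  have h1 := (abs_le.1 (hC p q)).1
  have h2 := hD q
  have h3 := hμ p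
  have hμg : μ ≤ |μ| := le_abs_self μ
  -- r‖p‖² - 2v‖p‖‖q‖ + (g-|μ|)‖q‖² ≥ 0
  have h4 : 0 ≤ r * ‖p‖ ^ 2 - 2 * (v * ‖p‖ * ‖q‖) + (g - |μ|) * ‖q‖ ^ 2 := by
    have h5 : 0 ≤ (g - |μ|)⁻¹ * (v * ‖p‖ - (g - |μ|) * ‖q‖) ^ 2 := by positivity
    have h6 : (g - |μ|)⁻¹ * (v * ‖p‖ - (g - |μ|) * ‖q‖) ^ 2 =
        r * ‖p‖ ^ 2 - 2 * (v * ‖p‖ * ‖q‖) + (g - |μ|) * ‖q‖ ^ 2 := by
      rw [hr]; field_simp; ring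
    rw [← h6]; exact h5
  nlinarith [sq_nonneg ‖q‖, mul_le_mul_of_nonneg_right hμg (sq_nonneg ‖q‖),
    mul_nonneg hr0 (sq_nonneg ‖q‖)]

/-- **Graded second order Schur lemma (S'), lower bound**: a further block `Q2`, not coupled to
`P`, coupled to `Q` by a form `C` of size `v2`. -/
theorem schur_graded_lower {Q2 : Type*} [NormedAddCommGroup Q2]
    {D0 : Q →ₗ[𝕜] Q} (hs : D0.IsSymmetric) {g v v2 d m μ : ℝ} (hg : 0 < g)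
    (hv : 0 ≤ v) (hd : 0 ≤ d) (hv2 : 0 ≤ v2)
    (hD : ∀ q, g * ‖q‖ ^ 2 ≤ re ⟪q, D0 q⟫) {A : P → ℝ} {V W : P → Q} {D1 : Q → ℝ}
    {C : Q → Q2 → ℝ} {D2 : Q2 → ℝ}
    (hW : ∀ p, D0 (W p) = V p) (hV : ∀ p, ‖V p‖ ≤ v * ‖p‖)
    (hD1 : ∀ q, |D1 q| ≤ d * ‖q‖ ^ 2) (hC : ∀ q q2, |C q q2| ≤ v2 * ‖q‖ * ‖q2‖)
    (hD2 : ∀ q2, g * ‖q2‖ ^ 2 ≤ D2 q2)
    (hm : |μ| ≤ m) (hc : (d + 2 * v2 ^ 2 / g) + m + v ^ 2 / g ≤ g / 2)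
    (hμ : ∀ p, μ * ‖p‖ ^ 2 ≤ A p - re ⟪V p, W p⟫) (p : P) (q : Q) (q2 : Q2) :
    (μ - 2 * v ^ 2 * ((d + 2 * v2 ^ 2 / g) + m + v ^ 2 / g) / g ^ 2) *
        (‖p‖ ^ 2 + ‖q‖ ^ 2 + ‖q2‖ ^ 2) ≤
      A p + 2 * re ⟪V p, q⟫ + re ⟪q, D0 q⟫ + D1 q + 2 * C q q2 + D2 q2 := by
  have hm0 : 0 ≤ m := (abs_nonneg _).trans hm
  have hw : 0 ≤ 2 * v2 ^ 2 / g := by positivity
  have hvg : 0 ≤ v ^ 2 / g := by positivity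
  have key := schur_lower hs hg hv (add_nonneg hd hw) hD (A := A) (V := V) (W := W)
    (D1 := fun q => D1 q - 2 * v2 ^ 2 / g * ‖q‖ ^ 2) hW hV (fun q => by
      have h1 := abs_le.1 (hD1 q)
      have h2 : 0 ≤ 2 * v2 ^ 2 / g * ‖q‖ ^ 2 := by positivity
      rw [abs_le]
      constructor <;> nlinarith) hm hc hμ p q
  set err := 2 * v ^ 2 * ((d + 2 * v2 ^ 2 / g) + m + v ^ 2 / g) / g ^ 2 with herr
  have herr0 : 0 ≤ err := by rw [herr]; positivity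
  have h1 := (abs_le.1 (hC q q2)).1
  have h2 := hD2 q2
  have h3 : v2 * ‖q‖ * ‖q2‖ * 2 ≤ 2 * v2 ^ 2 / g * ‖q‖ ^ 2 + g / 2 * ‖q2‖ ^ 2 := by
    have h4 : 0 ≤ (2 * g)⁻¹ * (2 * v2 * ‖q‖ - g * ‖q2‖) ^ 2 := by positivity
    have h5 : (2 * g)⁻¹ * (2 * v2 * ‖q‖ - g * ‖q2‖) ^ 2 =
        2 * v2 ^ 2 / g * ‖q‖ ^ 2 + g / 2 * ‖q2‖ ^ 2 - v2 * ‖q‖ * ‖q2‖ * 2 := by
      field_simp; ring
    linarith
  have h6 : μ - err ≤ g / 2 := by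
    have := (abs_le.1 hm).2
    linarith
  have h7 : (μ - err) * ‖q2‖ ^ 2 ≤ g / 2 * ‖q2‖ ^ 2 :=
    mul_le_mul_of_nonneg_right h6 (sq_nonneg _)
  nlinarith

/-- **Relative second order Schur lemma (S''), lower bound**: `|D1| ≤ x D0` and
`⟪V p, D0⁻¹ V p⟫ ≤ s ‖p‖²`. -/
theorem schur_rel_lower {D0 : Q →ₗ[𝕜] Q} (hs : D0.IsSymmetric) {g s x m μ : ℝ} (hg : 0 < g)
    (hs0 : 0 ≤ s) (hx : 0 ≤ x)
    (hD : ∀ q, g * ‖q‖ ^ 2 ≤ re ⟪q, D0 q⟫) {A : P → ℝ} {V W : P → Q} {D1 : Q → ℝ}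
    (hW : ∀ p, D0 (W p) = V p) (hV : ∀ p, re ⟪V p, W p⟫ ≤ s * ‖p‖ ^ 2)
    (hD1 : ∀ q, |D1 q| ≤ x * re ⟪q, D0 q⟫)
    (hm : |μ| ≤ m) (hc : x + (m + s) / g ≤ 1 / 2)
    (hμ : ∀ p, μ * ‖p‖ ^ 2 ≤ A p - re ⟪V p, W p⟫) (p : P) (q : Q) :
    (μ - 2 * s * (x + (m + s) / g)) * (‖p‖ ^ 2 + ‖q‖ ^ 2) ≤
      A p + 2 * re ⟪V p, q⟫ + re ⟪q, D0 q⟫ + D1 q := by
  have hm0 : 0 ≤ m := (abs_nonneg _).trans hm
  set y := x + (m + s) / g with hy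
  have hy0 : 0 ≤ y := by rw [hy]; positivity
  set err := 2 * s * y with herr
  have herr0 : 0 ≤ err := by rw [herr]; positivity
  have herr1 : err ≤ s := by
    rw [herr]; nlinarith
  set t := 1 - y with ht
  have ht0 : 0 < t := by linarith
  have b2 : 0 ≤ re ⟪V p, W p⟫ := by
    have : re ⟪V p, W p⟫ = re ⟪W p, D0 (W p)⟫ := by
      rw [hW, ← inner_conj_symm, conj_re]
    rw [this]
    exact (mul_nonneg hg.le (sq_nonneg _)).trans (hD _)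
  have hcs := complete_square hs hg.le hD (W p) q ht0
  rw [hW p] at hcs
  have h5 := (abs_le.1 (hD1 q)).1
  have h6 := hD q
  have h7 := hμ p
  have h8 := abs_le.1 hm
  have hd0 : 0 ≤ re ⟪q, D0 q⟫ := (mul_nonneg hg.le (sq_nonneg _)).trans h6
  -- the `Q` block
  have hQ : (μ - err) * ‖q‖ ^ 2 ≤ (y - x) * re ⟪q, D0 q⟫ := by
    have h9 : μ - err ≤ (y - x) * g := by
      have : (y - x) * g = m + s := by rw [hy]; field_simp; ring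
      rw [this]; linarith [h8.2]
    have hyx : 0 ≤ y - x := by
      have : 0 ≤ (m + s) / g := by positivity
      rw [hy]; linarith
    calc (μ - err) * ‖q‖ ^ 2 ≤ ((y - x) * g) * ‖q‖ ^ 2 :=
          mul_le_mul_of_nonneg_right h9 (sq_nonneg _)
      _ = (y - x) * (g * ‖q‖ ^ 2) := by ring
      _ ≤ (y - x) * re ⟪q, D0 q⟫ := mul_le_mul_of_nonneg_left h6 hyx
  -- the `P` block
  have htinv : t⁻¹ ≤ 1 + 2 * y := by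
    rw [inv_le_iff_one_le_mul₀ ht0, ht]
    nlinarith
  have hP : t⁻¹ * re ⟪V p, W p⟫ ≤ re ⟪V p, W p⟫ + err * ‖p‖ ^ 2 := by
    calc t⁻¹ * re ⟪V p, W p⟫ ≤ (1 + 2 * y) * re ⟪V p, W p⟫ :=
          mul_le_mul_of_nonneg_right htinv b2
      _ = re ⟪V p, W p⟫ + 2 * y * re ⟪V p, W p⟫ := by ring
      _ ≤ re ⟪V p, W p⟫ + 2 * y * (s * ‖p‖ ^ 2) := by
          have := hV p
          gcongr
      _ = re ⟪V p, W p⟫ + err * ‖p‖ ^ 2 := by rw [herr]; ring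
  have e1 : t * re ⟪q, D0 q⟫ = re ⟪q, D0 q⟫ - y * re ⟪q, D0 q⟫ := by rw [ht]; ring
  nlinarith

/-- **Relative second order Schur lemma (S''), upper bound**, trial vector `(p, -W p)`. -/
theorem schur_rel_upper {D0 : Q →ₗ[𝕜] Q} {g s x m μ : ℝ} (hg : 0 < g)
    (hs0 : 0 ≤ s) (hx : 0 ≤ x)
    (hD : ∀ q, g * ‖q‖ ^ 2 ≤ re ⟪q, D0 q⟫) {A : P → ℝ} {V W : P → Q} {D1 : Q → ℝ}
    (hW : ∀ p, D0 (W p) = V p) (hV : ∀ p, re ⟪V p, W p⟫ ≤ s * ‖p‖ ^ 2)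
    (hD1 : ∀ q, |D1 q| ≤ x * re ⟪q, D0 q⟫)
    (hm : |μ| ≤ m) {p : P} (hμ : A p - re ⟪V p, W p⟫ ≤ μ * ‖p‖ ^ 2) :
    A p + 2 * re ⟪V p, -W p⟫ + re ⟪-W p, D0 (-W p)⟫ + D1 (-W p) ≤
    (μ + 2 * s * (x + (m + s) / g)) * (‖p‖ ^ 2 + ‖-W p‖ ^ 2) := by
  have hm0 : 0 ≤ m := (abs_nonneg _).trans hm
  have e1 : re ⟪-W p, D0 (-W p)⟫ = re ⟪V p, W p⟫ := by
    rw [map_neg, inner_neg_neg, hW p, ← inner_conj_symm, conj_re]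
  have e2 : re ⟪V p, -W p⟫ = -re ⟪V p, W p⟫ := by rw [inner_neg_right, map_neg]
  have h5 := (abs_le.1 (hD1 (-W p))).2
  rw [e1] at h5
  have h6 := hD (-W p)
  rw [e1, norm_neg] at h6
  rw [e1, e2, norm_neg]
  have h8 := abs_le.1 hm
  have h9 := hV p
  have hW2 : ‖W p‖ ^ 2 ≤ s / g * ‖p‖ ^ 2 := by
    rw [div_mul_eq_mul_div, le_div_iff₀ hg]; linarith
  have h10 : -μ * ‖W p‖ ^ 2 ≤ m * (s / g * ‖p‖ ^ 2) := by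
    calc -μ * ‖W p‖ ^ 2 ≤ m * ‖W p‖ ^ 2 :=
          mul_le_mul_of_nonneg_right (by linarith [h8.1]) (sq_nonneg _)
      _ ≤ m * (s / g * ‖p‖ ^ 2) := mul_le_mul_of_nonneg_left hW2 hm0
  have h11 : x * re ⟪V p, W p⟫ ≤ x * (s * ‖p‖ ^ 2) := mul_le_mul_of_nonneg_left h9 hx
  have h12 : 0 ≤ 2 * s * (x + (m + s) / g) * ‖W p‖ ^ 2 := by positivity
  have h13 : m * (s / g * ‖p‖ ^ 2) + x * (s * ‖p‖ ^ 2) ≤
      2 * s * (x + (m + s) / g) * ‖p‖ ^ 2 := by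
    have h14 : 0 ≤ s * (x + m / g + 2 * s / g) * ‖p‖ ^ 2 := by positivity
    have h15 : 2 * s * (x + (m + s) / g) * ‖p‖ ^ 2 -
        (m * (s / g * ‖p‖ ^ 2) + x * (s * ‖p‖ ^ 2)) =
        s * (x + m / g + 2 * s / g) * ‖p‖ ^ 2 := by field_simp; ring
    linarith
  nlinarith

end Two

section One

variable {𝕜 : Type*} [RCLike 𝕜] {X : Type*} [NormedAddCommGroup X] [InnerProductSpace 𝕜 X]

local notation "⟪" x ", " y "⟫" => inner 𝕜 x y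

theorem norm_add_sq_orth {p q : X} (h : ⟪p, q⟫ = 0) : ‖p + q‖ ^ 2 = ‖p‖ ^ 2 + ‖q‖ ^ 2 := by
  rw [norm_add_sq (𝕜 := 𝕜), h]; simp

theorem form_add {H : X →ₗ[𝕜] X} (hH : H.IsSymmetric) (p q : X) :
    re ⟪p + q, H (p + q)⟫ = re ⟪p, H p⟫ + 2 * re ⟪H p, q⟫ + re ⟪q, H q⟫ := by
  have e1 : ⟪p, H q⟫ = ⟪H p, q⟫ := (hH p q).symm
  have e2 : re ⟪q, H p⟫ = re ⟪H p, q⟫ := by rw [← inner_conj_symm, conj_re]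
  rw [map_add, inner_add_left, inner_add_right, inner_add_right, e1]
  simp only [map_add]
  rw [e2]
  ring

/-- One-space version of the second order Schur lemma: lower bound.  `P ⟂ Q`, `D0` preserves `Q`,
`V p` is the `Q`-component of `H p`, `D0 (W p) = V p`, and `H - D0` is small on `Q`. -/
theorem schur_lower_one {P Q : Submodule 𝕜 X} (horth : ∀ p ∈ P, ∀ q ∈ Q, ⟪p, q⟫ = 0)
    {H D0 : X →ₗ[𝕜] X} (hH : H.IsSymmetric) (hs : D0.IsSymmetric) (hDQ : ∀ q ∈ Q, D0 q ∈ Q)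
    {g v d m μ : ℝ} (hg : 0 < g) (hv : 0 ≤ v) (hd : 0 ≤ d)
    (hD : ∀ q ∈ Q, g * ‖q‖ ^ 2 ≤ re ⟪q, D0 q⟫) {V W : X → X}
    (hWQ : ∀ p ∈ P, W p ∈ Q)
    (hW : ∀ p ∈ P, D0 (W p) = V p) (hV : ∀ p ∈ P, ‖V p‖ ≤ v * ‖p‖)
    (hVH : ∀ p ∈ P, ∀ q ∈ Q, re ⟪H p, q⟫ = re ⟪V p, q⟫)
    (hD1 : ∀ q ∈ Q, |re ⟪q, H q⟫ - re ⟪q, D0 q⟫| ≤ d * ‖q‖ ^ 2)
    (hm : |μ| ≤ m) (hc : d + m + v ^ 2 / g ≤ g / 2)
    (hμ : ∀ p ∈ P, μ * ‖p‖ ^ 2 ≤ re ⟪p, H p⟫ - re ⟪V p, W p⟫) {p q : X} (hp : p ∈ P)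
    (hq : q ∈ Q) :
    (μ - 2 * v ^ 2 * (d + m + v ^ 2 / g) / g ^ 2) * ‖p + q‖ ^ 2 ≤ re ⟪p + q, H (p + q)⟫ := by
  let D0' : Q →ₗ[𝕜] Q := D0.restrict hDQ
  have hs' : D0'.IsSymmetric := fun x y => hs x y
  have key := schur_lower (P := P) (Q := Q) hs' hg hv hd (fun q => hD q q.2)
    (A := fun p : P => re ⟪(p : X), H p⟫) (V := fun p : P => D0' ⟨W p, hWQ p p.2⟩)
    (W := fun p : P => ⟨W p, hWQ p p.2⟩)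
    (D1 := fun q : Q => re ⟪(q : X), H q⟫ - re ⟪(q : X), D0 q⟫)
    (fun p => rfl) (fun p => by
      have : ‖D0' ⟨W p, hWQ p p.2⟩‖ = ‖V p‖ := by
        rw [← hW p p.2]; rfl
      rw [this]; exact hV p p.2)
    (fun q => hD1 q q.2) hm hc (fun p => by
      have : re ⟪D0' ⟨W p, hWQ p p.2⟩, (⟨W p, hWQ p p.2⟩ : Q)⟫ = re ⟪V p, W p⟫ := by
        rw [← hW p p.2]; rfl
      rw [this]; exact hμ p p.2) ⟨p, hp⟩ ⟨q, hq⟩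
  rw [norm_add_sq_orth (horth p hp q hq), form_add hH]
  have e1 : re ⟪D0' ⟨W p, hWQ p hp⟩, (⟨q, hq⟩ : Q)⟫ = re ⟪H p, q⟫ := by
    rw [hVH p hp q hq, ← hW p hp]; rfl
  have e2 : re ⟪(⟨q, hq⟩ : Q), D0' ⟨q, hq⟩⟫ = re ⟪q, D0 q⟫ := rfl
  simp only [Submodule.coe_norm] at key
  rw [e1, e2] at key
  linarith

/-- One-space version, upper bound: the trial vector `p - W p`. -/
theorem schur_upper_one {P Q : Submodule 𝕜 X} (horth : ∀ p ∈ P, ∀ q ∈ Q, ⟪p, q⟫ = 0)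
    {H D0 : X →ₗ[𝕜] X} (hH : H.IsSymmetric)
    {g v d m μ : ℝ} (hg : 0 < g) (hv : 0 ≤ v) (hd : 0 ≤ d)
    (hD : ∀ q ∈ Q, g * ‖q‖ ^ 2 ≤ re ⟪q, D0 q⟫) {V W : X → X}
    (hWQ : ∀ p ∈ P, W p ∈ Q)
    (hW : ∀ p ∈ P, D0 (W p) = V p) (hV : ∀ p ∈ P, ‖V p‖ ≤ v * ‖p‖)
    (hVH : ∀ p ∈ P, ∀ q ∈ Q, re ⟪H p, q⟫ = re ⟪V p, q⟫)
    (hD1 : ∀ q ∈ Q, |re ⟪q, H q⟫ - re ⟪q, D0 q⟫| ≤ d * ‖q‖ ^ 2)
    (hm : |μ| ≤ m) {p : X} (hp : p ∈ P)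
    (hμ : re ⟪p, H p⟫ - re ⟪V p, W p⟫ ≤ μ * ‖p‖ ^ 2) :
    re ⟪p - W p, H (p - W p)⟫ ≤
      (μ + 2 * v ^ 2 * (d + m + v ^ 2 / g) / g ^ 2) * ‖p - W p‖ ^ 2 ∧
      ‖p‖ ≤ ‖p - W p‖ := by
  have hm0 : 0 ≤ m := (abs_nonneg _).trans hm
  have hmem : W p ∈ Q := hWQ p hp
  have horth' : ⟪p, -W p⟫ = 0 := horth p hp _ (Q.neg_mem hmem)
  have hn : ‖p - W p‖ ^ 2 = ‖p‖ ^ 2 + ‖W p‖ ^ 2 := by
    rw [sub_eq_add_neg, norm_add_sq_orth horth', norm_neg]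
  constructor
  · -- bounds on `W p`
    have b0 : g * ‖W p‖ ≤ ‖V p‖ := by
      have h1 : g * ‖W p‖ ^ 2 ≤ ‖W p‖ * ‖V p‖ := by
        rw [← hW p hp]
        exact (hD _ hmem).trans (re_inner_le_norm _ _)
      rcases (norm_nonneg (W p)).eq_or_lt with h0 | h0
      · rw [← h0, mul_zero]; exact norm_nonneg _
      · have : ‖W p‖ * (g * ‖W p‖) ≤ ‖W p‖ * ‖V p‖ := by nlinarith
        exact le_of_mul_le_mul_left this h0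
    have b1 : ‖W p‖ ≤ v / g * ‖p‖ := by
      rw [div_mul_eq_mul_div, le_div_iff₀ hg]
      linarith [hV p hp]
    set S := d + m + v ^ 2 / g with hS
    have hvg : 0 ≤ v ^ 2 / g := by positivity
    have hS0 : 0 ≤ S := by rw [hS]; positivity
    set err := 2 * v ^ 2 * S / g ^ 2 with herr
    have herr0 : 0 ≤ err := by rw [herr]; positivity
    have h5 := (abs_le.1 (hD1 (W p) hmem)).2
    have h8 := abs_le.1 hm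
    have hW2 : ‖W p‖ ^ 2 ≤ (v / g) ^ 2 * ‖p‖ ^ 2 := by
      calc ‖W p‖ ^ 2 ≤ (v / g * ‖p‖) ^ 2 := pow_le_pow_left₀ (norm_nonneg _) b1 2
        _ = (v / g) ^ 2 * ‖p‖ ^ 2 := by ring
    have h10 : (d - μ) * ‖W p‖ ^ 2 ≤ err * ‖p‖ ^ 2 := by
      calc (d - μ) * ‖W p‖ ^ 2 ≤ (d + m) * ‖W p‖ ^ 2 :=
            mul_le_mul_of_nonneg_right (by linarith [h8.1]) (sq_nonneg _)
        _ ≤ (d + m) * ((v / g) ^ 2 * ‖p‖ ^ 2) :=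
            mul_le_mul_of_nonneg_left hW2 (by linarith)
        _ ≤ (2 * S) * ((v / g) ^ 2 * ‖p‖ ^ 2) :=
            mul_le_mul_of_nonneg_right (by rw [hS]; linarith) (by positivity)
        _ = err * ‖p‖ ^ 2 := by rw [herr]; field_simp
    have e0 : re ⟪p - W p, H (p - W p)⟫ =
        re ⟪p, H p⟫ - 2 * re ⟪V p, W p⟫ + re ⟪W p, H (W p)⟫ := by
      have e9 : re ⟪H p, -W p⟫ = -re ⟪V p, W p⟫ := by
        rw [inner_neg_right, map_neg, hVH p hp _ hmem]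
      rw [sub_eq_add_neg, form_add hH, map_neg H, inner_neg_neg, e9]
      ring
    have e1 : re ⟪W p, D0 (W p)⟫ = re ⟪V p, W p⟫ := by
      rw [hW p hp, ← inner_conj_symm, conj_re]
    rw [e0, hn]
    have h11 : 0 ≤ err * ‖W p‖ ^ 2 := by positivity
    rw [e1] at h5
    nlinarith
  · have h1 : ‖p‖ ^ 2 ≤ ‖p - W p‖ ^ 2 := by
      rw [hn]; linarith [sq_nonneg ‖W p‖]
    exact (sq_le_sq₀ (norm_nonneg _) (norm_nonneg _)).1 h1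

/-- One-space version of the graded lemma (S'): `P, Q1, Q2` mutually orthogonal, `H` does not
couple `P` and `Q2`. -/
theorem schur_graded_lower_one {P Q Q2 : Submodule 𝕜 X} (horth : ∀ p ∈ P, ∀ q ∈ Q, ⟪p, q⟫ = 0)
    (horth2 : ∀ p ∈ P, ∀ q ∈ Q2, ⟪p, q⟫ = 0) (horth3 : ∀ p ∈ Q, ∀ q ∈ Q2, ⟪p, q⟫ = 0)
    {H D0 : X →ₗ[𝕜] X} (hH : H.IsSymmetric) (hs : D0.IsSymmetric) (hDQ : ∀ q ∈ Q, D0 q ∈ Q)
    {g v v2 d m μ : ℝ} (hg : 0 < g) (hv : 0 ≤ v) (hd : 0 ≤ d) (hv2 : 0 ≤ v2)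
    (hD : ∀ q ∈ Q, g * ‖q‖ ^ 2 ≤ re ⟪q, D0 q⟫) {V W : X → X}
    (hWQ : ∀ p ∈ P, W p ∈ Q)
    (hW : ∀ p ∈ P, D0 (W p) = V p) (hV : ∀ p ∈ P, ‖V p‖ ≤ v * ‖p‖)
    (hVH : ∀ p ∈ P, ∀ q ∈ Q, re ⟪H p, q⟫ = re ⟪V p, q⟫)
    (hVH2 : ∀ p ∈ P, ∀ q ∈ Q2, re ⟪H p, q⟫ = 0)
    (hD1 : ∀ q ∈ Q, |re ⟪q, H q⟫ - re ⟪q, D0 q⟫| ≤ d * ‖q‖ ^ 2)
    (hC : ∀ q ∈ Q, ∀ q2 ∈ Q2, |re ⟪H q, q2⟫| ≤ v2 * ‖q‖ * ‖q2‖)
    (hD2 : ∀ q2 ∈ Q2, g * ‖q2‖ ^ 2 ≤ re ⟪q2, H q2⟫)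
    (hm : |μ| ≤ m) (hc : (d + 2 * v2 ^ 2 / g) + m + v ^ 2 / g ≤ g / 2)
    (hμ : ∀ p ∈ P, μ * ‖p‖ ^ 2 ≤ re ⟪p, H p⟫ - re ⟪V p, W p⟫) {p q q2 : X} (hp : p ∈ P)
    (hq : q ∈ Q) (hq2 : q2 ∈ Q2) :
    (μ - 2 * v ^ 2 * ((d + 2 * v2 ^ 2 / g) + m + v ^ 2 / g) / g ^ 2) * ‖p + q + q2‖ ^ 2 ≤
      re ⟪p + q + q2, H (p + q + q2)⟫ := by
  let D0' : Q →ₗ[𝕜] Q := D0.restrict hDQ
  have hs' : D0'.IsSymmetric := fun x y => hs x y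
  have key := schur_graded_lower (P := P) (Q := Q) (Q2 := Q2) hs' hg hv hd hv2
    (fun q => hD q q.2)
    (A := fun p : P => re ⟪(p : X), H p⟫) (V := fun p : P => D0' ⟨W p, hWQ p p.2⟩)
    (W := fun p : P => ⟨W p, hWQ p p.2⟩)
    (D1 := fun q : Q => re ⟪(q : X), H q⟫ - re ⟪(q : X), D0 q⟫)
    (C := fun (q : Q) (q2 : Q2) => re ⟪H (q : X), (q2 : X)⟫)
    (D2 := fun q2 : Q2 => re ⟪(q2 : X), H q2⟫)
    (fun p => rfl) (fun p => by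
      have : ‖D0' ⟨W p, hWQ p p.2⟩‖ = ‖V p‖ := by
        rw [← hW p p.2]; rfl
      rw [this]; exact hV p p.2)
    (fun q => hD1 q q.2) (fun q q2 => hC q q.2 q2 q2.2) (fun q2 => hD2 q2 q2.2) hm hc
    (fun p => by
      have : re ⟪D0' ⟨W p, hWQ p p.2⟩, (⟨W p, hWQ p p.2⟩ : Q)⟫ = re ⟪V p, W p⟫ := by
        rw [← hW p p.2]; rfl
      rw [this]; exact hμ p p.2) ⟨p, hp⟩ ⟨q, hq⟩ ⟨q2, hq2⟩
  have o1 : ⟪p + q, q2⟫ = 0 := by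
    rw [inner_add_left, horth2 p hp q2 hq2, horth3 q hq q2 hq2, add_zero]
  have o2 : re ⟪H (p + q), q2⟫ = re ⟪H q, q2⟫ := by
    rw [map_add, inner_add_left, map_add, hVH2 p hp q2 hq2, zero_add]
  rw [norm_add_sq_orth o1, norm_add_sq_orth (horth p hp q hq), form_add hH, form_add hH, o2]
  have e1 : re ⟪D0' ⟨W p, hWQ p hp⟩, (⟨q, hq⟩ : Q)⟫ = re ⟪H p, q⟫ := by
    rw [hVH p hp q hq, ← hW p hp]; rfl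
  have e2 : re ⟪(⟨q, hq⟩ : Q), D0' ⟨q, hq⟩⟫ = re ⟪q, D0 q⟫ := rfl
  simp only [Submodule.coe_norm] at key
  rw [e1, e2] at key
  linarith

/-- One-space version of (S''), lower bound. -/
theorem schur_rel_lower_one {P Q : Submodule 𝕜 X} (horth : ∀ p ∈ P, ∀ q ∈ Q, ⟪p, q⟫ = 0)
    {H D0 : X →ₗ[𝕜] X} (hH : H.IsSymmetric) (hs : D0.IsSymmetric) (hDQ : ∀ q ∈ Q, D0 q ∈ Q)
    {g s x m μ : ℝ} (hg : 0 < g) (hs0 : 0 ≤ s) (hx : 0 ≤ x)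
    (hD : ∀ q ∈ Q, g * ‖q‖ ^ 2 ≤ re ⟪q, D0 q⟫) {V W : X → X}
    (hWQ : ∀ p ∈ P, W p ∈ Q)
    (hW : ∀ p ∈ P, D0 (W p) = V p) (hV : ∀ p ∈ P, re ⟪V p, W p⟫ ≤ s * ‖p‖ ^ 2)
    (hVH : ∀ p ∈ P, ∀ q ∈ Q, re ⟪H p, q⟫ = re ⟪V p, q⟫)
    (hD1 : ∀ q ∈ Q, |re ⟪q, H q⟫ - re ⟪q, D0 q⟫| ≤ x * re ⟪q, D0 q⟫)
    (hm : |μ| ≤ m) (hc : x + (m + s) / g ≤ 1 / 2)
    (hμ : ∀ p ∈ P, μ * ‖p‖ ^ 2 ≤ re ⟪p, H p⟫ - re ⟪V p, W p⟫) {p q : X} (hp : p ∈ P)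
    (hq : q ∈ Q) :
    (μ - 2 * s * (x + (m + s) / g)) * ‖p + q‖ ^ 2 ≤ re ⟪p + q, H (p + q)⟫ := by
  let D0' : Q →ₗ[𝕜] Q := D0.restrict hDQ
  have hs' : D0'.IsSymmetric := fun x y => hs x y
  have hVW : ∀ p (hp : p ∈ P),
      re ⟪D0' ⟨W p, hWQ p hp⟩, (⟨W p, hWQ p hp⟩ : Q)⟫ = re ⟪V p, W p⟫ := by
    intro p hp
    rw [← hW p hp]; rfl
  have key := schur_rel_lower (P := P) (Q := Q) hs' hg hs0 hx (fun q => hD q q.2)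
    (A := fun p : P => re ⟪(p : X), H p⟫) (V := fun p : P => D0' ⟨W p, hWQ p p.2⟩)
    (W := fun p : P => ⟨W p, hWQ p p.2⟩)
    (D1 := fun q : Q => re ⟪(q : X), H q⟫ - re ⟪(q : X), D0 q⟫)
    (fun p => rfl) (fun p => by rw [hVW p p.2]; exact hV p p.2)
    (fun q => hD1 q q.2) hm hc (fun p => by rw [hVW p p.2]; exact hμ p p.2) ⟨p, hp⟩ ⟨q, hq⟩
  rw [norm_add_sq_orth (horth p hp q hq), form_add hH]
  have e1 : re ⟪D0' ⟨W p, hWQ p hp⟩, (⟨q, hq⟩ : Q)⟫ = re ⟪H p, q⟫ := by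
    rw [hVH p hp q hq, ← hW p hp]; rfl
  have e2 : re ⟪(⟨q, hq⟩ : Q), D0' ⟨q, hq⟩⟫ = re ⟪q, D0 q⟫ := rfl
  simp only [Submodule.coe_norm] at key
  rw [e1, e2] at key
  linarith

/-- One-space version of (S''), upper bound: the trial vector `p - W p`. -/
theorem schur_rel_upper_one {P Q : Submodule 𝕜 X} (horth : ∀ p ∈ P, ∀ q ∈ Q, ⟪p, q⟫ = 0)
    {H D0 : X →ₗ[𝕜] X} (hH : H.IsSymmetric)
    {g s x m μ : ℝ} (hg : 0 < g) (hs0 : 0 ≤ s) (hx : 0 ≤ x)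
    (hD : ∀ q ∈ Q, g * ‖q‖ ^ 2 ≤ re ⟪q, D0 q⟫) {V W : X → X}
    (hWQ : ∀ p ∈ P, W p ∈ Q)
    (hW : ∀ p ∈ P, D0 (W p) = V p) (hV : ∀ p ∈ P, re ⟪V p, W p⟫ ≤ s * ‖p‖ ^ 2)
    (hVH : ∀ p ∈ P, ∀ q ∈ Q, re ⟪H p, q⟫ = re ⟪V p, q⟫)
    (hD1 : ∀ q ∈ Q, |re ⟪q, H q⟫ - re ⟪q, D0 q⟫| ≤ x * re ⟪q, D0 q⟫)
    (hm : |μ| ≤ m) {p : X} (hp : p ∈ P)
    (hμ : re ⟪p, H p⟫ - re ⟪V p, W p⟫ ≤ μ * ‖p‖ ^ 2) :
    re ⟪p - W p, H (p - W p)⟫ ≤ (μ + 2 * s * (x + (m + s) / g)) * ‖p - W p‖ ^ 2 ∧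
      ‖p‖ ≤ ‖p - W p‖ := by
  have hm0 : 0 ≤ m := (abs_nonneg _).trans hm
  have hmem : W p ∈ Q := hWQ p hp
  have horth' : ⟪p, -W p⟫ = 0 := horth p hp _ (Q.neg_mem hmem)
  have hn : ‖p - W p‖ ^ 2 = ‖p‖ ^ 2 + ‖W p‖ ^ 2 := by
    rw [sub_eq_add_neg, norm_add_sq_orth horth', norm_neg]
  constructor
  · have e1 : re ⟪W p, D0 (W p)⟫ = re ⟪V p, W p⟫ := by
      rw [hW p hp, ← inner_conj_symm, conj_re]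
    have h5 := (abs_le.1 (hD1 (W p) hmem)).2
    have h6 := hD (W p) hmem
    rw [e1] at h5 h6
    have h8 := abs_le.1 hm
    have h9 := hV p hp
    have hW2 : ‖W p‖ ^ 2 ≤ s / g * ‖p‖ ^ 2 := by
      rw [div_mul_eq_mul_div, le_div_iff₀ hg]; linarith
    have h10 : -μ * ‖W p‖ ^ 2 ≤ m * (s / g * ‖p‖ ^ 2) := by
      calc -μ * ‖W p‖ ^ 2 ≤ m * ‖W p‖ ^ 2 :=
            mul_le_mul_of_nonneg_right (by linarith [h8.1]) (sq_nonneg _)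
        _ ≤ m * (s / g * ‖p‖ ^ 2) := mul_le_mul_of_nonneg_left hW2 hm0
    have h11 : x * re ⟪V p, W p⟫ ≤ x * (s * ‖p‖ ^ 2) := mul_le_mul_of_nonneg_left h9 hx
    have h12 : 0 ≤ 2 * s * (x + (m + s) / g) * ‖W p‖ ^ 2 := by positivity
    have h13 : m * (s / g * ‖p‖ ^ 2) + x * (s * ‖p‖ ^ 2) ≤
        2 * s * (x + (m + s) / g) * ‖p‖ ^ 2 := by
      have h14 : 0 ≤ s * (x + m / g + 2 * s / g) * ‖p‖ ^ 2 := by positivity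
      have h15 : 2 * s * (x + (m + s) / g) * ‖p‖ ^ 2 -
          (m * (s / g * ‖p‖ ^ 2) + x * (s * ‖p‖ ^ 2)) =
          s * (x + m / g + 2 * s / g) * ‖p‖ ^ 2 := by field_simp; ring
      linarith
    have e0 : re ⟪p - W p, H (p - W p)⟫ =
        re ⟪p, H p⟫ - 2 * re ⟪V p, W p⟫ + re ⟪W p, H (W p)⟫ := by
      have e9 : re ⟪H p, -W p⟫ = -re ⟪V p, W p⟫ := by
        rw [inner_neg_right, map_neg, hVH p hp _ hmem]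
      rw [sub_eq_add_neg, form_add hH, map_neg H, inner_neg_neg, e9]
      ring
    rw [e0, hn]
    nlinarith
  · have h1 : ‖p‖ ^ 2 ≤ ‖p - W p‖ ^ 2 := by
      rw [hn]; linarith [sq_nonneg ‖W p‖]
    exact (sq_le_sq₀ (norm_nonneg _) (norm_nonneg _)).1 h1

/-- First order lemma, one-space version, lower bound. -/
theorem schur1_lower_one {P Q : Submodule 𝕜 X} (horth : ∀ p ∈ P, ∀ q ∈ Q, ⟪p, q⟫ = 0)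
    {H : X →ₗ[𝕜] X} (hH : H.IsSymmetric) {g v μ : ℝ}
    (hD : ∀ q ∈ Q, g * ‖q‖ ^ 2 ≤ re ⟪q, H q⟫)
    (hC : ∀ p ∈ P, ∀ q ∈ Q, |re ⟪H p, q⟫| ≤ v * ‖p‖ * ‖q‖) (hgap : |μ| < g)
    (hμ : ∀ p ∈ P, μ * ‖p‖ ^ 2 ≤ re ⟪p, H p⟫) {p q : X} (hp : p ∈ P) (hq : q ∈ Q) :
    (μ - v ^ 2 / (g - |μ|)) * ‖p + q‖ ^ 2 ≤ re ⟪p + q, H (p + q)⟫ := by
  rw [norm_add_sq_orth (horth p hp q hq), form_add hH]
  exact schur1_lower (P := P) (Q := Q) (A := fun p : P => re ⟪(p : X), H p⟫)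
    (D := fun q : Q => re ⟪(q : X), H q⟫) (C := fun (p : P) (q : Q) => re ⟪H (p : X), (q : X)⟫)
    (fun q => hD q q.2) (fun p q => hC p p.2 q q.2) hgap (fun p => hμ p p.2) ⟨p, hp⟩ ⟨q, hq⟩

end One

end Crest.Agent.R338.SG
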