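import Crest.Agent.R338.SX3
import Crest.Agent.R338.SchurG

/-!
Row 338 (S0529), node SX: superexchange, part 4.  The two-sided theorem:
the Hubbard type form `energy t D` on antisymmetric site tensors has the same lower end as the
Heisenberg form `Heis J`, `J = 4 t² / Δ`, up to an explicit error.
-/

set_option autoImplicit false
set_option maxSynthPendingDepth 3

open scoped ComplexConjugate BigOperators
open Function

namespace Crest.Agent.R338.SX

variable {n : ℕ}

/-- energy of a site tensor: hopping + charge energy -/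
noncomputable def energy (t D : Fin n → Fin n → ℝ) (c : X n) : ℝ :=
  RCLike.re (inner ℂ c (hop t c)) + ∑ f, G D f * ‖c f‖ ^ 2

/-- the Heisenberg form `∑_{i<j} J_ij (⟨χ, SWAP_ij χ⟩/2 - |χ|²/4) = ∑ J_ij ⟨χ, S_i·S_j χ⟩` -/
noncomputable def Heis (J : Fin n → Fin n → ℝ) (χ : Sp n) : ℝ :=
  ∑ i, ∑ j, if i < j then J i j * (swapE i j χ / 2 - nsq χ / 4) else 0

/-- `∑_{i<j} J_ij` -/
def Js (J : Fin n → Fin n → ℝ) : ℝ := ∑ i, ∑ j, if i < j then J i j else 0

theorem sum_ne_eq_two_lt {F : Fin n → Fin n → ℝ} (hF : ∀ i j, F i j = F j i)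
    (h0 : ∀ i, F i i = 0) : ∑ i, ∑ j, F i j = 2 * ∑ i, ∑ j, if i < j then F i j else 0 := by
  have h1 : ∀ i j, F i j = (if i < j then F i j else 0) + (if j < i then F j i else 0) := by
    intro i j
    rcases lt_trichotomy i j with h | h | h
    · rw [if_pos h, if_neg (not_lt_of_gt h), add_zero]
    · subst h; simp [h0]
    · rw [if_neg (not_lt_of_gt h), if_pos h, zero_add, hF]
  calc ∑ i, ∑ j, F i j = ∑ i, ∑ j, ((if i < j then F i j else 0) + (if j < i then F j i else 0)) := by
        simp_rw [← h1]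
    _ = (∑ i, ∑ j, if i < j then F i j else 0) + ∑ i, ∑ j, (if j < i then F j i else 0) := by
        simp_rw [Finset.sum_add_distrib]
    _ = _ := by
        rw [Finset.sum_comm (f := fun i j => if j < i then F j i else 0)]
        ring

theorem swapE_symm (a b : Fin n) (χ : Sp n) : swapE a b χ = swapE b a χ := by
  rw [swapE, swapE, Equiv.swap_comm]

theorem nsq_comp (χ : Sp n) (σ : Equiv.Perm (Fin n)) :
    ∑ s : Fin n → Bool, ‖χ (s ∘ σ)‖ ^ 2 = nsq χ := by
  have := Equiv.sum_comp (σ.arrowCongr (Equiv.refl Bool)) (fun s => ‖χ s‖ ^ 2)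
  have h2 := Equiv.sum_comp (σ.symm.arrowCongr (Equiv.refl Bool)) (fun s => ‖χ s‖ ^ 2)
  rw [nsq, ← h2]
  refine Finset.sum_congr rfl fun s _ => ?_
  rfl

theorem swapE_abs (a b : Fin n) (χ : Sp n) : |swapE a b χ| ≤ nsq χ := by
  have h1 : ∀ s, |(conj (χ s) * χ (s ∘ Equiv.swap a b)).re| ≤
      (‖χ s‖ ^ 2 + ‖χ (s ∘ Equiv.swap a b)‖ ^ 2) / 2 := by
    intro s
    refine (Complex.abs_re_le_norm _).trans ?_
    rw [norm_mul, Complex.norm_conj]
    nlinarith [sq_nonneg (‖χ s‖ - ‖χ (s ∘ Equiv.swap a b)‖)]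
  calc |swapE a b χ| ≤ ∑ s, |(conj (χ s) * χ (s ∘ Equiv.swap a b)).re| :=
        Finset.abs_sum_le_sum_abs _ _
    _ ≤ ∑ s, (‖χ s‖ ^ 2 + ‖χ (s ∘ Equiv.swap a b)‖ ^ 2) / 2 := Finset.sum_le_sum fun s _ => h1 s
    _ = nsq χ := by
        rw [← Finset.sum_div, Finset.sum_add_distrib, nsq_comp]
        rw [← nsq]; ring

/-- the second order term in terms of the Heisenberg form -/
theorem second_order {J : Fin n → Fin n → ℝ} (hJs : ∀ i j, J i j = J j i)
    (hJ0 : ∀ i, J i i = 0) (χ : Sp n) :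
    ∑ a, ∑ b, (J a b / 4) * (nsq χ - swapE a b χ) = Js J / 4 * nsq χ - Heis J χ := by
  rw [sum_ne_eq_two_lt (F := fun a b => (J a b / 4) * (nsq χ - swapE a b χ))]
  · rw [Js, Heis, Finset.mul_sum, Finset.sum_div, Finset.sum_mul, ← Finset.sum_sub_distrib]
    refine Finset.sum_congr rfl fun i _ => ?_
    rw [Finset.mul_sum, Finset.sum_div, Finset.sum_mul, ← Finset.sum_sub_distrib]
    refine Finset.sum_congr rfl fun j _ => ?_
    split_ifs <;> ring
  · intro i j
    rw [hJs i j, swapE_symm]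
  · intro i; simp [hJ0]

theorem Heis_bounds {J : Fin n → Fin n → ℝ} (hJ : ∀ i j, i < j → 0 ≤ J i j) (χ : Sp n) :
    -(3 / 4 * Js J) * nsq χ ≤ Heis J χ ∧ Heis J χ ≤ Js J / 4 * nsq χ := by
  have hn := nsq_nonneg χ
  constructor
  · rw [Js, Heis, Finset.mul_sum, ← Finset.sum_neg_distrib, Finset.sum_mul]
    refine Finset.sum_le_sum fun i _ => ?_
    rw [Finset.mul_sum, ← Finset.sum_neg_distrib, Finset.sum_mul]
    refine Finset.sum_le_sum fun j _ => ?_
    split_ifs with h
    · have h1 := (abs_le.1 (swapE_abs i j χ)).1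
      have h2 := hJ i j h
      nlinarith
    · simp
  · rw [Js, Heis, Finset.sum_div, Finset.sum_mul]
    refine Finset.sum_le_sum fun i _ => ?_
    rw [Finset.sum_div, Finset.sum_mul]
    refine Finset.sum_le_sum fun j _ => ?_
    split_ifs with h
    · have h1 := (abs_le.1 (swapE_abs i j χ)).2
      have h2 := hJ i j h
      nlinarith
    · simp

theorem Js_nonneg {J : Fin n → Fin n → ℝ} (hJ : ∀ i j, i < j → 0 ≤ J i j) : 0 ≤ Js J := by
  refine Finset.sum_nonneg fun i _ => Finset.sum_nonneg fun j _ => ?_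
  split_ifs with h
  · exact hJ i j h
  · exact le_rfl

theorem occ_nonneg (f : Cfg n) (i : Fin n) : 0 ≤ occ f i :=
  Finset.sum_nonneg fun k _ => by split_ifs <;> norm_num

theorem occ_le_two {f : Cfg n} (hf : Injective f) (i : Fin n) : occ f i ≤ 2 := by
  have h1 : occ f i = ((Finset.univ.filter fun k => (f k).1 = i).card : ℤ) := by
    simp [occ]
  rw [h1]
  have h2 : (Finset.univ.filter fun k => (f k).1 = i).card ≤ (Finset.univ : Finset Bool).card := by
    refine Finset.card_le_card_of_injOn (fun k => (f k).2) (fun k _ => Finset.mem_univ _) ?_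
    intro k hk l hl hkl
    simp only [Finset.coe_filter, Finset.mem_univ, true_and, Set.mem_ofPred_eq] at hk hl
    exact hf (Prod.ext (hk.trans hl.symm) hkl)
  have h3 : (Finset.univ : Finset Bool).card = 2 := by simp
  rw [h3] at h2
  exact_mod_cast h2

theorem anti_zero {c : X n} (hc : c ∈ antiS n) {f : Cfg n} (hf : ¬ Injective f) : c f = 0 := by
  simp only [Injective, not_forall] at hf
  obtain ⟨k, l, hkl, hne⟩ := hf
  have h1 := hc (Equiv.swap k l) f
  have h2 : f ∘ Equiv.swap k l = f := by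
    funext m
    simp only [comp_apply]
    by_cases h3 : m = k
    · subst h3; rw [Equiv.swap_apply_left, hkl]
    · by_cases h4 : m = l
      · subst h4; rw [Equiv.swap_apply_right, hkl]
      · rw [Equiv.swap_apply_of_ne_of_ne h3 h4]
  rw [h2, Equiv.Perm.sign_swap hne] at h1
  simp only [Units.val_neg, Units.val_one, Int.cast_neg, Int.cast_one, neg_mul, one_mul] at h1
  have h5 : (2 : ℂ) * c f = 0 := by linear_combination h1
  simpa using h5

/-- the data of the superexchange theorem -/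
structure Data (n : ℕ) where
  /-- hopping amplitudes -/
  t : Fin n → Fin n → ℝ
  /-- charging matrix -/
  D : Fin n → Fin n → ℝ
  /-- exchange couplings -/
  J : Fin n → Fin n → ℝ
  /-- charging gap -/
  g : ℝ
  ht : ∀ a b, t a b = t b a
  ht0 : ∀ a, t a a = 0
  hD : ∀ a b, D a b = D b a
  hg : 0 < g
  hDg : ∀ δ : Fin n → ℤ, (∀ i, |δ i| ≤ 1) → ∑ i, δ i = 0 → δ ≠ 0 →
    2 * g ≤ ∑ i, ∑ j, D i j * ((δ i : ℝ) * (δ j : ℝ))
  hJ : ∀ a b, J a b * Del D a b = 4 * t a b ^ 2
  hJ0 : ∀ a, J a a = 0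

namespace Data

variable (d : Data n)

/-- `∑ |t_ab|` -/
def tau : ℝ := ∑ a, ∑ b, |d.t a b|

theorem tau_nonneg : 0 ≤ d.tau :=
  Finset.sum_nonneg fun _ _ => Finset.sum_nonneg fun _ _ => abs_nonneg _

theorem G_ge {f : Cfg n} (hf : ¬ B f) (hinj : Injective f) : d.g ≤ G d.D f := by
  have h1 := d.hDg (fun i => occ f i - 1) (fun i => by
    have h1 := occ_nonneg f i
    have h2 := occ_le_two hinj i
    rw [abs_le]; constructor <;> omega) (occ_sum f) (fun h => hf (B_of_occ fun i => by
    have := congrFun h i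
    simp only [Pi.zero_apply] at this
    omega))
  rw [G]
  linarith

theorem Del_ge {a b : Fin n} (hab : a ≠ b) : d.g ≤ Del d.D a b := by
  have h1 := d.hDg (fun i => (if a = i then 1 else 0) - (if b = i then 1 else 0)) (fun i => by
    split_ifs <;> simp) (by
    simp [Finset.sum_sub_distrib]) (fun h => by
    have := congrFun h a
    simp [hab.symm] at this)
  have h2 : (∑ i, ∑ j, d.D i j * (((((if a = i then 1 else 0) - (if b = i then 1 else 0) : ℤ)) : ℝ) *
      ((((if a = j then 1 else 0) - (if b = j then 1 else 0) : ℤ)) : ℝ))) = 2 * Del d.D a b := by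
    have h1 : ∀ i j, d.D i j * (((((if a = i then 1 else 0) - (if b = i then 1 else 0) : ℤ)) : ℝ) *
      ((((if a = j then 1 else 0) - (if b = j then 1 else 0) : ℤ)) : ℝ)) =
        (if a = i then (if a = j then d.D i j else 0) else 0) -
        (if a = i then (if b = j then d.D i j else 0) else 0) -
        (if b = i then (if a = j then d.D i j else 0) else 0) +
        (if b = i then (if b = j then d.D i j else 0) else 0) := by
      intro i j
      split_ifs <;> push_cast <;> ring
    simp only [h1, Finset.sum_add_distrib, Finset.sum_sub_distrib]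
    have h2 : ∀ x y : Fin n, (∑ i, ∑ j, if x = i then (if y = j then d.D i j else 0) else 0) =
        d.D x y := by
      intro x y
      rw [Finset.sum_eq_single x]
      · simp
      · intro b _ hb
        simp [Ne.symm hb]
      · simp
    rw [h2, h2, h2, h2]
    simp only [Del]
    rw [d.hD b a]
    ring
  rw [h2] at h1
  linarith

theorem Del_pos {a b : Fin n} (hab : a ≠ b) : 0 < Del d.D a b := d.hg.trans_le (d.Del_ge hab)

theorem J_symm (a b : Fin n) : d.J a b = d.J b a := by
  by_cases h : a = b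
  · subst h; rfl
  · have h1 := d.hJ a b
    have h2 := d.hJ b a
    rw [Del_symm d.hD b a, d.ht b a, ← h1] at h2
    exact (mul_right_cancel₀ (d.Del_pos h).ne' h2).symm

theorem J_nonneg (a b : Fin n) : 0 ≤ d.J a b := by
  by_cases h : a = b
  · subst h; rw [d.hJ0]
  · have h1 := d.hJ a b
    by_contra hneg
    push Not at hneg
    have := mul_neg_of_neg_of_pos hneg (d.Del_pos h)
    nlinarith [sq_nonneg (d.t a b)]

/-- the Hamiltonian -/
noncomputable def H : X n →ₗ[ℂ] X n := hop d.t + diag (G d.D)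

theorem H_symm : d.H.IsSymmetric := by
  intro x y
  rw [H, LinearMap.add_apply, LinearMap.add_apply, inner_add_left, inner_add_right,
    hop_symm d.ht x y, diag_symm (G d.D) x y]

theorem energy_eq (c : X n) : energy d.t d.D c = RCLike.re (inner ℂ c (d.H c)) := by
  rw [energy, H, LinearMap.add_apply, inner_add_right, map_add, diag_inner]

theorem diag_PS {p : X n} (hp : p ∈ PS n) : diag (G d.D) p = 0 := by
  ext f
  rw [diag_apply]
  by_cases h : B f
  · rw [G_B _ h]; simp
  · rw [hp.2 f h]; simp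

theorem diag_QS {q : X n} (hq : q ∈ QS n) : diag (G d.D) q ∈ QS n := by
  refine ⟨fun σ f => ?_, fun f hf => ?_⟩
  · rw [diag_apply, diag_apply, G_comp, hq.1 σ f]; ring
  · rw [diag_apply, hq.2 f hf, mul_zero]

theorem gap_QS {q : X n} (hq : q ∈ QS n) :
    d.g * ‖q‖ ^ 2 ≤ RCLike.re (inner ℂ q (diag (G d.D) q)) := by
  rw [diag_inner, norm_sq_def, Finset.mul_sum]
  refine Finset.sum_le_sum fun f _ => ?_
  by_cases h : B f
  · rw [hq.2 f h]; simp
  · by_cases hinj : Injective f
    · exact mul_le_mul_of_nonneg_right (d.G_ge h hinj) (by positivity)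
    · rw [anti_zero hq.1 hinj]; simp

/-- `V = hopping` on `PS` -/
noncomputable def V (p : X n) : X n := hop d.t p

/-- `W = D0⁻¹ V` -/
noncomputable def W (p : X n) : X n :=
  ∑ a, ∑ b, ((d.t a b / Del d.D a b : ℝ) : ℂ) • K a b p

theorem V_mem {p : X n} (hp : p ∈ PS n) : d.V p ∈ QS n := by
  rw [V, hop_apply]
  refine Submodule.sum_mem _ fun a _ => Submodule.sum_mem _ fun b _ => ?_
  by_cases h : a = b
  · subst h; rw [d.ht0]; simp
  · exact Submodule.smul_mem _ _ (K_mem_Q h hp)

theorem W_mem {p : X n} (hp : p ∈ PS n) : d.W p ∈ QS n := by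
  refine Submodule.sum_mem _ fun a _ => Submodule.sum_mem _ fun b _ => ?_
  by_cases h : a = b
  · subst h; rw [d.ht0]; simp
  · exact Submodule.smul_mem _ _ (K_mem_Q h hp)

theorem diag_W {p : X n} (hp : p ∈ PS n) : diag (G d.D) (d.W p) = d.V p := by
  rw [W, V, hop_apply, map_sum]
  refine Finset.sum_congr rfl fun a _ => ?_
  rw [map_sum]
  refine Finset.sum_congr rfl fun b _ => ?_
  rw [map_smul]
  by_cases h : a = b
  · subst h; rw [d.ht0]; simp
  · rw [diag_K d.hD hp, smul_smul, ← Complex.ofReal_mul, div_mul_cancel₀ _ (d.Del_pos h).ne']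

theorem VW {p : X n} (hp : p ∈ PS n) : RCLike.re (inner ℂ (d.V p) (d.W p)) =
    n.factorial * (Js d.J / 4 * nsq (spin p) - Heis d.J (spin p)) := by
  rw [← second_order d.J_symm d.hJ0]
  rw [V, W, hop_apply]
  simp only [sum_inner, inner_sum, inner_smul_left, inner_smul_right, Complex.conj_ofReal,
    map_sum]
  rw [Finset.mul_sum]
  refine Finset.sum_congr rfl fun a _ => ?_
  rw [Finset.mul_sum]
  refine Finset.sum_congr rfl fun b _ => ?_
  by_cases h : a = b
  · subst h
    simp [d.ht0, d.hJ0]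
  · rw [Finset.sum_eq_single a]
    · rw [Finset.sum_eq_single b]
      · have e1 : RCLike.re (((d.t a b / Del d.D a b : ℝ) : ℂ) * (((d.t a b : ℝ) : ℂ) *
            inner ℂ (K a b p) (K a b p))) =
            ((d.t a b / Del d.D a b) * d.t a b) * RCLike.re (inner ℂ (K a b p) (K a b p)) := by
          rw [← mul_assoc, ← Complex.ofReal_mul]
          exact Complex.re_ofReal_mul _ _
        rw [e1, K_norm_sq h hp]
        have e2 : (d.t a b / Del d.D a b) * d.t a b = d.J a b / 4 := by
          have h3 := d.hJ a b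
          have h4 := (d.Del_pos h).ne'
          field_simp
          nlinarith
        rw [e2]; ring
      · intro b' _ hb'
        by_cases h5 : a = b'
        · subst h5; simp [d.ht0]
        · have h6 : (a, b') ≠ (a, b) := fun e => hb' (Prod.ext_iff.1 e).2
          rw [K_orth h5 h h6 hp]
          simp
      · intro h5; exact absurd (Finset.mem_univ _) h5
    · intro a' _ ha'
      refine Finset.sum_eq_zero fun b' _ => ?_
      by_cases h5 : a' = b'
      · subst h5; simp [d.ht0]
      · have h6 : (a', b') ≠ (a, b) := fun e => ha' (Prod.ext_iff.1 e).1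
        rw [K_orth h5 h h6 hp]
        simp
    · intro h5; exact absurd (Finset.mem_univ _) h5

/-- relative size of the hopping -/
noncomputable def x : ℝ := n * d.tau / d.g

/-- total error -/
noncomputable def err : ℝ := 2 * Js d.J * (d.x + 2 * Js d.J / d.g)

theorem x_nonneg : 0 ≤ d.x := by
  have := d.tau_nonneg
  have := d.hg
  unfold x; positivity

theorem hop_rel {q : X n} (hq : q ∈ QS n) :
    |RCLike.re (inner ℂ q (d.H q)) - RCLike.re (inner ℂ q (diag (G d.D) q))| ≤
      d.x * RCLike.re (inner ℂ q (diag (G d.D) q)) := by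
  rw [H, LinearMap.add_apply, inner_add_right, map_add, add_sub_cancel_right]
  have h1 : |RCLike.re (inner ℂ q (hop d.t q))| ≤ (n * d.tau) * ‖q‖ ^ 2 := by
    refine (RCLike.abs_re_le_norm _).trans ((norm_inner_le_norm _ _).trans ?_)
    calc ‖q‖ * ‖hop d.t q‖ ≤ ‖q‖ * ((n * d.tau) * ‖q‖) := by
          gcongr; exact hop_norm d.t q
      _ = (n * d.tau) * ‖q‖ ^ 2 := by ring
  have h2 := d.gap_QS hq
  have h3 : (n * d.tau) * ‖q‖ ^ 2 = d.x * (d.g * ‖q‖ ^ 2) := by
    unfold x
    have := d.hg.ne'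
    field_simp
  rw [h3] at h1
  exact h1.trans (mul_le_mul_of_nonneg_left h2 d.x_nonneg)

theorem VH {p q : X n} (hp : p ∈ PS n) :
    RCLike.re (inner ℂ (d.H p) q) = RCLike.re (inner ℂ (d.V p) q) := by
  rw [H, LinearMap.add_apply, d.diag_PS hp, add_zero, V]

theorem PHP {p : X n} (hp : p ∈ PS n) : RCLike.re (inner ℂ p (d.H p)) = 0 := by
  rw [H, LinearMap.add_apply, d.diag_PS hp, add_zero]
  have := PQ_orth hp (d.V_mem hp)
  rw [V] at this
  rw [this]; simp

theorem VW_le {p : X n} (hp : p ∈ PS n) :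
    RCLike.re (inner ℂ (d.V p) (d.W p)) ≤ Js d.J * ‖p‖ ^ 2 := by
  rw [d.VW hp, norm_sq_PS hp]
  have h1 := (Heis_bounds (fun i j _ => d.J_nonneg i j) (spin p)).1
  have h2 : (0 : ℝ) ≤ n.factorial := by positivity
  nlinarith

/-- **Superexchange, lower bound.** -/
theorem lower (hc : d.x + 2 * Js d.J / d.g ≤ 1 / 2) {e : ℝ}
    (he : ∀ χ : Sp n, e * nsq χ ≤ Heis d.J χ) {c : X n} (hcs : c ∈ antiS n) :
    (e - Js d.J / 4 - d.err) * ‖c‖ ^ 2 ≤ energy d.t d.D c := by
  obtain ⟨p, hp, q, hq, rfl⟩ := exists_split hcs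
  have hJ : ∀ i j, i < j → 0 ≤ d.J i j := fun i j _ => d.J_nonneg i j
  have hs0 : 0 ≤ Js d.J := Js_nonneg hJ
  -- replace `e` by a bounded value
  set e' := max (min e (Js d.J / 4)) (-(3 / 4 * Js d.J)) with he'
  have hb1 : e' ≤ Js d.J / 4 := max_le (min_le_right _ _) (by linarith)
  have hb2 : -(3 / 4 * Js d.J) ≤ e' := le_max_right _ _
  have he1 : ∀ χ : Sp n, e' * nsq χ ≤ Heis d.J χ := by
    intro χ
    rcases le_total (min e (Js d.J / 4)) (-(3 / 4 * Js d.J)) with h | h
    · rw [he', max_eq_right h]; exact (Heis_bounds hJ χ).1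
    · rw [he', max_eq_left h]
      exact (mul_le_mul_of_nonneg_right (min_le_left _ _) (nsq_nonneg χ)).trans (he χ)
  have key := SG.schur_rel_lower_one (𝕜 := ℂ) (X := X n) (P := PS n) (Q := QS n)
    (fun p hp q hq => PQ_orth hp hq) d.H_symm (diag_symm (G d.D)) (fun q hq => d.diag_QS hq)
    d.hg hs0 d.x_nonneg (fun q hq => d.gap_QS hq) (V := d.V) (W := d.W)
    (fun p hp => d.W_mem hp) (fun p hp => d.diag_W hp) (fun p hp => d.VW_le hp)
    (fun p hp q _ => d.VH hp) (fun q hq => d.hop_rel hq) (m := Js d.J)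
    (μ := e' - Js d.J / 4) (abs_le.2 ⟨by linarith, by linarith⟩)
    (by have : d.x + (Js d.J + Js d.J) / d.g = d.x + 2 * Js d.J / d.g := by ring
        rw [this]; exact hc)
    (fun p hp => by
      rw [d.PHP hp, d.VW hp, norm_sq_PS hp]
      have h1 := he1 (spin p)
      have h2 : (0 : ℝ) ≤ n.factorial := by positivity
      nlinarith) hp hq
  rw [d.energy_eq]
  have herr : 2 * Js d.J * (d.x + (Js d.J + Js d.J) / d.g) = d.err := by
    unfold err; ring
  rw [herr] at key
  by_cases hee : e ≤ Js d.J / 4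
  · have h3 : e ≤ e' := by
      rw [he', min_eq_left hee]; exact le_max_left _ _
    refine le_trans ?_ key
    exact mul_le_mul_of_nonneg_right (by linarith) (sq_nonneg _)
  · -- then the space of spin vectors would be trivial, impossible
    exfalso
    push Not at hee
    have h1 := he (fun _ => 1)
    have h2 := (Heis_bounds hJ (fun _ => 1)).2
    have h3 : 0 < nsq (fun _ : Fin n → Bool => (1 : ℂ)) := by
      unfold nsq; simp
    nlinarith

/-- **Superexchange, upper bound.** -/
theorem upper {χ : Sp n} (hχ : 0 < nsq χ) {e : ℝ} (he : Heis d.J χ ≤ e * nsq χ) :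
    ∃ c ∈ antiS n, 0 < ‖c‖ ∧ energy d.t d.D c ≤ (e - Js d.J / 4 + d.err) * ‖c‖ ^ 2 := by
  have hJ : ∀ i j, i < j → 0 ≤ d.J i j := fun i j _ => d.J_nonneg i j
  have hs0 : 0 ≤ Js d.J := Js_nonneg hJ
  set e' := Heis d.J χ / nsq χ with he'
  have hee : e' ≤ e := by rw [he', div_le_iff₀ hχ]; exact he
  have hb1 : e' ≤ Js d.J / 4 := by rw [he', div_le_iff₀ hχ]; exact (Heis_bounds hJ χ).2
  have hb2 : -(3 / 4 * Js d.J) ≤ e' := by
    rw [he', le_div_iff₀ hχ]; exact (Heis_bounds hJ χ).1
  have heq : Heis d.J χ = e' * nsq χ := by rw [he']; field_simp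
  have hp := Phi_mem χ
  have key := SG.schur_rel_upper_one (𝕜 := ℂ) (X := X n) (P := PS n) (Q := QS n)
    (fun p hp q hq => PQ_orth hp hq) (D0 := diag (G d.D)) d.H_symm
    d.hg hs0 d.x_nonneg (fun q hq => d.gap_QS hq) (V := d.V) (W := d.W)
    (fun p hp => d.W_mem hp) (fun p hp => d.diag_W hp) (fun p hp => d.VW_le hp)
    (fun p hp q _ => d.VH hp) (fun q hq => d.hop_rel hq) (m := Js d.J)
    (μ := e' - Js d.J / 4) (abs_le.2 ⟨by linarith, by linarith⟩) hp
    (by
      rw [d.PHP hp, d.VW hp, norm_sq_PS hp, spin_Phi, heq]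
      exact le_of_eq (by ring))
  refine ⟨Phi χ - d.W (Phi χ), (antiS n).sub_mem hp.1 (d.W_mem hp).1, ?_, ?_⟩
  · refine lt_of_lt_of_le ?_ key.2
    have h1 : 0 < ‖Phi χ‖ ^ 2 := by
      rw [norm_sq_PS hp, spin_Phi]
      positivity
    rcases (norm_nonneg (Phi χ)).eq_or_lt with h2 | h2
    · rw [← h2] at h1; norm_num at h1
    · exact h2
  · rw [d.energy_eq]
    refine key.1.trans ?_
    refine mul_le_mul_of_nonneg_right ?_ (sq_nonneg _)
    have herr : 2 * Js d.J * (d.x + (Js d.J + Js d.J) / d.g) = d.err := by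
      unfold err; ring
    rw [herr]
    linarith

end Data

end Crest.Agent.R338.SX
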