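import Crest.Agent.R338.BHDefs

/-!
# Row 338, node BH2 (helper695), file 1: bilinear one- and two-body forms on tensors

`b1`, `b2` : sesquilinear versions of `form1`, `form2`; crude bounds; embedding of tensors along an
injection of the orbitals.
-/

set_option autoImplicit false
set_option linter.unusedSectionVars false

noncomputable section

open Function
open scoped ComplexConjugate BigOperators

namespace Crest.Agent.R338.Sel

section gen

variable {V : Type} [Fintype V] [DecidableEq V] {n : ℕ}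

/-- bilinear one-body form -/
def b1 (h : V → V → ℝ) (D E : (Fin n → V) → ℂ) : ℝ :=
  ∑ i, ∑ v : Fin n → V, ∑ b, h (v i) b * (conj (D v) * E (update v i b)).re

/-- bilinear two-body form -/
def b2 (W : V → V → V → V → ℝ) (D E : (Fin n → V) → ℂ) : ℝ :=
  ∑ i, ∑ j, if i < j then ∑ v : Fin n → V, ∑ b, ∑ d, W (v i) b (v j) d *
    (conj (D v) * E (update (update v i b) j d)).re else 0

theorem form1_eq_b1 (h : V → V → ℝ) (D : (Fin n → V) → ℂ) : form1 h D = b1 h D D := rfl

theorem form2_eq_b2 (W : V → V → V → V → ℝ) (D : (Fin n → V) → ℂ) : form2 W D = b2 W D D := rfl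

theorem b1_add_left (h : V → V → ℝ) (D D' E : (Fin n → V) → ℂ) :
    b1 h (D + D') E = b1 h D E + b1 h D' E := by
  simp only [b1, ← Finset.sum_add_distrib]
  refine Finset.sum_congr rfl fun i _ => Finset.sum_congr rfl fun v _ =>
    Finset.sum_congr rfl fun b _ => ?_
  rw [Pi.add_apply, map_add, add_mul, Complex.add_re]; ring

theorem b1_add_right (h : V → V → ℝ) (D E E' : (Fin n → V) → ℂ) :
    b1 h D (E + E') = b1 h D E + b1 h D E' := by
  simp only [b1, ← Finset.sum_add_distrib]
  refine Finset.sum_congr rfl fun i _ => Finset.sum_congr rfl fun v _ =>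
    Finset.sum_congr rfl fun b _ => ?_
  rw [Pi.add_apply, mul_add, Complex.add_re]; ring

theorem b1_add_mat (h h' : V → V → ℝ) (D E : (Fin n → V) → ℂ) :
    b1 (fun a b => h a b + h' a b) D E = b1 h D E + b1 h' D E := by
  simp only [b1, ← Finset.sum_add_distrib, add_mul]

theorem b2_add_left (W : V → V → V → V → ℝ) (D D' E : (Fin n → V) → ℂ) :
    b2 W (D + D') E = b2 W D E + b2 W D' E := by
  simp only [b2, ← Finset.sum_add_distrib]
  refine Finset.sum_congr rfl fun i _ => Finset.sum_congr rfl fun j _ => ?_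
  split_ifs
  · simp only [← Finset.sum_add_distrib]
    refine Finset.sum_congr rfl fun v _ => Finset.sum_congr rfl fun b _ =>
      Finset.sum_congr rfl fun d _ => ?_
    rw [Pi.add_apply, map_add, add_mul, Complex.add_re]; ring
  · simp

theorem b2_add_right (W : V → V → V → V → ℝ) (D E E' : (Fin n → V) → ℂ) :
    b2 W D (E + E') = b2 W D E + b2 W D E' := by
  simp only [b2, ← Finset.sum_add_distrib]
  refine Finset.sum_congr rfl fun i _ => Finset.sum_congr rfl fun j _ => ?_
  split_ifs
  · simp only [← Finset.sum_add_distrib]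
    refine Finset.sum_congr rfl fun v _ => Finset.sum_congr rfl fun b _ =>
      Finset.sum_congr rfl fun d _ => ?_
    rw [Pi.add_apply, mul_add, Complex.add_re]; ring
  · simp

/-- `(v, b) ↦ (update v i b, v i)` -/
def swapE (V : Type) [DecidableEq V] (i : Fin n) : (Fin n → V) × V ≃ (Fin n → V) × V where
  toFun p := (update p.1 i p.2, p.1 i)
  invFun p := (update p.1 i p.2, p.1 i)
  left_inv p := by simp
  right_inv p := by simp

theorem sum_update (F : (Fin n → V) → ℝ) (i : Fin n) :
    ∑ v : Fin n → V, ∑ b, F (update v i b) = Fintype.card V * ∑ v, F v := by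
  have h := (swapE V i).sum_comp (fun p : (Fin n → V) × V => F p.1)
  rw [Fintype.sum_prod_type, Fintype.sum_prod_type] at h
  rw [show (∑ v : Fin n → V, ∑ b, F (update v i b)) =
    ∑ x : Fin n → V, ∑ y, F ((swapE V i) (x, y)).1 from rfl, h, Finset.mul_sum]
  refine Finset.sum_congr rfl fun v _ => ?_
  simp

theorem tnSq_nonneg (D : (Fin n → V) → ℂ) : 0 ≤ tnSq D :=
  Finset.sum_nonneg fun _ _ => by positivity

theorem amgm {x y t : ℝ} (ht : 0 < t) : x * y ≤ (t * x ^ 2 + t⁻¹ * y ^ 2) / 2 := by
  have h : 0 ≤ t⁻¹ * (t * x - y) ^ 2 := by positivity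
  have e : t⁻¹ * (t * x - y) ^ 2 = t * x ^ 2 + t⁻¹ * y ^ 2 - 2 * (x * y) := by
    field_simp; ring
  linarith

theorem term_le {H t : ℝ} (hH : 0 ≤ H) (ht : 0 < t) {x : ℝ} (hx : |x| ≤ H) (z w : ℂ) :
    |x * (conj z * w).re| ≤ H * ((t * ‖z‖ ^ 2 + t⁻¹ * ‖w‖ ^ 2) / 2) := by
  rw [abs_mul]
  refine mul_le_mul hx ?_ (abs_nonneg _) hH
  refine (Complex.abs_re_le_norm _).trans ?_
  rw [norm_mul, Complex.norm_conj]
  exact amgm ht

theorem abs_b1_le {h : V → V → ℝ} {H t : ℝ} (hH : 0 ≤ H) (hh : ∀ a b, |h a b| ≤ H) (ht : 0 < t)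
    (D E : (Fin n → V) → ℂ) :
    |b1 h D E| ≤ n * (Fintype.card V * H) * ((t * tnSq D + t⁻¹ * tnSq E) / 2) := by
  have key : ∀ i : Fin n, |∑ v : Fin n → V, ∑ b, h (v i) b * (conj (D v) * E (update v i b)).re| ≤
      (Fintype.card V * H) * ((t * tnSq D + t⁻¹ * tnSq E) / 2) := by
    intro i
    calc |∑ v : Fin n → V, ∑ b, h (v i) b * (conj (D v) * E (update v i b)).re|
        ≤ ∑ v : Fin n → V, ∑ b, H * ((t * ‖D v‖ ^ 2 + t⁻¹ * ‖E (update v i b)‖ ^ 2) / 2) := by
          refine (Finset.abs_sum_le_sum_abs _ _).trans (Finset.sum_le_sum fun v _ => ?_)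
          refine (Finset.abs_sum_le_sum_abs _ _).trans (Finset.sum_le_sum fun b _ => ?_)
          exact term_le hH ht (hh _ _) _ _
      _ = H * t / 2 * (∑ v : Fin n → V, ∑ _b : V, ‖D v‖ ^ 2) +
          H * t⁻¹ / 2 * (∑ v : Fin n → V, ∑ b, ‖E (update v i b)‖ ^ 2) := by
          simp only [Finset.mul_sum, ← Finset.sum_add_distrib]
          refine Finset.sum_congr rfl fun v _ => Finset.sum_congr rfl fun b _ => ?_
          ring
      _ = (Fintype.card V * H) * ((t * tnSq D + t⁻¹ * tnSq E) / 2) := by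
          rw [sum_update (fun v => ‖E v‖ ^ 2) i]
          have : (∑ v : Fin n → V, ∑ _b : V, ‖D v‖ ^ 2) = Fintype.card V * tnSq D := by
            simp [tnSq, Finset.mul_sum]
          rw [this]
          simp only [tnSq]
          ring
  calc |b1 h D E| ≤ ∑ _i : Fin n, (Fintype.card V * H) * ((t * tnSq D + t⁻¹ * tnSq E) / 2) :=
        (Finset.abs_sum_le_sum_abs _ _).trans (Finset.sum_le_sum fun i _ => key i)
    _ = _ := by
        simp only [Finset.sum_const, Finset.card_univ, Fintype.card_fin, nsmul_eq_mul]; ring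

theorem abs_b2_le {W : V → V → V → V → ℝ} {H t : ℝ} (hH : 0 ≤ H) (hW : ∀ a b c d, |W a b c d| ≤ H)
    (ht : 0 < t) (D E : (Fin n → V) → ℂ) :
    |b2 W D E| ≤ n ^ 2 * ((Fintype.card V) ^ 2 * H) * ((t * tnSq D + t⁻¹ * tnSq E) / 2) := by
  have hnn : 0 ≤ (t * tnSq D + t⁻¹ * tnSq E) / 2 := by
    have := tnSq_nonneg D; have := tnSq_nonneg E; positivity
  have key : ∀ i j : Fin n, |if i < j then ∑ v : Fin n → V, ∑ b, ∑ d, W (v i) b (v j) d *
      (conj (D v) * E (update (update v i b) j d)).re else 0| ≤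
      ((Fintype.card V) ^ 2 * H) * ((t * tnSq D + t⁻¹ * tnSq E) / 2) := by
    intro i j
    split_ifs
    · calc |∑ v : Fin n → V, ∑ b, ∑ d, W (v i) b (v j) d *
            (conj (D v) * E (update (update v i b) j d)).re|
          ≤ ∑ v : Fin n → V, ∑ b, ∑ d, H * ((t * ‖D v‖ ^ 2 +
              t⁻¹ * ‖E (update (update v i b) j d)‖ ^ 2) / 2) := by
            refine (Finset.abs_sum_le_sum_abs _ _).trans (Finset.sum_le_sum fun v _ => ?_)
            refine (Finset.abs_sum_le_sum_abs _ _).trans (Finset.sum_le_sum fun b _ => ?_)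
            refine (Finset.abs_sum_le_sum_abs _ _).trans (Finset.sum_le_sum fun d _ => ?_)
            exact term_le hH ht (hW _ _ _ _) _ _
        _ = H * t / 2 * (∑ v : Fin n → V, ∑ _b : V, ∑ _d : V, ‖D v‖ ^ 2) +
            H * t⁻¹ / 2 * (∑ v : Fin n → V, ∑ b, ∑ d, ‖E (update (update v i b) j d)‖ ^ 2) := by
            simp only [Finset.mul_sum, ← Finset.sum_add_distrib]
            refine Finset.sum_congr rfl fun v _ => Finset.sum_congr rfl fun b _ =>
              Finset.sum_congr rfl fun d _ => ?_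
            ring
        _ = ((Fintype.card V) ^ 2 * H) * ((t * tnSq D + t⁻¹ * tnSq E) / 2) := by
            have e1 : (∑ v : Fin n → V, ∑ b, ∑ d, ‖E (update (update v i b) j d)‖ ^ 2) =
                (Fintype.card V) ^ 2 * tnSq E := by
              have h1 := sum_update (fun v : Fin n → V => ∑ d, ‖E (update v j d)‖ ^ 2) i
              have h2 := sum_update (fun v : Fin n → V => ‖E v‖ ^ 2) j
              rw [h1, h2]
              simp only [tnSq]; ring
            have e2 : (∑ v : Fin n → V, ∑ _b : V, ∑ _d : V, ‖D v‖ ^ 2) =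
                (Fintype.card V) ^ 2 * tnSq D := by
              simp only [Finset.sum_const, Finset.card_univ, nsmul_eq_mul, tnSq, Finset.mul_sum]
              refine Finset.sum_congr rfl fun v _ => ?_
              ring
            rw [e1, e2]; ring
    · rw [abs_zero]; positivity
  calc |b2 W D E| ≤ ∑ _i : Fin n, ∑ _j : Fin n,
        ((Fintype.card V) ^ 2 * H) * ((t * tnSq D + t⁻¹ * tnSq E) / 2) := by
        refine (Finset.abs_sum_le_sum_abs _ _).trans (Finset.sum_le_sum fun i _ => ?_)
        exact (Finset.abs_sum_le_sum_abs _ _).trans (Finset.sum_le_sum fun j _ => key i j)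
    _ = _ := by
        simp only [Finset.sum_const, Finset.card_univ, Fintype.card_fin, nsmul_eq_mul]; ring

/-- diagonal one-body form -/
theorem b1_diag (ε : V → ℝ) (D : (Fin n → V) → ℂ) :
    b1 (fun a b => if a = b then ε a else 0) D D = ∑ v : Fin n → V, (∑ i, ε (v i)) * ‖D v‖ ^ 2 := by
  unfold b1
  rw [Finset.sum_comm]
  refine Finset.sum_congr rfl fun v _ => ?_
  rw [Finset.sum_mul]
  refine Finset.sum_congr rfl fun i _ => ?_
  rw [Finset.sum_eq_single (v i)]
  · beta_reduce
    rw [if_pos rfl, update_eq_self, Complex.conj_mul']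
    norm_cast
  · intro b _ hb
    beta_reduce
    rw [if_neg (Ne.symm hb), zero_mul]
  · intro h; exact absurd (Finset.mem_univ _) h

end gen

/-! ### embedding along an injection of the orbitals -/

section emb

variable {U V : Type} [Fintype U] [DecidableEq U] [Fintype V] [DecidableEq V] {n : ℕ}

/-- extension by zero -/
def ext (g : U → V) (c : (Fin n → U) → ℂ) : (Fin n → V) → ℂ :=
  Function.extend (fun f : Fin n → U => g ∘ f) c 0

variable {g : U → V} (hg : Injective g)

include hg

theorem comp_inj : Injective (fun f : Fin n → U => g ∘ f) := hg.comp_left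

theorem ext_comp (c : (Fin n → U) → ℂ) (f : Fin n → U) : ext g c (g ∘ f) = c f :=
  (comp_inj hg).extend_apply c 0 f

omit hg [Fintype U] [DecidableEq U] [Fintype V] [DecidableEq V] in
theorem ext_not (c : (Fin n → U) → ℂ) {v : Fin n → V} (hv : ¬ ∃ f : Fin n → U, g ∘ f = v) :
    ext g c v = 0 :=
  Function.extend_apply' _ _ _ hv

omit hg [Fintype U] [DecidableEq U] [Fintype V] [DecidableEq V] in
theorem range_iff (v : Fin n → V) : (∃ f : Fin n → U, g ∘ f = v) ↔ ∀ i, ∃ u, g u = v i := by
  constructor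
  · rintro ⟨f, rfl⟩ i
    exact ⟨f i, rfl⟩
  · intro h
    choose f hf using h
    exact ⟨f, funext hf⟩

/-- sums over the embedded configurations -/
theorem sum_ext (F : (Fin n → V) → ℝ) (hF : ∀ v, (¬ ∃ f : Fin n → U, g ∘ f = v) → F v = 0) :
    ∑ v, F v = ∑ f : Fin n → U, F (g ∘ f) :=
  (Fintype.sum_of_injective (fun f : Fin n → U => g ∘ f) (comp_inj hg) _ F
    (fun v hv => hF v hv) fun _ => rfl).symm

theorem sum_ext1 (F : V → ℝ) (hF : ∀ v, (¬ ∃ u, g u = v) → F v = 0) :
    ∑ v, F v = ∑ u : U, F (g u) :=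
  (Fintype.sum_of_injective g hg _ F (fun v hv => hF v hv) fun _ => rfl).symm

theorem tnSq_ext (c : (Fin n → U) → ℂ) : tnSq (ext g c) = tnSq c := by
  unfold tnSq
  rw [sum_ext hg _ (fun v hv => by rw [ext_not c hv]; simp)]
  refine Finset.sum_congr rfl fun f _ => ?_
  rw [ext_comp hg]

theorem anti_ext {c : (Fin n → U) → ℂ} (hc : AntiSym c) : AntiSym (ext g c) := by
  intro σ v
  by_cases hv : ∃ f : Fin n → U, g ∘ f = v
  · obtain ⟨f, rfl⟩ := hv
    rw [comp_assoc, ext_comp hg, ext_comp hg, hc]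
  · have hv' : ¬ ∃ f : Fin n → U, g ∘ f = v ∘ σ := by
      rintro ⟨f, hf⟩
      refine hv ⟨f ∘ σ.symm, ?_⟩
      rw [← comp_assoc, hf, comp_assoc]
      simp
    rw [ext_not c hv, ext_not c hv', mul_zero]

omit hg in
theorem update_comp (f : Fin n → U) (i : Fin n) (u : U) :
    update (g ∘ f) i (g u) = g ∘ update f i u := by
  rw [Function.comp_update]

omit hg [Fintype U] [DecidableEq U] [Fintype V] in
theorem ext_update_not (c : (Fin n → U) → ℂ) (v : Fin n → V) (i : Fin n) {b : V}
    (hb : ¬ ∃ u, g u = b) : ext g c (update v i b) = 0 := by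
  refine ext_not c ?_
  rw [range_iff]
  intro h
  have := h i
  rw [update_self] at this
  exact hb this

theorem b1_ext (h : V → V → ℝ) (c d : (Fin n → U) → ℂ) :
    b1 h (ext g c) (ext g d) = b1 (fun a b => h (g a) (g b)) c d := by
  unfold b1
  refine Finset.sum_congr rfl fun i _ => ?_
  rw [sum_ext hg _ (fun v hv => by rw [ext_not c hv]; simp)]
  refine Finset.sum_congr rfl fun f _ => ?_
  rw [sum_ext1 hg _ (fun b hb => by rw [ext_update_not d _ i hb]; simp)]
  refine Finset.sum_congr rfl fun u _ => ?_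
  rw [update_comp, ext_comp hg, ext_comp hg, comp_apply]

theorem b2_ext (W : V → V → V → V → ℝ) (c d : (Fin n → U) → ℂ) :
    b2 W (ext g c) (ext g d) = b2 (fun a b a' b' => W (g a) (g b) (g a') (g b')) c d := by
  unfold b2
  refine Finset.sum_congr rfl fun i _ => Finset.sum_congr rfl fun j _ => ?_
  by_cases hij : i < j
  · rw [if_pos hij, if_pos hij]
    rw [sum_ext hg _ (fun v hv => by rw [ext_not c hv]; simp)]
    refine Finset.sum_congr rfl fun f _ => ?_
    rw [sum_ext1 hg _ (fun b hb => ?_)]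
    · refine Finset.sum_congr rfl fun u _ => ?_
      rw [sum_ext1 hg _ (fun b hb => by rw [ext_update_not d _ j hb]; simp)]
      refine Finset.sum_congr rfl fun u' _ => ?_
      rw [update_comp, update_comp, ext_comp hg, ext_comp hg, comp_apply, comp_apply]
    · refine Finset.sum_eq_zero fun d' _ => ?_
      rw [update_comm hij.ne, ext_update_not d _ i hb]; simp
  · rw [if_neg hij, if_neg hij]

end emb

end Crest.Agent.R338.Sel

end
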