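import Crest.Agent.R338.Bridge
import Crest.Agent.R338.Lag3

/-!
# Row 338, node WP (helper518), file 1: matrix elements of the designer potential

Product integrals on `Pos3`, the matrix elements `w1 (wpot ..) a b` (exactly diagonal selection
part, hopping part), core expectation.
-/

set_option autoImplicit false

open MeasureTheory
open Crest.MathPhysics.ElectronicCoulomb

noncomputable section

namespace Crest.Agent.R338.WP

/-! ### product integrals -/

theorem integral_pr3 (f g u : ℝ → ℝ) :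
    ∫ x : Pos3, f (x 0) * g (x 1) * u (x 2) = (∫ t, f t) * (∫ t, g t) * (∫ t, u t) := by
  have e : ∫ x : Pos3, f (x 0) * g (x 1) * u (x 2) =
      ∫ y : Fin 3 → ℝ, ∏ i, (![f, g, u] i) (y i) := by
    rw [← (EuclideanSpace.volume_preserving_symm_measurableEquiv_toLp (Fin 3)).integral_comp'
      (g := fun y : Fin 3 → ℝ => ∏ i, (![f, g, u] i) (y i))]
    refine integral_congr_ae (Filter.Eventually.of_forall fun x => ?_)
    simp only [Fin.prod_univ_three]
    rfl
  rw [e, integral_fintype_prod_volume_eq_prod (fun i y => (![f, g, u] i) y)]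
  simp [Fin.prod_univ_three]

theorem integrable_pr3 {f g u : ℝ → ℝ} (hf : Integrable f) (hg : Integrable g)
    (hu : Integrable u) : Integrable (fun x : Pos3 => f (x 0) * g (x 1) * u (x 2)) := by
  have h : Integrable (fun y : Fin 3 → ℝ => ∏ i, (![f, g, u] i) (y i)) := by
    apply Integrable.fintype_prod
    intro i
    fin_cases i
    · exact hf
    · exact hg
    · exact hu
  have h2 := (EuclideanSpace.volume_preserving_symm_measurableEquiv_toLp (Fin 3)).integrable_comp_of_integrable h
  refine h2.congr (Filter.Eventually.of_forall fun x => ?_)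
  simp only [Function.comp, Fin.prod_univ_three]
  rfl

/-- bounded measurable functions of one variable against two Hermite functions -/
theorem integrable_bdd_hf {f : ℝ → ℝ} (hf' : Continuous f) {B : ℝ} (hB : ∀ t, |f t| ≤ B) (a b : ℕ) :
    Integrable (fun t => f t * (HO.hf a t * HO.hf b t)) := by
  exact (HO.integrable_hf_mul_hf a b).bdd_mul hf'.aestronglyMeasurable
    (c := B) (Filter.Eventually.of_forall fun t => by simpa using hB t)

theorem w1_pr3 (f g u : ℝ → ℝ) (a b : Idx) :
    w1 (fun x => f (x 0) * g (x 1) * u (x 2)) a b =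
      (∫ t, f t * (HO.hf (a 0) t * HO.hf (b 0) t)) * (∫ t, g t * (HO.hf (a 1) t * HO.hf (b 1) t)) *
        (∫ t, u t * (HO.hf (a 2) t * HO.hf (b 2) t)) := by
  rw [w1_eq, ← integral_pr3]
  refine integral_congr_ae (Filter.Eventually.of_forall fun x => ?_)
  simp only [HO.Phi, Fin.prod_univ_three]
  ring

/-- matrix elements of a bounded continuous potential are finite -/
theorem integrable_w1 {w : Pos3 → ℝ} (hw : Continuous w) {B : ℝ} (hB : ∀ x, |w x| ≤ B) (a b : Idx) :
    Integrable (fun x => w x * (orb a x * orb b x)) := by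
  have h : Integrable (fun x : Pos3 => orb a x * orb b x) := by
    have := integrable_pr3 (HO.integrable_hf_mul_hf (a 0) (b 0)) (HO.integrable_hf_mul_hf (a 1) (b 1))
      (HO.integrable_hf_mul_hf (a 2) (b 2))
    refine this.congr (Filter.Eventually.of_forall fun x => ?_)
    simp only [orb_eq, HO.Phi, Fin.prod_univ_three]
    ring
  exact h.bdd_mul hw.aestronglyMeasurable (c := B)
    (Filter.Eventually.of_forall fun x => by simpa using hB x)


/-! ### the selection functions of the interface are those of `Lag3` -/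

theorem lag_eq (m : ℕ) (y : ℝ) : lag m y = Lag.lag m y := by
  unfold lag Lag.lag
  refine Finset.sum_congr rfl fun j _ => ?_
  rw [neg_pow y j]
  ring

theorem Dm_eq (m : ℕ) (x : ℝ) : Dm m x = Lag.Dsel m x := by
  unfold Dm Lag.Dsel
  refine integral_congr_ae (Filter.Eventually.of_forall fun q => ?_)
  simp only [lag_eq]

theorem Dm_eq' (m : ℕ) : Dm m = Lag.Dsel m := funext fun x => Dm_eq m x

theorem continuous_Dm (m : ℕ) : Continuous (Dm m) := by
  rw [Dm_eq']; exact Lag.continuous_Dsel m

/-! ### four Hermite functions against a Gaussian -/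

/-- `∫ e^{-2t²} h_p h_q h_a h_b` -/
def G4 (p q a b : ℕ) : ℝ :=
  ∫ t : ℝ, Real.exp (-2 * t ^ 2) * (HO.hf p t * HO.hf q t) * (HO.hf a t * HO.hf b t)

theorem integrable_G4 (p q a b : ℕ) : Integrable
    (fun t : ℝ => Real.exp (-2 * t ^ 2) * (HO.hf p t * HO.hf q t) * (HO.hf a t * HO.hf b t)) := by
  have h := HO.integrable_poly_gauss (HO.hP p * HO.hP q * HO.hP a * HO.hP b) (b := 4) (by norm_num)
  refine h.congr (Filter.Eventually.of_forall fun t => ?_)
  simp only [HO.hf, Polynomial.eval_mul]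
  have e : Real.exp (-4 * t ^ 2) = Real.exp (-2 * t ^ 2) * Real.exp (-(t ^ 2) / 2) *
      Real.exp (-(t ^ 2) / 2) * Real.exp (-(t ^ 2) / 2) * Real.exp (-(t ^ 2) / 2) := by
    rw [← Real.exp_add, ← Real.exp_add, ← Real.exp_add, ← Real.exp_add]
    congr 1; ring
  rw [e]; ring

theorem G4_swap_left (p q a b : ℕ) : G4 p q a b = G4 q p a b := by
  unfold G4; congr 1; ext t; ring

theorem G4_swap_right (p q a b : ℕ) : G4 p q a b = G4 p q b a := by
  unfold G4; congr 1; ext t; ring

theorem G4_swap (p q a b : ℕ) : G4 p q a b = G4 a b p q := by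
  unfold G4; congr 1; ext t; ring

/-! ### the pieces of the potential -/

/-- Kronecker delta -/
def dl (a b : ℕ) : ℝ := if a = b then 1 else 0

theorem vhop_eq (n k i j : ℕ) : vhop n k i j = fun x : Pos3 =>
    (Real.exp (-2 * (x 0) ^ 2) * (HO.hf (mi n k i) (x 0) * HO.hf (mi n k j) (x 0))) *
    (Real.exp (-2 * (x 1) ^ 2) * (HO.hf (n0' n k - mi n k i) (x 1) *
      HO.hf (n0' n k - mi n k j) (x 1))) * 1 := by
  funext x
  simp only [vhop, hf_eq, mul_one]

theorem w1_vhop (n k i j : ℕ) (a b : Idx) : w1 (vhop n k i j) a b =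
    G4 (mi n k i) (mi n k j) (a 0) (b 0) *
      G4 (n0' n k - mi n k i) (n0' n k - mi n k j) (a 1) (b 1) * dl (a 2) (b 2) := by
  rw [vhop_eq, w1_pr3 (fun t => Real.exp (-2 * t ^ 2) * (HO.hf (mi n k i) t * HO.hf (mi n k j) t))
    (fun t => Real.exp (-2 * t ^ 2) * (HO.hf (n0' n k - mi n k i) t * HO.hf (n0' n k - mi n k j) t))
    (fun _ => 1)]
  simp only [one_mul, HO.integral_hf_mul_hf]
  rfl

theorem integrable_vhop (n k i j : ℕ) (a b : Idx) :
    Integrable (fun x => vhop n k i j x * (orb a x * orb b x)) := by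
  have h := integrable_pr3 (integrable_G4 (mi n k i) (mi n k j) (a 0) (b 0))
    (integrable_G4 (n0' n k - mi n k i) (n0' n k - mi n k j) (a 1) (b 1))
    (HO.integrable_hf_mul_hf (a 2) (b 2))
  refine h.congr (Filter.Eventually.of_forall fun x => ?_)
  simp only [vhop_eq, orb_eq, HO.Phi, Fin.prod_univ_three]
  ring

/-- `∫ D_m h_a h_b` -/
def D2 (m a b : ℕ) : ℝ := ∫ t : ℝ, Dm m t * (HO.hf a t * HO.hf b t)

theorem integrable_D2 (m a b : ℕ) : Integrable (fun t : ℝ => Dm m t * (HO.hf a t * HO.hf b t)) := by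
  simp only [Dm_eq]
  exact Lag.integrable_Dsel_hf m a b

theorem D2_diag (m a : ℕ) : D2 m a a = dl m a := by
  unfold D2 dl
  simp only [Dm_eq]
  exact Lag.integral_Dsel_hf_sq m a

theorem w1_Dm0 (m : ℕ) (a b : Idx) : w1 (fun x => Dm m (x 0)) a b =
    D2 m (a 0) (b 0) * dl (a 1) (b 1) * dl (a 2) (b 2) := by
  have h := w1_pr3 (Dm m) (fun _ => 1) (fun _ => 1) a b
  simp only [mul_one, one_mul, HO.integral_hf_mul_hf] at h
  exact h

theorem w1_Dm2 (m : ℕ) (a b : Idx) : w1 (fun x => Dm m (x 2)) a b =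
    dl (a 0) (b 0) * dl (a 1) (b 1) * D2 m (a 2) (b 2) := by
  have h := w1_pr3 (fun _ => 1) (fun _ => 1) (Dm m) a b
  simp only [one_mul, HO.integral_hf_mul_hf] at h
  exact h

theorem integrable_Dm0 (m : ℕ) (a b : Idx) :
    Integrable (fun x : Pos3 => Dm m (x 0) * (orb a x * orb b x)) := by
  have h := integrable_pr3 (integrable_D2 m (a 0) (b 0)) (HO.integrable_hf_mul_hf (a 1) (b 1))
    (HO.integrable_hf_mul_hf (a 2) (b 2))
  refine h.congr (Filter.Eventually.of_forall fun x => ?_)
  simp only [orb_eq, HO.Phi, Fin.prod_univ_three]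
  ring

theorem integrable_Dm2 (m : ℕ) (a b : Idx) :
    Integrable (fun x : Pos3 => Dm m (x 2) * (orb a x * orb b x)) := by
  have h := integrable_pr3 (HO.integrable_hf_mul_hf (a 0) (b 0)) (HO.integrable_hf_mul_hf (a 1) (b 1))
    (integrable_D2 m (a 2) (b 2))
  refine h.congr (Filter.Eventually.of_forall fun x => ?_)
  simp only [orb_eq, HO.Phi, Fin.prod_univ_three]
  ring

/-! ### linearity -/

/-- `w` has finite matrix elements -/
def OKw (w : Pos3 → ℝ) : Prop := ∀ a b : Idx, Integrable (fun x => w x * (orb a x * orb b x))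

theorem OKw.add {w v : Pos3 → ℝ} (hw : OKw w) (hv : OKw v) : OKw (fun x => w x + v x) := by
  intro a b
  simp only [add_mul]
  exact (hw a b).add (hv a b)

theorem OKw.sub {w v : Pos3 → ℝ} (hw : OKw w) (hv : OKw v) : OKw (fun x => w x - v x) := by
  intro a b
  simp only [sub_mul]
  exact (hw a b).sub (hv a b)

theorem OKw.const_mul {w : Pos3 → ℝ} (hw : OKw w) (c : ℝ) : OKw (fun x => c * w x) := by
  intro a b
  simp only [mul_assoc]
  exact (hw a b).const_mul c

theorem OKw.zero : OKw (fun _ => 0) := by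
  intro a b
  simp

theorem OKw.sum {ι : Type*} (s : Finset ι) {w : ι → Pos3 → ℝ} (hw : ∀ i ∈ s, OKw (w i)) :
    OKw (fun x => ∑ i ∈ s, w i x) := by
  intro a b
  simp only [Finset.sum_mul]
  exact integrable_finsetSum _ fun i hi => hw i hi a b

theorem OKw.ite {p : Prop} [Decidable p] {w v : Pos3 → ℝ} (hw : OKw w) (hv : OKw v) :
    OKw (fun x => if p then w x else v x) := by
  split_ifs <;> assumption

theorem w1_add {w v : Pos3 → ℝ} (hw : OKw w) (hv : OKw v) (a b : Idx) :
    w1 (fun x => w x + v x) a b = w1 w a b + w1 v a b := by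
  unfold w1
  simp only [add_mul]
  exact integral_add (hw a b) (hv a b)

theorem w1_sub {w v : Pos3 → ℝ} (hw : OKw w) (hv : OKw v) (a b : Idx) :
    w1 (fun x => w x - v x) a b = w1 w a b - w1 v a b := by
  unfold w1
  simp only [sub_mul]
  exact integral_sub (hw a b) (hv a b)

theorem w1_const_mul (w : Pos3 → ℝ) (c : ℝ) (a b : Idx) :
    w1 (fun x => c * w x) a b = c * w1 w a b := by
  unfold w1
  simp only [mul_assoc]
  exact integral_const_mul _ _

theorem w1_zero (a b : Idx) : w1 (fun _ => 0) a b = 0 := by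
  unfold w1; simp

theorem w1_sum {ι : Type*} (s : Finset ι) {w : ι → Pos3 → ℝ} (hw : ∀ i ∈ s, OKw (w i)) (a b : Idx) :
    w1 (fun x => ∑ i ∈ s, w i x) a b = ∑ i ∈ s, w1 (w i) a b := by
  unfold w1
  simp only [Finset.sum_mul]
  exact integral_finsetSum _ fun i hi => hw i hi a b

theorem w1_ite {p : Prop} [Decidable p] (w v : Pos3 → ℝ) (a b : Idx) :
    w1 (fun x => if p then w x else v x) a b = if p then w1 w a b else w1 v a b := by
  split_ifs <;> rfl

theorem w1_comm (w : Pos3 → ℝ) (a b : Idx) : w1 w a b = w1 w b a := by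
  unfold w1
  congr 1; ext x; ring

theorem okw_vhop (n k i j : ℕ) : OKw (vhop n k i j) := integrable_vhop n k i j
theorem okw_Dm0 (m : ℕ) : OKw (fun x => Dm m (x 0)) := integrable_Dm0 m
theorem okw_Dm2 (m : ℕ) : OKw (fun x => Dm m (x 2)) := integrable_Dm2 m

/-! ### the designer potential -/

theorem okw_hop (n k : ℕ) (A : ℕ → ℕ → ℝ) : OKw (fun x => ∑ i ∈ Finset.range n,
    ∑ j ∈ Finset.range n, if i < j then A i j * vhop n k i j x else 0) :=
  OKw.sum _ fun i _ => OKw.sum _ fun j _ => OKw.ite ((okw_vhop n k i j).const_mul _) OKw.zero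

theorem okw_wpot (n k : ℕ) (Lam : ℝ) (A : ℕ → ℕ → ℝ) (a' : ℕ → ℝ) :
    OKw (wpot n k Lam A a') :=
  OKw.add (OKw.sub ((okw_Dm2 0).const_mul (-Lam))
    (OKw.sum _ fun i _ => (okw_Dm0 (mi n k i)).const_mul (Lam - a' i))) (okw_hop n k A)

/-- matrix elements of the hopping part -/
theorem w1_hop (n k : ℕ) (A : ℕ → ℕ → ℝ) (a b : Idx) : w1 (fun x => ∑ i ∈ Finset.range n,
    ∑ j ∈ Finset.range n, if i < j then A i j * vhop n k i j x else 0) a b =
    ∑ i ∈ Finset.range n, ∑ j ∈ Finset.range n, if i < j then A i j * w1 (vhop n k i j) a b else 0 := by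
  rw [w1_sum _ fun i _ => OKw.sum _ fun j _ => OKw.ite ((okw_vhop n k i j).const_mul _) OKw.zero]
  refine Finset.sum_congr rfl fun i _ => ?_
  rw [w1_sum _ fun j _ => OKw.ite ((okw_vhop n k i j).const_mul _) OKw.zero]
  refine Finset.sum_congr rfl fun j _ => ?_
  rw [w1_ite, w1_const_mul, w1_zero]

/-- matrix elements of the designer potential, general orbitals -/
theorem w1_wpot (n k : ℕ) (Lam : ℝ) (A : ℕ → ℕ → ℝ) (a' : ℕ → ℝ) (a b : Idx) :
    w1 (wpot n k Lam A a') a b =
      -Lam * (dl (a 0) (b 0) * dl (a 1) (b 1) * D2 0 (a 2) (b 2))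
      - ∑ i ∈ Finset.range n, (Lam - a' i) *
          (D2 (mi n k i) (a 0) (b 0) * dl (a 1) (b 1) * dl (a 2) (b 2))
      + ∑ i ∈ Finset.range n, ∑ j ∈ Finset.range n,
          if i < j then A i j * w1 (vhop n k i j) a b else 0 := by
  have h1 : OKw (fun x => -Lam * Dm 0 (x 2)) := (okw_Dm2 0).const_mul (-Lam)
  have h2 : OKw (fun x => ∑ i ∈ Finset.range n, (Lam - a' i) * Dm (mi n k i) (x 0)) :=
    OKw.sum _ fun i _ => (okw_Dm0 (mi n k i)).const_mul (Lam - a' i)
  have e : w1 (wpot n k Lam A a') a b = _ := w1_add (h1.sub h2) (okw_hop n k A) a b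
  rw [e, w1_sub h1 h2, w1_const_mul, w1_Dm2, w1_hop,
    w1_sum _ fun i _ => (okw_Dm0 (mi n k i)).const_mul (Lam - a' i)]
  congr 2
  refine Finset.sum_congr rfl fun i _ => ?_
  rw [w1_const_mul, w1_Dm0]

/-- inside one shell the selection part is exactly diagonal -/
theorem w1_wpot_shell (n k : ℕ) (Lam : ℝ) (A : ℕ → ℕ → ℝ) (a' : ℕ → ℝ) {a b : Idx}
    (hab : ∑ c, a c = ∑ c, b c) :
    w1 (wpot n k Lam A a') a b =
      (if a = b then -Lam * dl (a 2) 0 - ∑ i ∈ Finset.range n, (Lam - a' i) * dl (a 0) (mi n k i)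
        else 0)
      + ∑ i ∈ Finset.range n, ∑ j ∈ Finset.range n,
          if i < j then A i j * w1 (vhop n k i j) a b else 0 := by
  rw [w1_wpot]
  congr 1
  simp only [Fin.sum_univ_three] at hab
  by_cases h : a = b
  · subst h
    simp only [if_true, D2_diag, dl, if_true, one_mul, mul_one]
    congr 1
    · congr 1
      simp only [eq_comm]
    · refine Finset.sum_congr rfl fun i _ => ?_
      congr 1
      simp only [eq_comm]
  · rw [if_neg h]
    have h1 : dl (a 0) (b 0) * dl (a 1) (b 1) = 0 := by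
      unfold dl
      by_cases h0 : a 0 = b 0
      · by_cases h1 : a 1 = b 1
        · exfalso
          apply h
          funext c
          fin_cases c
          · exact h0
          · exact h1
          · show a 2 = b 2
            omega
        · rw [if_neg h1, mul_zero]
      · rw [if_neg h0, zero_mul]
    have h2 : dl (a 1) (b 1) * dl (a 2) (b 2) = 0 := by
      unfold dl
      by_cases h0 : a 1 = b 1
      · by_cases h1 : a 2 = b 2
        · exfalso
          apply h
          funext c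
          fin_cases c
          · show a 0 = b 0
            omega
          · exact h0
          · exact h1
        · rw [if_neg h1, mul_zero]
      · rw [if_neg h0, zero_mul]
    have h3 : ∀ i, (Lam - a' i) * (D2 (mi n k i) (a 0) (b 0) * dl (a 1) (b 1) * dl (a 2) (b 2)) = 0 := by
      intro i
      rw [mul_assoc (D2 _ _ _), h2]; ring
    simp only [h1, h3, zero_mul, mul_zero, Finset.sum_const_zero, sub_zero]

/-! ### core expectation -/

theorem mem_core {n0 : ℕ} {c : Idx} : c ∈ core n0 ↔ c 0 + c 1 + c 2 < n0 := by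
  unfold core
  rw [Finset.mem_filter, Fintype.mem_piFinset]
  simp only [Finset.mem_range, Fin.sum_univ_three]
  constructor
  · exact fun h => h.2
  · intro h
    refine ⟨fun i => ?_, h⟩
    fin_cases i
    · show c 0 < n0
      omega
    · show c 1 < n0
      omega
    · show c 2 < n0
      omega

theorem mem_shell {n0 : ℕ} {c : Idx} : c ∈ shell n0 ↔ c 0 + c 1 + c 2 = n0 := by
  unfold shell
  rw [Finset.mem_filter, Fintype.mem_piFinset]
  simp only [Finset.mem_range, Fin.sum_univ_three]
  constructor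
  · exact fun h => h.2
  · intro h
    refine ⟨fun i => ?_, h⟩
    fin_cases i
    · show c 0 < n0 + 1
      omega
    · show c 1 < n0 + 1
      omega
    · show c 2 < n0 + 1
      omega

/-- sums over the core as triple sums -/
theorem sum_core (n0 : ℕ) (f : Idx → ℝ) : ∑ c ∈ core n0, f c =
    ∑ p ∈ Finset.range n0, ∑ q ∈ Finset.range (n0 - p), ∑ r ∈ Finset.range (n0 - p - q),
      f ![p, q, r] := by
  rw [Finset.sum_sigma', Finset.sum_sigma']
  refine Finset.sum_bij' (fun c _ => ⟨⟨c 0, c 1⟩, c 2⟩) (fun z _ => ![z.1.1, z.1.2, z.2]) ?_ ?_ ?_ ?_ ?_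
  · intro c hc
    rw [mem_core] at hc
    simp only [Finset.mem_sigma, Finset.mem_range]
    omega
  · intro z hz
    simp only [Finset.mem_sigma, Finset.mem_range] at hz
    rw [mem_core]
    simp only [Matrix.cons_val_zero, Matrix.cons_val_one, Matrix.cons_val]
    omega
  · intro c _
    funext i
    fin_cases i <;> rfl
  · intro z _
    rfl
  · intro c _
    congr 1
    funext i
    fin_cases i <;> rfl

theorem gauss_real (n : ℕ) : ∑ q ∈ Finset.range n, ((n - q : ℕ) : ℝ) = (n : ℝ) * (n + 1) / 2 := by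
  induction n with
  | zero => simp
  | succ n ih =>
    rw [Finset.sum_range_succ']
    have : ∀ q ∈ Finset.range n, ((n + 1 - (q + 1) : ℕ) : ℝ) = ((n - q : ℕ) : ℝ) := by
      intro q _
      congr 1
      omega
    rw [Finset.sum_congr rfl this, ih]
    push_cast
    ring

/-- number of core orbitals with given first quantum number -/
theorem sum_core_dl0 (n0 m : ℕ) (hm : m ≤ n0) : ∑ c ∈ core n0, dl m (c 0) =
    ((n0 - m : ℕ) : ℝ) * ((n0 - m : ℕ) + 1) / 2 := by
  rw [sum_core]
  simp only [Matrix.cons_val_zero, Finset.sum_const, Finset.card_range, nsmul_eq_mul]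
  have h : ∀ p ∈ Finset.range n0, ∑ q ∈ Finset.range (n0 - p), ((n0 - p - q : ℕ) : ℝ) * dl m p =
      if m = p then ((n0 - m : ℕ) : ℝ) * ((n0 - m : ℕ) + 1) / 2 else 0 := by
    intro p _
    rw [← Finset.sum_mul, gauss_real]
    unfold dl
    split_ifs with h
    · subst h; ring
    · ring
  rw [Finset.sum_congr rfl h, Finset.sum_ite_eq]
  split_ifs with h1
  · rfl
  · have : n0 - m = 0 := by
      rw [Finset.mem_range] at h1; omega
    rw [this]; simp

/-- number of core orbitals with third quantum number `0` -/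
theorem sum_core_dl2 (n0 : ℕ) : ∑ c ∈ core n0, dl 0 (c 2) = (n0 : ℝ) * (n0 + 1) / 2 := by
  rw [sum_core]
  have h : ∀ p ∈ Finset.range n0, ∑ q ∈ Finset.range (n0 - p),
      ∑ r ∈ Finset.range (n0 - p - q), dl 0 ((![p, q, r] : Idx) 2) = ((n0 - p : ℕ) : ℝ) := by
    intro p _
    have h2 : ∀ q ∈ Finset.range (n0 - p),
        ∑ r ∈ Finset.range (n0 - p - q), dl 0 ((![p, q, r] : Idx) 2) = 1 := by
      intro q hq
      rw [Finset.mem_range] at hq
      have : ∀ r ∈ Finset.range (n0 - p - q), dl 0 ((![p, q, r] : Idx) 2) = if 0 = r then 1 else 0 := by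
        intro r _; rfl
      rw [Finset.sum_congr rfl this, Finset.sum_ite_eq, if_pos]
      rw [Finset.mem_range]; omega
    rw [Finset.sum_congr rfl h2]
    simp
  rw [Finset.sum_congr rfl h, gauss_real]

/-- core expectation of a hopping potential -/
def coreHop (n k i j : ℕ) : ℝ :=
  ∑ p ∈ Finset.range (n0' n k), ∑ q ∈ Finset.range (n0' n k - p),
    ((n0' n k - p - q : ℕ) : ℝ) * (G4 (mi n k i) (mi n k j) p p *
      G4 (n0' n k - mi n k i) (n0' n k - mi n k j) q q)

theorem sum_core_vhop (n k i j : ℕ) : ∑ c ∈ core (n0' n k), w1 (vhop n k i j) c c = coreHop n k i j := by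
  rw [sum_core]
  unfold coreHop
  refine Finset.sum_congr rfl fun p _ => Finset.sum_congr rfl fun q _ => ?_
  have : ∀ r ∈ Finset.range (n0' n k - p - q), w1 (vhop n k i j) ![p, q, r] ![p, q, r] =
      G4 (mi n k i) (mi n k j) p p * G4 (n0' n k - mi n k i) (n0' n k - mi n k j) q q := by
    intro r _
    rw [w1_vhop]
    simp [dl]
  rw [Finset.sum_congr rfl this, Finset.sum_const, Finset.card_range, nsmul_eq_mul]

/-- core expectation of the designer potential -/
theorem sum_core_wpot (n k : ℕ) (Lam : ℝ) (A : ℕ → ℕ → ℝ) (a' : ℕ → ℝ)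
    (hm : ∀ i < n, mi n k i ≤ n0' n k) :
    ∑ c ∈ core (n0' n k), w1 (wpot n k Lam A a') c c =
      -Lam * ((n0' n k : ℝ) * (n0' n k + 1) / 2)
      - ∑ i ∈ Finset.range n, (Lam - a' i) *
          (((n0' n k - mi n k i : ℕ) : ℝ) * ((n0' n k - mi n k i : ℕ) + 1) / 2)
      + ∑ i ∈ Finset.range n, ∑ j ∈ Finset.range n,
          if i < j then A i j * coreHop n k i j else 0 := by
  have h0 : ∀ c ∈ core (n0' n k), w1 (wpot n k Lam A a') c c =
      -Lam * dl 0 (c 2) - ∑ i ∈ Finset.range n, (Lam - a' i) * dl (mi n k i) (c 0)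
      + ∑ i ∈ Finset.range n, ∑ j ∈ Finset.range n,
          if i < j then A i j * w1 (vhop n k i j) c c else 0 := by
    intro c _
    rw [w1_wpot]
    simp only [D2_diag]
    have e1 : ∀ x : ℕ, dl x x = 1 := fun x => by simp [dl]
    simp only [e1, one_mul, mul_one]
  rw [Finset.sum_congr rfl h0, Finset.sum_add_distrib, Finset.sum_sub_distrib,
    ← Finset.mul_sum, sum_core_dl2, Finset.sum_comm (s := core (n0' n k))]
  congr 1
  · congr 1
    refine Finset.sum_congr rfl fun i hi => ?_
    rw [← Finset.mul_sum, sum_core_dl0 _ _ (hm i (Finset.mem_range.1 hi))]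
  · rw [Finset.sum_comm (s := core (n0' n k))]
    refine Finset.sum_congr rfl fun i _ => ?_
    rw [Finset.sum_comm (s := core (n0' n k))]
    refine Finset.sum_congr rfl fun j _ => ?_
    split_ifs with h
    · rw [← Finset.mul_sum, sum_core_vhop]
    · simp

end Crest.Agent.R338.WP
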