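import Crest.Agent.R338.Br
import Crest.Agent.R338.CE1
import Crest.Agent.R338.WKB4
import Crest.Agent.R338.WP1
import Crest.Agent.R338.XF4

/-!
# Row 338, node BH2 (helper695), file 2: crude uniform bounds of the integrals

`abs_W4_le : |W4 a b c d| ≤ 50000`, `abs_fock_le`, `abs_w1_vhop_le : |w1 (vhop n k i j) a b| ≤ 625`.
-/

set_option autoImplicit false

noncomputable section

open MeasureTheory Real Set
open Crest.MathPhysics.ElectronicCoulomb

namespace Crest.Agent.R338.Sel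

/-! ### Coulomb forms -/

theorem integral_tau3 : ∫ τ in Ioi (1 : ℝ), τ ^ (-3 : ℝ) = 1 / 2 := by
  rw [integral_Ioi_rpow_of_lt (by norm_num) one_pos]
  norm_num

theorem abs_D_bound {f g : CE.P3 → ℝ} (hf : Integrable f) (hg : CE.Nice g) {F G C : ℝ}
    (hF : ∫ x, |f x| ≤ F) (hG : ∫ x, |g x| ≤ G) (hC : ∀ x, |g x| ≤ C) :
    |CE.D f g| ≤ 2 / √π * (F * G + C * F * (√π) ^ 3 * (1 / 2)) := by
  have hC0 : 0 ≤ C := (abs_nonneg _).trans (hC 0)
  have hf0 : 0 ≤ ∫ x, |f x| := integral_nonneg fun _ => abs_nonneg _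
  have hg0 : 0 ≤ ∫ x, |g x| := integral_nonneg fun _ => abs_nonneg _
  have hF0 : 0 ≤ F := hf0.trans hF
  rw [CE.D_eq_heat hf hg, abs_mul, abs_of_nonneg (by positivity : 0 ≤ 2 / √π)]
  refine mul_le_mul_of_nonneg_left ?_ (by positivity)
  have hQ := CE.integrableOn_Q hf hg
  have hQa : IntegrableOn (fun τ => CE.Q τ f g) (Ioc 0 1) := hQ.mono_set Ioc_subset_Ioi_self
  have hQb : IntegrableOn (fun τ => CE.Q τ f g) (Ioi 1) :=
    hQ.mono_set (Ioi_subset_Ioi zero_le_one)
  rw [← Ioc_union_Ioi_eq_Ioi (zero_le_one' ℝ), setIntegral_union (by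
    rw [Set.disjoint_left]; intro x hx hx'; exact absurd hx.2 (not_le.2 hx')) measurableSet_Ioi hQa hQb]
  refine (abs_add_le _ _).trans (add_le_add ?_ ?_)
  · have h1 : ‖∫ τ in Ioc (0 : ℝ) 1, CE.Q τ f g‖ ≤ (F * G) * (volume.real (Ioc (0 : ℝ) 1)) := by
      refine norm_setIntegral_le_of_norm_le_const (by simp) fun τ _ => ?_
      refine (norm_integral_le_integral_norm _).trans ((CE.norm_Q_le_one hf hg.int τ).trans ?_)
      exact mul_le_mul hF hG hg0 hF0
    simpa using h1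
  · have h2 : IntegrableOn (fun τ : ℝ => C * F * (√π) ^ 3 * τ ^ (-3 : ℝ)) (Ioi 1) :=
      (integrableOn_Ioi_rpow_of_lt (by norm_num) one_pos).const_mul _
    have h3 : ‖∫ τ in Ioi (1 : ℝ), CE.Q τ f g‖ ≤
        ∫ τ in Ioi (1 : ℝ), C * F * (√π) ^ 3 * τ ^ (-3 : ℝ) := by
      refine norm_integral_le_of_norm_le h2 ?_
      refine (ae_restrict_iff' measurableSet_Ioi).2 (Filter.Eventually.of_forall fun τ hτ => ?_)
      have hτ0 : (0 : ℝ) < τ := lt_trans one_pos hτ
      refine (norm_integral_le_integral_norm _).trans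
        ((CE.norm_Q_le_cube hf hg.int hC hτ0).trans ?_)
      have e : (√π / τ) ^ 3 = (√π) ^ 3 * τ ^ (-3 : ℝ) := by
        rw [Real.rpow_neg hτ0.le, div_pow]
        norm_num
        ring
      rw [e]
      have : 0 ≤ (√π) ^ 3 * τ ^ (-3 : ℝ) := by positivity
      calc C * (∫ x, |f x|) * ((√π) ^ 3 * τ ^ (-3 : ℝ)) ≤ C * F * ((√π) ^ 3 * τ ^ (-3 : ℝ)) := by
            gcongr
        _ = _ := by ring
    rw [integral_const_mul, integral_tau3] at h3
    rw [Real.norm_eq_abs] at h3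
    exact h3

/-! ### Hermite functions -/

theorem hf_sq_le_18 (m : ℕ) (s : ℝ) : HO.hf m s ^ 2 ≤ 18 := by
  refine (WKB.hf_sq_le_kap m s).trans ?_
  have h := Real.rpow_le_one_of_one_le_of_nonpos (WKB.one_le_kap m) (by norm_num : (-(1/3) : ℝ) ≤ 0)
  linarith

theorem abs_hf_le_5 (m : ℕ) (s : ℝ) : |HO.hf m s| ≤ 5 := by
  apply abs_le_of_sq_le_sq (by have := hf_sq_le_18 m s; norm_num; linarith) (by norm_num)

theorem abs_phi_le (a : Idx) (x : CE.P3) : |CE.phi a x| ≤ 125 := by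
  unfold CE.phi
  rw [Finset.abs_prod]
  calc ∏ c, |HO.hf (a c) (x c)| ≤ ∏ _c : Fin 3, (5 : ℝ) :=
        Finset.prod_le_prod (fun _ _ => abs_nonneg _) fun c _ => abs_hf_le_5 _ _
    _ = 125 := by norm_num [Finset.prod_const]

theorem abs_phi2_le (a b : Idx) (x : CE.P3) : |CE.phi a x * CE.phi b x| ≤ 15625 := by
  rw [abs_mul]
  calc |CE.phi a x| * |CE.phi b x| ≤ 125 * 125 :=
        mul_le_mul (abs_phi_le a x) (abs_phi_le b x) (abs_nonneg _) (by norm_num)
    _ = 15625 := by norm_num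

theorem integral_phi_self (a : Idx) : ∫ x, CE.phi a x * CE.phi a x = 1 := by
  have h := HO.integral_Phi_mul_Phi (ι := Fin 3) a a
  rw [if_pos rfl] at h
  exact h

theorem integral_abs_phi2_le (a b : Idx) : ∫ x, |CE.phi a x * CE.phi b x| ≤ 1 := by
  have ha := (Br.nice_phi a a).int
  have hb := (Br.nice_phi b b).int
  calc ∫ x, |CE.phi a x * CE.phi b x|
      ≤ ∫ x, ((1 / 2) * (CE.phi a x * CE.phi a x) + (1 / 2) * (CE.phi b x * CE.phi b x)) := by
        refine integral_mono (Br.nice_phi a b).int.abs ((ha.const_mul _).add (hb.const_mul _))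
          fun x => ?_
        simp only
        rw [abs_mul]
        have h1 := sq_abs (CE.phi a x)
        have h2 := sq_abs (CE.phi b x)
        nlinarith [sq_nonneg (|CE.phi a x| - |CE.phi b x|)]
    _ = 1 := by
        rw [integral_add (ha.const_mul _) (hb.const_mul _), integral_const_mul, integral_const_mul,
          integral_phi_self, integral_phi_self]
        norm_num

/-- uniform bound of the two-electron integrals -/
theorem abs_W4_le (a b c d : Idx) : |W4 a b c d| ≤ 50000 := by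
  rw [Br.W4_eq]
  unfold CE.W
  refine (abs_D_bound (Br.nice_phi a b).int (Br.nice_phi c d) (integral_abs_phi2_le a b)
    (integral_abs_phi2_le c d) (abs_phi2_le c d)).trans ?_
  have hp : 0 < √π := by positivity
  have h1 : (√π) ^ 2 = π := Real.sq_sqrt Real.pi_pos.le
  have h2 : 1 ≤ √π := by
    rw [Real.one_le_sqrt]; linarith [Real.pi_gt_three]
  have e : 2 / √π * (1 * 1 + 15625 * 1 * (√π) ^ 3 * (1 / 2)) = 2 / √π + 15625 * (√π) ^ 2 := by
    field_simp
  rw [e, h1]
  have h3 : 2 / √π ≤ 2 := div_le_self (by norm_num) h2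
  linarith [Real.pi_lt_d2]

/-- number of core orbitals -/
theorem card_core_le (n0 : ℕ) : ((core n0).card : ℝ) ≤ ((n0 : ℝ) + 2) ^ 3 := by
  have h := XF.card_core n0
  have h2 : (6 * ((core n0).card : ℕ) : ℝ) = (n0 : ℝ) * (n0 + 1) * (n0 + 2) := by exact_mod_cast h
  have h3 : (0 : ℝ) ≤ n0 := Nat.cast_nonneg _
  nlinarith [mul_nonneg h3 h3, mul_nonneg (mul_nonneg h3 h3) h3]

theorem abs_fock_le (n0 : ℕ) (a b : Idx) : |fock n0 a b| ≤ 150000 * ((n0 : ℝ) + 2) ^ 3 := by
  unfold fock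
  calc |∑ c ∈ core n0, (2 * W4 a b c c - W4 a c c b)|
      ≤ ∑ _c ∈ core n0, (150000 : ℝ) := by
        refine (Finset.abs_sum_le_sum_abs _ _).trans (Finset.sum_le_sum fun c _ => ?_)
        have h1 := abs_le.1 (abs_W4_le a b c c)
        have h2 := abs_le.1 (abs_W4_le a c c b)
        rw [abs_le]
        constructor <;> linarith
    _ = (core n0).card * 150000 := by simp
    _ ≤ ((n0 : ℝ) + 2) ^ 3 * 150000 := by gcongr; exact card_core_le n0
    _ = _ := by ring

/-! ### hopping -/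

theorem abs_G4_le (p q a b : ℕ) : |WP.G4 p q a b| ≤ 25 := by
  unfold WP.G4
  have hi : Integrable fun t => (25 : ℝ) * ((1 / 2) * (HO.hf a t * HO.hf a t) +
      (1 / 2) * (HO.hf b t * HO.hf b t)) :=
    (((HO.integrable_hf_mul_hf a a).const_mul _).add ((HO.integrable_hf_mul_hf b b).const_mul _)).const_mul _
  have h : ‖∫ t : ℝ, Real.exp (-2 * t ^ 2) * (HO.hf p t * HO.hf q t) * (HO.hf a t * HO.hf b t)‖ ≤
      ∫ t, (25 : ℝ) * ((1 / 2) * (HO.hf a t * HO.hf a t) + (1 / 2) * (HO.hf b t * HO.hf b t)) := by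
    refine norm_integral_le_of_norm_le hi (Filter.Eventually.of_forall fun t => ?_)
    rw [norm_mul, norm_mul, norm_mul, norm_mul]
    simp only [Real.norm_eq_abs, Real.abs_exp]
    have h1 : Real.exp (-2 * t ^ 2) ≤ 1 := Real.exp_le_one_iff.2 (by nlinarith [sq_nonneg t])
    have h2 := abs_hf_le_5 p t
    have h3 := abs_hf_le_5 q t
    have h4 : Real.exp (-2 * t ^ 2) * (|HO.hf p t| * |HO.hf q t|) ≤ 1 * (5 * 5) :=
      mul_le_mul h1 (mul_le_mul h2 h3 (abs_nonneg _) (by norm_num)) (by positivity) (by norm_num)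
    have h5 : |HO.hf a t| * |HO.hf b t| ≤ (1 / 2) * (HO.hf a t * HO.hf a t) +
        (1 / 2) * (HO.hf b t * HO.hf b t) := by
      have e1 := sq_abs (HO.hf a t)
      have e2 := sq_abs (HO.hf b t)
      nlinarith [sq_nonneg (|HO.hf a t| - |HO.hf b t|)]
    calc Real.exp (-2 * t ^ 2) * (|HO.hf p t| * |HO.hf q t|) * (|HO.hf a t| * |HO.hf b t|)
        ≤ (1 * (5 * 5)) * (|HO.hf a t| * |HO.hf b t|) := by gcongr
      _ ≤ (1 * (5 * 5)) * ((1 / 2) * (HO.hf a t * HO.hf a t) +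
        (1 / 2) * (HO.hf b t * HO.hf b t)) := by gcongr
      _ = _ := by norm_num
  rw [Real.norm_eq_abs] at h
  refine h.trans (le_of_eq ?_)
  rw [integral_const_mul, integral_add ((HO.integrable_hf_mul_hf a a).const_mul _)
    ((HO.integrable_hf_mul_hf b b).const_mul _), integral_const_mul, integral_const_mul,
    HO.integral_hf_mul_hf, HO.integral_hf_mul_hf]
  norm_num

theorem abs_w1_vhop_le (n k i j : ℕ) (a b : Idx) : |w1 (vhop n k i j) a b| ≤ 625 := by
  rw [WP.w1_vhop, abs_mul, abs_mul]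
  have h1 := abs_G4_le (mi n k i) (mi n k j) (a 0) (b 0)
  have h2 := abs_G4_le (n0' n k - mi n k i) (n0' n k - mi n k j) (a 1) (b 1)
  have h3 : |WP.dl (a 2) (b 2)| ≤ 1 := by
    unfold WP.dl; split_ifs <;> norm_num
  calc _ ≤ (25 : ℝ) * 25 * 1 :=
        mul_le_mul (mul_le_mul h1 h2 (abs_nonneg _) (by norm_num)) h3 (abs_nonneg _) (by norm_num)
    _ = 625 := by norm_num

end Crest.Agent.R338.Sel

end
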