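import Crest.Agent.R338.Sel1
import Crest.Agent.R338.Sel2
import Crest.Agent.R338.WCMain

/-!
# Row 338, node BH2 (helper695), file 3: the sites inside the shell
-/

set_option autoImplicit false
set_option linter.unusedSectionVars false

noncomputable section

open Function
open scoped ComplexConjugate BigOperators

namespace Crest.Agent.R338.Sel

/-! ### the site orbitals -/

theorem site_mem {n k i : ℕ} (hi : i < n) : site n k i ∈ shell (n0' n k) := by
  rw [XF.mem_shell]
  have := WC.mi_le n k hi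
  simp only [site, Matrix.cons_val_zero, Matrix.cons_val_one, Matrix.cons_val]
  omega

theorem nu_strictMono (n : ℕ) : StrictMono (nu n) := by
  intro i j h
  unfold nu
  have h1 : i ^ 2 < j ^ 2 := Nat.pow_lt_pow_left h (by norm_num)
  have h2 : 4 * n ^ 2 * i ≤ 4 * n ^ 2 * j := Nat.mul_le_mul_left _ h.le
  omega

theorem mi_inj {n k : ℕ} (hk : 1 ≤ k) : Injective (mi n k) := by
  intro i j h
  unfold mi at h
  have h1 : (k ^ 3 * nu n i) ^ 2 = (k ^ 3 * nu n j) ^ 2 := by omega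
  have h2 : k ^ 3 * nu n i = k ^ 3 * nu n j := Nat.pow_left_injective (by norm_num) h1
  have h3 : 0 < k ^ 3 := by positivity
  exact (nu_strictMono n).injective (Nat.eq_of_mul_eq_mul_left h3 h2)

theorem site_zero (n k i : ℕ) : site n k i 0 = mi n k i := rfl
theorem site_one (n k i : ℕ) : site n k i 1 = n0' n k - mi n k i := rfl
theorem site_two (n k i : ℕ) : site n k i 2 = 0 := rfl

theorem site_inj {n k : ℕ} (hk : 1 ≤ k) : Injective (site n k) := by
  intro i j h
  exact mi_inj hk (by rw [← site_zero, ← site_zero, h])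

/-- spin index -/
def sp (b : Bool) : Fin 2 := if b then 1 else 0

theorem sp_inj : Injective sp := by
  intro a b; cases a <;> cases b <;> simp [sp]

theorem sp_surj (s : Fin 2) : ∃ b, sp b = s := by
  fin_cases s
  · exact ⟨false, rfl⟩
  · exact ⟨true, rfl⟩

/-- the injection of the site spin orbitals into the shell -/
def gS (n k : ℕ) (p : Fin n × Bool) : Val (n0' n k) :=
  (sp p.2, ⟨site n k p.1, site_mem p.1.isLt⟩)

theorem gS_inj {n k : ℕ} (hk : 1 ≤ k) : Injective (gS n k) := by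
  rintro ⟨i, s⟩ ⟨j, t⟩ h
  have h1 : sp s = sp t := congrArg Prod.fst h
  have h2 : site n k i = site n k j := congrArg (fun x : Val (n0' n k) => x.2.1) h
  rw [Prod.mk.injEq]
  exact ⟨Fin.ext (site_inj hk h2), sp_inj h1⟩

theorem range_gS {n k : ℕ} (x : Val (n0' n k)) :
    (∃ p, gS n k p = x) ↔ ∃ i < n, x.2.1 = site n k i := by
  constructor
  · rintro ⟨p, rfl⟩
    exact ⟨p.1, p.1.isLt, rfl⟩
  · rintro ⟨i, hi, h⟩
    obtain ⟨b, hb⟩ := sp_surj x.1
    exact ⟨(⟨i, hi⟩, b), Prod.ext hb (Subtype.ext h.symm)⟩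

/-! ### the selection energy -/

/-- selection energy of an orbital -/
def eps (n k : ℕ) (Lam : ℝ) (x : Val (n0' n k)) : ℝ :=
  -Lam * WP.dl (x.2.1 2) 0 - ∑ i ∈ Finset.range n, Lam * WP.dl (x.2.1 0) (mi n k i)

theorem sum_dl_site {n k : ℕ} (hk : 1 ≤ k) (f : ℕ → ℝ) {j : ℕ} (hj : j < n) :
    ∑ i ∈ Finset.range n, f i * WP.dl (mi n k j) (mi n k i) = f j := by
  rw [Finset.sum_eq_single j]
  · simp [WP.dl]
  · intro i _ hi
    rw [WP.dl, if_neg (fun h => hi (mi_inj hk h).symm), mul_zero]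
  · intro h; exact absurd (Finset.mem_range.2 hj) h

theorem eps_site {n k : ℕ} (hk : 1 ≤ k) (Lam : ℝ) (p : Fin n × Bool) :
    eps n k Lam (gS n k p) = -2 * Lam := by
  unfold eps gS
  simp only [site_zero, site_two]
  rw [sum_dl_site hk (fun _ => Lam) p.1.isLt, WP.dl, if_pos rfl]
  ring

theorem eps_ge {n k : ℕ} (hk : 1 ≤ k) {Lam : ℝ} (hL : 0 ≤ Lam) {x : Val (n0' n k)}
    (hx : ¬ ∃ p, gS n k p = x) : -Lam ≤ eps n k Lam x := by
  unfold eps
  rw [range_gS] at hx
  have hm := (XF.mem_shell _ _).1 x.2.2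
  by_cases h2 : x.2.1 2 = 0
  · have h0 : ∑ i ∈ Finset.range n, Lam * WP.dl (x.2.1 0) (mi n k i) = 0 := by
      refine Finset.sum_eq_zero fun i hi => ?_
      rw [WP.dl, if_neg, mul_zero]
      intro h
      refine hx ⟨i, Finset.mem_range.1 hi, ?_⟩
      funext c
      fin_cases c
      · exact h
      · show x.2.1 1 = n0' n k - mi n k i
        omega
      · exact h2
    rw [h0, WP.dl, if_pos h2]; linarith
  · rw [WP.dl, if_neg h2]
    have h3 : ∑ i ∈ Finset.range n, Lam * WP.dl (x.2.1 0) (mi n k i) ≤ Lam := by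
      by_cases hex : ∃ j < n, x.2.1 0 = mi n k j
      · obtain ⟨j, hj, h⟩ := hex
        rw [h, sum_dl_site hk (fun _ => Lam) hj]
      · rw [Finset.sum_eq_zero]
        · exact hL
        · intro i hi
          rw [WP.dl, if_neg, mul_zero]
          intro h
          exact hex ⟨i, Finset.mem_range.1 hi, h⟩
    linarith

theorem eps_ge2 {n k : ℕ} (hk : 1 ≤ k) {Lam : ℝ} (hL : 0 ≤ Lam) (x : Val (n0' n k)) :
    -2 * Lam ≤ eps n k Lam x := by
  by_cases h : ∃ p, gS n k p = x
  · obtain ⟨p, rfl⟩ := h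
    rw [eps_site hk]
  · have := eps_ge hk hL h
    linarith

/-! ### the one-body matrix -/

/-- the rest of the one-body matrix -/
def hR (n k : ℕ) (A : ℕ → ℕ → ℝ) (a : ℕ → ℝ) (p p' : Val (n0' n k)) : ℝ :=
  if p.1 = p'.1 then
    fock (n0' n k) p.2.1 p'.2.1 +
    (∑ i ∈ Finset.range n, ∑ j ∈ Finset.range n,
          if i < j then A i j * w1 (vhop n k i j) p.2.1 p'.2.1 else 0) +
    (if p = p' then ∑ i ∈ Finset.range n, a i * WP.dl (p.2.1 0) (mi n k i) else 0)
  else 0

/-- the one-body matrix of `shellForm` -/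
def hV (n k : ℕ) (Lam : ℝ) (A : ℕ → ℕ → ℝ) (a : ℕ → ℝ) (p p' : Val (n0' n k)) : ℝ :=
  if p.1 = p'.1 then w1 (wpot n k Lam A a) p.2.1 p'.2.1 + fock (n0' n k) p.2.1 p'.2.1 else 0

/-- the two-body tensor of `shellForm` -/
def WV (n k : ℕ) (p p' r r' : Val (n0' n k)) : ℝ :=
  if p.1 = p'.1 ∧ r.1 = r'.1 then W4 p.2.1 p'.2.1 r.2.1 r'.2.1 else 0

theorem shellForm_eq (n k : ℕ) (Lam : ℝ) (A : ℕ → ℕ → ℝ) (a : ℕ → ℝ) {N : ℕ}
    (D : (Fin N → Val (n0' n k)) → ℂ) :
    shellForm (n0' n k) (wpot n k Lam A a) D = b1 (hV n k Lam A a) D D + b2 (WV n k) D D := rfl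

theorem hV_eq (n k : ℕ) (Lam : ℝ) (A : ℕ → ℕ → ℝ) (a : ℕ → ℝ) (p p' : Val (n0' n k)) :
    hV n k Lam A a p p' = (if p = p' then eps n k Lam p else 0) + hR n k A a p p' := by
  unfold hV hR
  by_cases h1 : p.1 = p'.1
  · rw [if_pos h1, if_pos h1]
    have hs : ∑ c, p.2.1 c = ∑ c, p'.2.1 c := by
      have e1 := (XF.mem_shell _ _).1 p.2.2
      have e2 := (XF.mem_shell _ _).1 p'.2.2
      rw [Fin.sum_univ_three, Fin.sum_univ_three]; omega
    rw [WP.w1_wpot_shell n k Lam A a hs]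
    by_cases h2 : p = p'
    · subst h2
      rw [if_pos rfl, if_pos rfl, if_pos rfl]
      unfold eps
      have : ∑ i ∈ Finset.range n, (Lam - a i) * WP.dl (p.2.1 0) (mi n k i) =
          (∑ i ∈ Finset.range n, Lam * WP.dl (p.2.1 0) (mi n k i)) -
          ∑ i ∈ Finset.range n, a i * WP.dl (p.2.1 0) (mi n k i) := by
        rw [← Finset.sum_sub_distrib]
        exact Finset.sum_congr rfl fun i _ => by ring
      rw [this]; ring
    · have h3 : ¬ p.2.1 = p'.2.1 := fun h => h2 (Prod.ext h1 (Subtype.ext h))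
      rw [if_neg h2, if_neg h2, if_neg h3]; ring
  · rw [if_neg h1, if_neg h1, if_neg (fun h => h1 (congrArg Prod.fst h))]; ring

theorem hV_site {n k : ℕ} (hk : 1 ≤ k) (Lam : ℝ) (A : ℕ → ℕ → ℝ) (a : ℕ → ℝ) (p q : Fin n × Bool) :
    hV n k Lam A a (gS n k p) (gS n k q) =
      if p.2 = q.2 then BH.hSite n k Lam A a p.1 q.1 else 0 := by
  rw [hV_eq]
  unfold hR
  by_cases hs : p.2 = q.2
  · have hs' : (gS n k p).1 = (gS n k q).1 := by show sp p.2 = sp q.2; rw [hs]
    rw [if_pos hs, if_pos hs']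
    unfold BH.hSite
    have e1 : fock (n0' n k) (gS n k p).2.1 (gS n k q).2.1 =
      fock (n0' n k) (site n k p.1) (site n k q.1) := rfl
    have e2 : ∀ i j, w1 (vhop n k i j) (gS n k p).2.1 (gS n k q).2.1 = Mhop n k i j p.1 q.1 :=
      fun i j => rfl
    simp only [e2]
    rw [e1]
    by_cases hpq : p.1 = q.1
    · have : p = q := Prod.ext hpq hs
      subst this
      rw [if_pos rfl, if_pos rfl, if_pos rfl, eps_site hk]
      have e3 : ∑ i ∈ Finset.range n, a i * WP.dl ((gS n k p).2.1 0) (mi n k i) = a p.1 :=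
        sum_dl_site hk a p.1.isLt
      rw [e3]; ring
    · have h3 : ¬ gS n k p = gS n k q := fun h => hpq (congrArg Prod.fst (gS_inj hk h))
      rw [if_neg h3, if_neg h3, if_neg hpq]; ring
  · have hs' : ¬ (gS n k p).1 = (gS n k q).1 := fun h => hs (sp_inj h)
    have h3 : ¬ gS n k p = gS n k q := fun h => hs' (congrArg Prod.fst h)
    rw [if_neg hs, if_neg hs', if_neg h3]; ring

theorem WV_site {n k : ℕ} (p q r s : Fin n × Bool) :
    WV n k (gS n k p) (gS n k q) (gS n k r) (gS n k s) =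
      if p.2 = q.2 ∧ r.2 = s.2 then BH.WSite n k p.1 q.1 r.1 s.1 else 0 := by
  unfold WV
  have h : ((gS n k p).1 = (gS n k q).1 ∧ (gS n k r).1 = (gS n k s).1) ↔
      (p.2 = q.2 ∧ r.2 = s.2) := by
    show (sp p.2 = sp q.2 ∧ sp r.2 = sp s.2) ↔ _
    rw [sp_inj.eq_iff, sp_inj.eq_iff]
  by_cases hc : p.2 = q.2 ∧ r.2 = s.2
  · rw [if_pos hc, if_pos (h.2 hc)]; rfl
  · rw [if_neg hc, if_neg (fun h' => hc (h.1 h'))]

/-! ### bounds -/

theorem abs_hR_le {n k : ℕ} {A : ℕ → ℕ → ℝ} {a : ℕ → ℝ} {Amax : ℝ} (hA : ∀ i j, |A i j| ≤ Amax)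
    (ha : ∀ i, |a i| ≤ Amax) (p p' : Val (n0' n k)) :
    |hR n k A a p p'| ≤ 150000 * ((n0' n k : ℝ) + 2) ^ 3 + n ^ 2 * (Amax * 625) + n * Amax := by
  have hAm : 0 ≤ Amax := (abs_nonneg _).trans (ha 0)
  unfold hR
  split_ifs with h1 h2
  · refine (abs_add_le _ _).trans (add_le_add ((abs_add_le _ _).trans (add_le_add
      (abs_fock_le _ _ _) ?_)) ?_)
    · calc _ ≤ ∑ i ∈ Finset.range n, ∑ j ∈ Finset.range n, Amax * 625 := by
            refine (Finset.abs_sum_le_sum_abs _ _).trans (Finset.sum_le_sum fun i _ => ?_)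
            refine (Finset.abs_sum_le_sum_abs _ _).trans (Finset.sum_le_sum fun j _ => ?_)
            split_ifs
            · rw [abs_mul]
              exact mul_le_mul (hA i j) (abs_w1_vhop_le _ _ _ _ _ _) (abs_nonneg _) hAm
            · rw [abs_zero]; positivity
        _ = _ := by simp; ring
    · calc _ ≤ ∑ i ∈ Finset.range n, Amax * 1 := by
            refine (Finset.abs_sum_le_sum_abs _ _).trans (Finset.sum_le_sum fun i _ => ?_)
            rw [abs_mul]
            refine mul_le_mul (ha i) ?_ (abs_nonneg _) hAm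
            unfold WP.dl; split_ifs <;> norm_num
        _ = _ := by simp
  · rw [add_zero]
    refine ((abs_add_le _ _).trans (add_le_add
      (abs_fock_le _ _ _) ?_)).trans (le_add_of_nonneg_right (by positivity))
    calc _ ≤ ∑ i ∈ Finset.range n, ∑ j ∈ Finset.range n, Amax * 625 := by
            refine (Finset.abs_sum_le_sum_abs _ _).trans (Finset.sum_le_sum fun i _ => ?_)
            refine (Finset.abs_sum_le_sum_abs _ _).trans (Finset.sum_le_sum fun j _ => ?_)
            split_ifs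
            · rw [abs_mul]
              exact mul_le_mul (hA i j) (abs_w1_vhop_le _ _ _ _ _ _) (abs_nonneg _) hAm
            · rw [abs_zero]; positivity
        _ = _ := by simp; ring
  · rw [abs_zero]; positivity

theorem abs_WV_le {n k : ℕ} (p q r s : Val (n0' n k)) : |WV n k p q r s| ≤ 50000 := by
  unfold WV
  split_ifs
  · exact abs_W4_le _ _ _ _
  · norm_num

theorem card_Val (n0 : ℕ) : (Fintype.card (Val n0) : ℝ) = ((n0 : ℝ) + 1) * (n0 + 2) := by
  have h : Fintype.card (Val n0) = 2 * (shell n0).card := by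
    rw [Fintype.card_prod, Fintype.card_fin, Fintype.card_coe]
  rw [h, XF.card_shell]
  push_cast; ring

end Crest.Agent.R338.Sel

end
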