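import Mathlib

/-!
Row 338 (S0529): the sites (blueprint part 3, B.3): `ν_i = Y + 4 n² i + i²` with `Y = 16 n³ + 16 n`,
`m_i = 2 (K ν_i)²`, `n0 = 16 K² Y²`; window, Sidon property.
-/

set_option autoImplicit false

namespace Crest.Agent.R338

/-- `Y = 16 n³ + 16 n` -/
def sY (n : ℕ) : ℕ := 16 * n ^ 3 + 16 * n

/-- `ν_i = Y + 4 n² i + i²` -/
def sNu (n i : ℕ) : ℕ := sY n + 4 * n ^ 2 * i + i ^ 2

/-- `m_i = 2 (K ν_i)²` -/
def sm (n K i : ℕ) : ℕ := 2 * (K * sNu n i) ^ 2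

/-- `n0 = 16 K² Y²` -/
def sN0 (n K : ℕ) : ℕ := 16 * K ^ 2 * sY n ^ 2

/-- `m'_i = n0 - m_i` -/
def sm' (n K i : ℕ) : ℕ := sN0 n K - sm n K i

theorem sY_pos {n : ℕ} (hn : 0 < n) : 0 < sY n := by unfold sY; positivity

theorem le_sNu (n i : ℕ) : sY n ≤ sNu n i := by unfold sNu; omega

theorem sNu_le {n i : ℕ} (hi : i < n) : 4 * sNu n i ≤ 5 * sY n := by
  unfold sNu sY
  nlinarith [Nat.mul_le_mul_left (n ^ 2) (Nat.succ_le_of_lt hi), Nat.mul_le_mul hi.le hi.le,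
    Nat.mul_le_mul_left (16 * n ^ 2) hi.le, sq_nonneg (n : ℤ)]

theorem sNu_strictMono (n : ℕ) : StrictMono (sNu n) := by
  intro i j h
  unfold sNu
  have h1 : i ^ 2 < j ^ 2 := Nat.pow_lt_pow_left h (by norm_num)
  have h2 : 4 * n ^ 2 * i ≤ 4 * n ^ 2 * j := Nat.mul_le_mul_left _ h.le
  omega

/-- Sidon property -/
theorem sNu_sidon {n i j k l : ℕ} (hi : i < n) (hj : j < n) (hk : k < n) (hl : l < n)
    (h : sNu n i + sNu n j = sNu n k + sNu n l) : (i = k ∧ j = l) ∨ (i = l ∧ j = k) := by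
  have h1 : 4 * n ^ 2 * (i + j) + (i ^ 2 + j ^ 2) = 4 * n ^ 2 * (k + l) + (k ^ 2 + l ^ 2) := by
    unfold sNu at h; linarith
  have b1 : i ^ 2 + j ^ 2 < 4 * n ^ 2 := by nlinarith
  have b2 : k ^ 2 + l ^ 2 < 4 * n ^ 2 := by nlinarith
  have hs : i + j = k + l := by
    by_contra hne
    rcases Nat.lt_or_gt_of_ne hne with hlt | hlt
    · have : 4 * n ^ 2 * (i + j + 1) ≤ 4 * n ^ 2 * (k + l) := Nat.mul_le_mul_left _ hlt
      nlinarith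
    · have : 4 * n ^ 2 * (k + l + 1) ≤ 4 * n ^ 2 * (i + j) := Nat.mul_le_mul_left _ hlt
      nlinarith
  have hq : i ^ 2 + j ^ 2 = k ^ 2 + l ^ 2 := by rw [hs] at h1; omega
  have hp : ((i : ℤ) - k) * ((i : ℤ) - l) = 0 := by
    have e1 : (i : ℤ) + j = k + l := by exact_mod_cast hs
    have e2 : (i : ℤ) ^ 2 + j ^ 2 = k ^ 2 + l ^ 2 := by exact_mod_cast hq
    have e3 : (j : ℤ) = k + l - i := by linarith
    rw [e3] at e2
    nlinarith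
  rcases mul_eq_zero.1 hp with h0 | h0
  · left; constructor <;> omega
  · right; constructor <;> omega

theorem sm_le (n K : ℕ) {i : ℕ} (hi : i < n) : sm n K i ≤ sN0 n K := by
  have h := sNu_le hi
  have h2 : (4 * sNu n i) ^ 2 ≤ (5 * sY n) ^ 2 := Nat.pow_le_pow_left h 2
  unfold sm sN0
  have h3 : (K * sNu n i) ^ 2 = K ^ 2 * sNu n i ^ 2 := by ring
  rw [h3]
  have h4 : sNu n i ^ 2 ≤ 8 * sY n ^ 2 := by nlinarith
  calc 2 * (K ^ 2 * sNu n i ^ 2) ≤ 2 * (K ^ 2 * (8 * sY n ^ 2)) := by gcongr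
    _ = _ := by ring

/-- `m'_i = 2 K² (8 Y² - ν_i²)` -/
theorem sm'_eq (n K : ℕ) {i : ℕ} (hi : i < n) :
    sm' n K i = 2 * (K ^ 2 * (8 * sY n ^ 2 - sNu n i ^ 2)) := by
  unfold sm' sm sN0
  have h := sNu_le hi
  have h2 : (4 * sNu n i) ^ 2 ≤ (5 * sY n) ^ 2 := Nat.pow_le_pow_left h 2
  have h4 : sNu n i ^ 2 ≤ 8 * sY n ^ 2 := by nlinarith
  obtain ⟨d, hd⟩ := Nat.exists_eq_add_of_le h4
  have e : 8 * sY n ^ 2 - sNu n i ^ 2 = d := by omega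
  rw [e]
  have : 16 * K ^ 2 * sY n ^ 2 = 2 * (K * sNu n i) ^ 2 + 2 * (K ^ 2 * d) := by
    calc 16 * K ^ 2 * sY n ^ 2 = 2 * K ^ 2 * (8 * sY n ^ 2) := by ring
      _ = 2 * K ^ 2 * (sNu n i ^ 2 + d) := by rw [hd]
      _ = _ := by ring
  omega

theorem sm_add_sm' (n K : ℕ) {i : ℕ} (hi : i < n) : sm n K i + sm' n K i = sN0 n K := by
  unfold sm'
  have := sm_le n K hi
  omega

end Crest.Agent.R338
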