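import Crest.Agent.R338.TA0
import Crest.Agent.R338.Fm1

/-!
# Row 338, node TA (helper64): waves with Schwartz components
-/

set_option autoImplicit false

open MeasureTheory SchwartzMap
open scoped ContDiff ENNReal ComplexConjugate

noncomputable section

namespace Crest.Agent.R338.TA

open Crest.MathPhysics.ElectronicCoulomb
open Crest.Agent.R338.HO Crest.Agent.R338.Fm
open Crest.Agent.R335.HF (IsH1 Gr E kin cgrad)

variable {N : ℕ}

/-- waves with Schwartz components -/
abbrev SW (N : ℕ) := Spin N → 𝓢(Config N, ℂ)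

/-- the underlying wave -/
def toW (u : SW N) : Wave N := fun s x => u s x

@[simp] theorem toW_apply (u : SW N) (s : Spin N) (x : Config N) : toW u s x = u s x := rfl

/-- `(z, w) ↦ Re (conj z * w)` as a real bilinear map -/
def reB : ℂ →L[ℝ] ℂ →L[ℝ] ℝ :=
  LinearMap.mkContinuous₂ (LinearMap.mk₂ ℝ (fun z w : ℂ => (conj z * w).re)
    (fun z z' w => by simp [add_mul]) (fun c z w => by simp [mul_assoc])
    (fun z w w' => by simp [mul_add]) (fun c z w => by simp; ring)) 1 (by
      intro z w
      simp only [LinearMap.mk₂_apply, one_mul]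
      calc |(conj z * w).re| ≤ ‖conj z * w‖ := Complex.abs_re_le_norm _
        _ = ‖z‖ * ‖w‖ := by rw [norm_mul, RCLike.norm_conj])

@[simp] theorem reB_apply (z w : ℂ) : reB z w = (conj z * w).re := rfl

theorem reB_self (z : ℂ) : (conj z * z).re = ‖z‖ ^ 2 := by
  rw [mul_comm, Complex.mul_conj, Complex.ofReal_re, Complex.normSq_eq_norm_sq]

theorem abs_reB_le (z w : ℂ) : |(conj z * w).re| ≤ ‖z‖ * ‖w‖ := by
  calc |(conj z * w).re| ≤ ‖conj z * w‖ := Complex.abs_re_le_norm _
    _ = ‖z‖ * ‖w‖ := by rw [norm_mul, RCLike.norm_conj]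

/-- the real overlap density, summed over the spins -/
def rho (u v : SW N) (x : Config N) : ℝ := ∑ s, (conj (u s x) * v s x).re

/-- the overlap density as a Schwartz function -/
def rhoS (u v : SW N) : 𝓢(Config N, ℝ) := ∑ s, SchwartzMap.pairing reB (u s) (v s)

theorem rhoS_apply (u v : SW N) (x : Config N) : rhoS u v x = rho u v x := by
  unfold rhoS rho
  rw [sum_apply]
  rfl

theorem rhoS_coe (u v : SW N) : (rhoS u v : Config N → ℝ) = rho u v := by
  ext x; exact rhoS_apply u v x

theorem rho_self (u : SW N) (x : Config N) : rho u u x = ∑ s, ‖u s x‖ ^ 2 := by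
  unfold rho
  exact Finset.sum_congr rfl fun s _ => reB_self _

theorem rho_self_nonneg (u : SW N) (x : Config N) : 0 ≤ rho u u x := by
  rw [rho_self]; positivity

theorem rho_add (u v : SW N) (x : Config N) :
    rho (u + v) (u + v) x = rho u u x + 2 * rho u v x + rho v v x := by
  unfold rho
  rw [Finset.mul_sum, ← Finset.sum_add_distrib, ← Finset.sum_add_distrib]
  refine Finset.sum_congr rfl fun s _ => ?_
  simp only [Pi.add_apply, add_apply, map_add, Complex.mul_re, Complex.add_re,
    Complex.add_im, Complex.conj_re, Complex.conj_im]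
  ring

theorem abs_rho_le (u v : SW N) (x : Config N) : |rho u v x| ≤ ∑ s, ‖u s x‖ * ‖v s x‖ := by
  unfold rho
  refine (Finset.abs_sum_le_sum_abs _ _).trans (Finset.sum_le_sum fun s _ => abs_reB_le _ _)

theorem abs_rho_le_sqrt (u v : SW N) (x : Config N) :
    |rho u v x| ≤ √(rho u u x) * √(rho v v x) := by
  refine (abs_rho_le u v x).trans ?_
  rw [rho_self, rho_self]
  exact Real.sum_mul_le_sqrt_mul_sqrt _ _ _

/-- squared `L²` norm -/
def nq (u : SW N) : ℝ := nsq (toW u)

/-- Dirichlet integral -/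
def dq (u : SW N) : ℝ := dir fun s => cgrad (u s)

theorem nq_nonneg (u : SW N) : 0 ≤ nq u := nsq_nonneg _

theorem dq_nonneg (u : SW N) : 0 ≤ dq u := dir_nonneg _

theorem memLp_comp' (f : 𝓢(Config N, ℂ)) : MemLp f 2 (volume : Measure (Config N)) :=
  f.memLp 2 volume

theorem memLp_cgrad (f : 𝓢(Config N, ℂ)) (p : ℝ≥0∞) : MemLp (cgrad f) p volume := by
  refine Crest.Agent.R335.HF.memLp_of_comp fun i => ?_
  have h := (LineDeriv.lineDerivOp (EuclideanSpace.single i (1 : ℝ)) f : 𝓢(Config N, ℂ)).memLp p volume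
  have e : (fun x => cgrad f x i) =
      (LineDeriv.lineDerivOp (EuclideanSpace.single i (1 : ℝ)) f : 𝓢(Config N, ℂ)) := by
    ext x
    rw [SchwartzMap.lineDerivOp_apply_eq_fderiv]
    rfl
  rw [e]; exact h

theorem isH1_sw (f : 𝓢(Config N, ℂ)) : IsH1 (f : Config N → ℂ) (cgrad f) :=
  Crest.Agent.R335.HF.isH1_of_contDiff (f.smooth 1) (f.memLp 2 volume) (memLp_cgrad f 2)

theorem waveH1_toW (u : SW N) : WaveH1 (toW u) (fun s => cgrad (u s)) := fun s => isH1_sw (u s)

theorem integrable_norm_sq_sw (f : 𝓢(Config N, ℂ)) : Integrable (fun x => ‖f x‖ ^ 2) :=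
  (f.memLp 2 volume).integrable_norm_pow (by norm_num)

theorem integrable_rho (u v : SW N) : Integrable (rho u v) := by
  rw [← rhoS_coe]; exact (rhoS u v).integrable

theorem nq_eq (u : SW N) : nq u = ∫ x, rho u u x := by
  unfold nq nsq
  simp only [toW_apply]
  rw [← integral_finsetSum _ fun s _ => integrable_norm_sq_sw (u s)]
  refine integral_congr_ae (Filter.Eventually.of_forall fun x => ?_)
  simp only [rho_self]

/-- gradient density -/
def gden (u : SW N) (x : Config N) : ℝ := ∑ s, ‖cgrad (u s) x‖ ^ 2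

theorem gden_nonneg (u : SW N) (x : Config N) : 0 ≤ gden u x := by unfold gden; positivity

theorem integrable_cgrad_sq (f : 𝓢(Config N, ℂ)) : Integrable (fun x => ‖cgrad f x‖ ^ 2) :=
  (memLp_cgrad f 2).integrable_norm_pow (by norm_num)

theorem integrable_gden (u : SW N) : Integrable (gden u) :=
  integrable_finsetSum _ fun s _ => integrable_cgrad_sq (u s)

theorem dq_eq (u : SW N) : dq u = ∫ x, gden u x := by
  unfold dq dir gden
  rw [← integral_finsetSum _ fun s _ => integrable_cgrad_sq (u s)]

/-- the energy of a Schwartz wave -/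
theorem energy_toW {W : Config N → ℝ} (u : SW N)
    (hW : ∀ s, Integrable (fun x => W x * ‖u s x‖ ^ 2)) :
    energy W (toW u) = (1 / 2) * dq u + ∫ x, W x * rho u u x := by
  rw [(waveH1_toW u).energy_eq]
  congr 1
  simp only [toW_apply]
  rw [← integral_finsetSum _ fun s _ => hW s]
  refine integral_congr_ae (Filter.Eventually.of_forall fun x => ?_)
  simp only [rho_self, Finset.mul_sum]

end Crest.Agent.R338.TA
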