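import Crest.Agent.R338.TA0

/-!
# Row 338, node TA (helper64): the numerical form lemma (A.5) and tensor bounds
-/

set_option autoImplicit false

open MeasureTheory
open scoped ENNReal ComplexConjugate

noncomputable section

namespace Crest.Agent.R338.TA

open Crest.MathPhysics.ElectronicCoulomb
open Crest.Agent.R338.HO

/-- A.5 as a purely numerical statement. `P = |p|²`, `Q = |q|²`, `H = h_osc(q)`, `Gp = |p|₁²`,
`Gq = |q|₁²`. -/
theorem form_num {e P Q H Gp Gq M lb δ bpp bpq bqq : ℝ} (he : 0 ≤ e) (hP : 0 ≤ P) (hQ : 0 ≤ Q)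
    (hδ : 0 ≤ δ) (hH : (e + 1) * Q ≤ H) (hGp0 : 0 ≤ Gp) (hGp : Gp ≤ (1 + 2 * e) * P)
    (hQG : Q ≤ Gq) (hGq : Gq ≤ 4 * H) (hM : 0 ≤ M) (hM4 : 16 * (e + 1) * M ≤ 1)
    (hlb : 16 * (e + 1) * lb ≤ 1)
    (hbpp : (lb - δ) * P ≤ bpp) (hbpq : |bpq| ≤ M * (√Gp * √Gq)) (hbqq : |bqq| ≤ M * Gq) :
    (e + lb - δ - 8 * (e + 1) * (1 + 2 * e) * M ^ 2) * (P + Q) ≤
      e * P + H + (bpp + 2 * bpq + bqq) := by
  have hGq0 : 0 ≤ Gq := hQ.trans hQG
  have he1 : 0 < e + 1 := by linarith
  set g1 : ℝ := 1 / (4 * (e + 1)) with hg1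
  have hg1p : 0 < g1 := by positivity
  have hg1e : g1 * (4 * (e + 1)) = 1 := by rw [hg1]; field_simp
  -- `H - e Q ≥ g1 Gq`
  have hgap : g1 * Gq ≤ H - e * Q := by
    have h1 : g1 * Gq ≤ g1 * (4 * H) := mul_le_mul_of_nonneg_left hGq hg1p.le
    have h2 : g1 * (4 * H) * (e + 1) = H := by
      calc g1 * (4 * H) * (e + 1) = (g1 * (4 * (e + 1))) * H := by ring
        _ = H := by rw [hg1e, one_mul]
    have h3 : H ≤ (H - e * Q) * (e + 1) := by nlinarith [mul_nonneg he hQ]
    have h4 : g1 * (4 * H) * (e + 1) ≤ (H - e * Q) * (e + 1) := by rw [h2]; exact h3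
    exact h1.trans (le_of_mul_le_mul_right h4 he1)
  have hM4' : M ≤ g1 / 4 := by
    rw [hg1]
    rw [div_div, le_div_iff₀ (by positivity)]
    linarith
  have hlb' : lb ≤ g1 / 4 := by
    rw [hg1]
    rw [div_div, le_div_iff₀ (by positivity)]
    linarith
  -- the cross term
  have hx : 2 * |bpq| ≤ (g1 / 2) * Gq + (2 * M ^ 2 / g1) * Gp := by
    have h1 : 2 * |bpq| ≤ 2 * (M * (√Gp * √Gq)) := by linarith
    refine h1.trans ?_
    have h2 := sq_nonneg ((√(g1 / 2)) * √Gq - (√(2 / g1) * M) * √Gp)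
    have e1 : √(g1 / 2) ^ 2 = g1 / 2 := Real.sq_sqrt (by positivity)
    have e2 : √(2 / g1) ^ 2 = 2 / g1 := Real.sq_sqrt (by positivity)
    have e3 : √Gq ^ 2 = Gq := Real.sq_sqrt hGq0
    have e4 : √Gp ^ 2 = Gp := Real.sq_sqrt hGp0
    have e5 : √(g1 / 2) * √(2 / g1) = 1 := by
      rw [← Real.sqrt_mul (by positivity)]
      have : g1 / 2 * (2 / g1) = 1 := by field_simp
      rw [this, Real.sqrt_one]
    have e6 : (√(g1 / 2) * √Gq - √(2 / g1) * M * √Gp) ^ 2 =
        √(g1 / 2) ^ 2 * √Gq ^ 2 + √(2 / g1) ^ 2 * M ^ 2 * √Gp ^ 2 -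
          2 * (√(g1 / 2) * √(2 / g1)) * M * √Gp * √Gq := by ring
    rw [e6, e1, e2, e3, e4, e5] at h2
    have e7 : 2 * M ^ 2 / g1 * Gp = 2 / g1 * M ^ 2 * Gp := by ring
    rw [e7]
    linarith
  have hGp' : (2 * M ^ 2 / g1) * Gp ≤ 8 * (e + 1) * (1 + 2 * e) * M ^ 2 * P := by
    have h1 : 2 * M ^ 2 / g1 = 8 * (e + 1) * M ^ 2 := by
      rw [hg1]; field_simp; ring
    rw [h1]
    have h2 : 0 ≤ 8 * (e + 1) * M ^ 2 := by positivity
    calc 8 * (e + 1) * M ^ 2 * Gp ≤ 8 * (e + 1) * M ^ 2 * ((1 + 2 * e) * P) :=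
          mul_le_mul_of_nonneg_left hGp h2
      _ = _ := by ring
  have hbpq' := neg_abs_le bpq
  have hbqq' := neg_abs_le bqq
  have h5 : M * Gq ≤ g1 / 4 * Gq := mul_le_mul_of_nonneg_right hM4' hGq0
  have h6 : lb * Q ≤ g1 / 4 * Gq := by
    rcases le_or_gt 0 lb with h | h
    · exact mul_le_mul hlb' hQG hQ (by positivity)
    · have : lb * Q ≤ 0 := mul_nonpos_of_nonpos_of_nonneg h.le hQ
      exact this.trans (by positivity)
  have h7 : 0 ≤ δ * Q := mul_nonneg hδ hQ
  have h8 : 0 ≤ 8 * (e + 1) * (1 + 2 * e) * M ^ 2 * Q := by positivity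
  nlinarith

variable {N n0 : ℕ}

theorem tsq_nonneg (C : Ten N n0) : 0 ≤ tsq C := by unfold tsq; positivity

/-- changing one orbital and summing over the new orbital -/
theorem sum_update_le (C : Ten N n0) (i : Fin N) :
    ∑ ω : Fin N → Orb n0, ∑ b : Sp n0, ‖C (Function.update ω i ((ω i).1, b))‖ ^ 2 ≤
      Fintype.card (Sp n0) * tsq C := by
  classical
  -- fibre over the value `η = update ω i (s, b)`
  have h1 : ∀ ω : Fin N → Orb n0, ∀ b : Sp n0,
      ‖C (Function.update ω i ((ω i).1, b))‖ ^ 2 =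
        ∑ η : Fin N → Orb n0, if η = Function.update ω i ((ω i).1, b) then ‖C η‖ ^ 2 else 0 := by
    intro ω b
    simp
  simp only [h1]
  rw [Finset.sum_congr rfl fun ω _ => Finset.sum_comm, Finset.sum_comm]
  unfold tsq
  rw [Finset.mul_sum]
  refine Finset.sum_le_sum fun η _ => ?_
  -- number of pairs (ω, b) with update ω i (ω i).1 b = η is at most card Sp
  have h2 : ∀ ω : Fin N → Orb n0, (∑ b : Sp n0,
      if η = Function.update ω i ((ω i).1, b) then ‖C η‖ ^ 2 else 0) ≤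
        if (∃ a : Sp n0, ω = Function.update η i ((η i).1, a)) then ‖C η‖ ^ 2 else 0 := by
    intro ω
    by_cases hω : ∃ a : Sp n0, ω = Function.update η i ((η i).1, a)
    · rw [if_pos hω]
      calc (∑ b : Sp n0, if η = Function.update ω i ((ω i).1, b) then ‖C η‖ ^ 2 else 0)
          ≤ ∑ b : Sp n0, if b = (η i).2 then ‖C η‖ ^ 2 else 0 := by
            refine Finset.sum_le_sum fun b _ => ?_
            by_cases hb : η = Function.update ω i ((ω i).1, b)
            · rw [if_pos hb]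
              have : b = (η i).2 := by rw [hb]; simp
              rw [if_pos this]
            · rw [if_neg hb]; split_ifs <;> positivity
        _ = ‖C η‖ ^ 2 := by simp
    · rw [if_neg hω]
      refine Finset.sum_nonpos fun b _ => ?_
      rw [if_neg]
      intro hb
      apply hω
      refine ⟨(ω i).2, ?_⟩
      rw [hb]
      funext j
      by_cases hj : j = i
      · subst hj; simp
      · simp [Function.update_of_ne hj]
  refine (Finset.sum_le_sum fun ω _ => h2 ω).trans ?_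
  rw [← Finset.sum_filter, Finset.sum_const, nsmul_eq_mul]
  refine mul_le_mul_of_nonneg_right ?_ (by positivity)
  have h3 : (Finset.univ.filter fun ω : Fin N → Orb n0 =>
      ∃ a : Sp n0, ω = Function.update η i ((η i).1, a)) ⊆
        Finset.univ.image fun a : Sp n0 => Function.update η i ((η i).1, a) := by
    intro ω hω
    simp only [Finset.mem_filter, Finset.mem_univ, true_and] at hω
    obtain ⟨a, ha⟩ := hω
    simp only [Finset.mem_image, Finset.mem_univ, true_and]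
    exact ⟨a, ha.symm⟩
  have h4 := (Finset.card_le_card h3).trans Finset.card_image_le
  have h5 : (Finset.univ : Finset (Sp n0)).card = Fintype.card (Sp n0) := rfl
  rw [h5] at h4
  exact_mod_cast h4

/-- a one-body form with small entries is small -/
theorem abs_oneF_le {h : Sp n0 → Sp n0 → ℝ} {eps : ℝ} (hh : ∀ a b, |h a b| ≤ eps)
    (C : Ten N n0) : |oneF h C| ≤ N * Fintype.card (Sp n0) * eps * tsq C := by
  by_cases hN : N = 0
  · subst hN
    unfold oneF
    simp
  have hne : Nonempty (Sp n0) := ⟨⟨fun _ => 0, by simp [deg3]⟩⟩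
  have heps : 0 ≤ eps := (abs_nonneg _).trans (hh (Classical.arbitrary _) (Classical.arbitrary _))
  unfold oneF
  refine (Finset.abs_sum_le_sum_abs _ _).trans ?_
  have key : ∀ i : Fin N, |∑ ω : Fin N → Orb n0, ∑ b : Sp n0,
      (starRingEnd ℂ (C ω) * C (Function.update ω i ((ω i).1, b))).re * h (ω i).2 b| ≤
        Fintype.card (Sp n0) * eps * tsq C := by
    intro i
    refine (Finset.abs_sum_le_sum_abs _ _).trans ?_
    have h1 : ∀ ω : Fin N → Orb n0, |∑ b : Sp n0,
        (starRingEnd ℂ (C ω) * C (Function.update ω i ((ω i).1, b))).re * h (ω i).2 b| ≤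
          ∑ b : Sp n0, eps * ((‖C ω‖ ^ 2 + ‖C (Function.update ω i ((ω i).1, b))‖ ^ 2) / 2) := by
      intro ω
      refine (Finset.abs_sum_le_sum_abs _ _).trans (Finset.sum_le_sum fun b _ => ?_)
      rw [abs_mul, mul_comm]
      have h2 : |(starRingEnd ℂ (C ω) * C (Function.update ω i ((ω i).1, b))).re| ≤
          (‖C ω‖ ^ 2 + ‖C (Function.update ω i ((ω i).1, b))‖ ^ 2) / 2 := by
        refine (Complex.abs_re_le_norm _).trans ?_
        rw [norm_mul, RCLike.norm_conj]
        nlinarith [sq_nonneg (‖C ω‖ - ‖C (Function.update ω i ((ω i).1, b))‖)]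
      exact mul_le_mul (hh _ _) h2 (abs_nonneg _) heps
    refine (Finset.sum_le_sum fun ω _ => h1 ω).trans ?_
    simp only [← Finset.mul_sum, ← Finset.sum_div, Finset.sum_add_distrib, Finset.sum_const,
      Finset.card_univ, nsmul_eq_mul]
    have h3 := sum_update_le C i
    have h4 : ∑ ω : Fin N → Orb n0, ‖C ω‖ ^ 2 = tsq C := rfl
    rw [h4]
    have h5 : eps * ((Fintype.card (Sp n0) * tsq C +
        ∑ ω : Fin N → Orb n0, ∑ b : Sp n0, ‖C (Function.update ω i ((ω i).1, b))‖ ^ 2) / 2) ≤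
        eps * ((Fintype.card (Sp n0) * tsq C + Fintype.card (Sp n0) * tsq C) / 2) :=
      mul_le_mul_of_nonneg_left (by linarith) heps
    refine h5.trans_eq ?_
    ring
  refine (Finset.sum_le_sum fun i _ => key i).trans_eq ?_
  rw [Finset.sum_const, Finset.card_univ, Fintype.card_fin, nsmul_eq_mul]
  ring

end Crest.Agent.R338.TA
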