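import Crest.Agent.R338.TA2

/-!
# Row 338, node TA (helper64): smooth cut-offs and the IMS formula
-/

set_option autoImplicit false

open MeasureTheory SchwartzMap Filter
open scoped ContDiff ENNReal ComplexConjugate Topology

noncomputable section

namespace Crest.Agent.R338.TA

open Crest.MathPhysics.ElectronicCoulomb
open Crest.Agent.R338.HO Crest.Agent.R338.Fm
open Crest.Agent.R335.HF (IsH1 Gr E kin cgrad)

variable {N : ℕ}

/-! ### multiplication of Schwartz waves by real functions -/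

/-- multiply all components by a real function of temperate growth -/
def mulW (J : Config N → ℝ) (u : SW N) : SW N := fun s => SchwartzMap.smulLeftCLM ℂ J (u s)

theorem mulW_apply {J : Config N → ℝ} (hJ : J.HasTemperateGrowth) (u : SW N) (s : Spin N)
    (x : Config N) : mulW J u s x = (J x : ℂ) * u s x := by
  unfold mulW
  rw [SchwartzMap.smulLeftCLM_apply_apply hJ]
  simp

theorem rho_mulW {J : Config N → ℝ} (hJ : J.HasTemperateGrowth) (u : SW N) (x : Config N) :
    rho (mulW J u) (mulW J u) x = J x ^ 2 * rho u u x := by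
  rw [rho_self, rho_self, Finset.mul_sum]
  refine Finset.sum_congr rfl fun s _ => ?_
  rw [mulW_apply hJ, norm_mul, Complex.norm_real, mul_pow, Real.norm_eq_abs, sq_abs]

theorem cgrad_mul_apply {J : Config N → ℝ} {f : 𝓢(Config N, ℂ)} {x : Config N}
    (hJ : DifferentiableAt ℝ J x) (ic : Fin N × Fin 3) :
    cgrad (fun y => (J y : ℂ) * f y) x ic =
      (J x : ℂ) * cgrad (f : Config N → ℂ) x ic + ((cgrad J x ic : ℝ) : ℂ) * f x := by
  have h1 : HasFDerivAt (fun y => J y • f y)
      (J x • fderiv ℝ f x + (fderiv ℝ J x).smulRight (f x)) x :=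
    hJ.hasFDerivAt.smul (f.hasFDerivAt x)
  have e : (fun y => (J y : ℂ) * f y) = fun y => J y • f y := by
    funext y; simp
  rw [e]
  unfold cgrad
  simp only [PiLp.toLp_apply]
  rw [h1.fderiv]
  simp [ContinuousLinearMap.smulRight_apply]

/-- expansion of the squared gradient of a product -/
theorem norm_cgrad_mul_sq {J : Config N → ℝ} {f : 𝓢(Config N, ℂ)} {x : Config N}
    (hJ : DifferentiableAt ℝ J x) :
    ‖cgrad (fun y => (J y : ℂ) * f y) x‖ ^ 2 =
      J x ^ 2 * ‖cgrad (f : Config N → ℂ) x‖ ^ 2 + (∑ ic, cgrad J x ic ^ 2) * ‖f x‖ ^ 2 +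
        2 * ∑ ic, (J x * cgrad J x ic) * (conj (f x) * cgrad (f : Config N → ℂ) x ic).re := by
  rw [PiLp.norm_sq_eq_of_L2, PiLp.norm_sq_eq_of_L2, Finset.mul_sum, Finset.sum_mul, Finset.mul_sum,
    ← Finset.sum_add_distrib, ← Finset.sum_add_distrib]
  refine Finset.sum_congr rfl fun ic _ => ?_
  rw [cgrad_mul_apply hJ]
  have e : ∀ z : ℂ, ‖z‖ ^ 2 = z.re ^ 2 + z.im ^ 2 := fun z => by
    rw [← Complex.normSq_eq_norm_sq, Complex.normSq_apply]; ring
  rw [e, e, e]
  simp only [Complex.add_re, Complex.add_im, Complex.mul_re, Complex.mul_im, Complex.ofReal_re,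
    Complex.ofReal_im, Complex.conj_re, Complex.conj_im]
  ring

/-! ### the pair `J = sin (π Θ / 2)`, `Jb = cos (π Θ / 2)` -/

/-- inner cut-off -/
def Jin (Th : Config N → ℝ) (x : Config N) : ℝ := Real.sin (Real.pi / 2 * Th x)

/-- outer cut-off -/
def Jout (Th : Config N → ℝ) (x : Config N) : ℝ := Real.cos (Real.pi / 2 * Th x)

theorem Jin_sq_add (Th : Config N → ℝ) (x : Config N) : Jin Th x ^ 2 + Jout Th x ^ 2 = 1 :=
  Real.sin_sq_add_cos_sq _

section
variable {Th : Config N → ℝ}

theorem contDiff_Jin (h : ContDiff ℝ ∞ Th) : ContDiff ℝ ∞ (Jin Th) :=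
  Real.contDiff_sin.comp (contDiff_const.mul h)

theorem contDiff_Jout (h : ContDiff ℝ ∞ Th) : ContDiff ℝ ∞ (Jout Th) :=
  Real.contDiff_cos.comp (contDiff_const.mul h)

theorem supp_Jin (hc : HasCompactSupport Th) : HasCompactSupport (Jin Th) :=
  hc.comp_left (g := fun t => Real.sin (Real.pi / 2 * t)) (by simp)

theorem htg_Jin (h : ContDiff ℝ ∞ Th) (hc : HasCompactSupport Th) :
    (Jin Th).HasTemperateGrowth :=
  ((supp_Jin hc).toSchwartzMap (contDiff_Jin h)).hasTemperateGrowth

theorem htg_Jout (h : ContDiff ℝ ∞ Th) (hc : HasCompactSupport Th) :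
    (Jout Th).HasTemperateGrowth := by
  have h1 : ContDiff ℝ ∞ (fun x => Jout Th x - 1) := (contDiff_Jout h).sub contDiff_const
  have h2 : HasCompactSupport (fun x => Jout Th x - 1) :=
    hc.comp_left (g := fun t => Real.cos (Real.pi / 2 * t) - 1) (by simp)
  have h3 := (h2.toSchwartzMap h1).hasTemperateGrowth
  have h4 := h3.add (Function.HasTemperateGrowth.const (1 : ℝ))
  have e : ((h2.toSchwartzMap h1 : 𝓢(Config N, ℝ)) : Config N → ℝ) + (fun _ => (1 : ℝ)) = Jout Th := by
    funext x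
    change (Jout Th x - 1) + 1 = Jout Th x
    ring
  rwa [e] at h4

theorem cgrad_Jin (h : ContDiff ℝ ∞ Th) (x : Config N) (ic : Fin N × Fin 3) :
    cgrad (Jin Th) x ic = Jout Th x * (Real.pi / 2 * cgrad Th x ic) := by
  have h1 : HasFDerivAt Th (fderiv ℝ Th x) x :=
    ((h.differentiable (by simp)) x).hasFDerivAt
  have h2 : HasFDerivAt (Jin Th) (Real.cos (Real.pi / 2 * Th x) • ((Real.pi / 2) • fderiv ℝ Th x)) x :=
    (h1.const_mul (Real.pi / 2)).sin
  unfold cgrad
  simp only [PiLp.toLp_apply]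
  rw [h2.fderiv]
  simp [Jout]

theorem cgrad_Jout (h : ContDiff ℝ ∞ Th) (x : Config N) (ic : Fin N × Fin 3) :
    cgrad (Jout Th) x ic = -(Jin Th x * (Real.pi / 2 * cgrad Th x ic)) := by
  have h1 : HasFDerivAt Th (fderiv ℝ Th x) x :=
    ((h.differentiable (by simp)) x).hasFDerivAt
  have h2 : HasFDerivAt (Jout Th)
      (-Real.sin (Real.pi / 2 * Th x) • ((Real.pi / 2) • fderiv ℝ Th x)) x :=
    (h1.const_mul (Real.pi / 2)).cos
  unfold cgrad
  simp only [PiLp.toLp_apply]
  rw [h2.fderiv]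
  simp [Jin]

theorem norm_cgrad_pair (h : ContDiff ℝ ∞ Th) (f : 𝓢(Config N, ℂ)) (x : Config N) :
    ‖cgrad (fun y => (Jin Th y : ℂ) * f y) x‖ ^ 2 + ‖cgrad (fun y => (Jout Th y : ℂ) * f y) x‖ ^ 2 =
      ‖cgrad (f : Config N → ℂ) x‖ ^ 2 +
        (Real.pi / 2) ^ 2 * (∑ ic, cgrad Th x ic ^ 2) * ‖f x‖ ^ 2 := by
  have hi : DifferentiableAt ℝ (Jin Th) x := (contDiff_Jin h).differentiable (by simp) x
  have ho : DifferentiableAt ℝ (Jout Th) x := (contDiff_Jout h).differentiable (by simp) x
  rw [norm_cgrad_mul_sq hi, norm_cgrad_mul_sq ho]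
  have e1 : (∑ ic, cgrad (Jin Th) x ic ^ 2) + (∑ ic, cgrad (Jout Th) x ic ^ 2) =
      (Real.pi / 2) ^ 2 * ∑ ic, cgrad Th x ic ^ 2 := by
    rw [← Finset.sum_add_distrib, Finset.mul_sum]
    refine Finset.sum_congr rfl fun ic _ => ?_
    rw [cgrad_Jin h, cgrad_Jout h]
    have := Jin_sq_add Th x
    linear_combination (Real.pi / 2 * cgrad Th x ic) ^ 2 * this
  have e2 : (∑ ic, (Jin Th x * cgrad (Jin Th) x ic) * (conj (f x) * cgrad (f : Config N → ℂ) x ic).re) +
      (∑ ic, (Jout Th x * cgrad (Jout Th) x ic) * (conj (f x) * cgrad (f : Config N → ℂ) x ic).re) = 0 := by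
    rw [← Finset.sum_add_distrib]
    refine Finset.sum_eq_zero fun ic _ => ?_
    rw [cgrad_Jin h, cgrad_Jout h]
    ring
  have := Jin_sq_add Th x
  linear_combination ‖cgrad (f : Config N → ℂ) x‖ ^ 2 * this + ‖f x‖ ^ 2 * e1 + 2 * e2

/-- the IMS identity for the Dirichlet integrals -/
theorem ims (h : ContDiff ℝ ∞ Th) (hc : HasCompactSupport Th) {B : ℝ}
    (hB : ∀ x, ∑ ic, cgrad Th x ic ^ 2 ≤ B) (u : SW N) :
    dq (mulW (Jin Th) u) + dq (mulW (Jout Th) u) ≤ dq u + (Real.pi / 2) ^ 2 * B * nq u := by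
  rw [dq_eq, dq_eq, dq_eq, nq_eq, ← integral_add (integrable_gden _) (integrable_gden _),
    ← integral_const_mul, ← integral_add (integrable_gden _) ((integrable_rho u u).const_mul _)]
  refine integral_mono ((integrable_gden _).add (integrable_gden _))
    ((integrable_gden _).add ((integrable_rho u u).const_mul _)) fun x => ?_
  simp only [gden, rho_self]
  rw [← Finset.sum_add_distrib, Finset.mul_sum, ← Finset.sum_add_distrib]
  refine Finset.sum_le_sum fun s _ => ?_
  have ei : (mulW (Jin Th) u s : Config N → ℂ) = fun y => (Jin Th y : ℂ) * u s y := by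
    funext y; exact mulW_apply (htg_Jin h hc) u s y
  have eo : (mulW (Jout Th) u s : Config N → ℂ) = fun y => (Jout Th y : ℂ) * u s y := by
    funext y; exact mulW_apply (htg_Jout h hc) u s y
  rw [ei, eo, norm_cgrad_pair h]
  have := hB x
  have h2 : 0 ≤ (Real.pi / 2) ^ 2 * ‖u s x‖ ^ 2 := by positivity
  nlinarith

theorem nq_pair (h : ContDiff ℝ ∞ Th) (hc : HasCompactSupport Th) (u : SW N) :
    nq (mulW (Jin Th) u) + nq (mulW (Jout Th) u) = nq u := by
  rw [nq_eq, nq_eq, nq_eq, ← integral_add (integrable_rho _ _) (integrable_rho _ _)]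
  refine integral_congr_ae (Eventually.of_forall fun x => ?_)
  simp only [rho_mulW (htg_Jin h hc), rho_mulW (htg_Jout h hc)]
  rw [← add_mul, Jin_sq_add, one_mul]

theorem rho_pair (h : ContDiff ℝ ∞ Th) (hc : HasCompactSupport Th) (u : SW N) (x : Config N) :
    rho (mulW (Jin Th) u) (mulW (Jin Th) u) x + rho (mulW (Jout Th) u) (mulW (Jout Th) u) x =
      rho u u x := by
  rw [rho_mulW (htg_Jin h hc), rho_mulW (htg_Jout h hc), ← add_mul, Jin_sq_add, one_mul]

end

/-! ### the product cut-off -/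

/-- one-dimensional cut-off: `1` on `[-R, R]`, `0` off `(-2R, 2R)` -/
def th (R t : ℝ) : ℝ := Real.smoothTransition (2 - t / R) * Real.smoothTransition (2 + t / R)

theorem contDiff_th (R : ℝ) : ContDiff ℝ ∞ (th R) := by
  unfold th
  exact (Real.smoothTransition.contDiff.comp (contDiff_const.sub (contDiff_id.div_const R))).mul
    (Real.smoothTransition.contDiff.comp (contDiff_const.add (contDiff_id.div_const R)))

theorem th_nonneg (R t : ℝ) : 0 ≤ th R t :=
  mul_nonneg (Real.smoothTransition.nonneg _) (Real.smoothTransition.nonneg _)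

theorem th_le_one (R t : ℝ) : th R t ≤ 1 :=
  mul_le_one₀ (Real.smoothTransition.le_one _) (Real.smoothTransition.nonneg _)
    (Real.smoothTransition.le_one _)

theorem th_eq_one {R t : ℝ} (hR : 0 < R) (h : |t| ≤ R) : th R t = 1 := by
  have h1 := abs_le.1 h
  unfold th
  rw [Real.smoothTransition.one_of_one_le, Real.smoothTransition.one_of_one_le, one_mul]
  · have : -1 ≤ t / R := by rw [le_div_iff₀ hR]; linarith
    linarith
  · have : t / R ≤ 1 := by rw [div_le_iff₀ hR]; linarith
    linarith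

theorem th_eq_zero {R t : ℝ} (hR : 0 < R) (h : 2 * R ≤ |t|) : th R t = 0 := by
  unfold th
  rcases le_abs.1 h with h1 | h1
  · rw [Real.smoothTransition.zero_of_nonpos, zero_mul]
    have : 2 ≤ t / R := by rw [le_div_iff₀ hR]; linarith
    linarith
  · rw [mul_comm, Real.smoothTransition.zero_of_nonpos, zero_mul]
    have : t / R ≤ -2 := by rw [div_le_iff₀ hR]; linarith
    linarith

theorem exists_deriv_sT_bound : ∃ M : ℝ, 0 ≤ M ∧ ∀ t, |deriv Real.smoothTransition t| ≤ M := by
  have hcont : Continuous (deriv Real.smoothTransition) :=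
    (Real.smoothTransition.contDiff (n := 1)).continuous_deriv (by simp)
  obtain ⟨M, hM⟩ := (isCompact_Icc (a := (0 : ℝ)) (b := 1)).exists_bound_of_continuousOn
    hcont.continuousOn
  refine ⟨max M 0, le_max_right _ _, fun t => ?_⟩
  by_cases ht : t ∈ Set.Icc (0 : ℝ) 1
  · have := hM t ht
    rw [Real.norm_eq_abs] at this
    exact this.trans (le_max_left _ _)
  · have : deriv Real.smoothTransition t = 0 := by
      rw [Set.mem_Icc, not_and_or] at ht
      rcases ht with ht | ht
      · push Not at ht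
        have h1 : Real.smoothTransition =ᶠ[𝓝 t] fun _ => 0 := by
          filter_upwards [Iio_mem_nhds ht] with y hy
          exact Real.smoothTransition.zero_of_nonpos (le_of_lt hy)
        rw [h1.deriv_eq, deriv_const]
      · push Not at ht
        have h1 : Real.smoothTransition =ᶠ[𝓝 t] fun _ => 1 := by
          filter_upwards [Ioi_mem_nhds ht] with y hy
          exact Real.smoothTransition.one_of_one_le (le_of_lt hy)
        rw [h1.deriv_eq, deriv_const]
    rw [this, abs_zero]
    exact le_max_right _ _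

theorem exists_deriv_th_bound : ∃ M : ℝ, 0 ≤ M ∧ ∀ R, 0 < R → ∀ t, |deriv (th R) t| ≤ M / R := by
  obtain ⟨M, hM0, hM⟩ := exists_deriv_sT_bound
  refine ⟨2 * M, by positivity, fun R hR t => ?_⟩
  have hd : ∀ y, HasDerivAt Real.smoothTransition (deriv Real.smoothTransition y) y := fun y =>
    ((Real.smoothTransition.contDiff (n := 1)).differentiable (by simp) y).hasDerivAt
  have h1 : HasDerivAt (fun t : ℝ => 2 - t / R) (-(1 / R)) t := by
    simpa using ((hasDerivAt_id t).div_const R).const_sub 2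
  have h2 : HasDerivAt (fun t : ℝ => 2 + t / R) (1 / R) t := by
    simpa using ((hasDerivAt_id t).div_const R).const_add 2
  have h3 := ((hd (2 - t / R)).comp t h1).mul ((hd (2 + t / R)).comp t h2)
  have e : th R = (Real.smoothTransition ∘ fun t => 2 - t / R) *
      (Real.smoothTransition ∘ fun t => 2 + t / R) := by
    funext y; simp [th]
  rw [e, h3.deriv]
  simp only [Function.comp]
  have a1 := hM (2 - t / R)
  have a2 := hM (2 + t / R)
  have b1 : |Real.smoothTransition (2 + t / R)| ≤ 1 := by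
    rw [abs_of_nonneg (Real.smoothTransition.nonneg _)]; exact Real.smoothTransition.le_one _
  have b2 : |Real.smoothTransition (2 - t / R)| ≤ 1 := by
    rw [abs_of_nonneg (Real.smoothTransition.nonneg _)]; exact Real.smoothTransition.le_one _
  have hR' : |1 / R| = 1 / R := abs_of_pos (by positivity)
  refine (abs_add_le _ _).trans ?_
  rw [abs_mul, abs_mul, abs_mul, abs_mul, abs_neg, hR']
  have c1 : |deriv Real.smoothTransition (2 - t / R)| * (1 / R) * |Real.smoothTransition (2 + t / R)| ≤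
      M * (1 / R) * 1 := by gcongr
  have c2 : |Real.smoothTransition (2 - t / R)| * (|deriv Real.smoothTransition (2 + t / R)| * (1 / R)) ≤
      1 * (M * (1 / R)) := by gcongr
  calc _ ≤ M * (1 / R) * 1 + 1 * (M * (1 / R)) := add_le_add c1 c2
    _ = 2 * M / R := by ring

/-- the product cut-off -/
def Theta (R : ℝ) (x : Config N) : ℝ := ∏ ic : Fin N × Fin 3, th R (x ic)

theorem contDiff_Theta (R : ℝ) : ContDiff ℝ ∞ (Theta R : Config N → ℝ) := by
  unfold Theta
  refine contDiff_prod fun ic _ => ?_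
  exact (contDiff_th R).comp (EuclideanSpace.proj ic : Config N →L[ℝ] ℝ).contDiff

theorem Theta_nonneg (R : ℝ) (x : Config N) : 0 ≤ Theta R x :=
  Finset.prod_nonneg fun _ _ => th_nonneg _ _

theorem Theta_le_one (R : ℝ) (x : Config N) : Theta R x ≤ 1 :=
  Finset.prod_le_one (fun _ _ => th_nonneg _ _) fun _ _ => th_le_one _ _

theorem Theta_eq_one {R : ℝ} (hR : 0 < R) {x : Config N} (h : ∀ ic, |x ic| ≤ R) :
    Theta R x = 1 :=
  Finset.prod_eq_one fun ic _ => th_eq_one hR (h ic)

theorem Theta_eq_zero {R : ℝ} (hR : 0 < R) {x : Config N} (h : ∃ ic, 2 * R ≤ |x ic|) :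
    Theta R x = 0 := by
  obtain ⟨ic, h⟩ := h
  exact Finset.prod_eq_zero (Finset.mem_univ ic) (th_eq_zero hR h)

theorem supp_Theta {R : ℝ} (hR : 0 < R) : HasCompactSupport (Theta R : Config N → ℝ) := by
  refine HasCompactSupport.of_support_subset_isCompact
    (isCompact_closedBall (0 : Config N) (√(∑ _ic : Fin N × Fin 3, (2 * R) ^ 2))) ?_
  intro x hx
  rw [Function.mem_support] at hx
  rw [mem_closedBall_zero_iff, EuclideanSpace.norm_eq]
  refine Real.sqrt_le_sqrt (Finset.sum_le_sum fun ic _ => ?_)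
  by_contra hcon
  apply hx
  refine Theta_eq_zero hR ⟨ic, ?_⟩
  push Not at hcon
  have h2 : (2 * R) ^ 2 < |x ic| ^ 2 := by simpa using hcon
  exact (lt_of_pow_lt_pow_left₀ 2 (abs_nonneg _) h2).le

theorem Theta_perm (R : ℝ) (σ : Equiv.Perm (Fin N)) (x : Config N) :
    Theta R (permConfig σ x) = Theta R x := by
  unfold Theta permConfig
  rw [Fintype.prod_prod_type, Fintype.prod_prod_type]
  exact Equiv.prod_comp σ (fun i => ∏ c : Fin 3, th R (x (i, c)))

theorem exists_cgrad_Theta_bound : ∃ M : ℝ, 0 ≤ M ∧ ∀ (N : ℕ) (R : ℝ), 0 < R →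
    ∀ x : Config N, ∑ ic, cgrad (Theta R : Config N → ℝ) x ic ^ 2 ≤ M * N / R ^ 2 := by
  obtain ⟨M, hM0, hM⟩ := exists_deriv_th_bound
  refine ⟨3 * M ^ 2, by positivity, fun N R hR x => ?_⟩
  have key : ∀ ic, |cgrad (Theta R : Config N → ℝ) x ic| ≤ M / R := by
    intro ic
    -- derivative along a coordinate line
    have hT : HasFDerivAt (Theta R : Config N → ℝ) (fderiv ℝ (Theta R) x) x :=
      ((contDiff_Theta R).differentiable (by simp) x).hasFDerivAt
    have h2 := hT.hasLineDerivAt (EuclideanSpace.single ic (1 : ℝ))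
    have e : (fun t : ℝ => Theta R (x + t • EuclideanSpace.single ic (1 : ℝ))) =
        fun t : ℝ => th R (x ic + t) * ∏ jd ∈ Finset.univ.erase ic, th R (x jd) := by
      funext t
      unfold Theta
      rw [← Finset.mul_prod_erase Finset.univ _ (Finset.mem_univ ic)]
      congr 1
      · simp
      · refine Finset.prod_congr rfl fun jd hjd => ?_
        have : jd ≠ ic := Finset.ne_of_mem_erase hjd
        simp [this]
    have h3 : HasDerivAt (fun t : ℝ => th R (x ic + t) * ∏ jd ∈ Finset.univ.erase ic, th R (x jd))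
        (deriv (th R) (x ic) * ∏ jd ∈ Finset.univ.erase ic, th R (x jd)) 0 := by
      have h0 : HasDerivAt (fun t : ℝ => x ic + t) 1 0 := (hasDerivAt_id (0 : ℝ)).const_add (x ic)
      have h1 : HasDerivAt (th R) (deriv (th R) (x ic + 0)) (x ic + 0) :=
        ((contDiff_th R).differentiable (by simp) _).hasDerivAt
      have h2 := (h1.comp (0 : ℝ) h0).mul_const (∏ jd ∈ Finset.univ.erase ic, th R (x jd))
      refine h2.congr_deriv ?_
      rw [add_zero]; ring
    have h4 : fderiv ℝ (Theta R : Config N → ℝ) x (EuclideanSpace.single ic (1 : ℝ)) =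
        deriv (th R) (x ic) * ∏ jd ∈ Finset.univ.erase ic, th R (x jd) := by
      have h2' : HasDerivAt (fun t : ℝ => Theta R (x + t • EuclideanSpace.single ic (1 : ℝ)))
        (fderiv ℝ (Theta R : Config N → ℝ) x (EuclideanSpace.single ic (1 : ℝ))) 0 := h2
      rw [e] at h2'
      exact h2'.unique h3
    have h5 : cgrad (Theta R : Config N → ℝ) x ic =
        fderiv ℝ (Theta R : Config N → ℝ) x (EuclideanSpace.single ic (1 : ℝ)) := rfl
    rw [h5, h4, abs_mul]
    have h6 : |∏ jd ∈ Finset.univ.erase ic, th R (x jd)| ≤ 1 := by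
      rw [abs_of_nonneg (Finset.prod_nonneg fun _ _ => th_nonneg _ _)]
      exact Finset.prod_le_one (fun _ _ => th_nonneg _ _) fun _ _ => th_le_one _ _
    calc |deriv (th R) (x ic)| * |∏ jd ∈ Finset.univ.erase ic, th R (x jd)| ≤ M / R * 1 :=
          mul_le_mul (hM R hR _) h6 (abs_nonneg _) (by positivity)
      _ = M / R := mul_one _
  calc ∑ ic, cgrad (Theta R : Config N → ℝ) x ic ^ 2 ≤ ∑ _ic : Fin N × Fin 3, (M / R) ^ 2 := by
        refine Finset.sum_le_sum fun ic _ => ?_
        rw [← sq_abs]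
        exact pow_le_pow_left₀ (abs_nonneg _) (key ic) 2
    _ = 3 * M ^ 2 * N / R ^ 2 := by
        rw [Finset.sum_const, Finset.card_univ, Fintype.card_prod, Fintype.card_fin,
          Fintype.card_fin, nsmul_eq_mul]
        push_cast
        ring

end Crest.Agent.R338.TA
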