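import Crest.Agent.R338.TA4
import Crest.Agent.R338.TA3
import Crest.Agent.R338.Fm2a

/-!
# Row 338, node TA (helper64): Coulomb integrability for Schwartz waves, the three forms
-/

set_option autoImplicit false

open MeasureTheory SchwartzMap Filter
open scoped ContDiff ENNReal ComplexConjugate Topology

noncomputable section

namespace Crest.Agent.R338.TA

open Crest.MathPhysics.ElectronicCoulomb
open Crest.Agent.R338.HO Crest.Agent.R338.Fm
open Crest.Agent.R335.HF (IsH1 Gr E kin cgrad)

variable {N : ℕ}

/-- position of electron `i` as a continuous linear map -/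
def elL (i : Fin N) : Config N →L[ℝ] Pos3 :=
  LinearMap.toContinuousLinearMap
    { toFun := fun x => elPos i x
      map_add' := fun x y => by ext c; simp [elPos]
      map_smul' := fun a x => by ext c; simp [elPos] }

@[simp] theorem elL_apply (i : Fin N) (x : Config N) : elL i x = elPos i x := rfl

theorem continuous_elPos (i : Fin N) : Continuous (elPos i : Config N → Pos3) := (elL i).continuous

theorem elPos_single (i : Fin N) (c : Fin 3) :
    elPos i (EuclideanSpace.single (i, c) (1 : ℝ)) = EuclideanSpace.single c (1 : ℝ) := by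
  ext d
  simp [elPos, Prod.ext_iff]

theorem elPos_single_ne {i j : Fin N} (h : i ≠ j) (c : Fin 3) :
    elPos j (EuclideanSpace.single (i, c) (1 : ℝ)) = 0 := by
  ext d
  simp [elPos, Ne.symm h]

theorem int_part_le (f : 𝓢(Config N, ℂ)) (κ : Fin 3 → Fin N × Fin 3) (hκ : Function.Injective κ) :
    ∫ x, ∑ c, ‖cgrad (f : Config N → ℂ) x (κ c)‖ ^ 2 ≤ ∫ x, ‖cgrad (f : Config N → ℂ) x‖ ^ 2 := by
  refine integral_mono_of_nonneg (Eventually.of_forall fun x => by positivity)
    (integrable_cgrad_sq f) (Eventually.of_forall fun x => ?_)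
  simp only
  rw [PiLp.norm_sq_eq_of_L2]
  have := Finset.sum_le_sum_of_subset_of_nonneg (s := Finset.univ.image κ) (t := Finset.univ)
    (f := fun i => ‖cgrad (f : Config N → ℂ) x i‖ ^ 2) (Finset.subset_univ _)
    (fun _ _ _ => by positivity)
  rwa [Finset.sum_image (fun a _ b _ h => hκ h)] at this

/-- Coulomb integrability and bound for one component -/
theorem coul_sw (f : 𝓢(Config N, ℂ)) (L : Config N →L[ℝ] Pos3) (i : Fin N)
    (hL : ∀ c, L (EuclideanSpace.single (i, c) (1 : ℝ)) = EuclideanSpace.single c (1 : ℝ))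
    (a : Pos3) : Integrable (fun x => ‖f x‖ ^ 2 / ‖L x - a‖) ∧
      ∫ x, ‖f x‖ ^ 2 / ‖L x - a‖ ≤
        (1 / 2) * (∫ x, ‖cgrad (f : Config N → ℂ) x‖ ^ 2) + (1 / 2) * ∫ x, ‖f x‖ ^ 2 := by
  have h := coulomb_le (isH1_sw f) L (fun c => (i, c)) hL a one_pos
  refine ⟨h.1, h.2.trans ?_⟩
  have := int_part_le f (fun c => (i, c)) (fun a b h => (Prod.ext_iff.1 h).2)
  have e : (1 : ℝ) / (2 * 1) = 1 / 2 := by norm_num
  rw [e]
  linarith

/-- Coulomb weight of a Schwartz wave -/
theorem coul_rho (u : SW N) (L : Config N →L[ℝ] Pos3) (i : Fin N)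
    (hL : ∀ c, L (EuclideanSpace.single (i, c) (1 : ℝ)) = EuclideanSpace.single c (1 : ℝ))
    (a : Pos3) : Integrable (fun x => 1 / ‖L x - a‖ * rho u u x) ∧
      ∫ x, 1 / ‖L x - a‖ * rho u u x ≤ (1 / 2) * (dq u + nq u) := by
  have e : (fun x => 1 / ‖L x - a‖ * rho u u x) = fun x => ∑ s, ‖u s x‖ ^ 2 / ‖L x - a‖ := by
    funext x
    rw [rho_self, Finset.mul_sum]
    exact Finset.sum_congr rfl fun s _ => by ring
  rw [e]
  refine ⟨integrable_finsetSum _ fun s _ => (coul_sw (u s) L i hL a).1, ?_⟩
  rw [integral_finsetSum _ fun s _ => (coul_sw (u s) L i hL a).1]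
  have h1 : ∀ s, ∫ x, ‖u s x‖ ^ 2 / ‖L x - a‖ ≤ (1 / 2) * (∫ x, ‖cgrad (u s : Config N → ℂ) x‖ ^ 2) +
      (1 / 2) * ∫ x, ‖u s x‖ ^ 2 := fun s => (coul_sw (u s) L i hL a).2
  refine (Finset.sum_le_sum fun s _ => h1 s).trans_eq ?_
  rw [Finset.sum_add_distrib, ← Finset.mul_sum, ← Finset.mul_sum]
  unfold dq nq dir nsq
  simp only [toW_apply]
  ring

/-- mixed integrability from diagonal integrability -/
theorem integrable_mixed {g : Config N → ℝ} (hg : ∀ x, 0 ≤ g x) (hm : AEStronglyMeasurable g volume)
    {u v : SW N} (hu : Integrable (fun x => g x * rho u u x))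
    (hv : Integrable (fun x => g x * rho v v x)) : Integrable (fun x => g x * rho u v x) := by
  refine Integrable.mono' (hu.add hv) (hm.mul (integrable_rho u v).aestronglyMeasurable)
    (Eventually.of_forall fun x => ?_)
  rw [Real.norm_eq_abs, abs_mul, abs_of_nonneg (hg x)]
  have h1 := abs_rho_le_sqrt u v x
  have h2 : √(rho u u x) * √(rho v v x) ≤ rho u u x + rho v v x := by
    have a1 := Real.sq_sqrt (rho_self_nonneg u x)
    have a2 := Real.sq_sqrt (rho_self_nonneg v x)
    nlinarith [sq_nonneg (√(rho u u x) - √(rho v v x)), Real.sqrt_nonneg (rho u u x),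
      Real.sqrt_nonneg (rho v v x)]
  calc g x * |rho u v x| ≤ g x * (rho u u x + rho v v x) :=
        mul_le_mul_of_nonneg_left (h1.trans h2) (hg x)
    _ = g x * rho u u x + g x * rho v v x := by ring

/-! ### the `H¹` norm -/

/-- squared `H¹` norm -/
def h1q (u : SW N) : ℝ := nq u + dq u

theorem h1q_nonneg (u : SW N) : 0 ≤ h1q u := add_nonneg (nq_nonneg u) (dq_nonneg u)

theorem nq_le_h1q (u : SW N) : nq u ≤ h1q u := le_add_of_nonneg_right (dq_nonneg u)

theorem dq_le_h1q (u : SW N) : dq u ≤ h1q u := le_add_of_nonneg_left (nq_nonneg u)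

/-! ### the Coulomb repulsion -/

/-- the electronic repulsion -/
def repul (x : Config N) : ℝ :=
  ∑ i : Fin N, ∑ j : Fin N, if i < j then 1 / ‖elPos i x - elPos j x‖ else 0

theorem repul_nonneg (x : Config N) : 0 ≤ repul x := by
  unfold repul
  refine Finset.sum_nonneg fun i _ => Finset.sum_nonneg fun j _ => ?_
  split_ifs <;> positivity

theorem measurable_repul : Measurable (repul : Config N → ℝ) := by
  unfold repul
  refine Finset.measurable_sum _ fun i _ => Finset.measurable_sum _ fun j _ => ?_
  split_ifs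
  · exact measurable_const.div
      ((continuous_elPos i).sub (continuous_elPos j)).norm.measurable
  · exact measurable_const

theorem hL_pair {i j : Fin N} (h : i ≠ j) (c : Fin 3) :
    (elL i - elL j) (EuclideanSpace.single (i, c) (1 : ℝ)) = EuclideanSpace.single c (1 : ℝ) := by
  rw [ContinuousLinearMap.sub_apply, elL_apply, elL_apply, elPos_single, elPos_single_ne h, sub_zero]

theorem pair_rho (u : SW N) {i j : Fin N} (h : i ≠ j) :
    Integrable (fun x => 1 / ‖elPos i x - elPos j x‖ * rho u u x) ∧
      ∫ x, 1 / ‖elPos i x - elPos j x‖ * rho u u x ≤ (1 / 2) * (dq u + nq u) := by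
  have := coul_rho u (elL i - elL j) i (hL_pair h) 0
  simpa only [sub_zero, ContinuousLinearMap.sub_apply, elL_apply] using this

theorem one_rho (u : SW N) (i : Fin N) (a : Pos3) :
    Integrable (fun x => 1 / ‖elPos i x - a‖ * rho u u x) :=
  (coul_rho u (elL i) i (fun c => elPos_single i c) a).1

theorem repul_mul (x : Config N) (t : ℝ) : repul x * t =
    ∑ i : Fin N, ∑ j : Fin N, if i < j then 1 / ‖elPos i x - elPos j x‖ * t else 0 := by
  unfold repul
  rw [Finset.sum_mul]
  refine Finset.sum_congr rfl fun i _ => ?_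
  rw [Finset.sum_mul]
  refine Finset.sum_congr rfl fun j _ => ?_
  split_ifs <;> simp

theorem integrable_repul_self (u : SW N) : Integrable (fun x => repul x * rho u u x) := by
  simp only [repul_mul]
  refine integrable_finsetSum _ fun i _ => integrable_finsetSum _ fun j _ => ?_
  by_cases h : i < j
  · simp only [if_pos h]; exact (pair_rho u h.ne).1
  · simp only [if_neg h]; exact integrable_zero _ _ _

theorem integrable_repul (u v : SW N) : Integrable (fun x => repul x * rho u v x) :=
  integrable_mixed repul_nonneg measurable_repul.aestronglyMeasurable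
    (integrable_repul_self u) (integrable_repul_self v)

theorem int_repul_self_le (u : SW N) : ∫ x, repul x * rho u u x ≤ (N : ℝ) ^ 2 * h1q u := by
  have h0 : 0 ≤ h1q u := h1q_nonneg u
  simp only [repul_mul]
  rw [integral_finsetSum]
  · refine (Finset.sum_le_sum fun i _ => ?_ : _ ≤ ∑ _i : Fin N, (N : ℝ) * h1q u).trans_eq ?_
    · rw [integral_finsetSum]
      · refine (Finset.sum_le_sum fun j _ => ?_ : _ ≤ ∑ _j : Fin N, h1q u).trans_eq ?_
        · by_cases h : i < j
          · simp only [if_pos h]
            have := (pair_rho u h.ne).2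
            unfold h1q at *
            linarith
          · simp only [if_neg h, integral_zero]; exact h0
        · simp
      · intro j _
        by_cases h : i < j
        · simp only [if_pos h]; exact (pair_rho u h.ne).1
        · simp only [if_neg h]; exact integrable_zero _ _ _
    · simp; ring
  · intro i _
    refine integrable_finsetSum _ fun j _ => ?_
    by_cases h : i < j
    · simp only [if_pos h]; exact (pair_rho u h.ne).1
    · simp only [if_neg h]; exact integrable_zero _ _ _

theorem abs_int_repul_le (u v : SW N) :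
    |∫ x, repul x * rho u v x| ≤ (N : ℝ) ^ 2 * (√(h1q u) * √(h1q v)) := by
  have h := cs_weight (μ := (volume : Measure (Config N))) (g := repul) (a := rho u u)
    (b := rho v v) (c := rho u v) repul_nonneg (rho_self_nonneg u) (rho_self_nonneg v)
    (abs_rho_le_sqrt u v) (integrable_repul_self u) (integrable_repul_self v)
  refine h.trans ?_
  have hN : (0 : ℝ) ≤ (N : ℝ) ^ 2 := by positivity
  calc √(∫ x, repul x * rho u u x) * √(∫ x, repul x * rho v v x)
      ≤ √((N : ℝ) ^ 2 * h1q u) * √((N : ℝ) ^ 2 * h1q v) :=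
        mul_le_mul (Real.sqrt_le_sqrt (int_repul_self_le u)) (Real.sqrt_le_sqrt (int_repul_self_le v))
          (Real.sqrt_nonneg _) (Real.sqrt_nonneg _)
    _ = (N : ℝ) ^ 2 * (√(h1q u) * √(h1q v)) := by
      rw [Real.sqrt_mul hN, Real.sqrt_mul hN]
      have := Real.mul_self_sqrt hN
      nth_rewrite 3 [← this]; ring

/-! ### one-body sums -/

/-- sum of a one-body function over the electrons -/
def osum (g : Pos3 → ℝ) (x : Config N) : ℝ := ∑ i : Fin N, g (elPos i x)

theorem measurable_osum {g : Pos3 → ℝ} (hg : Measurable g) :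
    Measurable (osum g : Config N → ℝ) :=
  Finset.measurable_sum _ fun i _ => hg.comp (continuous_elPos i).measurable

theorem abs_osum_le {g : Pos3 → ℝ} {B : ℝ} (h : ∀ x, |g x| ≤ B) (x : Config N) :
    |osum g x| ≤ N * B := by
  unfold osum
  refine (Finset.abs_sum_le_sum_abs _ _).trans
    ((Finset.sum_le_sum fun i _ => h (elPos i x)).trans_eq ?_)
  simp

/-- the scaled potential -/
theorem pot_eq (lam : ℝ) {K : ℕ} (P : Fin K → Pos3) (x : Config N) :
    lam * unitNucleiPotential P x = osum (Vnuc lam P) x + lam * repul x := by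
  unfold unitNucleiPotential osum Vnuc repul
  rw [mul_add, Finset.mul_sum]
  congr 1
  refine Finset.sum_congr rfl fun i _ => ?_
  rw [Finset.mul_sum]
  refine Finset.sum_congr rfl fun α _ => ?_
  ring

theorem measurable_Vnuc (lam : ℝ) {K : ℕ} (P : Fin K → Pos3) : Measurable (Vnuc lam P) := by
  unfold Vnuc
  refine Finset.measurable_sum _ fun α _ => ?_
  exact (measurable_const.div (continuous_id.sub continuous_const).norm.measurable).neg

theorem integrable_Vnuc_self (lam : ℝ) {K : ℕ} (P : Fin K → Pos3) (u : SW N) :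
    Integrable (fun x => osum (Vnuc lam P) x * rho u u x) := by
  have e : (fun x => osum (Vnuc lam P) x * rho u u x) =
      fun x => ∑ i : Fin N, ∑ α : Fin K, (-lam) * (1 / ‖elPos i x - P α‖ * rho u u x) := by
    funext x
    unfold osum Vnuc
    rw [Finset.sum_mul]
    refine Finset.sum_congr rfl fun i _ => ?_
    rw [Finset.sum_mul]
    refine Finset.sum_congr rfl fun α _ => ?_
    ring
  rw [e]
  exact integrable_finsetSum _ fun i _ => integrable_finsetSum _ fun α _ =>
    (one_rho u i (P α)).const_mul _

theorem integrable_Vnuc_mixed {lam : ℝ} (hl : 0 < lam) {K : ℕ} (P : Fin K → Pos3) (u v : SW N) :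
    Integrable (fun x => osum (Vnuc lam P) x * rho u v x) := by
  have h0 : ∀ x : Config N, 0 ≤ -osum (Vnuc lam P) x := by
    intro x
    unfold osum Vnuc
    rw [neg_nonneg]
    refine Finset.sum_nonpos fun i _ => Finset.sum_nonpos fun α _ => ?_
    have : 0 ≤ lam / ‖elPos i x - P α‖ := by positivity
    linarith
  have h := integrable_mixed (g := fun x => -osum (Vnuc lam P) x) h0
    (measurable_osum (measurable_Vnuc lam P)).neg.aestronglyMeasurable (u := u) (v := v)
    (by simpa [neg_mul] using (integrable_Vnuc_self lam P u).neg)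
    (by simpa [neg_mul] using (integrable_Vnuc_self lam P v).neg)
  simpa [neg_mul] using h.neg

/-- admissibility of Schwartz waves -/
theorem integrable_pot (lam : ℝ) {K : ℕ} (P : Fin K → Pos3) (u : SW N) (s : Spin N) :
    Integrable (fun x => lam * unitNucleiPotential P x * ‖u s x‖ ^ 2) := by
  have e : (fun x => lam * unitNucleiPotential P x * ‖u s x‖ ^ 2) = fun x =>
      (∑ i : Fin N, ∑ α : Fin K, (-lam) * (‖u s x‖ ^ 2 / ‖elPos i x - P α‖)) +
        ∑ i : Fin N, ∑ j : Fin N, if i < j then lam * (‖u s x‖ ^ 2 / ‖elPos i x - elPos j x‖) else 0 := by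
    funext x
    unfold unitNucleiPotential
    rw [mul_add, add_mul]
    congr 1
    · rw [Finset.mul_sum, Finset.sum_mul]
      refine Finset.sum_congr rfl fun i _ => ?_
      rw [Finset.mul_sum, Finset.sum_mul]
      exact Finset.sum_congr rfl fun α _ => by ring
    · rw [Finset.mul_sum, Finset.sum_mul]
      refine Finset.sum_congr rfl fun i _ => ?_
      rw [Finset.mul_sum, Finset.sum_mul]
      refine Finset.sum_congr rfl fun j _ => ?_
      split_ifs
      · ring
      · ring
  rw [e]
  refine (integrable_finsetSum _ fun i _ => integrable_finsetSum _ fun α _ =>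
    ((coul_sw (u s) (elL i) i (fun c => elPos_single i c) (P α)).1).const_mul _).add
    (integrable_finsetSum _ fun i _ => integrable_finsetSum _ fun j _ => ?_)
  by_cases h : i < j
  · simp only [if_pos h]
    have := (coul_sw (u s) (elL i - elL j) i (hL_pair h.ne) 0).1
    simp only [sub_zero, ContinuousLinearMap.sub_apply, elL_apply] at this
    exact this.const_mul _
  · simp only [if_neg h]; exact integrable_zero _ _ _

end Crest.Agent.R338.TA
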