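import Crest.Agent.R338.TA5
import Crest.Agent.R338.HO3

/-!
# Row 338, node TA (helper64): the perturbation form, near and far regions
-/

set_option autoImplicit false

open MeasureTheory SchwartzMap Filter
open scoped ContDiff ENNReal ComplexConjugate Topology

noncomputable section

namespace Crest.Agent.R338.TA

open Crest.MathPhysics.ElectronicCoulomb
open Crest.Agent.R338.HO Crest.Agent.R338.Fm
open Crest.Agent.R335.HF (IsH1 Gr E kin cgrad)

variable {N : ℕ}

theorem Iadd {f g : Config N → ℝ} (hf : Integrable f) (hg : Integrable g) :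
    Integrable (fun x => f x + g x) := hf.add hg

/-- the singular remainder `Vnuc - Vs` -/
def kk (lam : ℝ) {K : ℕ} (P : Fin K → Pos3) (Vs : Pos3 → ℝ) (x : Pos3) : ℝ := Vnuc lam P x - Vs x

/-- weak divergence form on `N` bodies -/
def NB0 (N : ℕ) (k : Pos3 → ℝ) (F : Pos3 → Pos3) : Prop :=
  ∀ (i : Fin N) (f : 𝓢(Config N, ℝ)),
    ∫ x, k (elPos i x) * f x = - ∫ x, fderiv ℝ f x (emb i (F (elPos i x)))

/-- the oscillator form of a Schwartz wave -/
def hoscS (u : SW N) : ℝ := hosc (toW u) (fun s => cgrad (u s))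

/-- the weight `½‖x‖²` is integrable against densities -/
theorem integrable_normsq_rho (u : SW N) : Integrable (fun x => ‖x‖ ^ 2 * rho u u x) := by
  have h := (rhoS u u).integrable_pow_mul (volume : Measure (Config N)) 2
  refine h.congr (Eventually.of_forall fun x => ?_)
  simp only
  rw [rhoS_apply, Real.norm_eq_abs, abs_of_nonneg (rho_self_nonneg u x)]

theorem hoscS_eq (u : SW N) : hoscS u = (1 / 2) * dq u + (1 / 2) * ∫ x, ‖x‖ ^ 2 * rho u u x := by
  unfold hoscS
  rw [hosc_eq]
  congr 2
  have hs : ∀ s, Integrable (fun x => ‖x‖ ^ 2 * ‖u s x‖ ^ 2) := by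
    intro s
    refine Integrable.mono' (integrable_normsq_rho u) ?_ (Eventually.of_forall fun x => ?_)
    · exact ((continuous_norm.pow 2).mul ((u s).continuous.norm.pow 2)).aestronglyMeasurable
    · rw [Real.norm_eq_abs, abs_of_nonneg (by positivity)]
      refine mul_le_mul_of_nonneg_left ?_ (by positivity)
      rw [rho_self]
      exact Finset.single_le_sum (f := fun s => ‖u s x‖ ^ 2) (fun _ _ => by positivity)
        (Finset.mem_univ s)
  simp only [toW_apply]
  rw [← integral_finsetSum _ fun s _ => hs s]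
  refine integral_congr_ae (Eventually.of_forall fun x => ?_)
  simp only [rho_self, Finset.mul_sum]

/-- the perturbation form -/
def bF (lam : ℝ) (w k : Pos3 → ℝ) (u v : SW N) : ℝ :=
  lam * (∫ x, osum w x * rho u v x) + lam * (∫ x, repul x * rho u v x) + ∫ x, osum k x * rho u v x

section
variable {lam : ℝ} {K : ℕ} {P : Fin K → Pos3} {n0 : ℕ} {Vs w : Pos3 → ℝ} {F : Pos3 → Pos3}
  {C0 R eps1 eps2 kF W : ℝ}

theorem integrable_osum_w (h : NucOK lam P n0 Vs w F C0 R eps1 eps2 kF W) (u v : SW N) :
    Integrable (fun x => osum w x * rho u v x) :=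
  integrable_bdd_rho (abs_osum_le h.w_le) (measurable_osum h.w_cont.measurable).aestronglyMeasurable
    u v

theorem integrable_osum_Vs (h : NucOK lam P n0 Vs w F C0 R eps1 eps2 kF W) (u v : SW N) :
    Integrable (fun x => osum Vs x * rho u v x) := by
  obtain ⟨B, hB⟩ := h.Vs_bdd
  exact integrable_bdd_rho (abs_osum_le hB)
    (measurable_osum h.Vs_cont.measurable).aestronglyMeasurable u v

theorem osum_kk (x : Config N) : osum (kk lam P Vs) x = osum (Vnuc lam P) x - osum Vs x := by
  unfold osum kk
  rw [Finset.sum_sub_distrib]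

theorem integrable_osum_kk (h : NucOK lam P n0 Vs w F C0 R eps1 eps2 kF W) (u v : SW N) :
    Integrable (fun x => osum (kk lam P Vs) x * rho u v x) := by
  simp only [osum_kk, sub_mul]
  exact (integrable_Vnuc_mixed h.lam_pos P u v).sub (integrable_osum_Vs h u v)

theorem bF_add (h : NucOK lam P n0 Vs w F C0 R eps1 eps2 kF W) (u v : SW N) :
    bF lam w (kk lam P Vs) (u + v) (u + v) = bF lam w (kk lam P Vs) u u +
      2 * bF lam w (kk lam P Vs) u v + bF lam w (kk lam P Vs) v v := by
  have key : ∀ g : Config N → ℝ, (∀ a b : SW N, Integrable (fun x => g x * rho a b x)) →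
      ∫ x, g x * rho (u + v) (u + v) x = (∫ x, g x * rho u u x) + 2 * (∫ x, g x * rho u v x) +
        ∫ x, g x * rho v v x := by
    intro g hg
    rw [← integral_const_mul, ← integral_add (hg u u) ((hg u v).const_mul 2),
      ← integral_add (Iadd (hg u u) ((hg u v).const_mul 2)) (hg v v)]
    refine integral_congr_ae (Eventually.of_forall fun x => ?_)
    simp only
    rw [rho_add]; ring
  unfold bF
  rw [key _ (integrable_osum_w h), key _ integrable_repul, key _ (integrable_osum_kk h)]
  ring

/-- bound of the singular part -/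
theorem abs_int_kk_le (h : NucOK lam P n0 Vs w F C0 R eps1 eps2 kF W)
    (hk : NB0 N (kk lam P Vs) F) (u v : SW N) :
    |∫ x, osum (kk lam P Vs) x * rho u v x| ≤
      N * (kF * (√(dq u) * √(nq v) + √(nq u) * √(dq v))) := by
  have hi : ∀ i : Fin N, Integrable (fun x => kk lam P Vs (elPos i x) * rho u v x) := by
    intro i
    unfold kk
    simp only [sub_mul]
    refine Integrable.sub ?_ ?_
    · have e : (fun x => Vnuc lam P (elPos i x) * rho u v x) =
          fun x => ∑ α : Fin K, (-lam) * (1 / ‖elPos i x - P α‖ * rho u v x) := by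
        funext x
        unfold Vnuc
        rw [Finset.sum_mul]
        exact Finset.sum_congr rfl fun α _ => by ring
      rw [e]
      refine integrable_finsetSum _ fun α _ => Integrable.const_mul ?_ _
      refine integrable_mixed (fun x => by positivity) ?_ (one_rho u i (P α)) (one_rho v i (P α))
      exact (measurable_const.div ((continuous_elPos i).sub continuous_const).norm.measurable).aestronglyMeasurable
    · obtain ⟨B, hB⟩ := h.Vs_bdd
      exact integrable_bdd_rho (fun x => hB _)
        (h.Vs_cont.comp (continuous_elPos i)).aestronglyMeasurable u v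
  have e : (∫ x, osum (kk lam P Vs) x * rho u v x) =
      ∑ i : Fin N, ∫ x, kk lam P Vs (elPos i x) * rho u v x := by
    rw [← integral_finsetSum _ fun i _ => hi i]
    refine integral_congr_ae (Eventually.of_forall fun x => ?_)
    simp only [osum, Finset.sum_mul]
  rw [e]
  refine (Finset.abs_sum_le_sum_abs _ _).trans ((Finset.sum_le_sum fun i _ => ?_ :
    _ ≤ ∑ _i : Fin N, kF * (√(dq u) * √(nq v) + √(nq u) * √(dq v))).trans_eq (by simp))
  have := hk i (rhoS u v)
  simp only [rhoS_coe] at this
  rw [this, abs_neg]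
  have h2 := abs_int_divF_le h.kF_nonneg h.F_le i u v
  simpa only [rhoS_coe] using h2

/-- the form bound of the perturbation -/
theorem abs_bF_le (h : NucOK lam P n0 Vs w F C0 R eps1 eps2 kF W)
    (hk : NB0 N (kk lam P Vs) F) (u v : SW N) :
    |bF lam w (kk lam P Vs) u v| ≤
      (lam * N * W + lam * N ^ 2 + 2 * N * kF) * (√(h1q u) * √(h1q v)) := by
  have hl := h.lam_pos
  have hW := h.W_nonneg
  have hkF := h.kF_nonneg
  have n1 : √(nq u) ≤ √(h1q u) := Real.sqrt_le_sqrt (nq_le_h1q u)
  have n2 : √(nq v) ≤ √(h1q v) := Real.sqrt_le_sqrt (nq_le_h1q v)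
  have d1 : √(dq u) ≤ √(h1q u) := Real.sqrt_le_sqrt (dq_le_h1q u)
  have d2 : √(dq v) ≤ √(h1q v) := Real.sqrt_le_sqrt (dq_le_h1q v)
  have s1 := Real.sqrt_nonneg (nq u)
  have s2 := Real.sqrt_nonneg (nq v)
  have s3 := Real.sqrt_nonneg (dq u)
  have s4 := Real.sqrt_nonneg (dq v)
  have a1 : |∫ x, osum w x * rho u v x| ≤ N * W * (√(h1q u) * √(h1q v)) :=
    (abs_int_bdd_le (abs_osum_le h.w_le) u v).trans
      (mul_le_mul_of_nonneg_left (mul_le_mul n1 n2 s2 (Real.sqrt_nonneg _)) (by positivity))
  have a2 := abs_int_repul_le u v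
  have a3 : |∫ x, osum (kk lam P Vs) x * rho u v x| ≤ 2 * N * kF * (√(h1q u) * √(h1q v)) := by
    refine (abs_int_kk_le h hk u v).trans ?_
    have b1 : √(dq u) * √(nq v) ≤ √(h1q u) * √(h1q v) := mul_le_mul d1 n2 s2 (Real.sqrt_nonneg _)
    have b2 : √(nq u) * √(dq v) ≤ √(h1q u) * √(h1q v) := mul_le_mul n1 d2 s4 (Real.sqrt_nonneg _)
    calc N * (kF * (√(dq u) * √(nq v) + √(nq u) * √(dq v)))
        ≤ N * (kF * (√(h1q u) * √(h1q v) + √(h1q u) * √(h1q v))) := by gcongr
      _ = _ := by ring
  unfold bF
  refine (abs_add_le _ _).trans ?_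
  refine (add_le_add (abs_add_le _ _) le_rfl).trans ?_
  rw [abs_mul, abs_mul, abs_of_pos hl]
  calc lam * |∫ x, osum w x * rho u v x| + lam * |∫ x, repul x * rho u v x| +
        |∫ x, osum (kk lam P Vs) x * rho u v x|
      ≤ lam * (N * W * (√(h1q u) * √(h1q v))) + lam * ((N : ℝ) ^ 2 * (√(h1q u) * √(h1q v))) +
        2 * N * kF * (√(h1q u) * √(h1q v)) := by gcongr
    _ = _ := by ring

/-- the energy of a Schwartz wave in terms of the pieces -/
theorem energy_split (h : NucOK lam P n0 Vs w F C0 R eps1 eps2 kF W) (u : SW N) :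
    energy (fun x => lam * unitNucleiPotential P x) (toW u) =
      (1 / 2) * dq u + (∫ x, osum Vs x * rho u u x) + lam * (∫ x, repul x * rho u u x) +
        ∫ x, osum (kk lam P Vs) x * rho u u x := by
  rw [energy_toW u (integrable_pot lam P u)]
  have e : (∫ x, lam * unitNucleiPotential P x * rho u u x) =
      (∫ x, osum Vs x * rho u u x) + lam * (∫ x, repul x * rho u u x) +
        ∫ x, osum (kk lam P Vs) x * rho u u x := by
    rw [← integral_const_mul, ← integral_add (integrable_osum_Vs h u u)
      ((integrable_repul u u).const_mul lam), ← integral_add (Iadd (integrable_osum_Vs h u u)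
      ((integrable_repul u u).const_mul lam)) (integrable_osum_kk h u u)]
    refine integral_congr_ae (Eventually.of_forall fun x => ?_)
    simp only
    rw [pot_eq, osum_kk]
    ring
  rw [e]; ring

theorem sum_norm_elPos (x : Config N) : ∑ i : Fin N, ‖elPos i x‖ ^ 2 = ‖x‖ ^ 2 := by
  rw [EuclideanSpace.norm_sq_eq, Fintype.sum_prod_type]
  refine Finset.sum_congr rfl fun i _ => ?_
  rw [EuclideanSpace.norm_sq_eq]
  rfl

/-- NEAR region: lower bound by the oscillator form and the perturbation form -/
theorem near_lower (h : NucOK lam P n0 Vs w F C0 R eps1 eps2 kF W) (u : SW N)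
    (hu : ∀ s x, u s x ≠ 0 → ∀ ic, |x ic| ≤ 2 * R) :
    hoscS u + bF lam w (kk lam P Vs) u u - N * (C0 + eps2) * nq u ≤
      energy (fun x => lam * unitNucleiPotential P x) (toW u) := by
  rw [energy_split h, hoscS_eq]
  unfold bF
  have key : (1 / 2) * (∫ x, ‖x‖ ^ 2 * rho u u x) + lam * (∫ x, osum w x * rho u u x) -
      N * (C0 + eps2) * nq u ≤ ∫ x, osum Vs x * rho u u x := by
    rw [nq_eq, ← integral_const_mul, ← integral_const_mul, ← integral_const_mul,
      ← integral_add ((integrable_normsq_rho u).const_mul _) ((integrable_osum_w h u u).const_mul _),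
      ← integral_sub (Iadd ((integrable_normsq_rho u).const_mul _)
        ((integrable_osum_w h u u).const_mul _)) ((integrable_rho u u).const_mul _)]
    refine integral_mono ((Iadd ((integrable_normsq_rho u).const_mul _)
        ((integrable_osum_w h u u).const_mul _)).sub ((integrable_rho u u).const_mul _))
        (integrable_osum_Vs h u u) fun x => ?_
    simp only
    by_cases hx : rho u u x = 0
    · rw [hx]; simp
    · -- some component does not vanish
      have h1 : ∃ s, u s x ≠ 0 := by
        by_contra hcon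
        push Not at hcon
        apply hx
        rw [rho_self]
        exact Finset.sum_eq_zero fun s _ => by rw [hcon s]; simp
      obtain ⟨s, hs⟩ := h1
      have h2 := hu s x hs
      have h3 : ∀ i : Fin N, -(C0 + eps2) + ‖elPos i x‖ ^ 2 / 2 + lam * w (elPos i x) ≤
          Vs (elPos i x) := by
        intro i
        have := (abs_le.1 (h.N1 (elPos i x) (fun c => h2 (i, c)))).1
        linarith
      have h4 := Finset.sum_le_sum fun (i : Fin N) (_ : i ∈ Finset.univ) => h3 i
      simp only [Finset.sum_add_distrib, Finset.sum_const, Finset.card_univ, Fintype.card_fin,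
        nsmul_eq_mul, ← Finset.sum_div, ← Finset.mul_sum, sum_norm_elPos] at h4
      have h5 := rho_self_nonneg u x
      have h6 : (N * -(C0 + eps2) + ‖x‖ ^ 2 / 2 + lam * osum w x) * rho u u x ≤
          osum Vs x * rho u u x := mul_le_mul_of_nonneg_right h4 h5
      linarith
  linarith

/-- FAR region -/
theorem far_lower (h : NucOK lam P n0 Vs w F C0 R eps1 eps2 kF W)
    (hk : NB0 N (kk lam P Vs) F) (u : SW N)
    (hu : ∀ s x, u s x ≠ 0 → ∃ ic, R < |x ic|) :
    (-(N * C0) + R ^ 2 / 4 - N * (lam * W + eps2) - 2 * N ^ 2 * kF ^ 2) * nq u ≤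
      energy (fun x => lam * unitNucleiPotential P x) (toW u) := by
  rw [energy_split h]
  have hW := h.W_nonneg
  have hl := h.lam_pos
  have key : (-(N * C0) + R ^ 2 / 4 - N * (lam * W + eps2)) * nq u ≤ ∫ x, osum Vs x * rho u u x := by
    rw [nq_eq, ← integral_const_mul]
    refine integral_mono ((integrable_rho u u).const_mul _) (integrable_osum_Vs h u u) fun x => ?_
    by_cases hx : rho u u x = 0
    · simp only [hx]; simp
    · have h1 : ∃ s, u s x ≠ 0 := by
        by_contra hcon
        push Not at hcon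
        apply hx
        rw [rho_self]
        exact Finset.sum_eq_zero fun s _ => by rw [hcon s]; simp
      obtain ⟨s, hs⟩ := h1
      obtain ⟨⟨i0, c0⟩, hc0⟩ := hu s x hs
      have hlow : ∀ y : Pos3, -(C0 + (lam * W + eps2)) ≤ Vs y := by
        intro y
        by_cases hy : ∀ c, |y c| ≤ 2 * R
        · have h2 := (abs_le.1 (h.N1 y hy)).1
          have h3 := (abs_le.1 (h.w_le y)).1
          have h4 : lam * (-W) ≤ lam * w y := mul_le_mul_of_nonneg_left h3 hl.le
          have h5 : 0 ≤ ‖y‖ ^ 2 / 2 := by positivity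
          linarith
        · push Not at hy
          obtain ⟨c, hc⟩ := hy
          have hR := h.one_le_R
          have h2 := h.N2 y ⟨c, by linarith⟩
          have h3 : 0 ≤ R ^ 2 / 4 := by positivity
          have h4 : 0 ≤ lam * W + eps2 := by have := h.eps2_nonneg; positivity
          linarith
      have hfar : R ^ 2 / 4 - C0 ≤ Vs (elPos i0 x) := by
        have := h.N2 (elPos i0 x) ⟨c0, hc0.le⟩
        linarith
      have hsum : -(N * C0) + R ^ 2 / 4 - N * (lam * W + eps2) ≤ osum Vs x := by
        unfold osum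
        rw [← Finset.add_sum_erase Finset.univ _ (Finset.mem_univ i0)]
        have h6 : ∑ i ∈ Finset.univ.erase i0, Vs (elPos i x) ≥
            ∑ _i ∈ Finset.univ.erase i0, -(C0 + (lam * W + eps2)) :=
          Finset.sum_le_sum fun i _ => hlow _
        rw [Finset.sum_const, Finset.card_erase_of_mem (Finset.mem_univ i0), Finset.card_univ,
          Fintype.card_fin, nsmul_eq_mul] at h6
        have hN : 1 ≤ N := Nat.one_le_iff_ne_zero.2 (by rintro rfl; exact i0.elim0)
        rw [Nat.cast_sub hN] at h6
        have h7 : 0 ≤ lam * W + eps2 := by have := h.eps2_nonneg; positivity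
        push_cast at h6
        linarith
      exact mul_le_mul_of_nonneg_right hsum (rho_self_nonneg u x)
  have hrep : 0 ≤ lam * ∫ x, repul x * rho u u x :=
    mul_nonneg hl.le (integral_nonneg fun x => mul_nonneg (repul_nonneg x) (rho_self_nonneg u x))
  have hkk := (abs_le.1 (abs_int_kk_le h hk u u)).1
  have hkF := h.kF_nonneg
  -- `½ D - 2 N kF √D √n ≥ - 2 N² kF² n`
  have hsq : -(2 * (N : ℝ) ^ 2 * kF ^ 2 * nq u) ≤
      (1 / 2) * dq u - N * (kF * (√(dq u) * √(nq u) + √(nq u) * √(dq u))) := by
    have e1 := Real.sq_sqrt (dq_nonneg u)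
    have e2 := Real.sq_sqrt (nq_nonneg u)
    have e3 : (√(dq u) - 2 * N * kF * √(nq u)) ^ 2 =
        dq u - 4 * N * kF * (√(dq u) * √(nq u)) + 4 * (N : ℝ) ^ 2 * kF ^ 2 * nq u := by
      calc (√(dq u) - 2 * N * kF * √(nq u)) ^ 2 = √(dq u) ^ 2 -
            4 * N * kF * (√(dq u) * √(nq u)) + 4 * (N : ℝ) ^ 2 * kF ^ 2 * √(nq u) ^ 2 := by ring
        _ = _ := by rw [e1, e2]
    have e4 := sq_nonneg (√(dq u) - 2 * N * kF * √(nq u))
    rw [e3] at e4
    linarith
  linarith

end

end Crest.Agent.R338.TA
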