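import Crest.Agent.R338.TL3

/-!
# Row 338, module TL4 (helper490): constants; `TheoremAUpper` from the matrix elements
-/

set_option autoImplicit false

open MeasureTheory Real Filter Topology

noncomputable section

namespace Crest.Agent.R338.TL

open Crest.MathPhysics.ElectronicCoulomb
open Crest.Agent.R335.HF Crest.Agent.R338.HO Crest.Agent.R338.TA Crest.Agent.R338.Fm

theorem card_Sp_le (n0 : ℕ) : Fintype.card (Sp n0) ≤ (n0 + 1) ^ 3 := by
  have h := Fintype.card_le_of_injective (fun (m : Sp n0) (c : Fin 3) => (⟨m.1 c, by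
    have h := m.2
    unfold deg3 at h
    fin_cases c <;> simp <;> omega⟩ : Fin (n0 + 1))) (by
    intro a b h
    apply Subtype.ext
    funext c
    have := congrFun h c
    simpa using this)
  simpa using h

section
variable {n0 Nv : ℕ} {W : ℝ}

theorem two_le_sizeP (hW : 0 ≤ W) : 2 ≤ sizeP n0 Nv W := by
  unfold sizeP
  have h1 : (0 : ℝ) ≤ Nel n0 Nv := by positivity
  have h2 : (0 : ℝ) ≤ n0 := by positivity
  linarith

theorem Nel_le_sizeP (hW : 0 ≤ W) : (Nel n0 Nv : ℝ) ≤ sizeP n0 Nv W := by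
  unfold sizeP
  have h2 : (0 : ℝ) ≤ n0 := by positivity
  linarith

theorem n0_le_sizeP (hW : 0 ≤ W) : (n0 : ℝ) + 1 ≤ sizeP n0 Nv W := by
  unfold sizeP
  have h1 : (0 : ℝ) ≤ Nel n0 Nv := by positivity
  linarith

theorem W_le_sizeP : W ≤ sizeP n0 Nv W := by
  unfold sizeP
  have h1 : (0 : ℝ) ≤ Nel n0 Nv := by positivity
  have h2 : (0 : ℝ) ≤ n0 := by positivity
  linarith

theorem const1 (hW : 0 ≤ W) : (Nel n0 Nv : ℝ) * Fintype.card (Sp n0) ≤ sizeP n0 Nv W ^ 4 := by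
  have h2 := two_le_sizeP (n0 := n0) (Nv := Nv) hW
  have h1 : (Fintype.card (Sp n0) : ℝ) ≤ sizeP n0 Nv W ^ 3 := by
    have h3 : (Fintype.card (Sp n0) : ℝ) ≤ ((n0 : ℝ) + 1) ^ 3 := by exact_mod_cast card_Sp_le n0
    exact h3.trans (pow_le_pow_left₀ (by positivity) (n0_le_sizeP hW) 3)
  calc (Nel n0 Nv : ℝ) * Fintype.card (Sp n0) ≤ sizeP n0 Nv W * sizeP n0 Nv W ^ 3 :=
        mul_le_mul (Nel_le_sizeP hW) h1 (by positivity) (by linarith)
    _ = _ := by ring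

theorem const2 (hW : 0 ≤ W) (k : ℕ) : 2 * ((n0 : ℝ) + k) ≤ sizeP n0 Nv W ^ (k + 2) := by
  have h2 := two_le_sizeP (n0 := n0) (Nv := Nv) hW
  have hn := n0_le_sizeP (n0 := n0) (Nv := Nv) hW
  set S := sizeP n0 Nv W with hS
  have h3 : ((k : ℝ) + 1) ≤ S ^ k := by
    have h4 : ((k : ℝ) + 1) ≤ 2 ^ k := by exact_mod_cast Nat.lt_two_pow_self (n := k)
    exact h4.trans (pow_le_pow_left₀ (by norm_num) h2 k)
  have h5 : (n0 : ℝ) + k ≤ S * ((k : ℝ) + 1) := by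
    have h6 : (0 : ℝ) ≤ k := by positivity
    nlinarith
  calc 2 * ((n0 : ℝ) + k) ≤ S * (S * ((k : ℝ) + 1)) := by
        have h7 : 0 ≤ S * ((k : ℝ) + 1) := by positivity
        have h8 : (0 : ℝ) ≤ (n0 : ℝ) + k := by positivity
        exact mul_le_mul h2 h5 h8 (by linarith)
    _ ≤ S * (S * S ^ k) := by
        have : 0 ≤ S := by linarith
        gcongr
    _ = _ := by ring

theorem const3 {C0 R : ℝ} (hW : 0 ≤ W) (hC0 : 0 ≤ C0) (hR : 1 ≤ R) (k : ℕ) :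
    (C0 + W) * (((Nel n0 Nv * 3 : ℕ) : ℝ) *
      ((2 * ((n0 : ℝ) + k)) ^ k / (2 * R) ^ (2 * k) * 1)) ≤
      sizeP n0 Nv W ^ (k * (k + 2) + 4) * ((C0 + 1) / R ^ (2 * k)) := by
  have h2 := two_le_sizeP (n0 := n0) (Nv := Nv) hW
  have hN := Nel_le_sizeP (n0 := n0) (Nv := Nv) hW
  have hw := W_le_sizeP (n0 := n0) (Nv := Nv) (W := W)
  have hc := const2 (n0 := n0) (Nv := Nv) hW k
  set S := sizeP n0 Nv W with hS
  have hS0 : 0 ≤ S := by linarith
  have a1 : C0 + W ≤ S * (C0 + 1) := by nlinarith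
  have a2 : (((Nel n0 Nv * 3 : ℕ)) : ℝ) ≤ S * S ^ 2 := by
    push_cast
    have : (3 : ℝ) ≤ S ^ 2 := by nlinarith
    exact mul_le_mul hN this (by norm_num) hS0
  have a3 : (2 * ((n0 : ℝ) + k)) ^ k ≤ S ^ (k * (k + 2)) := by
    rw [mul_comm k (k + 2), pow_mul]
    exact pow_le_pow_left₀ (by positivity) hc k
  have a4 : (2 * ((n0 : ℝ) + k)) ^ k / (2 * R) ^ (2 * k) * 1 ≤ S ^ (k * (k + 2)) / R ^ (2 * k) := by
    rw [mul_one]
    have hR0 : 0 < R := by linarith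
    refine div_le_div₀ (by positivity) a3 (by positivity) ?_
    exact pow_le_pow_left₀ hR0.le (by linarith) _
  have hR0 : 0 < R := by linarith
  calc (C0 + W) * (((Nel n0 Nv * 3 : ℕ) : ℝ) *
      ((2 * ((n0 : ℝ) + k)) ^ k / (2 * R) ^ (2 * k) * 1))
      ≤ (S * (C0 + 1)) * ((S * S ^ 2) * (S ^ (k * (k + 2)) / R ^ (2 * k))) := by
        refine mul_le_mul a1 (mul_le_mul a2 a4 (by positivity) (by positivity)) (by positivity)
          (by positivity)
    _ = _ := by rw [pow_add]; ring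

end

/-- **`TheoremAUpper` from the matrix elements of tensor waves** -/
theorem theoremAUpper_of
    (h1 : ∀ (n0 Nv : ℕ) (C : Ten (Nel n0 Nv) n0), OneB C)
    (h2 : ∀ (n0 Nv : ℕ) (C : Ten (Nel n0 Nv) n0), TwoB C) : TheoremAUpper := by
  intro k
  refine ⟨k * (k + 2) + 4, ?_⟩
  intro lam K P n0 Nv Vs w F C0 R eps1 eps2 kF W beta hN hNv1 hNv2 hC
  obtain ⟨C, hA, hF, ht, hB⟩ := hC
  have hadm := isAdmissible_wav hA lam P
  have hE := energy_wav_le hN hA hF (h1 n0 Nv C) (h2 n0 Nv C) k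
  have hn : nsq (wav C) = 1 := by rw [nsq_wav, ht]
  refine infEnergyLE_of hadm (by rw [hn]; exact one_pos) ?_
  rw [hn, mul_one]
  rw [ht] at hE
  refine hE.trans ?_
  have hS := two_le_sizeP (n0 := n0) (Nv := Nv) hN.W_nonneg
  have c1 := const1 (n0 := n0) (Nv := Nv) hN.W_nonneg
  have c3 := const3 (n0 := n0) (Nv := Nv) hN.W_nonneg hN.C0_nonneg hN.one_le_R k
  have cN := Nel_le_sizeP (n0 := n0) (Nv := Nv) hN.W_nonneg
  set S := sizeP n0 Nv W with hSd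
  have hS1 : 1 ≤ S := by linarith
  have hp : S ^ 4 ≤ S ^ (k * (k + 2) + 4) := pow_le_pow_right₀ hS1 (by omega)
  have hp1 : S ≤ S ^ (k * (k + 2) + 4) := by
    calc S = S ^ 1 := (pow_one S).symm
      _ ≤ _ := pow_le_pow_right₀ hS1 (by omega)
  have e1 : (Nel n0 Nv : ℝ) * Fintype.card (Sp n0) * eps1 ≤ S ^ (k * (k + 2) + 4) * eps1 :=
    mul_le_mul_of_nonneg_right (c1.trans hp) hN.eps1_nonneg
  have e2 : (Nel n0 Nv : ℝ) * eps2 ≤ S ^ (k * (k + 2) + 4) * eps2 :=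
    mul_le_mul_of_nonneg_right (cN.trans hp1) hN.eps2_nonneg
  have e3 : lam * BF w C ≤ lam * beta := mul_le_mul_of_nonneg_left hB hN.lam_pos.le
  have e4 : S ^ (k * (k + 2) + 4) * (eps1 + eps2 + (C0 + 1) / R ^ (2 * k)) =
      S ^ (k * (k + 2) + 4) * eps1 + S ^ (k * (k + 2) + 4) * eps2 +
        S ^ (k * (k + 2) + 4) * ((C0 + 1) / R ^ (2 * k)) := by ring
  rw [e4]
  linarith

end Crest.Agent.R338.TL
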