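import Crest.Agent.R338.TA6
import Crest.Agent.R338.TL4
import Crest.Agent.R338.Fm4
import Crest.Agent.R338.Fm2b
import Crest.Agent.R338.Dens3

/-!
# Row 338, node TA (helper64): the near region, second half (oscillator splitting)
-/

set_option autoImplicit false

open MeasureTheory SchwartzMap Filter
open scoped ContDiff ENNReal ComplexConjugate Topology

noncomputable section

namespace Crest.Agent.R338.TA

open Crest.MathPhysics.ElectronicCoulomb
open Crest.Agent.R338.HO Crest.Agent.R338.Fm Crest.Agent.R338.TL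
open Crest.Agent.R335.HF (IsH1 Gr E kin cgrad)

/-- the wave of a tensor as a Schwartz wave -/
def wvS {N n0 : ℕ} (C : Ten N n0) : SW N := fun s => HO.wavS C s

theorem toW_wvS {N n0 : ℕ} (C : Ten N n0) : toW (wvS C) = wav C := by
  funext s x
  change HO.wavS C s x = wav C s x
  rw [← HO.wavS_coe]

theorem wvS_apply {N n0 : ℕ} (C : Ten N n0) (s : Spin N) (x : Config N) :
    wvS C s x = wav C s x := congrFun (congrFun (toW_wvS C) s) x

theorem nq_wvS {N n0 : ℕ} (C : Ten N n0) : nq (wvS C) = tsq C := by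
  unfold nq
  rw [toW_wvS, nsq_wav]

theorem integral_rho_wvS {N n0 : ℕ} (C : Ten N n0) {G : Config N → ℝ} (hI : JI C G) :
    ∫ x, G x * rho (wvS C) (wvS C) x = J C G := by
  unfold J
  rw [← integral_finsetSum _ fun s _ => hI s]
  refine integral_congr_ae (Eventually.of_forall fun x => ?_)
  simp only [rho_self, Finset.mul_sum, wvS_apply]

theorem hoscS_wvS {n0 Nv : ℕ} {C : Ten (Nel n0 Nv) n0} (hA : Anti C) (hC : CoreFull C) :
    hoscS (wvS C) = EN n0 Nv * tsq C := by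
  unfold hoscS
  rw [toW_wvS, ← hosc_wav hA hC]
  congr 1
  funext s
  unfold gwav wvS
  rw [HO.wavS_coe]

theorem EN_nonneg (n0 Nv : ℕ) : 0 ≤ EN n0 Nv := by
  unfold EN; positivity

theorem nb0_of {N : ℕ} {lam : ℝ} {K : ℕ} {P : Fin K → Pos3} {n0 : ℕ} {Vs w : Pos3 → ℝ}
    {F : Pos3 → Pos3} {C0 R eps1 eps2 kF W : ℝ}
    (h : NucOK lam P n0 Vs w F C0 R eps1 eps2 kF W) : NB0 N (kk lam P Vs) F :=
  fun i f => nbody_N0 h i f

/-- splitting of a fermionic Schwartz wave -/
theorem split_sw {n0 Nv : ℕ} (u : SW (Nel n0 Nv)) (hF : IsFermionic (toW u)) :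
    ∃ C : Ten (Nel n0 Nv) n0, Anti C ∧ CoreFull C ∧
      nq u = tsq C + nq (u - wvS C) ∧ hoscS u = EN n0 Nv * tsq C + hoscS (u - wvS C) ∧
      (EN n0 Nv + 1) * nq (u - wvS C) ≤ hoscS (u - wvS C) := by
  have hosc : WaveOsc (toW u) (fun s => cgrad (u s)) := fun s => HO.isOsc_schwartz (u s)
  obtain ⟨-, h2, h3, h4⟩ := osc_split hF hosc
  set C := gsT (toW u) n0 with hC
  have e1 : toW (u - wvS C) = fun s x => toW u s x - wav C s x := by
    funext s x
    simp only [toW_apply, Pi.sub_apply, SchwartzMap.sub_apply, wvS_apply]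
  have e2 : (fun s => cgrad ((u - wvS C) s)) = fun s x => cgrad (u s) x - gwav C s x := by
    funext s x
    unfold gwav
    ext ic
    have h5 : ((u - wvS C) s : Config (Nel n0 Nv) → ℂ) = fun x => u s x - wvS C s x := by
      funext x; simp
    have h6 : (wvS C s : Config (Nel n0 Nv) → ℂ) = wav C s := by
      funext x; exact wvS_apply C s x
    have h7 : HasFDerivAt ((u - wvS C) s : Config (Nel n0 Nv) → ℂ)
        (fderiv ℝ (u s) x - fderiv ℝ (wvS C s) x) x := by
      rw [h5]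
      exact (u s).hasFDerivAt x |>.sub ((wvS C s).hasFDerivAt x)
    simp only [Crest.Agent.R335.HF.cgrad_apply, PiLp.sub_apply]
    rw [h7.fderiv, ContinuousLinearMap.sub_apply, ← h6]
  refine ⟨C, anti_gsT hF n0, coreFull_gsT (toW u) n0, ?_, ?_, ?_⟩
  · unfold nq; rw [e1]; exact h2
  · unfold hoscS; rw [e1, e2]; exact h3
  · unfold nq hoscS; rw [e1, e2]; exact h4

section
variable {lam : ℝ} {K : ℕ} {P : Fin K → Pos3} {n0 Nv : ℕ} {Vs w : Pos3 → ℝ} {F : Pos3 → Pos3}
  {C0 R eps1 eps2 kF W beta : ℝ}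

/-- the perturbation form on tensor waves -/
theorem bF_wvS (h : NucOK lam P n0 Vs w F C0 R eps1 eps2 kF W) {C : Ten (Nel n0 Nv) n0}
    (h1 : OneB C) (h2 : TwoB C) :
    bF lam w (kk lam P Vs) (wvS C) (wvS C) = lam * BF w C +
      oneF (fun a b => ∫ x, kk lam P Vs x * (Phi a.1 x * Phi b.1 x)) C := by
  have hw := h1 w h.w_cont.aestronglyMeasurable (fun a b =>
    (integrable_PhiPhi a.1 b.1).bdd_mul h.w_cont.aestronglyMeasurable
      (Eventually.of_forall fun x => h.w_le x))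
  obtain ⟨B, hB⟩ := h.Vs_bdd
  have hk := h1 (kk lam P Vs) ((TL.measurable_Vnuc lam P).sub h.Vs_cont.measurable).aestronglyMeasurable
    (fun a b => by
      unfold kk
      simp only [sub_mul]
      exact (integrable_Vnuc_Phi lam P a.1 b.1).sub
        ((integrable_PhiPhi a.1 b.1).bdd_mul h.Vs_cont.aestronglyMeasurable
          (Eventually.of_forall fun x => hB x)))
  unfold bF BF
  have e1 : ∫ x, osum w x * rho (wvS C) (wvS C) x = oneF (fun a b => wI w a.1 b.1) C :=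
    (integral_rho_wvS C (G := osum w) hw.1).trans hw.2
  have e2 : ∫ x, repul x * rho (wvS C) (wvS C) x = twoF (fun a b c d => W4 a.1 b.1 c.1 d.1) C :=
    (integral_rho_wvS C (G := repul) (JI_rep C)).trans h2
  have e3 : ∫ x, osum (kk lam P Vs) x * rho (wvS C) (wvS C) x =
      oneF (fun a b => ∫ x, kk lam P Vs x * (Phi a.1 x * Phi b.1 x)) C :=
    (integral_rho_wvS C (G := osum (kk lam P Vs)) hk.1).trans hk.2
  rw [e1, e2, e3]
  ring

theorem h1q_wvS_le {C : Ten (Nel n0 Nv) n0} (hA : Anti C) (hC : CoreFull C) :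
    h1q (wvS C) ≤ (1 + 2 * EN n0 Nv) * tsq C := by
  have h1 := hoscS_wvS hA hC
  rw [hoscS_eq] at h1
  have h2 : 0 ≤ ∫ x, ‖x‖ ^ 2 * rho (wvS C) (wvS C) x :=
    integral_nonneg fun x => mul_nonneg (by positivity) (rho_self_nonneg _ x)
  unfold h1q
  rw [nq_wvS]
  linarith

/-- upper bound of `lam * beta` -/
theorem lam_beta_le (h : NucOK lam P n0 Vs w F C0 R eps1 eps2 kF W) {C : Ten (Nel n0 Nv) n0}
    (hA : Anti C) (hC : CoreFull C) (h1 : OneB C) (h2 : TwoB C) (hn : tsq C = 1)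
    (hb : beta * tsq C ≤ BF w C) :
    beta ≤ Nel n0 Nv * W + (Nel n0 Nv : ℝ) ^ 2 * (1 + 2 * EN n0 Nv) := by
  have hw := h1 w h.w_cont.aestronglyMeasurable (fun a b =>
    (integrable_PhiPhi a.1 b.1).bdd_mul h.w_cont.aestronglyMeasurable
      (Eventually.of_forall fun x => h.w_le x))
  have e1 : ∫ x, osum w x * rho (wvS C) (wvS C) x = oneF (fun a b => wI w a.1 b.1) C :=
    (integral_rho_wvS C (G := osum w) hw.1).trans hw.2
  have e2 : ∫ x, repul x * rho (wvS C) (wvS C) x = twoF (fun a b c d => W4 a.1 b.1 c.1 d.1) C :=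
    (integral_rho_wvS C (G := repul) (JI_rep C)).trans h2
  have a1 := (abs_le.1 (abs_int_bdd_le (abs_osum_le h.w_le) (wvS C) (wvS C))).2
  have a2 := int_repul_self_le (wvS C)
  have a3 := h1q_wvS_le hA hC
  have a4 : √(nq (wvS C)) * √(nq (wvS C)) = 1 := by
    rw [Real.mul_self_sqrt (nq_nonneg _), nq_wvS, hn]
  rw [hn] at a3 hb
  rw [e1, a4] at a1
  rw [e2] at a2
  have a5 : (Nel n0 Nv : ℝ) ^ 2 * h1q (wvS C) ≤ (Nel n0 Nv : ℝ) ^ 2 * ((1 + 2 * EN n0 Nv) * 1) :=
    mul_le_mul_of_nonneg_left a3 (by positivity)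
  unfold BF at hb
  linarith

/-- NEAR region, second half -/
theorem near_main (h : NucOK lam P n0 Vs w F C0 R eps1 eps2 kF W)
    (hOne : ∀ C : Ten (Nel n0 Nv) n0, OneB C) (hTwo : ∀ C : Ten (Nel n0 Nv) n0, TwoB C)
    (hbeta : ∀ C : Ten (Nel n0 Nv) n0, Anti C → CoreFull C → beta * tsq C ≤ BF w C)
    (u : SW (Nel n0 Nv)) (hF : IsFermionic (toW u))
    {M : ℝ} (hM : M = lam * Nel n0 Nv * W + lam * (Nel n0 Nv : ℝ) ^ 2 + 2 * Nel n0 Nv * kF)
    (hM4 : 16 * (EN n0 Nv + 1) * M ≤ 1) (hlb : 16 * (EN n0 Nv + 1) * (lam * beta) ≤ 1) :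
    (EN n0 Nv + lam * beta - Nel n0 Nv * Fintype.card (Sp n0) * eps1 -
      8 * (EN n0 Nv + 1) * (1 + 2 * EN n0 Nv) * M ^ 2) * nq u ≤
      hoscS u + bF lam w (kk lam P Vs) u u := by
  obtain ⟨C, hA, hC, e1, e2, e3⟩ := split_sw u hF
  set q := u - wvS C with hq
  have hu : u = wvS C + q := by rw [hq]; abel
  have hk := nb0_of (N := Nel n0 Nv) h
  have hb := bF_add h (wvS C) q
  rw [← hu] at hb
  have hW := h.W_nonneg
  have hl := h.lam_pos
  have hkF := h.kF_nonneg
  have hM0 : 0 ≤ M := by rw [hM]; positivity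
  have he := EN_nonneg n0 Nv
  have hP := tsq_nonneg C
  have hQ := nq_nonneg q
  -- the block on the model space
  have hpp : (lam * beta - Nel n0 Nv * Fintype.card (Sp n0) * eps1) * tsq C ≤
      bF lam w (kk lam P Vs) (wvS C) (wvS C) := by
    rw [bF_wvS h (hOne C) (hTwo C)]
    have b1 : lam * (beta * tsq C) ≤ lam * BF w C :=
      mul_le_mul_of_nonneg_left (hbeta C hA hC) hl.le
    have b2 := (abs_le.1 (abs_oneF_le (h := fun a b : Sp n0 =>
      ∫ x, kk lam P Vs x * (Phi a.1 x * Phi b.1 x)) (eps := eps1)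
      (fun a b => h.N3 a.1 b.1 a.2 b.2) C)).1
    linarith
  have hGp := h1q_wvS_le hA hC
  have hGq : h1q q ≤ 4 * hoscS q := by
    have c1 := hoscS_eq q
    have c2 : 0 ≤ ∫ x, ‖x‖ ^ 2 * rho q q x :=
      integral_nonneg fun x => mul_nonneg (by positivity) (rho_self_nonneg _ x)
    have c3 : nq q ≤ hoscS q := by nlinarith
    unfold h1q
    linarith
  have key := form_num (e := EN n0 Nv) (P := tsq C) (Q := nq q) (H := hoscS q)
    (Gp := h1q (wvS C)) (Gq := h1q q) (M := M) (lb := lam * beta)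
    (δ := Nel n0 Nv * Fintype.card (Sp n0) * eps1)
    (bpp := bF lam w (kk lam P Vs) (wvS C) (wvS C)) (bpq := bF lam w (kk lam P Vs) (wvS C) q)
    (bqq := bF lam w (kk lam P Vs) q q) he hP hQ
    (by have := h.eps1_nonneg; positivity) e3 (h1q_nonneg _) hGp (nq_le_h1q q) hGq hM0 hM4 hlb hpp
    (by rw [hM]; exact abs_bF_le h hk (wvS C) q)
    (by
      have := abs_bF_le h hk q q
      rw [Real.mul_self_sqrt (h1q_nonneg q)] at this
      rw [hM]; exact this)
  rw [e1, e2, hb]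
  linarith

end

end Crest.Agent.R338.TA
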