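import Crest.Agent.R338.TA7

/-!
# Row 338, node TA (helper64): assembly of the lower half of Theorem A
-/

set_option autoImplicit false

open MeasureTheory SchwartzMap Filter
open scoped ContDiff ENNReal ComplexConjugate Topology

noncomputable section

namespace Crest.Agent.R338.TA

open Crest.MathPhysics.ElectronicCoulomb
open Crest.Agent.R338.HO Crest.Agent.R338.Fm Crest.Agent.R338.TL
open Crest.Agent.R335.HF (IsH1 Gr E kin cgrad)

/-! ### constants -/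

theorem EN_le (n0 Nv : ℕ) : EN n0 Nv ≤ Nel n0 Nv * ((n0 : ℝ) + 3 / 2) := by
  rw [Nel_eq]
  unfold EN
  push_cast
  rw [add_mul, Finset.sum_mul]
  refine add_le_add (Finset.sum_le_sum fun n hn => ?_) le_rfl
  have h1 : (n : ℝ) ≤ n0 := by exact_mod_cast (Finset.mem_range.1 hn).le
  have h2 : (0 : ℝ) ≤ ((n : ℝ) + 1) * (n + 2) := by positivity
  nlinarith

section
variable {n0 Nv : ℕ} {W : ℝ}

theorem EN_le_sq (hW : 0 ≤ W) : EN n0 Nv ≤ sizeP n0 Nv W ^ 2 := by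
  refine (EN_le n0 Nv).trans ?_
  have h1 := Nel_le_sizeP (n0 := n0) (Nv := Nv) hW
  have h2 : (n0 : ℝ) + 3 / 2 ≤ sizeP n0 Nv W := by
    unfold sizeP
    have h3 : (0 : ℝ) ≤ Nel n0 Nv := by positivity
    linarith
  calc (Nel n0 Nv : ℝ) * ((n0 : ℝ) + 3 / 2) ≤ sizeP n0 Nv W * sizeP n0 Nv W :=
        mul_le_mul h1 h2 (by positivity) (by linarith [two_le_sizeP (n0 := n0) (Nv := Nv) hW])
    _ = _ := by ring

end

set_option maxHeartbeats 1000000 in
/-- all numerical inequalities of the lower bound -/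
theorem numerics {N e S a lam kF W lb eps1 eps2 R c M cS Mt : ℝ} {D : ℕ} (hN0 : 0 ≤ N) (hN : N ≤ S)
    (hS : 2 ≤ S) (he0 : 0 ≤ e) (he : e ≤ S ^ 2) (hW0 : 0 ≤ W) (hW : W ≤ S) (hlam : 0 < lam)
    (hkF : 0 ≤ kF) (ha : a = lam + kF) (hR : 1 ≤ R) (heps1 : 0 ≤ eps1) (heps2 : 0 ≤ eps2)
    (heps21 : eps2 ≤ 1) (hM : M = lam * N * W + lam * N ^ 2 + 2 * N * kF)
    (hb : lb ≤ lam * (N * W + N ^ 2 * (1 + 2 * e)))
    (hcS : N * cS ≤ S ^ 4) (hcS0 : 0 ≤ cS) (hMt : 0 ≤ Mt) (hMt2 : 2 * Mt ≤ S ^ (D - 1))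
    (hD : 20 ≤ D) (hsmall : S ^ D * a ≤ 1) (hbig : S ^ D ≤ R ^ 2) (hc : c = 2 * Mt * N / R ^ 2) :
    16 * (e + 1) * M ≤ 1 ∧ 16 * (e + 1) * lb ≤ 1 ∧
      (e + lb - N * cS * eps1 - 8 * (e + 1) * (1 + 2 * e) * M ^ 2) - N * eps2 - c ≥
        e + lb - S ^ D * (lam ^ 2 + kF ^ 2 + eps1 + eps2 + 1 / R ^ 2) ∧
      R ^ 2 / 4 - N * (lam * W + eps2) - 2 * N ^ 2 * kF ^ 2 - c ≥
        e + lb - S ^ D * (lam ^ 2 + kF ^ 2 + eps1 + eps2 + 1 / R ^ 2) := by
  have hS1 : 1 ≤ S := by linarith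
  have hS0 : 0 ≤ S := by linarith
  have ha0 : 0 < a := by rw [ha]; linarith
  have hla : lam ≤ a := by rw [ha]; linarith
  have hka : kF ≤ a := by rw [ha]; linarith
  -- powers
  have hp : ∀ k : ℕ, k ≤ D → S ^ k * a ≤ 1 := fun k hk =>
    (mul_le_mul_of_nonneg_right (pow_le_pow_right₀ hS1 hk) ha0.le).trans hsmall
  have hNS : N * W ≤ S ^ 2 := by
    calc N * W ≤ S * S := mul_le_mul hN hW hW0 hS0
      _ = S ^ 2 := by ring
  have hN2 : N ^ 2 ≤ S ^ 2 := pow_le_pow_left₀ hN0 hN 2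
  have h2S : 2 * S ≤ 2 * S ^ 2 := by nlinarith
  have hMle : M ≤ 2 * S ^ 2 * a := by
    rw [hM, ha]
    have i1 : lam * N * W ≤ lam * S ^ 2 := by
      calc lam * N * W = lam * (N * W) := by ring
        _ ≤ _ := mul_le_mul_of_nonneg_left hNS hlam.le
    have i2 : lam * N ^ 2 ≤ lam * S ^ 2 := mul_le_mul_of_nonneg_left hN2 hlam.le
    have i3 : 2 * N * kF ≤ 2 * S ^ 2 * kF :=
      mul_le_mul_of_nonneg_right (by linarith) hkF
    have i4 : 2 * S ^ 2 * (lam + kF) = lam * S ^ 2 + lam * S ^ 2 + 2 * S ^ 2 * kF := by ring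
    rw [i4]
    linarith
  have hM0 : 0 ≤ M := by rw [hM]; positivity
  have hSsq : 1 ≤ S ^ 2 := one_le_pow₀ hS1
  have he1 : e + 1 ≤ 2 * S ^ 2 := by linarith
  have he2 : 1 + 2 * e ≤ 3 * S ^ 2 := by linarith
  have h64 : (64 : ℝ) ≤ S ^ 6 := by
    calc (64 : ℝ) = 2 ^ 6 := by norm_num
      _ ≤ S ^ 6 := pow_le_pow_left₀ (by norm_num) hS 6
  have h4 : (4 : ℝ) ≤ S ^ 2 := by
    calc (4 : ℝ) = 2 ^ 2 := by norm_num
      _ ≤ S ^ 2 := pow_le_pow_left₀ (by norm_num) hS 2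
  have h256 : (256 : ℝ) ≤ S ^ 8 := by
    calc (256 : ℝ) = 2 ^ 8 := by norm_num
      _ ≤ S ^ 8 := pow_le_pow_left₀ (by norm_num) hS 8
  -- first claim
  have c1 : 16 * (e + 1) * M ≤ 1 := by
    calc 16 * (e + 1) * M ≤ 16 * (2 * S ^ 2) * (2 * S ^ 2 * a) :=
          mul_le_mul (by linarith) hMle hM0 (by positivity)
      _ = 64 * S ^ 4 * a := by ring
      _ ≤ S ^ 6 * S ^ 4 * a := by
          refine mul_le_mul_of_nonneg_right (mul_le_mul_of_nonneg_right h64 (by positivity)) ha0.le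
      _ = S ^ 10 * a := by ring
      _ ≤ 1 := hp 10 (by omega)
  -- bound of `lb`
  have hB : lam * (N * W + N ^ 2 * (1 + 2 * e)) ≤ S ^ 6 * a := by
    have j1 : N * W + N ^ 2 * (1 + 2 * e) ≤ S ^ 2 + S ^ 2 * (3 * S ^ 2) :=
      add_le_add hNS (mul_le_mul hN2 he2 (by positivity) (by positivity))
    have j2 : S ^ 2 + S ^ 2 * (3 * S ^ 2) ≤ S ^ 6 := by
      have : S ^ 2 ≤ S ^ 4 := pow_le_pow_right₀ hS1 (by norm_num)
      calc S ^ 2 + S ^ 2 * (3 * S ^ 2) = S ^ 2 + 3 * S ^ 4 := by ring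
        _ ≤ 4 * S ^ 4 := by linarith
        _ ≤ S ^ 2 * S ^ 4 := mul_le_mul_of_nonneg_right h4 (by positivity)
        _ = S ^ 6 := by ring
    calc lam * (N * W + N ^ 2 * (1 + 2 * e)) ≤ a * S ^ 6 :=
          mul_le_mul hla (j1.trans j2) (by positivity) ha0.le
      _ = _ := by ring
  have hlb : lb ≤ S ^ 6 * a := hb.trans hB
  have c2 : 16 * (e + 1) * lb ≤ 1 := by
    have : 16 * (e + 1) * lb ≤ 16 * (e + 1) * (S ^ 6 * a) :=
      mul_le_mul_of_nonneg_left hlb (by positivity)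
    calc 16 * (e + 1) * lb ≤ 16 * (e + 1) * (S ^ 6 * a) := this
      _ ≤ 16 * (2 * S ^ 2) * (S ^ 6 * a) :=
          mul_le_mul_of_nonneg_right (by linarith) (by positivity)
      _ = 32 * S ^ 8 * a := by ring
      _ ≤ S ^ 6 * S ^ 8 * a := by
          refine mul_le_mul_of_nonneg_right (mul_le_mul_of_nonneg_right (by linarith)
            (by positivity)) ha0.le
      _ = S ^ 14 * a := by ring
      _ ≤ 1 := hp 14 (by omega)
  -- the IMS error
  have hc' : c ≤ S ^ D * (1 / R ^ 2) := by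
    rw [hc]
    have k1 : 2 * Mt * N ≤ S ^ (D - 1) * S := mul_le_mul hMt2 hN hN0 (by positivity)
    have k2 : S ^ (D - 1) * S = S ^ D := by
      rw [← pow_succ]; congr 1; omega
    rw [k2] at k1
    calc 2 * Mt * N / R ^ 2 = 2 * Mt * N * (1 / R ^ 2) := by ring
      _ ≤ S ^ D * (1 / R ^ 2) := mul_le_mul_of_nonneg_right k1 (by positivity)
  -- second order
  have hMsq : 8 * (e + 1) * (1 + 2 * e) * M ^ 2 ≤ S ^ D * (lam ^ 2 + kF ^ 2) := by
    have l1 : M ^ 2 ≤ (2 * S ^ 2 * a) ^ 2 := pow_le_pow_left₀ hM0 hMle 2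
    have l2 : 8 * (e + 1) * (1 + 2 * e) ≤ 8 * (2 * S ^ 2) * (3 * S ^ 2) :=
      mul_le_mul (by linarith) he2 (by positivity) (by positivity)
    have l3 : a ^ 2 ≤ 2 * (lam ^ 2 + kF ^ 2) := by
      rw [ha]; nlinarith [sq_nonneg (lam - kF)]
    have l4 : (0 : ℝ) ≤ lam ^ 2 + kF ^ 2 := by positivity
    calc 8 * (e + 1) * (1 + 2 * e) * M ^ 2 ≤ 8 * (2 * S ^ 2) * (3 * S ^ 2) * (2 * S ^ 2 * a) ^ 2 :=
          mul_le_mul l2 l1 (by positivity) (by positivity)
      _ = 192 * S ^ 8 * a ^ 2 := by ring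
      _ ≤ 192 * S ^ 8 * (2 * (lam ^ 2 + kF ^ 2)) := mul_le_mul_of_nonneg_left l3 (by positivity)
      _ = 384 * S ^ 8 * (lam ^ 2 + kF ^ 2) := by ring
      _ ≤ S ^ D * (lam ^ 2 + kF ^ 2) := by
          refine mul_le_mul_of_nonneg_right ?_ l4
          have m1 : (384 : ℝ) ≤ S ^ 9 := by
            calc (384 : ℝ) ≤ 2 ^ 9 := by norm_num
              _ ≤ S ^ 9 := pow_le_pow_left₀ (by norm_num) hS 9
          calc 384 * S ^ 8 ≤ S ^ 9 * S ^ 8 := mul_le_mul_of_nonneg_right m1 (by positivity)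
            _ = S ^ 17 := by ring
            _ ≤ S ^ D := pow_le_pow_right₀ hS1 (by omega)
  have hd1 : N * cS * eps1 ≤ S ^ D * eps1 :=
    mul_le_mul_of_nonneg_right (hcS.trans (pow_le_pow_right₀ hS1 (by omega))) heps1
  have hSD : S ≤ S ^ D := by
    calc S = S ^ 1 := (pow_one S).symm
      _ ≤ S ^ D := pow_le_pow_right₀ hS1 (by omega)
  have hd2 : N * eps2 ≤ S ^ D * eps2 := mul_le_mul_of_nonneg_right (hN.trans hSD) heps2
  refine ⟨c1, c2, ?_, ?_⟩
  · have : S ^ D * (lam ^ 2 + kF ^ 2 + eps1 + eps2 + 1 / R ^ 2) =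
        S ^ D * (lam ^ 2 + kF ^ 2) + S ^ D * eps1 + S ^ D * eps2 + S ^ D * (1 / R ^ 2) := by ring
    rw [this]
    linarith
  · have t0 : 0 ≤ S ^ D * (lam ^ 2 + kF ^ 2 + eps1 + eps2) := by positivity
    have t1 : S ^ D * (lam ^ 2 + kF ^ 2 + eps1 + eps2 + 1 / R ^ 2) =
        S ^ D * (lam ^ 2 + kF ^ 2 + eps1 + eps2) + S ^ D * (1 / R ^ 2) := by ring
    have t2 : lb ≤ 1 := by
      have : S ^ 6 * a ≤ 1 := hp 6 (by omega)
      linarith
    have t3 : N * (lam * W) ≤ 1 := by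
      calc N * (lam * W) = lam * (N * W) := by ring
        _ ≤ a * S ^ 2 := mul_le_mul hla hNS (by positivity) ha0.le
        _ = S ^ 2 * a := by ring
        _ ≤ 1 := hp 2 (by omega)
    have t4 : N * eps2 ≤ S := by
      calc N * eps2 ≤ N * 1 := mul_le_mul_of_nonneg_left heps21 hN0
        _ ≤ S := by linarith
    have t5 : 2 * N ^ 2 * kF ^ 2 ≤ 2 := by
      have u1 : N * kF ≤ 1 := by
        calc N * kF ≤ S * a := mul_le_mul hN hka hkF hS0
          _ = S ^ 1 * a := by ring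
          _ ≤ 1 := hp 1 (by omega)
      have u2 : 0 ≤ N * kF := by positivity
      have u3 : (N * kF) ^ 2 ≤ 1 := pow_le_one₀ u2 u1
      calc 2 * N ^ 2 * kF ^ 2 = 2 * (N * kF) ^ 2 := by ring
        _ ≤ 2 := by linarith
    have t6 : 4 * (S ^ 2 + 1 + 1 + S + 2) ≤ R ^ 2 := by
      refine le_trans ?_ hbig
      have v1 : S ≤ S ^ 2 := le_self_pow₀ hS1 (by norm_num)
      have v2 : S ^ 2 + 1 + 1 + S + 2 ≤ 4 * S ^ 2 := by linarith
      calc 4 * (S ^ 2 + 1 + 1 + S + 2) ≤ 4 * (4 * S ^ 2) := by linarith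
        _ = 16 * S ^ 2 := by ring
        _ ≤ S ^ 4 * S ^ 2 := by
            refine mul_le_mul_of_nonneg_right ?_ (by positivity)
            calc (16 : ℝ) = 2 ^ 4 := by norm_num
              _ ≤ S ^ 4 := pow_le_pow_left₀ (by norm_num) hS 4
        _ = S ^ 6 := by ring
        _ ≤ S ^ D := pow_le_pow_right₀ hS1 (by omega)
    rw [t1]
    have t7 : N * (lam * W + eps2) = N * (lam * W) + N * eps2 := by ring
    rw [t7]
    linarith

/-! ### main assembly -/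

theorem fermionic_mulW {N : ℕ} {Th : Config N → ℝ} (g : ℝ → ℝ)
    (hJ : (fun x => g (Th x)).HasTemperateGrowth)
    (hT : ∀ (σ : Equiv.Perm (Fin N)) x, Th (permConfig σ x) = Th x) {u : SW N}
    (hu : ∀ (σ : Equiv.Perm (Fin N)) (s : Spin N) (x : Config N),
      u (fun i => s (σ i)) (permConfig σ x) = ((Equiv.Perm.sign σ : ℤ) : ℂ) * u s x) :
    IsFermionic (toW (mulW (fun x => g (Th x)) u)) := by
  refine ⟨fun s => (mulW (fun x => g (Th x)) u s).memLp 2 volume, fun σ s x => ?_⟩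
  simp only [toW_apply]
  rw [mulW_apply hJ, mulW_apply hJ, hu σ s x, hT σ x]
  ring

theorem integrable_pot_rho {N : ℕ} (lam : ℝ) {K : ℕ} (P : Fin K → Pos3) (u : SW N) :
    Integrable (fun x => lam * unitNucleiPotential P x * rho u u x) := by
  simp only [rho_self, Finset.mul_sum]
  exact integrable_finsetSum _ fun s _ => integrable_pot lam P u s

theorem theoremALower_of (hOne : ∀ (n0 Nv : ℕ) (C : Ten (Nel n0 Nv) n0), OneB C)
    (hTwo : ∀ (n0 Nv : ℕ) (C : Ten (Nel n0 Nv) n0), TwoB C)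
    (hEx : ∀ n0 Nv : ℕ, Nv ≤ (n0 + 1) * (n0 + 2) →
      ∃ C : Ten (Nel n0 Nv) n0, Anti C ∧ CoreFull C ∧ tsq C = 1) : TheoremALower := by
  obtain ⟨Mt, hMt0, hMt⟩ := exists_cgrad_Theta_bound
  obtain ⟨D', hD'⟩ := pow_unbounded_of_one_lt (2 * Mt) (by norm_num : (1 : ℝ) < 2)
  refine ⟨20 + D', ?_⟩
  intro lam K P n0 Nv Vs w F C0 R eps1 eps2 kF W beta h hNv1 hNv2 hsmall hbig hbeta
  have hW := h.W_nonneg
  have hl := h.lam_pos
  have hkF := h.kF_nonneg
  have hR1 := h.one_le_R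
  have hR0 : 0 < R := by linarith
  set N := Nel n0 Nv with hNdef
  set S := sizeP n0 Nv W with hSdef
  have hS2 : 2 ≤ S := two_le_sizeP hW
  -- upper bound of beta
  obtain ⟨C1, hA1, hC1, hn1⟩ := hEx n0 Nv hNv2
  have hbb := lam_beta_le h hA1 hC1 (hOne n0 Nv C1) (hTwo n0 Nv C1) hn1 (hbeta C1 hA1 hC1)
  obtain ⟨g1, g2, g3, g4⟩ := numerics (N := (N : ℝ)) (e := EN n0 Nv) (S := S) (a := lam + kF)
    (lam := lam) (kF := kF) (W := W) (lb := lam * beta) (eps1 := eps1) (eps2 := eps2) (R := R)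
    (c := 2 * Mt * N / R ^ 2) (M := lam * N * W + lam * (N : ℝ) ^ 2 + 2 * N * kF)
    (cS := (Fintype.card (Sp n0) : ℝ)) (Mt := Mt) (D := 20 + D') (by positivity)
    (Nel_le_sizeP hW) hS2 (EN_nonneg n0 Nv) (EN_le_sq hW) hW W_le_sizeP hl hkF rfl hR1
    h.eps1_nonneg h.eps2_nonneg h.eps2_le rfl
    (mul_le_mul_of_nonneg_left hbb hl.le)
    (const1 hW) (by positivity) hMt0
    (by
      calc 2 * Mt ≤ 2 ^ D' := hD'.le
        _ ≤ S ^ D' := pow_le_pow_left₀ (by norm_num) hS2 D'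
        _ ≤ S ^ (20 + D' - 1) := pow_le_pow_right₀ (by linarith) (by omega))
    (by omega) hsmall hbig rfl
  refine Dens.infEnergyGE_of_cc (formBdd_scaled lam P) ?_
  intro Φ hAnti hsm hcs
  -- the Schwartz wave
  set u : SW N := fun s => (hcs s).toSchwartzMap (hsm s) with hu
  have hu' : toW u = Φ := by
    funext s x; rfl
  have hus : ∀ (σ : Equiv.Perm (Fin N)) (s : Spin N) (x : Config N),
      u (fun i => s (σ i)) (permConfig σ x) = ((Equiv.Perm.sign σ : ℤ) : ℂ) * u s x := by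
    intro σ s x
    exact hAnti σ s x
  have hΘs := contDiff_Theta (N := N) R
  have hΘc := supp_Theta (N := N) hR0
  set u1 := mulW (Jin (Theta R)) u with hu1
  set u2 := mulW (Jout (Theta R)) u with hu2
  have hnorm : (normSq Φ).toReal = nq u := by
    have h0 := Dens.normSq_toReal (Ψ := toW u) (fun s => (u s).memLp 2 volume)
    rw [← hu', h0]
    rfl
  rw [hnorm, ← hu']
  -- IMS
  have himsd := ims hΘs hΘc (B := Mt * N / R ^ 2) (fun x => hMt N R hR0 x) u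
  have hnq := nq_pair hΘs hΘc u
  have hen : energy (fun x => lam * unitNucleiPotential P x) (toW u1) +
      energy (fun x => lam * unitNucleiPotential P x) (toW u2) ≤
      energy (fun x => lam * unitNucleiPotential P x) (toW u) + 2 * Mt * N / R ^ 2 * nq u := by
    rw [energy_toW u1 (integrable_pot lam P u1), energy_toW u2 (integrable_pot lam P u2),
      energy_toW u (integrable_pot lam P u)]
    have e1 : (∫ x, lam * unitNucleiPotential P x * rho u1 u1 x) +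
        (∫ x, lam * unitNucleiPotential P x * rho u2 u2 x) =
        ∫ x, lam * unitNucleiPotential P x * rho u u x := by
      rw [← integral_add (integrable_pot_rho lam P u1) (integrable_pot_rho lam P u2)]
      refine integral_congr_ae (Eventually.of_forall fun x => ?_)
      simp only
      rw [← mul_add, rho_pair hΘs hΘc]
    have hpi : (Real.pi / 2) ^ 2 ≤ 4 := by
      have h1 := Real.pi_le_four
      have h2 := Real.pi_pos
      nlinarith
    have hMN : 0 ≤ Mt * N / R ^ 2 * nq u := by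
      have := nq_nonneg u
      positivity
    have h3 : (Real.pi / 2) ^ 2 * (Mt * N / R ^ 2) * nq u ≤ 4 * (Mt * N / R ^ 2 * nq u) := by
      calc (Real.pi / 2) ^ 2 * (Mt * N / R ^ 2) * nq u = (Real.pi / 2) ^ 2 * (Mt * N / R ^ 2 * nq u) := by
            ring
        _ ≤ 4 * (Mt * N / R ^ 2 * nq u) := mul_le_mul_of_nonneg_right hpi hMN
    have h4 : 2 * Mt * N / R ^ 2 * nq u = 2 * (Mt * N / R ^ 2 * nq u) := by ring
    rw [h4]
    linarith
  -- near part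
  have hF1 : IsFermionic (toW u1) :=
    fermionic_mulW (fun t => Real.sin (Real.pi / 2 * t)) (htg_Jin hΘs hΘc) (Theta_perm R) hus
  have hsupp1 : ∀ s x, u1 s x ≠ 0 → ∀ ic, |x ic| ≤ 2 * R := by
    intro s x hx ic
    by_contra hcon
    push Not at hcon
    apply hx
    rw [hu1, mulW_apply (htg_Jin hΘs hΘc)]
    unfold Jin
    rw [Theta_eq_zero hR0 ⟨ic, hcon.le⟩]
    simp
  have hsupp2 : ∀ s x, u2 s x ≠ 0 → ∃ ic, R < |x ic| := by
    intro s x hx
    by_contra hcon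
    push Not at hcon
    apply hx
    rw [hu2, mulW_apply (htg_Jout hΘs hΘc)]
    unfold Jout
    rw [Theta_eq_one hR0 hcon, mul_one, Real.cos_pi_div_two]
    simp
  have n1 := near_lower h u1 hsupp1
  have n2 := near_main h (hOne n0 Nv) (hTwo n0 Nv) hbeta u1 hF1 rfl g1 g2
  have n3 := far_lower h (nb0_of h) u2 hsupp2
  have q1 := nq_nonneg u1
  have q2 := nq_nonneg u2
  have m1 := mul_le_mul_of_nonneg_right g3 q1
  have m2 := mul_le_mul_of_nonneg_right g4 q2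
  rw [← hnq] at hen ⊢
  linarith

end Crest.Agent.R338.TA
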