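import Crest.Agent.R338.TB2
import Crest.Agent.R338.CE1
import Crest.Agent.R338.HO6

/-!
# Row 338, module TB3 (helper789): two-body matrix elements of tensor waves
-/

set_option autoImplicit false

open MeasureTheory
open scoped ComplexConjugate

noncomputable section

namespace Crest.Agent.R338.TB

open Crest.MathPhysics.ElectronicCoulomb
open Crest.Agent.R338.TA Crest.Agent.R338.HO

variable {N n0 : ℕ}

/-- the pair kernel of the two-body integrand -/
def K2 (a a' b b' : Sp n0) (z : Pos3 × Pos3) : ℝ :=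
  (Phi a.1 z.1 * Phi a'.1 z.1) * (Phi b.1 z.2 * Phi b'.1 z.2) / ‖z.1 - z.2‖

theorem integral_K2 (a a' b b' : Sp n0) : ∫ z, K2 a a' b b' z = W4 a.1 a'.1 b.1 b'.1 := rfl

theorem abs_Phi_le (m : Fin 3 → ℕ) (x : Pos3) : |Phi m x| ≤ 125 := by
  unfold Phi
  rw [Finset.abs_prod]
  calc ∏ c, |hf (m c) (x c)| ≤ ∏ _c : Fin 3, (5 : ℝ) :=
        Finset.prod_le_prod (fun c _ => abs_nonneg _) (fun c _ => abs_hf_le _ _)
    _ = 125 := by simp; norm_num

theorem nice_PP (a b : Fin 3 → ℕ) : CE.Nice (fun x : Pos3 => Phi a x * Phi b x) := by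
  refine ⟨integrable_PP a b, ⟨125 * 125, fun x => ?_⟩⟩
  rw [abs_mul]
  exact mul_le_mul (abs_Phi_le a x) (abs_Phi_le b x) (abs_nonneg _) (by norm_num)

theorem integrable_K2 (a a' b b' : Sp n0) : Integrable (K2 a a' b b') := by
  exact CE.integrable_D (integrable_PP a.1 a'.1) (nice_PP b.1 b'.1)

/-- the one-electron factors -/
def F2k (m m' : Fin N → Sp n0) (k : Fin N) (y : Pos3) : ℝ := Phi (m k).1 y * Phi (m' k).1 y

theorem two_form {i j : Fin N} (hij : i ≠ j) (m m' : Fin N → Sp n0) :
    (fun x : Config N => 1 / ‖elPos i x - elPos j x‖ * (Phi (lidx m) x * Phi (lidx m') x)) =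
      fun x => K2 (m i) (m' i) (m j) (m' j) (elPos i x, elPos j x) *
        ∏ k ∈ (Finset.univ.erase i).erase j,
          F2k m m' k (elPos k x) := by
  funext x
  rw [Phi_mul_Phi, ← Finset.mul_prod_erase Finset.univ _ (Finset.mem_univ i),
    ← Finset.mul_prod_erase (Finset.univ.erase i) _ (Finset.mem_erase.2 ⟨hij.symm, Finset.mem_univ j⟩)]
  unfold K2 F2k
  simp only
  ring

theorem two_int {i j : Fin N} (hij : i ≠ j) (m m' : Fin N → Sp n0) :
    Integrable (fun x : Config N =>
      1 / ‖elPos i x - elPos j x‖ * (Phi (lidx m) x * Phi (lidx m') x)) := by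
  rw [two_form hij]
  exact integrable_pair_el hij (integrable_K2 _ _ _ _) (fun k => integrable_PP _ _)

theorem two_integral {i j : Fin N} (hij : i ≠ j) (m m' : Fin N → Sp n0) :
    ∫ x : Config N, 1 / ‖elPos i x - elPos j x‖ * (Phi (lidx m) x * Phi (lidx m') x) =
      W4 (m i).1 (m' i).1 (m j).1 (m' j).1 *
        (if ∀ k ∈ (Finset.univ.erase i).erase j, m k = m' k then 1 else 0) := by
  rw [two_form hij, integral_pair_el hij, integral_K2]
  congr 1
  rw [← prod_delta]
  exact Finset.prod_congr rfl fun k _ => integral_PP _ _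

theorem sum_delta2 {i j : Fin N} (hij : i ≠ j) (m : Fin N → Sp n0) (f : (Fin N → Sp n0) → ℝ) :
    ∑ m' : Fin N → Sp n0, f m' *
      (if ∀ k ∈ (Finset.univ.erase i).erase j, m k = m' k then 1 else 0) =
      ∑ b : Sp n0, ∑ d : Sp n0, f (Function.update (Function.update m i b) j d) := by
  simp only [mul_ite, mul_one, mul_zero]
  rw [← Finset.sum_filter, ← Finset.sum_product']
  refine (Finset.sum_nbij' (fun p : Sp n0 × Sp n0 => Function.update (Function.update m i p.1) j p.2)
    (fun m' => (m' i, m' j)) ?_ ?_ ?_ ?_ ?_).symm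
  · intro p _
    refine Finset.mem_filter.2 ⟨Finset.mem_univ _, fun k hk => ?_⟩
    rw [Function.update_of_ne (Finset.ne_of_mem_erase hk),
      Function.update_of_ne (Finset.ne_of_mem_erase (Finset.mem_of_mem_erase hk))]
  · intro m' _; exact Finset.mem_product.2 ⟨Finset.mem_univ _, Finset.mem_univ _⟩
  · intro p _
    simp [Function.update_of_ne hij]
  · intro m' hm'
    have h := (Finset.mem_filter.1 hm').2
    funext k
    by_cases hkj : k = j
    · subst hkj; simp
    · by_cases hk : k = i
      · subst hk; rw [Function.update_of_ne hkj]; simp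
      · rw [Function.update_of_ne hkj, Function.update_of_ne hk]
        exact h k (Finset.mem_erase.2 ⟨hkj, Finset.mem_erase.2 ⟨hk, Finset.mem_univ k⟩⟩)
  · intro p _; rfl

theorem update_pair2 (s : Spin N) (m : Fin N → Sp n0) (i j : Fin N) (b d : Sp n0) :
    Function.update (Function.update (fun k => ((s k, m k) : Orb n0)) i (s i, b)) j (s j, d) =
      fun k => (s k, Function.update (Function.update m i b) j d k) := by
  rw [update_pair, update_pair]

/-- two-body matrix element for one spin and one pair -/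
theorem two_wav {i j : Fin N} (hij : i ≠ j) (C : Ten N n0) (s : Spin N) :
    Integrable (fun x : Config N => 1 / ‖elPos i x - elPos j x‖ * ‖wav C s x‖ ^ 2) ∧
    ∫ x : Config N, 1 / ‖elPos i x - elPos j x‖ * ‖wav C s x‖ ^ 2 =
      ∑ m : Fin N → Sp n0, ∑ b : Sp n0, ∑ d : Sp n0,
        cre (C fun k => (s k, m k))
          (C fun k => (s k, Function.update (Function.update m i b) j d k)) *
            W4 (m i).1 b.1 (m j).1 d.1 := by
  have e : (fun x : Config N => 1 / ‖elPos i x - elPos j x‖ * ‖wav C s x‖ ^ 2) = fun x =>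
      ∑ m : Fin N → Sp n0, ∑ m' : Fin N → Sp n0,
      cre (C fun i => (s i, m i)) (C fun i => (s i, m' i)) *
        (1 / ‖elPos i x - elPos j x‖ * (Phi (lidx m) x * Phi (lidx m') x)) := by
    funext x
    rw [norm_sq_wav, Finset.mul_sum]
    refine Finset.sum_congr rfl fun m _ => ?_
    rw [Finset.mul_sum]
    refine Finset.sum_congr rfl fun m' _ => by ring
  have hi : ∀ m m' : Fin N → Sp n0, Integrable (fun x : Config N =>
      cre (C fun i => (s i, m i)) (C fun i => (s i, m' i)) *
        (1 / ‖elPos i x - elPos j x‖ * (Phi (lidx m) x * Phi (lidx m') x))) := fun m m' =>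
    (two_int hij m m').const_mul _
  refine ⟨by rw [e]; exact integrable_finsetSum _ fun m _ => integrable_finsetSum _ fun m' _ => hi m m', ?_⟩
  rw [e, integral_finsetSum _ fun m _ => integrable_finsetSum _ fun m' _ => hi m m']
  refine Finset.sum_congr rfl fun m _ => ?_
  rw [integral_finsetSum _ fun m' _ => hi m m']
  have e2 : ∀ m' : Fin N → Sp n0, ∫ x : Config N,
      cre (C fun i => (s i, m i)) (C fun i => (s i, m' i)) *
        (1 / ‖elPos i x - elPos j x‖ * (Phi (lidx m) x * Phi (lidx m') x)) =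
      cre (C fun i => (s i, m i)) (C fun i => (s i, m' i)) * W4 (m i).1 (m' i).1 (m j).1 (m' j).1 *
        (if ∀ k ∈ (Finset.univ.erase i).erase j, m k = m' k then 1 else 0) := by
    intro m'
    rw [integral_const_mul, two_integral hij, ← mul_assoc]
  simp only [e2]
  rw [sum_delta2 hij m (fun m' => cre (C fun i => (s i, m i)) (C fun i => (s i, m' i)) *
    W4 (m i).1 (m' i).1 (m j).1 (m' j).1)]
  refine Finset.sum_congr rfl fun b _ => Finset.sum_congr rfl fun d _ => ?_
  rw [Function.update_self, Function.update_of_ne hij, Function.update_self]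

/-- **two-body matrix elements of tensor waves** -/
theorem two_body (C : Ten N n0) :
    (∀ s, Integrable (fun x : Config N =>
      (∑ i : Fin N, ∑ j : Fin N, if i < j then 1 / ‖elPos i x - elPos j x‖ else 0) *
        ‖wav C s x‖ ^ 2)) ∧
    ∑ s, ∫ x : Config N,
      (∑ i : Fin N, ∑ j : Fin N, if i < j then 1 / ‖elPos i x - elPos j x‖ else 0) *
        ‖wav C s x‖ ^ 2 =
      twoF (fun a b c d => W4 a.1 b.1 c.1 d.1) C := by
  have hs : ∀ s, (fun x : Config N =>
      (∑ i : Fin N, ∑ j : Fin N, if i < j then 1 / ‖elPos i x - elPos j x‖ else 0) *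
        ‖wav C s x‖ ^ 2) =
      fun x => ∑ i : Fin N, ∑ j : Fin N,
        (if i < j then 1 / ‖elPos i x - elPos j x‖ else 0) * ‖wav C s x‖ ^ 2 := by
    intro s; funext x; rw [Finset.sum_mul]
    refine Finset.sum_congr rfl fun i _ => ?_
    rw [Finset.sum_mul]
  have hi : ∀ s i j, Integrable (fun x : Config N =>
      (if i < j then 1 / ‖elPos i x - elPos j x‖ else 0) * ‖wav C s x‖ ^ 2) := by
    intro s i j
    by_cases hij : i < j
    · simp only [if_pos hij]; exact (two_wav hij.ne C s).1
    · simp only [if_neg hij, zero_mul]; exact integrable_zero _ _ _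
  refine ⟨fun s => by
    rw [hs]; exact integrable_finsetSum _ fun i _ => integrable_finsetSum _ fun j _ => hi s i j, ?_⟩
  have e1 : ∀ s, ∫ x : Config N,
      (∑ i : Fin N, ∑ j : Fin N, if i < j then 1 / ‖elPos i x - elPos j x‖ else 0) *
        ‖wav C s x‖ ^ 2 =
      ∑ i : Fin N, ∑ j : Fin N, if i < j then
        ∑ m : Fin N → Sp n0, ∑ b : Sp n0, ∑ d : Sp n0,
        cre (C fun k => (s k, m k))
          (C fun k => (s k, Function.update (Function.update m i b) j d k)) *
            W4 (m i).1 b.1 (m j).1 d.1 else 0 := by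
    intro s
    rw [hs, integral_finsetSum _ fun i _ => integrable_finsetSum _ fun j _ => hi s i j]
    refine Finset.sum_congr rfl fun i _ => ?_
    rw [integral_finsetSum _ fun j _ => hi s i j]
    refine Finset.sum_congr rfl fun j _ => ?_
    by_cases hij : i < j
    · simp only [if_pos hij]; exact (two_wav hij.ne C s).2
    · simp only [if_neg hij, zero_mul, integral_zero]
  simp only [e1]
  rw [Finset.sum_comm]
  unfold twoF
  refine Finset.sum_congr rfl fun i _ => ?_
  rw [Finset.sum_comm]
  refine Finset.sum_congr rfl fun j _ => ?_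
  by_cases hij : i < j
  · simp only [if_pos hij]
    rw [sum_tensor]
    refine Finset.sum_congr rfl fun s _ => Finset.sum_congr rfl fun m _ =>
      Finset.sum_congr rfl fun b _ => Finset.sum_congr rfl fun d _ => ?_
    simp only
    rw [update_pair2]
    rfl
  · simp only [if_neg hij, Finset.sum_const_zero]

/-- the full form: `∑ w(x_i) + ∑_{i<j} 1/|x_i - x_j|` -/
theorem full_form {w : Pos3 → ℝ} (hw : OK1 n0 w) (C : Ten N n0) :
    ∑ s, ∫ x : Config N, (∑ i, w (elPos i x) +
      ∑ i : Fin N, ∑ j : Fin N, if i < j then 1 / ‖elPos i x - elPos j x‖ else 0) *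
        ‖wav C s x‖ ^ 2 = BF w C := by
  unfold BF
  have h1 := one_body hw C
  have h2 := two_body C
  have e : (fun a b : Sp n0 => wI w a.1 b.1) = fun a b => gI w a b := rfl
  rw [e, ← h1.2, ← h2.2, ← Finset.sum_add_distrib]
  refine Finset.sum_congr rfl fun s _ => ?_
  rw [← integral_add (h1.1 s) (h2.1 s)]
  simp only [add_mul]

end Crest.Agent.R338.TB
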