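import Crest.Agent.R338.TA8
import Crest.Agent.R338.TB3
import Crest.Agent.R338.SC7
import Crest.Agent.R338.TL4
import Crest.Agent.R338.AB

/-!
# Row 338, module TA9 (helper64): Theorem A closed

`TA.theoremALower`, `TA.theoremAUpper` and `AB.thmAB : ThmABStmt`, without hypotheses.
-/

set_option autoImplicit false

open MeasureTheory

noncomputable section

namespace Crest.Agent.R338.TA

open Crest.MathPhysics.ElectronicCoulomb

/-- one-body matrix elements of every tensor wave -/
theorem oneB {N n0 : ℕ} (C : Ten N n0) : TL.OneB C := fun _ _ hg => TB.one_body hg C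

/-- two-body matrix elements of every tensor wave -/
theorem twoB {N n0 : ℕ} (C : Ten N n0) : TL.TwoB C := (TB.two_body C).2

/-- **Theorem A, lower half** -/
theorem theoremALower : TheoremALower :=
  theoremALower_of (fun _ _ C => oneB C) (fun _ _ C => twoB C)
    (fun n0 Nv h => SC.exists_unit_tensor n0 Nv h)

/-- **Theorem A, upper half** -/
theorem theoremAUpper : TheoremAUpper :=
  TL.theoremAUpper_of (fun _ _ C => oneB C) (fun _ _ C => twoB C)

end Crest.Agent.R338.TA

namespace Crest.Agent.R338.AB

/-- **Theorem AB** -/
theorem thmAB : ThmABStmt := thmAB_of TA.theoremALower TA.theoremAUpper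

end Crest.Agent.R338.AB
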