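import Crest.Agent.R338.TA0

/-!
# Row 338, module TB1 (helper789): `Config N` as a product of `N` copies of `Pos3`, Fubini
-/

set_option autoImplicit false

open MeasureTheory

noncomputable section

namespace Crest.Agent.R338.TB

open Crest.MathPhysics.ElectronicCoulomb

/-! ### currying is measure preserving -/

/-- uncurrying functions on a product -/
def unc {N : ℕ} (f : Fin N → Fin 3 → ℝ) : Fin N × Fin 3 → ℝ := fun ic => f ic.1 ic.2

/-- uncurrying as a measurable equivalence -/
def uncE (N : ℕ) : (Fin N → Fin 3 → ℝ) ≃ᵐ (Fin N × Fin 3 → ℝ) where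
  toFun := unc
  invFun g := fun i c => g (i, c)
  left_inv f := rfl
  right_inv g := rfl
  measurable_toFun := by
    refine measurable_pi_iff.2 fun ic => ?_
    exact (measurable_pi_apply ic.2).comp (measurable_pi_apply ic.1)
  measurable_invFun := by
    refine measurable_pi_iff.2 fun i => measurable_pi_iff.2 fun c => ?_
    exact measurable_pi_apply (i, c)

theorem mp_unc (N : ℕ) : MeasurePreserving (uncE N) volume volume := by
  refine ⟨(uncE N).measurable, ?_⟩
  refine (Measure.pi_eq fun s _ => ?_).symm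
  rw [(uncE N).map_apply]
  have e : (uncE N) ⁻¹' Set.pi Set.univ s = Set.pi Set.univ (fun i => Set.pi Set.univ fun c => s (i, c)) := by
    ext f
    simp only [Set.mem_preimage, Set.mem_pi, Set.mem_univ, true_imp_iff]
    constructor
    · intro h i c; exact h (i, c)
    · intro h ic; exact h ic.1 ic.2
  rw [e, volume_pi, Measure.pi_pi]
  simp only [volume_pi, Measure.pi_pi]
  rw [Fintype.prod_prod_type]

/-- all electron positions -/
def cfg {N : ℕ} (x : Config N) : Fin N → Pos3 := fun i => elPos i x

theorem mp_cfg (N : ℕ) : MeasurePreserving (cfg (N := N)) volume volume := by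
  have h1 := EuclideanSpace.volume_preserving_symm_measurableEquiv_toLp (Fin N × Fin 3)
  have h2 := (mp_unc N).symm
  have h3 : MeasurePreserving (fun (f : Fin N → Fin 3 → ℝ) (i : Fin N) =>
      (WithLp.toLp 2 (f i) : Pos3)) volume volume :=
    volume_preserving_pi fun i =>
      (EuclideanSpace.volume_preserving_symm_measurableEquiv_toLp (Fin 3)).symm
  exact h3.comp (h2.comp h1)

/-- `cfg` as a measurable equivalence -/
def cfgE (N : ℕ) : Config N ≃ᵐ (Fin N → Pos3) where
  toFun := cfg
  invFun f := WithLp.toLp 2 fun ic => f ic.1 ic.2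
  left_inv x := rfl
  right_inv f := rfl
  measurable_toFun := (mp_cfg N).measurable
  measurable_invFun := by
    refine (MeasurableEquiv.toLp 2 (Fin N × Fin 3 → ℝ)).measurable.comp ?_
    refine measurable_pi_iff.2 fun ic => ?_
    have h1 : Measurable (fun f : Fin N → Pos3 => f ic.1) := measurable_pi_apply ic.1
    have h2 : Measurable (fun y : Pos3 => y ic.2) := by fun_prop
    exact h2.comp h1

theorem me_cfg (N : ℕ) : MeasurableEmbedding (cfg (N := N)) := (cfgE N).measurableEmbedding

theorem integral_cfg {N : ℕ} {β : Type*} [NormedAddCommGroup β] [NormedSpace ℝ β]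
    (g : (Fin N → Pos3) → β) : ∫ x : Config N, g (cfg x) = ∫ y, g y :=
  (mp_cfg N).integral_comp (me_cfg N) g

theorem integrable_cfg {N : ℕ} {β : Type*} [NormedAddCommGroup β]
    {g : (Fin N → Pos3) → β} (h : Integrable g) : Integrable (fun x : Config N => g (cfg x)) :=
  ((mp_cfg N).integrable_comp_emb (me_cfg N)).2 h

/-! ### one-body Fubini -/

theorem integral_prod_el {N : ℕ} (F : Fin N → Pos3 → ℝ) :
    ∫ x : Config N, ∏ k, F k (elPos k x) = ∏ k, ∫ y, F k y := by
  have := integral_cfg (N := N) (fun y : Fin N → Pos3 => ∏ k, F k (y k))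
  rw [integral_fintype_prod_volume_eq_prod (fun k y => F k y)] at this
  exact this

theorem integrable_prod_el {N : ℕ} {F : Fin N → Pos3 → ℝ} (h : ∀ k, Integrable (F k)) :
    Integrable (fun x : Config N => ∏ k, F k (elPos k x)) :=
  integrable_cfg (g := fun y : Fin N → Pos3 => ∏ k, F k (y k)) (Integrable.fintype_prod h)

/-! ### two-body Fubini -/

/-- splitting off two coordinates -/
def split2 (n : ℕ) (i : Fin (n + 2)) (j : Fin (n + 1)) (x : Fin (n + 2) → Pos3) :
    (Pos3 × Pos3) × (Fin n → Pos3) :=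
  ((x i, x (i.succAbove j)), fun k => x (i.succAbove (j.succAbove k)))

/-- splitting off two coordinates, measurable equivalence -/
def split2E (n : ℕ) (i : Fin (n + 2)) (j : Fin (n + 1)) :
    (Fin (n + 2) → Pos3) ≃ᵐ (Pos3 × Pos3) × (Fin n → Pos3) :=
  ((MeasurableEquiv.piFinSuccAbove (fun _ => Pos3) i).trans
    ((MeasurableEquiv.refl Pos3).prodCongr (MeasurableEquiv.piFinSuccAbove (fun _ => Pos3) j))).trans
    MeasurableEquiv.prodAssoc.symm

theorem split2E_apply (n : ℕ) (i : Fin (n + 2)) (j : Fin (n + 1)) (x : Fin (n + 2) → Pos3) :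
    split2E n i j x = split2 n i j x := rfl

theorem mp_split2 (n : ℕ) (i : Fin (n + 2)) (j : Fin (n + 1)) :
    MeasurePreserving (split2E n i j) volume volume := by
  have h1 : MeasurePreserving (MeasurableEquiv.piFinSuccAbove (fun _ : Fin (n + 2) => Pos3) i)
      volume volume := volume_preserving_piFinSuccAbove (fun _ => Pos3) i
  have h2 : MeasurePreserving (MeasurableEquiv.piFinSuccAbove (fun _ : Fin (n + 1) => Pos3) j)
      volume volume := volume_preserving_piFinSuccAbove (fun _ => Pos3) j
  have h3 : MeasurePreserving ((MeasurableEquiv.refl Pos3).prodCongr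
      (MeasurableEquiv.piFinSuccAbove (fun _ : Fin (n + 1) => Pos3) j)) volume volume :=
    (MeasurePreserving.id volume).prod h2
  have h4 : MeasurePreserving (MeasurableEquiv.prodAssoc : (Pos3 × Pos3) × (Fin n → Pos3) ≃ᵐ _).symm
      volume volume := (volume_preserving_prodAssoc).symm
  exact h4.comp (h3.comp h1)

theorem prod_erase2 {n : ℕ} (i : Fin (n + 2)) (j : Fin (n + 1)) {M : Type*} [CommMonoid M]
    (a : Fin (n + 2) → M) :
    ∏ k ∈ (Finset.univ.erase i).erase (i.succAbove j), a k =
      ∏ k : Fin n, a (i.succAbove (j.succAbove k)) := by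
  have h1 : ∏ k, (if k = i ∨ k = i.succAbove j then 1 else a k) =
      ∏ k ∈ (Finset.univ.erase i).erase (i.succAbove j), a k := by
    rw [← Finset.prod_subset (s₁ := (Finset.univ.erase i).erase (i.succAbove j))
      (Finset.subset_univ _)]
    · refine Finset.prod_congr rfl fun k hk => ?_
      have h1 : k ≠ i.succAbove j := Finset.ne_of_mem_erase hk
      have h2 : k ≠ i := Finset.ne_of_mem_erase (Finset.mem_of_mem_erase hk)
      rw [if_neg (by tauto)]
    · intro k _ hk
      rw [if_pos]
      by_contra hc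
      push Not at hc
      exact hk (Finset.mem_erase.2 ⟨hc.2, Finset.mem_erase.2 ⟨hc.1, Finset.mem_univ _⟩⟩)
  rw [← h1, Fin.prod_univ_succAbove _ i, Fin.prod_univ_succAbove _ j]
  simp only [true_or, or_true, if_true, one_mul]
  refine Finset.prod_congr rfl fun k _ => ?_
  rw [if_neg]
  rintro (h | h)
  · exact Fin.succAbove_ne i _ h
  · exact Fin.succAbove_ne j k (Fin.succAbove_right_injective h)

theorem pair_aux {n : ℕ} (i : Fin (n + 2)) (j : Fin (n + 1)) (K : Pos3 × Pos3 → ℝ)
    (F : Fin (n + 2) → Pos3 → ℝ) :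
    ∫ x : Fin (n + 2) → Pos3, K (x i, x (i.succAbove j)) *
      ∏ k ∈ (Finset.univ.erase i).erase (i.succAbove j), F k (x k) =
      (∫ z, K z) * ∏ k ∈ (Finset.univ.erase i).erase (i.succAbove j), ∫ y, F k y := by
  have h := (mp_split2 n i j).integral_comp (split2E n i j).measurableEmbedding
    (fun p : (Pos3 × Pos3) × (Fin n → Pos3) => K p.1 * ∏ k, F (i.succAbove (j.succAbove k)) (p.2 k))
  simp only [prod_erase2 i j]
  have e : ∀ x : Fin (n + 2) → Pos3, K (x i, x (i.succAbove j)) *
      ∏ k : Fin n, F (i.succAbove (j.succAbove k)) (x (i.succAbove (j.succAbove k))) =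
      (fun p : (Pos3 × Pos3) × (Fin n → Pos3) =>
        K p.1 * ∏ k, F (i.succAbove (j.succAbove k)) (p.2 k)) (split2E n i j x) := by
    intro x
    rw [split2E_apply]; rfl
  simp only [e]
  rw [h]
  have h2 : (∫ p : (Pos3 × Pos3) × (Fin n → Pos3),
      K p.1 * ∏ k, F (i.succAbove (j.succAbove k)) (p.2 k)) =
      (∫ z, K z) * ∫ y : Fin n → Pos3, ∏ k, F (i.succAbove (j.succAbove k)) (y k) :=
    integral_prod_mul (μ := (volume : Measure (Pos3 × Pos3)))
      (ν := (volume : Measure (Fin n → Pos3))) K
      (fun y => ∏ k, F (i.succAbove (j.succAbove k)) (y k))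
  rw [h2, integral_fintype_prod_volume_eq_prod (fun k y => F (i.succAbove (j.succAbove k)) y)]

theorem pair_aux_int {n : ℕ} (i : Fin (n + 2)) (j : Fin (n + 1)) {K : Pos3 × Pos3 → ℝ}
    {F : Fin (n + 2) → Pos3 → ℝ} (hK : Integrable K) (hF : ∀ k, Integrable (F k)) :
    Integrable (fun x : Fin (n + 2) → Pos3 => K (x i, x (i.succAbove j)) *
      ∏ k ∈ (Finset.univ.erase i).erase (i.succAbove j), F k (x k)) := by
  simp only [prod_erase2 i j]
  have h1 : Integrable (fun p : (Pos3 × Pos3) × (Fin n → Pos3) =>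
      K p.1 * ∏ k, F (i.succAbove (j.succAbove k)) (p.2 k)) volume :=
    Integrable.mul_prod (μ := (volume : Measure (Pos3 × Pos3)))
      (ν := (volume : Measure (Fin n → Pos3))) (f := K)
      (g := fun y : Fin n → Pos3 => ∏ k, F (i.succAbove (j.succAbove k)) (y k)) hK
      (Integrable.fintype_prod fun k => hF _)
  exact ((mp_split2 n i j).integrable_comp_emb (split2E n i j).measurableEmbedding).2 h1

theorem exists_succAbove {N : ℕ} {i j : Fin N} (h : i ≠ j) :
    ∃ (n : ℕ) (hn : N = n + 2) (j' : Fin (n + 1)), Fin.cast hn j = (Fin.cast hn i).succAbove j' := by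
  obtain ⟨n, hn⟩ : ∃ n, N = n + 2 := by
    have h1 : Fintype.card (Fin N) = N := Fintype.card_fin N
    have : 1 < N := by
      by_contra hc
      push Not at hc
      have : Subsingleton (Fin N) := by
        rcases Nat.lt_or_eq_of_le hc with h | h
        · have : N = 0 := by omega
          subst this; exact ⟨fun a => a.elim0⟩
        · subst h; exact inferInstance
      exact h (Subsingleton.elim i j)
    exact ⟨N - 2, by omega⟩
  subst hn
  obtain ⟨j', hj'⟩ := Fin.exists_succAbove_eq h.symm
  exact ⟨n, rfl, j', hj'.symm⟩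

/-- two-body Fubini on configuration space -/
theorem integral_pair_el {N : ℕ} {i j : Fin N} (hij : i ≠ j) (K : Pos3 × Pos3 → ℝ)
    (F : Fin N → Pos3 → ℝ) :
    ∫ x : Config N, K (elPos i x, elPos j x) *
      ∏ k ∈ (Finset.univ.erase i).erase j, F k (elPos k x) =
      (∫ z, K z) * ∏ k ∈ (Finset.univ.erase i).erase j, ∫ y, F k y := by
  obtain ⟨n, hn, j', hj'⟩ := exists_succAbove hij
  subst hn
  have hj : j = i.succAbove j' := hj'
  subst hj
  have h := integral_cfg (N := n + 2) (fun x : Fin (n + 2) → Pos3 => K (x i, x (i.succAbove j')) *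
      ∏ k ∈ (Finset.univ.erase i).erase (i.succAbove j'), F k (x k))
  rw [pair_aux] at h
  exact h

theorem integrable_pair_el {N : ℕ} {i j : Fin N} (hij : i ≠ j) {K : Pos3 × Pos3 → ℝ}
    {F : Fin N → Pos3 → ℝ} (hK : Integrable K) (hF : ∀ k, Integrable (F k)) :
    Integrable (fun x : Config N => K (elPos i x, elPos j x) *
      ∏ k ∈ (Finset.univ.erase i).erase j, F k (elPos k x)) := by
  obtain ⟨n, hn, j', hj'⟩ := exists_succAbove hij
  subst hn
  have hj : j = i.succAbove j' := hj'
  subst hj
  exact integrable_cfg (g := fun x : Fin (n + 2) → Pos3 => K (x i, x (i.succAbove j')) *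
      ∏ k ∈ (Finset.univ.erase i).erase (i.succAbove j'), F k (x k)) (pair_aux_int i j' hK hF)

end Crest.Agent.R338.TB
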