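import Crest.Agent.R338.TB1
import Crest.Agent.R338.HO3

/-!
# Row 338, module TB2 (helper789): one-body matrix elements of tensor waves
-/

set_option autoImplicit false

open MeasureTheory
open scoped ComplexConjugate

noncomputable section

namespace Crest.Agent.R338.TB

open Crest.MathPhysics.ElectronicCoulomb
open Crest.Agent.R338.TA Crest.Agent.R338.HO

variable {N n0 : ℕ}

theorem Phi_lidx (m : Fin N → Sp n0) (x : Config N) :
    Phi (lidx m) x = ∏ k, Phi (m k).1 (elPos k x) := by
  unfold Phi lidx elPos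
  rw [Fintype.prod_prod_type]

/-- real part form of `conj a * b` -/
def cre (a b : ℂ) : ℝ := (conj a * b).re

theorem norm_sq_sum {β : Type*} [Fintype β] (a : β → ℂ) (p : β → ℝ) :
    ‖∑ m, a m * (p m : ℂ)‖ ^ 2 = ∑ m, ∑ m', cre (a m) (a m') * (p m * p m') := by
  have h1 : ((‖∑ m, a m * (p m : ℂ)‖ ^ 2 : ℝ) : ℂ) =
      (conj (∑ m, a m * (p m : ℂ))) * ∑ m, a m * (p m : ℂ) := by
    rw [Complex.conj_mul']; norm_cast
  have h2 : (conj (∑ m, a m * (p m : ℂ))) * ∑ m, a m * (p m : ℂ) =
      ∑ m, ∑ m', (conj (a m) * a m') * ((p m * p m' : ℝ) : ℂ) := by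
    rw [map_sum, Finset.sum_mul_sum]
    refine Finset.sum_congr rfl fun m _ => Finset.sum_congr rfl fun m' _ => ?_
    rw [map_mul, Complex.conj_ofReal]
    push_cast; ring
  have h3 := congrArg Complex.re (h1.trans h2)
  rw [Complex.ofReal_re] at h3
  rw [h3, Complex.re_sum]
  refine Finset.sum_congr rfl fun m _ => ?_
  rw [Complex.re_sum]
  refine Finset.sum_congr rfl fun m' _ => ?_
  rw [Complex.re_mul_ofReal]
  rfl

theorem norm_sq_wav (C : Ten N n0) (s : Spin N) (x : Config N) :
    ‖wav C s x‖ ^ 2 = ∑ m : Fin N → Sp n0, ∑ m' : Fin N → Sp n0,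
      cre (C fun i => (s i, m i)) (C fun i => (s i, m' i)) *
        (Phi (lidx m) x * Phi (lidx m') x) := by
  rw [wav_eq]
  exact norm_sq_sum (fun m : Fin N → Sp n0 => C fun i => (s i, m i)) (fun m => Phi (lidx m) x)

theorem Phi_mul_Phi (m m' : Fin N → Sp n0) (x : Config N) :
    Phi (lidx m) x * Phi (lidx m') x =
      ∏ k, (Phi (m k).1 (elPos k x) * Phi (m' k).1 (elPos k x)) := by
  rw [Phi_lidx, Phi_lidx, Finset.prod_mul_distrib]

theorem integrable_PP (a b : Fin 3 → ℕ) : Integrable (fun y : Pos3 => Phi a y * Phi b y) := by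
  have h := (memLp_Phi (ι := Fin 3) a 2).integrable_mul (memLp_Phi (ι := Fin 3) b 2)
  have h2 := h.re
  refine h2.congr (Filter.Eventually.of_forall fun x => ?_)
  simp only [Pi.mul_apply]
  rw [← Complex.ofReal_mul]
  rfl

theorem integral_PP (a b : Sp n0) : ∫ y : Pos3, Phi a.1 y * Phi b.1 y = if a = b then 1 else 0 := by
  rw [integral_Phi_mul_Phi]
  by_cases h : a = b
  · rw [if_pos h, if_pos (congrArg Subtype.val h)]
  · rw [if_neg h, if_neg (fun h' => h (Subtype.ext h'))]

/-- admissible one-body functions -/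
def OK1 (n0 : ℕ) (g : Pos3 → ℝ) : Prop :=
  ∀ a b : Sp n0, Integrable (fun y => g y * (Phi a.1 y * Phi b.1 y))

/-- one-body integrals of `g` -/
def gI (g : Pos3 → ℝ) (a b : Sp n0) : ℝ := ∫ y : Pos3, g y * (Phi a.1 y * Phi b.1 y)

/-- the factors of the one-body integrand -/
def F1k (g : Pos3 → ℝ) (i : Fin N) (m m' : Fin N → Sp n0) (k : Fin N) (y : Pos3) : ℝ :=
  (if k = i then g y else 1) * (Phi (m k).1 y * Phi (m' k).1 y)

theorem one_form (g : Pos3 → ℝ) (i : Fin N) (m m' : Fin N → Sp n0) :
    (fun x : Config N => g (elPos i x) * (Phi (lidx m) x * Phi (lidx m') x)) =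
      fun x => ∏ k, F1k g i m m' k (elPos k x) := by
  funext x
  unfold F1k
  rw [Finset.prod_mul_distrib, ← Phi_mul_Phi]
  congr 1
  have : ∀ k : Fin N, (if k = i then g (elPos k x) else 1) = if k = i then g (elPos i x) else 1 := by
    intro k
    by_cases hk : k = i
    · rw [if_pos hk, if_pos hk, hk]
    · rw [if_neg hk, if_neg hk]
  simp only [this]
  rw [Finset.prod_ite_eq' Finset.univ i (fun _ => g (elPos i x)), if_pos (Finset.mem_univ i)]

theorem one_int {g : Pos3 → ℝ} (hg : OK1 n0 g) (i : Fin N) (m m' : Fin N → Sp n0) :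
    Integrable (fun x : Config N => g (elPos i x) * (Phi (lidx m) x * Phi (lidx m') x)) := by
  rw [one_form]
  refine integrable_prod_el fun k => ?_
  unfold F1k
  by_cases hk : k = i
  · simp only [if_pos hk]; exact hg _ _
  · simp only [if_neg hk, one_mul]; exact integrable_PP _ _

theorem prod_delta (S : Finset (Fin N)) (m m' : Fin N → Sp n0) :
    ∏ k ∈ S, (if m k = m' k then (1 : ℝ) else 0) = if (∀ k ∈ S, m k = m' k) then 1 else 0 := by
  split_ifs with h
  · exact Finset.prod_eq_one fun k hk => if_pos (h k hk)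
  · push Not at h
    obtain ⟨k, hk, hne⟩ := h
    exact Finset.prod_eq_zero hk (if_neg hne)

theorem one_integral (g : Pos3 → ℝ) (i : Fin N) (m m' : Fin N → Sp n0) :
    ∫ x : Config N, g (elPos i x) * (Phi (lidx m) x * Phi (lidx m') x) =
      gI g (m i) (m' i) * (if ∀ k ∈ Finset.univ.erase i, m k = m' k then 1 else 0) := by
  rw [one_form, integral_prod_el, ← Finset.mul_prod_erase Finset.univ _ (Finset.mem_univ i)]
  congr 1
  · unfold F1k gI; simp only [if_true]
  · rw [← prod_delta]
    refine Finset.prod_congr rfl fun k hk => ?_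
    unfold F1k
    simp only [if_neg (Finset.ne_of_mem_erase hk), one_mul]
    exact integral_PP _ _

theorem sum_delta1 (i : Fin N) (m : Fin N → Sp n0) (f : (Fin N → Sp n0) → ℝ) :
    ∑ m' : Fin N → Sp n0, f m' * (if ∀ k ∈ Finset.univ.erase i, m k = m' k then 1 else 0) =
      ∑ b : Sp n0, f (Function.update m i b) := by
  simp only [mul_ite, mul_one, mul_zero]
  rw [← Finset.sum_filter]
  refine (Finset.sum_nbij' (fun b => Function.update m i b) (fun m' => m' i) ?_ ?_ ?_ ?_ ?_).symm
  · intro b _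
    refine Finset.mem_filter.2 ⟨Finset.mem_univ _, fun k hk => ?_⟩
    rw [Function.update_of_ne (Finset.ne_of_mem_erase hk)]
  · intro m' _; exact Finset.mem_univ _
  · intro b _; simp
  · intro m' hm'
    have h := (Finset.mem_filter.1 hm').2
    funext k
    by_cases hk : k = i
    · subst hk; simp
    · rw [Function.update_of_ne hk]
      exact h k (Finset.mem_erase.2 ⟨hk, Finset.mem_univ k⟩)
  · intro b _; rfl

theorem update_pair (s : Spin N) (m : Fin N → Sp n0) (i : Fin N) (b : Sp n0) :
    Function.update (fun k => ((s k, m k) : Orb n0)) i (s i, b) =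
      fun k => (s k, Function.update m i b k) := by
  funext k
  by_cases hk : k = i
  · subst hk; simp
  · simp [hk]

/-- one-body matrix element for one spin and one electron -/
theorem one_wav {g : Pos3 → ℝ} (hg : OK1 n0 g) (C : Ten N n0) (s : Spin N) (i : Fin N) :
    Integrable (fun x : Config N => g (elPos i x) * ‖wav C s x‖ ^ 2) ∧
    ∫ x : Config N, g (elPos i x) * ‖wav C s x‖ ^ 2 =
      ∑ m : Fin N → Sp n0, ∑ b : Sp n0,
        cre (C fun k => (s k, m k)) (C fun k => (s k, Function.update m i b k)) * gI g (m i) b := by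
  have e : (fun x : Config N => g (elPos i x) * ‖wav C s x‖ ^ 2) = fun x =>
      ∑ m : Fin N → Sp n0, ∑ m' : Fin N → Sp n0,
      cre (C fun i => (s i, m i)) (C fun i => (s i, m' i)) *
        (g (elPos i x) * (Phi (lidx m) x * Phi (lidx m') x)) := by
    funext x
    rw [norm_sq_wav, Finset.mul_sum]
    refine Finset.sum_congr rfl fun m _ => ?_
    rw [Finset.mul_sum]
    refine Finset.sum_congr rfl fun m' _ => by ring
  have hi : ∀ m m' : Fin N → Sp n0, Integrable (fun x : Config N =>
      cre (C fun i => (s i, m i)) (C fun i => (s i, m' i)) *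
        (g (elPos i x) * (Phi (lidx m) x * Phi (lidx m') x))) := fun m m' =>
    (one_int hg i m m').const_mul _
  refine ⟨by rw [e]; exact integrable_finsetSum _ fun m _ => integrable_finsetSum _ fun m' _ => hi m m', ?_⟩
  rw [e, integral_finsetSum _ fun m _ => integrable_finsetSum _ fun m' _ => hi m m']
  refine Finset.sum_congr rfl fun m _ => ?_
  rw [integral_finsetSum _ fun m' _ => hi m m']
  have e2 : ∀ m' : Fin N → Sp n0, ∫ x : Config N,
      cre (C fun i => (s i, m i)) (C fun i => (s i, m' i)) *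
        (g (elPos i x) * (Phi (lidx m) x * Phi (lidx m') x)) =
      cre (C fun i => (s i, m i)) (C fun i => (s i, m' i)) * gI g (m i) (m' i) *
        (if ∀ k ∈ Finset.univ.erase i, m k = m' k then 1 else 0) := by
    intro m'
    rw [integral_const_mul, one_integral, ← mul_assoc]
  simp only [e2]
  rw [sum_delta1 i m (fun m' => cre (C fun i => (s i, m i)) (C fun i => (s i, m' i)) *
    gI g (m i) (m' i))]
  refine Finset.sum_congr rfl fun b _ => ?_
  rw [Function.update_self]

/-- **one-body matrix elements of tensor waves** -/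
theorem one_body {g : Pos3 → ℝ} (hg : OK1 n0 g) (C : Ten N n0) :
    (∀ s, Integrable (fun x : Config N => (∑ i, g (elPos i x)) * ‖wav C s x‖ ^ 2)) ∧
    ∑ s, ∫ x : Config N, (∑ i, g (elPos i x)) * ‖wav C s x‖ ^ 2 =
      oneF (fun a b => gI g a b) C := by
  have h := fun s i => one_wav hg C s i
  have hs : ∀ s, (fun x : Config N => (∑ i, g (elPos i x)) * ‖wav C s x‖ ^ 2) =
      fun x => ∑ i, g (elPos i x) * ‖wav C s x‖ ^ 2 := by
    intro s; funext x; rw [Finset.sum_mul]
  refine ⟨fun s => by rw [hs]; exact integrable_finsetSum _ fun i _ => (h s i).1, ?_⟩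
  have e1 : ∀ s, ∫ x : Config N, (∑ i, g (elPos i x)) * ‖wav C s x‖ ^ 2 =
      ∑ i, ∑ m : Fin N → Sp n0, ∑ b : Sp n0,
        cre (C fun k => (s k, m k)) (C fun k => (s k, Function.update m i b k)) * gI g (m i) b := by
    intro s
    rw [hs, integral_finsetSum _ fun i _ => (h s i).1]
    exact Finset.sum_congr rfl fun i _ => (h s i).2
  simp only [e1]
  rw [Finset.sum_comm]
  unfold oneF
  refine Finset.sum_congr rfl fun i _ => ?_
  rw [sum_tensor]
  refine Finset.sum_congr rfl fun s _ => Finset.sum_congr rfl fun m _ =>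
    Finset.sum_congr rfl fun b _ => ?_
  simp only
  rw [update_pair]
  rfl

end Crest.Agent.R338.TB
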