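import Crest.Agent.R338.HO2

/-!
# Row 338, module TL1 (helper490): Hermite tails

If the Hermite coefficients of a Schwartz function `f` vanish for `α j > n`, then
`∫ |x_j|^{2k} |f|² ≤ (2 (n + k))^k ∫ |f|²` and
`∫_{|x_j| ≥ ρ} |f|² ≤ (2 (n + k))^k / ρ^{2k} ∫ |f|²`.
-/

set_option autoImplicit false

open MeasureTheory Real SchwartzMap Filter Topology
open scoped Nat ContDiff FourierTransform ComplexConjugate LineDeriv

noncomputable section

namespace Crest.Agent.R338.TL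

open Crest.Agent.R335.HF Crest.Agent.R338.HO

variable {ι : Type*} [Fintype ι]

theorem htg_coordC (j : ι) : Function.HasTemperateGrowth (fun x : E ι => ((x j : ℝ) : ℂ)) :=
  Function.Complex.hasTemperateGrowth_ofReal.comp (htg_coord j)

/-- multiplication by a coordinate on Schwartz functions -/
def mulX (j : ι) (f : 𝓢(E ι, ℂ)) : 𝓢(E ι, ℂ) :=
  SchwartzMap.smulLeftCLM ℂ (fun x : E ι => ((x j : ℝ) : ℂ)) f

@[simp] theorem mulX_apply (j : ι) (f : 𝓢(E ι, ℂ)) (x : E ι) : mulX j f x = (x j : ℂ) * f x := by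
  unfold mulX
  rw [SchwartzMap.smulLeftCLM_apply_apply (htg_coordC j)]
  simp

variable [DecidableEq ι]

theorem isH1_schwartz (f : 𝓢(E ι, ℂ)) : IsH1 (f : E ι → ℂ) (cgrad f) := by
  refine isH1_of_contDiff (f.smooth 1) (f.memLp 2 _) (memLp_of_comp fun i => ?_)
  have : (fun x => cgrad (f : E ι → ℂ) x i) =
      (∂_{EuclideanSpace.single i (1 : ℝ)} f : 𝓢(E ι, ℂ)) := by
    ext x
    rw [cgrad_apply, SchwartzMap.lineDerivOp_apply_eq_fderiv]
  rw [this]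
  exact SchwartzMap.memLp _ 2 _

theorem isOsc_schwartz (f : 𝓢(E ι, ℂ)) : IsOsc (f : E ι → ℂ) (cgrad f) := by
  refine ⟨isH1_schwartz f, fun j => ?_⟩
  have : (fun x => (x j : ℂ) * f x) = (mulX j f : E ι → ℂ) := by ext x; simp
  rw [this]
  exact SchwartzMap.memLp _ 2 _

/-- one step -/
theorem step {j : ι} {n : ℕ} {f : 𝓢(E ι, ℂ)} (hf : ∀ α : ι → ℕ, n < α j → cf f α = 0) :
    (∫ x, ‖mulX j f x‖ ^ 2) ≤ (2 * (n : ℝ) + 1) * ∫ x, ‖f x‖ ^ 2 := by
  have h := isOsc_schwartz f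
  have h1 := hasSum_osc_coord h.h1 j (h.hx j)
  have h2 := (hasSum_parseval (f.memLp 2 (volume : Measure (E ι)))).mul_left (2 * (n : ℝ) + 1)
  have h3 := hasSum_le (fun α : ι → ℕ => ?_) h1 h2
  · refine le_trans ?_ h3
    have e : ∫ x, ‖mulX j f x‖ ^ 2 = ∫ x, ‖(x j : ℂ) * f x‖ ^ 2 := by simp
    rw [e]
    exact le_add_of_nonneg_right (integral_nonneg fun x => by positivity)
  · by_cases hα : n < α j
    · rw [hf α hα]; simp
    · have : (α j : ℝ) ≤ n := by exact_mod_cast not_lt.1 hα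
      exact mul_le_mul_of_nonneg_right (by linarith) (by positivity)

theorem step_coef {j : ι} {n : ℕ} {f : 𝓢(E ι, ℂ)} (hf : ∀ α : ι → ℕ, n < α j → cf f α = 0) :
    ∀ α : ι → ℕ, n + 1 < α j → cf (mulX j f) α = 0 := by
  intro α hα
  have e : (mulX j f : E ι → ℂ) = fun x => (x j : ℂ) * f x := by ext x; simp
  rw [e, cf_coord (f.memLp 2 (volume : Measure (E ι))) j α, hf, hf]
  · simp
  · simp; omega
  · simp; omega

/-- iterated multiplication -/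
def mulXk (j : ι) : ℕ → 𝓢(E ι, ℂ) → 𝓢(E ι, ℂ)
  | 0, f => f
  | k + 1, f => mulX j (mulXk j k f)

omit [DecidableEq ι] in
@[simp] theorem mulXk_apply (j : ι) (k : ℕ) (f : 𝓢(E ι, ℂ)) (x : E ι) :
    mulXk j k f x = (x j : ℂ) ^ k * f x := by
  induction k with
  | zero => simp [mulXk]
  | succ k ih => simp only [mulXk, mulX_apply, ih, pow_succ]; ring

theorem mulXk_coef {j : ι} {n : ℕ} {f : 𝓢(E ι, ℂ)} (hf : ∀ α : ι → ℕ, n < α j → cf f α = 0)
    (k : ℕ) : ∀ α : ι → ℕ, n + k < α j → cf (mulXk j k f) α = 0 := by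
  induction k with
  | zero => simpa [mulXk] using hf
  | succ k ih =>
    intro α hα
    exact step_coef ih α (by omega)

theorem moment {j : ι} {n : ℕ} {f : 𝓢(E ι, ℂ)} (hf : ∀ α : ι → ℕ, n < α j → cf f α = 0)
    (k : ℕ) : ∀ l, l ≤ k →
      (∫ x, ‖mulXk j l f x‖ ^ 2) ≤ (2 * ((n : ℝ) + k)) ^ l * ∫ x, ‖f x‖ ^ 2 := by
  intro l
  induction l with
  | zero => intro _; simp [mulXk]
  | succ l ih =>
    intro hl
    have h1 := step (mulXk_coef hf l)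
    have h2 := ih (by omega)
    have h3 : 0 ≤ ∫ x, ‖mulXk j l f x‖ ^ 2 := integral_nonneg fun x => by positivity
    have h4 : ((n + l : ℕ) : ℝ) + 1 ≤ (n : ℝ) + k := by
      have : n + l + 1 ≤ n + k := by omega
      exact_mod_cast this
    have h5 : 0 ≤ (((n + l : ℕ)) : ℝ) := by positivity
    calc (∫ x, ‖mulXk j (l + 1) f x‖ ^ 2)
        ≤ (2 * (((n + l : ℕ)) : ℝ) + 1) * ∫ x, ‖mulXk j l f x‖ ^ 2 := h1
      _ ≤ (2 * ((n : ℝ) + k)) * ((2 * ((n : ℝ) + k)) ^ l * ∫ x, ‖f x‖ ^ 2) := by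
          gcongr
          linarith
      _ = _ := by rw [pow_succ]; ring

theorem moment' {j : ι} {n : ℕ} {f : 𝓢(E ι, ℂ)} (hf : ∀ α : ι → ℕ, n < α j → cf f α = 0)
    (k : ℕ) : (∫ x, (x j) ^ (2 * k) * ‖f x‖ ^ 2) ≤ (2 * ((n : ℝ) + k)) ^ k * ∫ x, ‖f x‖ ^ 2 := by
  refine le_trans (le_of_eq ?_) (moment hf k k le_rfl)
  refine integral_congr_ae (Eventually.of_forall fun x => ?_)
  simp only [mulXk_apply]
  rw [norm_mul, norm_pow, Complex.norm_real, mul_pow, ← pow_mul, mul_comm k 2, Real.norm_eq_abs,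
    pow_mul |x.ofLp j|, sq_abs, ← pow_mul]

omit [DecidableEq ι] in
theorem norm_mulXk_sq (j : ι) (k : ℕ) (f : 𝓢(E ι, ℂ)) (x : E ι) :
    ‖mulXk j k f x‖ ^ 2 = (x j) ^ (2 * k) * ‖f x‖ ^ 2 := by
  simp only [mulXk_apply]
  rw [norm_mul, norm_pow, Complex.norm_real, mul_pow, ← pow_mul, mul_comm k 2, Real.norm_eq_abs,
    pow_mul |x.ofLp j|, sq_abs, ← pow_mul]

omit [DecidableEq ι] in
theorem integrable_sq (f : 𝓢(E ι, ℂ)) : Integrable (fun x => ‖f x‖ ^ 2) := by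
  have h := (f.memLp 2 (volume : Measure (E ι))).integrable_norm_pow (by norm_num)
  simpa using h

omit [DecidableEq ι] in
theorem integrable_moment (j : ι) (k : ℕ) (f : 𝓢(E ι, ℂ)) :
    Integrable (fun x => (x j) ^ (2 * k) * ‖f x‖ ^ 2) :=
  (integrable_sq (mulXk j k f)).congr (Eventually.of_forall fun x => norm_mulXk_sq j k f x)

/-- **tail bound** -/
theorem tail {j : ι} {n : ℕ} {f : 𝓢(E ι, ℂ)} (hf : ∀ α : ι → ℕ, n < α j → cf f α = 0)
    (k : ℕ) {ρ : ℝ} (hρ : 0 < ρ) :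
    (∫ x, (if ρ ≤ |x j| then ‖f x‖ ^ 2 else 0)) ≤
      (2 * ((n : ℝ) + k)) ^ k / ρ ^ (2 * k) * ∫ x, ‖f x‖ ^ 2 := by
  have h1 := moment' hf k
  have h2 : ∀ x : E ι, (if ρ ≤ |x j| then ‖f x‖ ^ 2 else 0) ≤
      (ρ ^ (2 * k))⁻¹ * ((x j) ^ (2 * k) * ‖f x‖ ^ 2) := by
    intro x
    split_ifs with h
    · have h3 : ρ ^ (2 * k) ≤ (x j) ^ (2 * k) := by
        rw [← Even.pow_abs (even_two_mul k) (x j)]
        exact pow_le_pow_left₀ hρ.le h _
      rw [← mul_assoc]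
      have h4 : 0 < ρ ^ (2 * k) := by positivity
      have h5 : 1 ≤ (ρ ^ (2 * k))⁻¹ * (x j) ^ (2 * k) := by
        rw [inv_mul_eq_div, one_le_div h4]; exact h3
      nlinarith [sq_nonneg ‖f x‖]
    · have : 0 ≤ (x j) ^ (2 * k) := by rw [pow_mul]; positivity
      positivity
  calc (∫ x, (if ρ ≤ |x j| then ‖f x‖ ^ 2 else 0))
      ≤ ∫ x, (ρ ^ (2 * k))⁻¹ * ((x j) ^ (2 * k) * ‖f x‖ ^ 2) := by
        refine integral_mono_of_nonneg (Eventually.of_forall fun x => ?_)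
          ((integrable_moment j k f).const_mul _) (Eventually.of_forall h2)
        simp only [Pi.zero_apply]
        split_ifs <;> positivity
    _ = (ρ ^ (2 * k))⁻¹ * ∫ x, ((x j) ^ (2 * k) * ‖f x‖ ^ 2) := integral_const_mul _ _
    _ ≤ (ρ ^ (2 * k))⁻¹ * ((2 * ((n : ℝ) + k)) ^ k * ∫ x, ‖f x‖ ^ 2) := by gcongr
    _ = _ := by ring

end Crest.Agent.R338.TL
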