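import Crest.Agent.R338.TL1
import Crest.Agent.R338.HO3
import Crest.Agent.R338.Fm2a

/-!
# Row 338, module TL2 (helper490): the trial wave `wav C`: Fermi symmetry, Coulomb integrability,
tails.
-/

set_option autoImplicit false

open MeasureTheory Real SchwartzMap Filter Topology
open scoped Nat ContDiff ComplexConjugate

noncomputable section

namespace Crest.Agent.R338.TL

open Crest.MathPhysics.ElectronicCoulomb
open Crest.Agent.R335.HF Crest.Agent.R338.HO Crest.Agent.R338.TA Crest.Agent.R338.Fm

variable {N n0 : ℕ}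

/-! ### Fermi symmetry -/

theorem lidx_comp (σ : Equiv.Perm (Fin N)) (m : Fin N → Sp n0) :
    lidx (fun i => m (σ i)) = fun ic : Fin N × Fin 3 => lidx m (σ ic.1, ic.2) := rfl

theorem wav_perm {C : Ten N n0} (hA : Anti C) (σ : Equiv.Perm (Fin N)) (s : Spin N)
    (x : Config N) :
    wav C (fun i => s (σ i)) (permConfig σ x) = ((Equiv.Perm.sign σ : ℤ) : ℂ) * wav C s x := by
  rw [wav_eq, wav_eq, Finset.mul_sum]
  symm
  refine Fintype.sum_equiv (Equiv.arrowCongr σ.symm (Equiv.refl (Sp n0))) _ _ (fun m => ?_)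
  have e1 : (Equiv.arrowCongr σ.symm (Equiv.refl (Sp n0))) m = fun i => m (σ i) := by
    funext i; simp [Equiv.arrowCongr]
  rw [e1, lidx_comp, Phi_perm σ (lidx m) x]
  have h := hA σ (fun i => (s i, m i))
  rw [h]
  ring

theorem isFermionic_wav {C : Ten N n0} (hA : Anti C) : IsFermionic (wav C) :=
  ⟨memLp_wav C, fun σ s x => wav_perm hA σ s x⟩

/-! ### Coulomb integrability -/

/-- position of electron `i` as a continuous linear map -/
def posL (i : Fin N) : Config N →L[ℝ] Pos3 := prk (fun c => (i, c))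

theorem posL_apply (i : Fin N) (x : Config N) : posL i x = elPos i x := by
  ext c; simp [posL, elPos]

theorem posL_single (i : Fin N) (c : Fin 3) :
    posL i (EuclideanSpace.single (i, c) (1 : ℝ)) = EuclideanSpace.single c (1 : ℝ) := by
  ext d
  simp [posL, prk_apply]

theorem posL_single_ne {i j : Fin N} (h : i ≠ j) (c : Fin 3) :
    posL j (EuclideanSpace.single (i, c) (1 : ℝ)) = 0 := by
  ext d
  simp [posL, prk_apply, h.symm]

theorem integrable_en {f : Config N → ℂ} {g : Config N → Gr (Fin N × Fin 3) ℂ} (h : IsH1 f g)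
    (i : Fin N) (a : Pos3) : Integrable (fun x => ‖f x‖ ^ 2 / ‖elPos i x - a‖) := by
  have := (coulomb_le h (posL i) (fun c => (i, c)) (posL_single i) a one_pos).1
  simpa only [posL_apply] using this

theorem integrable_ee {f : Config N → ℂ} {g : Config N → Gr (Fin N × Fin 3) ℂ} (h : IsH1 f g)
    {i j : Fin N} (hij : i ≠ j) : Integrable (fun x => ‖f x‖ ^ 2 / ‖elPos i x - elPos j x‖) := by
  have := (coulomb_le h (posL i - posL j) (fun c => (i, c)) (fun c => by
    rw [sub_apply, posL_single, posL_single_ne hij, sub_zero]) 0 one_pos).1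
  simpa only [sub_apply, posL_apply, sub_zero] using this

/-- one-particle Coulomb integrability -/
theorem integrable_c3 {f : Pos3 → ℂ} {g : Pos3 → Gr (Fin 3) ℂ} (h : IsH1 f g) (a : Pos3) :
    Integrable (fun x => ‖f x‖ ^ 2 / ‖x - a‖) := by
  have := (coulomb_le h (ContinuousLinearMap.id ℝ Pos3) id (fun c => rfl) a one_pos).1
  simpa using this

theorem integrable_Phi_div (a b : Fin 3 → ℕ) (c : Pos3) :
    Integrable (fun x : Pos3 => (1 / ‖x - c‖) * (Phi a x * Phi b x)) := by
  have ha := integrable_c3 (TL.isH1_schwartz (PhiS a)) c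
  have hb := integrable_c3 (TL.isH1_schwartz (PhiS b)) c
  refine (ha.add hb).mono' ?_ (Eventually.of_forall fun x => ?_)
  · refine AEStronglyMeasurable.mul ?_ ?_
    · exact (((continuous_id.sub continuous_const).norm).measurable.const_div 1).aestronglyMeasurable
    · exact ((continuous_Phi a).mul (continuous_Phi b)).aestronglyMeasurable
  · simp only [PhiS_apply, Complex.norm_real, Pi.add_apply, Real.norm_eq_abs, sq_abs]
    rw [abs_mul, abs_of_nonneg (show (0:ℝ) ≤ 1 / ‖x - c‖ by positivity), ← add_div, one_div,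
      inv_mul_eq_div]
    refine div_le_div_of_nonneg_right ?_ (norm_nonneg _)
    rw [abs_le]
    constructor <;> nlinarith [sq_nonneg (Phi a x + Phi b x), sq_nonneg (Phi a x - Phi b x),
      sq_nonneg (Phi a x), sq_nonneg (Phi b x)]

/-! ### weighted integrals of the trial wave -/

/-- `J C G = ∑_s ∫ G |wav C s|²` -/
def J (C : Ten N n0) (G : Config N → ℝ) : ℝ := ∑ s : Spin N, ∫ x, G x * ‖wav C s x‖ ^ 2

/-- integrability -/
def JI (C : Ten N n0) (G : Config N → ℝ) : Prop :=
  ∀ s : Spin N, Integrable (fun x => G x * ‖wav C s x‖ ^ 2)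

theorem JI.add {C : Ten N n0} {G G' : Config N → ℝ} (h : JI C G) (h' : JI C G') :
    JI C (fun x => G x + G' x) := fun s =>
  ((h s).add (h' s)).congr (Eventually.of_forall fun _ => (add_mul _ _ _).symm)

theorem JI.sub {C : Ten N n0} {G G' : Config N → ℝ} (h : JI C G) (h' : JI C G') :
    JI C (fun x => G x - G' x) := fun s =>
  ((h s).sub (h' s)).congr (Eventually.of_forall fun _ => (sub_mul _ _ _).symm)

theorem JI.const_mul {C : Ten N n0} {G : Config N → ℝ} (h : JI C G) (c : ℝ) :
    JI C (fun x => c * G x) := fun s => by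
  simpa only [mul_assoc] using (h s).const_mul c

theorem JI.sum {β : Type*} {C : Ten N n0} (t : Finset β) {G : β → Config N → ℝ}
    (h : ∀ b ∈ t, JI C (G b)) : JI C (fun x => ∑ b ∈ t, G b x) := fun s => by
  simp only [Finset.sum_mul]
  exact integrable_finsetSum _ fun b hb => h b hb s

theorem J_add {C : Ten N n0} {G G' : Config N → ℝ} (h : JI C G) (h' : JI C G') :
    J C (fun x => G x + G' x) = J C G + J C G' := by
  unfold J
  rw [← Finset.sum_add_distrib]
  refine Finset.sum_congr rfl fun s _ => ?_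
  rw [← integral_add (h s) (h' s)]
  simp only [add_mul]

theorem J_sub {C : Ten N n0} {G G' : Config N → ℝ} (h : JI C G) (h' : JI C G') :
    J C (fun x => G x - G' x) = J C G - J C G' := by
  unfold J
  rw [← Finset.sum_sub_distrib]
  refine Finset.sum_congr rfl fun s _ => ?_
  rw [← integral_sub (h s) (h' s)]
  simp only [sub_mul]

theorem J_const_mul (C : Ten N n0) (G : Config N → ℝ) (c : ℝ) :
    J C (fun x => c * G x) = c * J C G := by
  unfold J
  rw [Finset.mul_sum]
  refine Finset.sum_congr rfl fun s _ => ?_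
  rw [← integral_const_mul]
  simp only [mul_assoc]

theorem J_sum {β : Type*} {C : Ten N n0} (t : Finset β) {G : β → Config N → ℝ}
    (h : ∀ b ∈ t, JI C (G b)) : J C (fun x => ∑ b ∈ t, G b x) = ∑ b ∈ t, J C (G b) := by
  unfold J
  rw [Finset.sum_comm]
  refine Finset.sum_congr rfl fun s _ => ?_
  rw [← integral_finsetSum _ fun b hb => h b hb s]
  simp only [Finset.sum_mul]

theorem J_mono {C : Ten N n0} {G G' : Config N → ℝ} (h : JI C G) (h' : JI C G')
    (hle : ∀ x, G x ≤ G' x) : J C G ≤ J C G' := by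
  unfold J
  refine Finset.sum_le_sum fun s _ => integral_mono (h s) (h' s) fun x => ?_
  exact mul_le_mul_of_nonneg_right (hle x) (by positivity)

theorem J_one (C : Ten N n0) : J C (fun _ => 1) = tsq C := by
  rw [← nsq_wav]
  unfold J nsq
  simp

theorem integrable_wav_sq (C : Ten N n0) (s : Spin N) : Integrable (fun x => ‖wav C s x‖ ^ 2) := by
  have h := integrable_sq (wavS C s)
  rwa [wavS_coe] at h

theorem JI_bdd (C : Ten N n0) {G : Config N → ℝ} (hG : AEStronglyMeasurable G volume) {B : ℝ}
    (hB : ∀ x, |G x| ≤ B) : JI C G := fun s =>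
  (integrable_wav_sq C s).bdd_mul hG (Eventually.of_forall fun x => hB x)

theorem JI_const (C : Ten N n0) (c : ℝ) : JI C (fun _ => c) :=
  JI_bdd C aestronglyMeasurable_const (fun _ => le_rfl)

theorem continuous_elPos (i : Fin N) : Continuous (elPos i : Config N → Pos3) := by
  have : (elPos i : Config N → Pos3) = posL i := by funext x; rw [posL_apply]
  rw [this]; exact (posL i).continuous

/-! ### tails of the trial wave -/

theorem wav_coef (C : Ten N n0) (s : Spin N) (ic : Fin N × Fin 3) :
    ∀ α : Fin N × Fin 3 → ℕ, n0 < α ic → cf (wavS C s) α = 0 := by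
  intro α hα
  rw [wavS_coe, cf_wav, ext_not_low]
  intro hl
  have h := hl ic.1
  unfold deg3 at h
  simp only at h
  have h2 : α (ic.1, ic.2) ≤ α (ic.1, 0) + α (ic.1, 1) + α (ic.1, 2) := by
    generalize ic.2 = c
    fin_cases c <;> simp <;> omega
  have h3 : α ic = α (ic.1, ic.2) := rfl
  omega

theorem J_tail (C : Ten N n0) (ic : Fin N × Fin 3) (k : ℕ) {ρ : ℝ} (hρ : 0 < ρ) :
    J C (fun x => if ρ ≤ |x ic| then 1 else 0) ≤
      (2 * ((n0 : ℝ) + k)) ^ k / ρ ^ (2 * k) * tsq C := by
  rw [← nsq_wav]
  unfold J nsq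
  rw [Finset.mul_sum]
  refine Finset.sum_le_sum fun s _ => ?_
  have h := tail (wav_coef C s ic) k hρ
  rw [wavS_coe] at h
  refine le_trans (le_of_eq ?_) h
  refine integral_congr_ae (Eventually.of_forall fun x => ?_)
  simp only [ite_mul, one_mul, zero_mul]

theorem JI_tail (C : Ten N n0) (ic : Fin N × Fin 3) (ρ : ℝ) :
    JI C (fun x => if ρ ≤ |x ic| then (1 : ℝ) else 0) := by
  refine JI_bdd C (B := 1) ?_ fun x => ?_
  · refine (Measurable.ite ?_ measurable_const measurable_const).aestronglyMeasurable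
    refine measurableSet_le measurable_const ?_
    have : Continuous (fun x : Config N => |x ic|) := by fun_prop
    exact this.measurable
  · simp only
    split_ifs <;> simp

end Crest.Agent.R338.TL
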