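import Crest.Agent.R338.TL2
import Crest.Agent.R338.TA3
import Crest.Agent.R338.Fm2b

/-!
# Row 338, module TL3 (helper490): `TheoremAUpper` modulo the matrix elements of `wav C`
-/

set_option autoImplicit false

open MeasureTheory Real SchwartzMap Filter Topology
open scoped Nat ContDiff ComplexConjugate

noncomputable section

namespace Crest.Agent.R338.TL

open Crest.MathPhysics.ElectronicCoulomb
open Crest.Agent.R335.HF Crest.Agent.R338.HO Crest.Agent.R338.TA Crest.Agent.R338.Fm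

variable {N n0 : ℕ}

/-- one-body matrix elements -/
def OneB (C : Ten N n0) : Prop :=
  ∀ g : Pos3 → ℝ, AEStronglyMeasurable g volume →
    (∀ a b : Sp n0, Integrable (fun x => g x * (Phi a.1 x * Phi b.1 x))) →
    JI C (fun x => ∑ i, g (elPos i x)) ∧
    J C (fun x => ∑ i, g (elPos i x)) = oneF (fun a b => ∫ x, g x * (Phi a.1 x * Phi b.1 x)) C

/-- the electronic repulsion -/
def rep (x : Config N) : ℝ :=
  ∑ i : Fin N, ∑ j : Fin N, if i < j then 1 / ‖elPos i x - elPos j x‖ else 0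

/-- two-body matrix elements -/
def TwoB (C : Ten N n0) : Prop :=
  J C rep = twoF (fun a b c d => W4 a.1 b.1 c.1 d.1) C

/-! ### integrability -/

theorem JI_congr {C : Ten N n0} {G G' : Config N → ℝ} (h : JI C G) (e : ∀ x, G x = G' x) :
    JI C G' := by
  have : G' = G := funext fun x => (e x).symm
  rw [this]; exact h

theorem JI_normsq (C : Ten N n0) : JI C (fun x => ‖x‖ ^ 2) := by
  have h : JI C (fun x => ∑ ic : Fin N × Fin 3, (x ic) ^ 2) := by
    refine JI.sum _ fun ic _ s => ?_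
    have := integrable_moment ic 1 (wavS C s)
    rw [wavS_coe] at this
    simpa using this
  refine JI_congr h fun x => ?_
  rw [EuclideanSpace.norm_sq_eq]
  simp [sq_abs]

theorem JI_nuc (C : Ten N n0) (i : Fin N) (a : Pos3) :
    JI C (fun x => 1 / ‖elPos i x - a‖) := fun s =>
  (integrable_en (waveOsc_wav C s).h1 i a).congr (Eventually.of_forall fun x => by
    simp only; ring)

theorem JI_pair (C : Ten N n0) {i j : Fin N} (hij : i ≠ j) :
    JI C (fun x => 1 / ‖elPos i x - elPos j x‖) := fun s =>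
  (integrable_ee (waveOsc_wav C s).h1 hij).congr (Eventually.of_forall fun x => by
    simp only; ring)

theorem JI_rep (C : Ten N n0) : JI C rep := by
  unfold rep
  refine JI.sum _ fun i _ => JI.sum _ fun j _ => ?_
  by_cases h : i < j
  · simp only [if_pos h]; exact JI_pair C h.ne
  · simp only [if_neg h]; exact JI_const C 0

theorem JI_Vnuc (C : Ten N n0) (lam : ℝ) {K : ℕ} (P : Fin K → Pos3) (i : Fin N) :
    JI C (fun x => Vnuc lam P (elPos i x)) := by
  unfold Vnuc
  refine JI.sum _ fun α _ => ?_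
  refine JI_congr ((JI_nuc C i (P α)).const_mul (-lam)) fun x => ?_
  ring

theorem pot_eq (lam : ℝ) {K : ℕ} (P : Fin K → Pos3) (x : Config N) :
    lam * unitNucleiPotential P x = ∑ i, Vnuc lam P (elPos i x) + lam * rep x := by
  unfold unitNucleiPotential Vnuc rep
  rw [mul_add, Finset.mul_sum]
  congr 1
  refine Finset.sum_congr rfl fun i _ => ?_
  rw [Finset.mul_sum]
  refine Finset.sum_congr rfl fun α _ => ?_
  ring

theorem JI_pot (C : Ten N n0) (lam : ℝ) {K : ℕ} (P : Fin K → Pos3) :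
    JI C (fun x => lam * unitNucleiPotential P x) :=
  JI_congr ((JI.sum Finset.univ fun i _ => JI_Vnuc C lam P i).add ((JI_rep C).const_mul lam))
    fun x => (pot_eq lam P x).symm

theorem isAdmissible_wav {C : Ten N n0} (hA : Anti C) (lam : ℝ) {K : ℕ} (P : Fin K → Pos3) :
    IsAdmissible (fun x => lam * unitNucleiPotential P x) (wav C) :=
  ⟨isFermionic_wav hA, (waveOsc_wav C).waveH1.kinetic_lt_top, JI_pot C lam P⟩

theorem measurable_Vnuc (lam : ℝ) {K : ℕ} (P : Fin K → Pos3) : Measurable (Vnuc lam P) := by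
  unfold Vnuc
  refine Finset.measurable_sum _ fun α _ => ?_
  refine Measurable.neg ?_
  exact ((continuous_id.sub continuous_const).norm).measurable.const_div lam

theorem integrable_Vnuc_Phi (lam : ℝ) {K : ℕ} (P : Fin K → Pos3) (a b : Fin 3 → ℕ) :
    Integrable (fun x : Pos3 => Vnuc lam P x * (Phi a x * Phi b x)) := by
  have h : Integrable (fun x : Pos3 => ∑ α, (-lam) * ((1 / ‖x - P α‖) * (Phi a x * Phi b x))) :=
    integrable_finsetSum _ fun α _ => (integrable_Phi_div a b (P α)).const_mul _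
  refine h.congr (Eventually.of_forall fun x => ?_)
  simp only [Vnuc, Finset.sum_mul]
  refine Finset.sum_congr rfl fun α _ => ?_
  ring

theorem integrable_PhiPhi (a b : Fin 3 → ℕ) :
    Integrable (fun x : Pos3 => Phi a x * Phi b x) := by
  have h := (memLp_Phi (ι := Fin 3) a 2).integrable_mul (memLp_Phi b 2)
  have h2 := h.re
  refine h2.congr (Eventually.of_forall fun x => ?_)
  simp

/-! ### the main estimate -/

theorem elPos_normsq (x : Config N) : ‖x‖ ^ 2 = ∑ i, ‖elPos i x‖ ^ 2 := by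
  rw [EuclideanSpace.norm_sq_eq, Fintype.sum_prod_type]
  refine Finset.sum_congr rfl fun i _ => ?_
  rw [EuclideanSpace.norm_sq_eq]
  rfl

section main

variable {lam : ℝ} {K : ℕ} {P : Fin K → Pos3} {Vs w : Pos3 → ℝ}
    {F : Pos3 → Pos3} {C0 R eps1 eps2 kF W : ℝ}

theorem Vs_le (h : NucOK lam P n0 Vs w F C0 R eps1 eps2 kF W) (y : Pos3) :
    Vs y ≤ (1 / 2) * ‖y‖ ^ 2 + ((eps2 - C0) + lam * w y) +
      (C0 + W) * ∑ c : Fin 3, (if 2 * R ≤ |y c| then (1 : ℝ) else 0) := by
  have hs0 : ∀ c : Fin 3, (0 : ℝ) ≤ (if 2 * R ≤ |y c| then (1 : ℝ) else 0) := fun c => by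
    split_ifs <;> norm_num
  have hC := h.C0_nonneg
  have hW := h.W_nonneg
  have hs := Finset.sum_nonneg fun c (_ : c ∈ Finset.univ) => hs0 c
  by_cases hy : ∀ c, |y c| ≤ 2 * R
  · have h1 := (abs_le.1 (h.N1 y hy)).2
    have h2 : 0 ≤ (C0 + W) * ∑ c : Fin 3, (if 2 * R ≤ |y c| then (1 : ℝ) else 0) :=
      mul_nonneg (add_nonneg hC hW) hs
    linarith
  · push Not at hy
    obtain ⟨c, hc⟩ := hy
    have h1 : (1 : ℝ) ≤ ∑ c : Fin 3, (if 2 * R ≤ |y c| then (1 : ℝ) else 0) := by
      have := Finset.single_le_sum (fun c _ => hs0 c) (Finset.mem_univ c)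
      rw [if_pos hc.le] at this
      exact this
    have h2 : C0 + W ≤ (C0 + W) * ∑ c : Fin 3, (if 2 * R ≤ |y c| then (1 : ℝ) else 0) :=
      le_mul_of_one_le_right (add_nonneg hC hW) h1
    have h3 : -W ≤ lam * w y := by
      have h4 := (abs_le.1 (h.w_le y)).1
      have h5 := h.lam_le
      have h6 := h.lam_pos
      nlinarith
    have h4 := h.Vs_nonpos y
    have h5 := h.eps2_nonneg
    have h6 : 0 ≤ (1 / 2) * ‖y‖ ^ 2 := by positivity
    linarith

theorem JI_Vs (C : Ten N n0) (h : NucOK lam P n0 Vs w F C0 R eps1 eps2 kF W) :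
    JI C (fun x => ∑ i, Vs (elPos i x)) := by
  obtain ⟨B, hB⟩ := h.Vs_bdd
  exact JI.sum _ fun i _ => JI_bdd C (h.Vs_cont.comp (continuous_elPos i)).aestronglyMeasurable
    fun _ => hB _

theorem JI_w (C : Ten N n0) (h : NucOK lam P n0 Vs w F C0 R eps1 eps2 kF W) :
    JI C (fun x => ∑ i, w (elPos i x)) :=
  JI.sum _ fun i _ => JI_bdd C (h.w_cont.comp (continuous_elPos i)).aestronglyMeasurable
    fun _ => h.w_le _

theorem J_Vs_le (C : Ten N n0) (h : NucOK lam P n0 Vs w F C0 R eps1 eps2 kF W) (k : ℕ) :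
    J C (fun x => ∑ i, Vs (elPos i x)) ≤
      (1 / 2) * J C (fun x => ‖x‖ ^ 2) + (N * (eps2 - C0)) * tsq C +
        lam * J C (fun x => ∑ i, w (elPos i x)) +
        (C0 + W) * (((N * 3 : ℕ) : ℝ) * ((2 * ((n0 : ℝ) + k)) ^ k / (2 * R) ^ (2 * k) * tsq C)) := by
  have hR : 0 < 2 * R := by have := h.one_le_R; linarith
  have i1 := (JI_normsq C).const_mul (1 / 2)
  have i2 := (JI_const C 1).const_mul (N * (eps2 - C0))
  have i3 := (JI_w C h).const_mul lam
  have i4 : JI C (fun x => ∑ ic : Fin N × Fin 3, if 2 * R ≤ |x ic| then (1 : ℝ) else 0) :=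
    JI.sum _ fun ic _ => JI_tail C ic (2 * R)
  have i5 := i4.const_mul (C0 + W)
  have i6 := ((i1.add i2).add i3).add i5
  have h1 := J_mono (JI_Vs C h) i6 (fun x => ?_)
  · refine h1.trans ?_
    rw [J_add ((i1.add i2).add i3) i5, J_add (i1.add i2) i3, J_add i1 i2, J_const_mul,
      J_const_mul, J_const_mul, J_const_mul, J_one,
      J_sum _ (fun ic _ => JI_tail C ic (2 * R))]
    have h2 : ∑ ic : Fin N × Fin 3, J C (fun x => if 2 * R ≤ |x ic| then (1 : ℝ) else 0) ≤
        ((N * 3 : ℕ) : ℝ) * ((2 * ((n0 : ℝ) + k)) ^ k / (2 * R) ^ (2 * k) * tsq C) := by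
      refine (Finset.sum_le_card_nsmul _ _ _ fun ic _ => J_tail C ic k hR).trans_eq ?_
      rw [nsmul_eq_mul, Finset.card_univ, Fintype.card_prod, Fintype.card_fin, Fintype.card_fin]
    have h3 : 0 ≤ C0 + W := add_nonneg h.C0_nonneg h.W_nonneg
    have h4 := mul_le_mul_of_nonneg_left h2 h3
    linarith
  · have h2 : ∑ i, Vs (elPos i x) ≤ ∑ i, ((1 / 2) * ‖elPos i x‖ ^ 2 +
        ((eps2 - C0) + lam * w (elPos i x)) +
          (C0 + W) * ∑ c : Fin 3, (if 2 * R ≤ |elPos i x c| then (1 : ℝ) else 0)) :=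
      Finset.sum_le_sum fun i _ => Vs_le h (elPos i x)
    refine h2.trans_eq ?_
    rw [elPos_normsq, Fintype.sum_prod_type]
    simp only [Finset.sum_add_distrib, ← Finset.mul_sum, Finset.sum_const, Finset.card_univ,
      Fintype.card_fin, nsmul_eq_mul, elPos]
    ring_nf

/-- the energy of the trial state -/
theorem energy_wav_le (h : NucOK lam P n0 Vs w F C0 R eps1 eps2 kF W) {Nv : ℕ}
    {C : Ten (Nel n0 Nv) n0} (hA : Anti C) (hC : CoreFull C) (h1 : OneB C) (h2 : TwoB C) (k : ℕ) :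
    energy (fun x => lam * unitNucleiPotential P x) (wav C) ≤
      (EN n0 Nv - Nel n0 Nv * C0 + (Nel n0 Nv : ℝ) * Fintype.card (Sp n0) * eps1 +
        Nel n0 Nv * eps2) * tsq C + lam * BF w C +
        (C0 + W) * (((Nel n0 Nv * 3 : ℕ) : ℝ) *
          ((2 * ((n0 : ℝ) + k)) ^ k / (2 * R) ^ (2 * k) * tsq C)) := by
  have e0 := (waveOsc_wav C).waveH1.energy_eq (W := fun x => lam * unitNucleiPotential P x)
  have e1 : (∑ s, ∫ x, lam * unitNucleiPotential P x * ‖wav C s x‖ ^ 2) =
      J C (fun x => lam * unitNucleiPotential P x) := rfl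
  have e2 : J C (fun x => lam * unitNucleiPotential P x) =
      J C (fun x => ∑ i, Vnuc lam P (elPos i x)) + lam * J C rep := by
    rw [← J_const_mul, ← J_add (JI.sum _ fun i _ => JI_Vnuc C lam P i) ((JI_rep C).const_mul lam)]
    congr 1
    funext x
    exact pot_eq lam P x
  have e3 := hosc_wav hA hC
  rw [hosc_eq] at e3
  have e4 : (∑ s, ∫ x, ‖x‖ ^ 2 * ‖wav C s x‖ ^ 2) = J C (fun x => ‖x‖ ^ 2) := rfl
  rw [e4] at e3
  rw [e1, e2] at e0
  -- the singular part
  obtain ⟨B, hB⟩ := h.Vs_bdd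
  have iVs : ∀ a b : Fin 3 → ℕ, Integrable (fun x => Vs x * (Phi a x * Phi b x)) := fun a b =>
    (integrable_PhiPhi a b).bdd_mul h.Vs_cont.aestronglyMeasurable
      (Eventually.of_forall fun x => hB x)
  have iD : ∀ a b : Sp n0, Integrable (fun x => (Vnuc lam P x - Vs x) * (Phi a.1 x * Phi b.1 x)) := by
    intro a b
    have := (integrable_Vnuc_Phi lam P a.1 b.1).sub (iVs a.1 b.1)
    exact this.congr (Eventually.of_forall fun x => (sub_mul _ _ _).symm)
  obtain ⟨d1, d2⟩ := h1 (fun x => Vnuc lam P x - Vs x)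
    ((measurable_Vnuc lam P).sub h.Vs_cont.measurable).aestronglyMeasurable iD
  have d3 : J C (fun x => ∑ i, Vnuc lam P (elPos i x)) =
      J C (fun x => ∑ i, (Vnuc lam P (elPos i x) - Vs (elPos i x))) +
        J C (fun x => ∑ i, Vs (elPos i x)) := by
    rw [← J_add d1 (JI_Vs C h)]
    congr 1
    funext x
    rw [← Finset.sum_add_distrib]
    refine Finset.sum_congr rfl fun i _ => ?_
    ring
  have d4 : J C (fun x => ∑ i, (Vnuc lam P (elPos i x) - Vs (elPos i x))) ≤
      (Nel n0 Nv : ℝ) * Fintype.card (Sp n0) * eps1 * tsq C := by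
    rw [d2]
    exact (le_abs_self _).trans (abs_oneF_le (fun a b => h.N3 a.1 b.1 a.2 b.2) C)
  have d5 := J_Vs_le C h k
  -- the smooth part
  have iw : ∀ a b : Sp n0, Integrable (fun x => w x * (Phi a.1 x * Phi b.1 x)) := fun a b =>
    (integrable_PhiPhi a.1 b.1).bdd_mul h.w_cont.aestronglyMeasurable
      (Eventually.of_forall fun x => h.w_le x)
  obtain ⟨-, w2⟩ := h1 w h.w_cont.aestronglyMeasurable iw
  have w3 : BF w C = J C (fun x => ∑ i, w (elPos i x)) + J C rep := by
    rw [w2, h2]; rfl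
  rw [e0, w3, d3]
  nlinarith [e3, d4, d5]

end main

end Crest.Agent.R338.TL
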