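import Mathlib

/-!
# Row 338: tensor products of families of matrices

`T m` is the tensor product of the family `m p : Matrix B C ℝ` (`p : I`), a matrix indexed by
`I → B` and `I → C`.  `O p M` is the one-site operator `M` at the site `p`.
-/

set_option autoImplicit false

namespace Crest.Agent.R338.Ten

open Matrix Finset

variable {I : Type*} [Fintype I] [DecidableEq I]
variable {A B C D : Type*} [Fintype A] [Fintype B] [Fintype C] [Fintype D]
  [DecidableEq A] [DecidableEq B] [DecidableEq C] [DecidableEq D]

/-- The tensor product of a family of matrices. -/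
def T (m : I → Matrix B C ℝ) : Matrix (I → B) (I → C) ℝ :=
  Matrix.of fun σ τ => ∏ p, m p (σ p) (τ p)

omit [DecidableEq I] [Fintype B] [Fintype C] [DecidableEq B] [DecidableEq C] in
theorem T_apply (m : I → Matrix B C ℝ) (σ : I → B) (τ : I → C) :
    T m σ τ = ∏ p, m p (σ p) (τ p) := rfl

omit [Fintype A] [Fintype C] [DecidableEq A] [DecidableEq B] [DecidableEq C] in
theorem T_mul (m : I → Matrix A B ℝ) (m' : I → Matrix B C ℝ) :
    T m * T m' = T (fun p => m p * m' p) := by
  ext σ τ
  simp only [Matrix.mul_apply, T_apply]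
  rw [Finset.prod_univ_sum]
  simp only [Fintype.piFinset_univ]
  refine Finset.sum_congr rfl fun x _ => ?_
  rw [← Finset.prod_mul_distrib]

omit [Fintype B] [DecidableEq I] in
theorem T_one : T (fun _ : I => (1 : Matrix B B ℝ)) = 1 := by
  ext σ τ
  rw [T_apply, Matrix.one_apply]
  split_ifs with h
  · subst h
    simp
  · have : ∃ p, σ p ≠ τ p := by
      by_contra hh
      push Not at hh
      exact h (funext hh)
    obtain ⟨p, hp⟩ := this
    exact Finset.prod_eq_zero (Finset.mem_univ p) (by simp [hp])

omit [DecidableEq I] [Fintype B] [Fintype C] [DecidableEq B] [DecidableEq C] in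
theorem T_transpose (m : I → Matrix B C ℝ) : (T m)ᵀ = T (fun p => (m p)ᵀ) := by
  ext σ τ
  simp [T_apply]

omit [DecidableEq I] [Fintype B] [Fintype C] [DecidableEq B] [DecidableEq C] in
theorem T_eq_zero (m : I → Matrix B C ℝ) (p : I) (h : m p = 0) : T m = 0 := by
  ext σ τ
  rw [T_apply]
  exact Finset.prod_eq_zero (Finset.mem_univ p) (by simp [h])

omit [Fintype B] [Fintype C] [DecidableEq B] [DecidableEq C] in
theorem T_update_apply (m : I → Matrix B C ℝ) (p : I) (M : Matrix B C ℝ) (σ : I → B) (τ : I → C) :
    T (Function.update m p M) σ τ = M (σ p) (τ p) * ∏ q ∈ Finset.univ.erase p, m q (σ q) (τ q) := by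
  rw [T_apply, ← Finset.mul_prod_erase _ _ (Finset.mem_univ p)]
  congr 1
  · simp
  · refine Finset.prod_congr rfl fun q hq => ?_
    rw [Function.update_of_ne (Finset.ne_of_mem_erase hq)]

omit [Fintype B] [Fintype C] [DecidableEq B] [DecidableEq C] in
theorem T_update_add (m : I → Matrix B C ℝ) (p : I) (M N : Matrix B C ℝ) :
    T (Function.update m p (M + N)) = T (Function.update m p M) + T (Function.update m p N) := by
  ext σ τ
  simp only [Matrix.add_apply, T_update_apply]
  ring

omit [Fintype B] [Fintype C] [DecidableEq B] [DecidableEq C] in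
theorem T_update_smul (m : I → Matrix B C ℝ) (p : I) (c : ℝ) (M : Matrix B C ℝ) :
    T (Function.update m p (c • M)) = c • T (Function.update m p M) := by
  ext σ τ
  simp only [Matrix.smul_apply, T_update_apply, smul_eq_mul]
  ring

omit [Fintype B] [Fintype C] [DecidableEq B] [DecidableEq C] in
theorem T_update_zero (m : I → Matrix B C ℝ) (p : I) :
    T (Function.update m p 0) = 0 :=
  T_eq_zero _ p (by simp)

omit [Fintype B] [Fintype C] [DecidableEq B] [DecidableEq C] in
theorem T_update_sum {κ : Type*} (s : Finset κ) (m : I → Matrix B C ℝ) (p : I)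
    (M : κ → Matrix B C ℝ) :
    T (Function.update m p (∑ k ∈ s, M k)) = ∑ k ∈ s, T (Function.update m p (M k)) := by
  classical
  induction s using Finset.induction_on with
  | empty => simp [T_update_zero]
  | insert a s ha ih => rw [Finset.sum_insert ha, Finset.sum_insert ha, T_update_add, ih]

/-- The one-site operator `M` at the site `p`. -/
def O (p : I) (M : Matrix B B ℝ) : Matrix (I → B) (I → B) ℝ :=
  T (Function.update (fun _ => (1 : Matrix B B ℝ)) p M)

omit [Fintype B] in
theorem O_one (p : I) : O p (1 : Matrix B B ℝ) = 1 := by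
  unfold O
  rw [Function.update_eq_self]
  exact T_one

omit [Fintype B] in
theorem O_add (p : I) (M N : Matrix B B ℝ) : O p (M + N) = O p M + O p N := T_update_add _ _ _ _

omit [Fintype B] in
theorem O_smul (p : I) (c : ℝ) (M : Matrix B B ℝ) : O p (c • M) = c • O p M :=
  T_update_smul _ _ _ _

omit [Fintype B] in
theorem O_zero (p : I) : O p (0 : Matrix B B ℝ) = 0 := T_update_zero _ _

omit [Fintype B] in
theorem O_neg (p : I) (M : Matrix B B ℝ) : O p (-M) = -O p M := by
  have := O_smul p (-1) M
  simpa using this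

omit [Fintype B] in
theorem O_sub (p : I) (M N : Matrix B B ℝ) : O p (M - N) = O p M - O p N := by
  rw [sub_eq_add_neg, O_add, O_neg, ← sub_eq_add_neg]

omit [Fintype B] in
theorem O_sum {κ : Type*} (s : Finset κ) (p : I) (M : κ → Matrix B B ℝ) :
    O p (∑ k ∈ s, M k) = ∑ k ∈ s, O p (M k) := T_update_sum _ _ _ _

theorem O_mul (p : I) (M N : Matrix B B ℝ) : O p M * O p N = O p (M * N) := by
  unfold O
  rw [T_mul]
  congr 1
  funext q
  by_cases h : q = p
  · subst h; simp
  · simp [Function.update_of_ne h]

omit [Fintype B] in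
theorem O_transpose (p : I) (M : Matrix B B ℝ) : (O p M)ᵀ = O p Mᵀ := by
  unfold O
  rw [T_transpose]
  congr 1
  funext q
  by_cases h : q = p
  · subst h; simp
  · simp [Function.update_of_ne h]

omit [Fintype C] [DecidableEq C] in
/-- A one-site operator applied to a tensor product from the left. -/
theorem O_mul_T (p : I) (M : Matrix B B ℝ) (m : I → Matrix B C ℝ) :
    O p M * T m = T (Function.update m p (M * m p)) := by
  unfold O
  rw [T_mul]
  congr 1
  funext q
  by_cases h : q = p
  · subst h; simp
  · simp [Function.update_of_ne h]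

omit [Fintype B] [DecidableEq B] in
theorem T_mul_O (p : I) (M : Matrix C C ℝ) (m : I → Matrix B C ℝ) :
    T m * O p M = T (Function.update m p (m p * M)) := by
  unfold O
  rw [T_mul]
  congr 1
  funext q
  by_cases h : q = p
  · subst h; simp
  · simp [Function.update_of_ne h]

theorem O_comm {p q : I} (h : p ≠ q) (M N : Matrix B B ℝ) : O p M * O q N = O q N * O p M := by
  unfold O
  rw [T_mul, T_mul]
  congr 1
  funext r
  by_cases h1 : r = p
  · subst h1
    simp [Function.update_of_ne h]
  · by_cases h2 : r = q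
    · subst h2
      simp [Function.update_of_ne h1]
    · simp [Function.update_of_ne h1, Function.update_of_ne h2]

/-- The action of a one-site operator on a vector. -/
theorem O_mulVec (p : I) (M : Matrix B B ℝ) (ψ : (I → B) → ℝ) (σ : I → B) :
    (O p M *ᵥ ψ) σ = ∑ b, M (σ p) b * ψ (Function.update σ p b) := by
  classical
  have key : ∀ τ : I → B, (∏ q ∈ Finset.univ.erase p, (if σ q = τ q then (1 : ℝ) else 0)) =
      if τ = Function.update σ p (τ p) then 1 else 0 := by
    intro τ
    split_ifs with h
    · refine Finset.prod_eq_one fun q hq => ?_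
      have : τ q = σ q := by
        conv_lhs => rw [h]
        rw [Function.update_of_ne (Finset.ne_of_mem_erase hq)]
      simp [this]
    · have : ∃ q, q ≠ p ∧ σ q ≠ τ q := by
        by_contra hh
        push Not at hh
        apply h
        funext q
        by_cases hq : q = p
        · subst hq; simp
        · rw [Function.update_of_ne hq]; exact (hh q hq).symm
      obtain ⟨q, hq, hne⟩ := this
      exact Finset.prod_eq_zero (Finset.mem_erase.2 ⟨hq, Finset.mem_univ q⟩)
        (by simp [hne])
  unfold O
  rw [Matrix.mulVec, dotProduct]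
  simp only [T_update_apply, Matrix.one_apply]
  simp only [key]
  have : ∀ τ : I → B, M (σ p) (τ p) * (if τ = Function.update σ p (τ p) then (1 : ℝ) else 0) * ψ τ
      = ∑ b, if τ = Function.update σ p b then M (σ p) b * ψ (Function.update σ p b) else 0 := by
    intro τ
    by_cases h : τ = Function.update σ p (τ p)
    · rw [if_pos h]
      rw [Finset.sum_eq_single (τ p)]
      · rw [if_pos h, ← h]; ring
      · intro b _ hb
        rw [if_neg]
        intro h2
        apply hb
        rw [h2]; simp
      · intro h'; exact absurd (Finset.mem_univ _) h'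
    · rw [if_neg h]
      rw [Finset.sum_eq_zero]
      · ring
      · intro b _
        rw [if_neg]
        intro h2
        apply h
        rw [h2]; simp
  rw [Finset.sum_congr rfl fun τ _ => this τ, Finset.sum_comm]
  refine Finset.sum_congr rfl fun b _ => ?_
  rw [Finset.sum_ite_eq' Finset.univ (Function.update σ p b)]
  simp

/-! ### Quadratic forms -/

omit [DecidableEq I] in
/-- Cauchy–Schwarz for the dot product. -/
theorem dot_sq_le {J : Type*} [Fintype J] (x y : J → ℝ) : (x ⬝ᵥ y) ^ 2 ≤ (x ⬝ᵥ x) * (y ⬝ᵥ y) := by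
  have := Finset.sum_mul_sq_le_sq_mul_sq Finset.univ x y
  simpa [dotProduct, pow_two] using this

theorem dot_self_nonneg {J : Type*} [Fintype J] (x : J → ℝ) : 0 ≤ x ⬝ᵥ x :=
  Finset.sum_nonneg fun _ _ => mul_self_nonneg _

theorem dot_mulVec_transpose {J K : Type*} [Fintype J] [Fintype K] (M : Matrix J K ℝ)
    (x : J → ℝ) (y : K → ℝ) : x ⬝ᵥ (M *ᵥ y) = (Mᵀ *ᵥ x) ⬝ᵥ y := by
  rw [Matrix.dotProduct_mulVec, Matrix.mulVec_transpose]

/-- A symmetric idempotent has a nonnegative quadratic form. -/
theorem proj_form {J : Type*} [Fintype J] (N : Matrix J J ℝ) (hs : Nᵀ = N) (hi : N * N = N)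
    (x : J → ℝ) : x ⬝ᵥ (N *ᵥ x) = (N *ᵥ x) ⬝ᵥ (N *ᵥ x) := by
  conv_lhs => rw [← hi, ← Matrix.mulVec_mulVec, dot_mulVec_transpose, hs]

theorem proj_form_nonneg {J : Type*} [Fintype J] (N : Matrix J J ℝ) (hs : Nᵀ = N) (hi : N * N = N)
    (x : J → ℝ) : 0 ≤ x ⬝ᵥ (N *ᵥ x) := by
  rw [proj_form N hs hi]; exact dot_self_nonneg _

theorem proj_form_le {J : Type*} [Fintype J] [DecidableEq J] (N : Matrix J J ℝ) (hs : Nᵀ = N)
    (hi : N * N = N) (x : J → ℝ) : (N *ᵥ x) ⬝ᵥ (N *ᵥ x) ≤ x ⬝ᵥ x := by
  have h := proj_form_nonneg (1 - N) (by simp [hs]) (by rw [mul_sub, sub_mul, sub_mul, hi]; simp) x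
  rw [Matrix.sub_mulVec, Matrix.one_mulVec, dotProduct_sub, proj_form N hs hi] at h
  linarith

end Crest.Agent.R338.Ten
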