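import Crest.Agent.R338.Assembly
import Crest.Agent.R338.P2Top
import Crest.Agent.R338.TA9
import Crest.Agent.R338.LatMain
import Crest.Agent.R338.GS9
import Crest.Agent.R338.Di7
import Crest.Agent.R338.Cal7
import Crest.Agent.R338.WCStmt
import Crest.Agent.R338.Fm5
import Crest.Agent.R338.CSAsm
import Crest.Agent.R338.Sel4
import Crest.Agent.R338.Out5
import Crest.Agent.R338.P1Main
import Crest.Agent.R338.HB10

/-! # Row 338: top level -/

set_option autoImplicit false

open Crest.Quantum.QMA Crest.MathPhysics.CoulombProblem

namespace Crest.Agent.R338.Top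

open Crest.Agent.R338

theorem latStmt : P2.LatStmt := Lat.latStmt_of GS.c34 Di.c5

/-- Part II from the charging estimate -/
theorem partII_of (hC : BH.CoulC) : PartIIStmt :=
  P2.partII_of AB.thmAB (BH.thmBHStmt_of' hC Sel.selStmt) Cal.calStmt WC.wcStmt latStmt
    Fm.scaleStmt Out.numStmt

/-- Part I from the block gadget -/
theorem partI_of' (hb : PartIbStmt) : PartIStmt := partI_of P1.partIa hb

/-- Part I -/
theorem partI : PartIStmt := partI_of' HB.partIb

/-- everything, from the charging estimate -/
theorem main_of' (hC : BH.CoulC) : QMAHard groundEnergyProblem :=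
  qmaHard_of partI (partII_of hC)

/-- everything -/
theorem main_of (hb : PartIbStmt) (hC : BH.CoulC) : QMAHard groundEnergyProblem :=
  qmaHard_of (partI_of' hb) (partII_of hC)

end Crest.Agent.R338.Top
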