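import Mathlib

/-!
Row 338, node WKB, part 1: solutions of `h'' = (s² - κ²) h`.
`E = h'² + (κ² - s²) h²` is antitone on `[0, ∞)`, and the WKB amplitude
`A = r h² + h'² / r`, `r = √(κ² - s²)`, stays within a factor two of its value at `0` as long as
`2 s ≤ r³`.
-/

noncomputable section

open Set

namespace Crest.Agent.R338.WKB

/-- A solution of the Hermite function equation `h'' = (s² - κ²) h`; `h'` is the derivative. -/
structure HSol (κ : ℝ) (h h' : ℝ → ℝ) : Prop where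
  d1 : ∀ s, HasDerivAt h (h' s) s
  d2 : ∀ s, HasDerivAt h' ((s ^ 2 - κ ^ 2) * h s) s

namespace HSol

variable {κ : ℝ} {h h' : ℝ → ℝ} (H : HSol κ h h')
include H

/-- The energy. -/
def En (_ : HSol κ h h') (s : ℝ) : ℝ := h' s ^ 2 + (κ ^ 2 - s ^ 2) * h s ^ 2

lemma hasDerivAt_En (s : ℝ) : HasDerivAt H.En (-(2 * s * h s ^ 2)) s := by
  have e1 := (H.d2 s).pow 2
  have e2 := (H.d1 s).pow 2
  have e3 : HasDerivAt (fun s : ℝ => κ ^ 2 - s ^ 2) (-(2 * s)) s := by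
    have := ((hasDerivAt_id s).pow 2).const_sub (κ ^ 2)
    simpa using this
  have e4 := e1.add (e3.mul e2)
  refine e4.congr_deriv ?_
  simp
  ring

lemma continuous_h : Continuous h :=
  continuous_iff_continuousAt.mpr fun s => (H.d1 s).continuousAt

lemma continuous_h' : Continuous h' :=
  continuous_iff_continuousAt.mpr fun s => (H.d2 s).continuousAt

lemma continuous_En : Continuous H.En :=
  continuous_iff_continuousAt.mpr fun s => (H.hasDerivAt_En s).continuousAt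

lemma antitoneOn_En : AntitoneOn H.En (Ici 0) := by
  apply antitoneOn_of_deriv_nonpos (convex_Ici 0) H.continuous_En.continuousOn
  · intro s _
    exact (H.hasDerivAt_En s).differentiableAt.differentiableWithinAt
  · intro s hs
    rw [interior_Ici] at hs
    rw [(H.hasDerivAt_En s).deriv]
    have : 0 < s := hs
    nlinarith [sq_nonneg (h s)]

lemma En_le {s : ℝ} (hs : 0 ≤ s) : H.En s ≤ H.En 0 :=
  H.antitoneOn_En (by simp) hs hs

lemma En_le_of_le {s t : ℝ} (hs : 0 ≤ s) (hst : s ≤ t) : H.En t ≤ H.En s :=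
  H.antitoneOn_En hs (hs.trans hst) hst

/-- `h²` is bounded by `E(0)/(κ²-s²)`. -/
lemma sq_mul_le {s : ℝ} (hs : 0 ≤ s) : (κ ^ 2 - s ^ 2) * h s ^ 2 ≤ H.En 0 := by
  have := H.En_le hs
  have h2 : (κ ^ 2 - s ^ 2) * h s ^ 2 ≤ H.En s := by
    unfold En; nlinarith [sq_nonneg (h' s)]
  linarith

end HSol

/-- `r(s) = √(κ² - s²)`. -/
def rr (κ s : ℝ) : ℝ := Real.sqrt (κ ^ 2 - s ^ 2)

lemma rr_pos {κ s : ℝ} (hs : s ^ 2 < κ ^ 2) : 0 < rr κ s := Real.sqrt_pos.mpr (by linarith)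

lemma rr_sq {κ s : ℝ} (hs : s ^ 2 ≤ κ ^ 2) : rr κ s ^ 2 = κ ^ 2 - s ^ 2 :=
  Real.sq_sqrt (by linarith)

lemma rr_zero {κ : ℝ} (hκ : 0 ≤ κ) : rr κ 0 = κ := by
  unfold rr; rw [show κ ^ 2 - 0 ^ 2 = κ ^ 2 by ring]; exact Real.sqrt_sq hκ

lemma hasDerivAt_rr {κ s : ℝ} (hs : s ^ 2 < κ ^ 2) : HasDerivAt (rr κ) (-(s / rr κ s)) s := by
  have e3 : HasDerivAt (fun s : ℝ => κ ^ 2 - s ^ 2) (-(2 * s)) s := by
    have := ((hasDerivAt_id s).pow 2).const_sub (κ ^ 2)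
    simpa using this
  have h0 : κ ^ 2 - s ^ 2 ≠ 0 := by linarith
  have := e3.sqrt h0
  refine this.congr_deriv ?_
  unfold rr
  have : 0 < Real.sqrt (κ ^ 2 - s ^ 2) := Real.sqrt_pos.mpr (by linarith)
  field_simp

/-- `u(s) = s / r(s)³`. -/
def uu (κ s : ℝ) : ℝ := s / rr κ s ^ 3

lemma hasDerivAt_uu {κ s : ℝ} (hs : s ^ 2 < κ ^ 2) :
    HasDerivAt (uu κ) (1 / rr κ s ^ 3 + 3 * s ^ 2 / rr κ s ^ 5) s := by
  have hr := rr_pos hs
  have e1 := (hasDerivAt_rr hs).pow 3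
  have e2 : HasDerivAt (fun s => s / rr κ s ^ 3) _ s :=
    (hasDerivAt_id' s).div e1 (pow_ne_zero 3 hr.ne')
  refine e2.congr_deriv ?_
  field_simp
  ring

lemma duu_nonneg {κ s : ℝ} (hs : s ^ 2 < κ ^ 2) :
    0 ≤ 1 / rr κ s ^ 3 + 3 * s ^ 2 / rr κ s ^ 5 := by
  have hr := rr_pos hs
  positivity

/-- The WKB amplitude. -/
def AA (κ : ℝ) (h h' : ℝ → ℝ) (s : ℝ) : ℝ := rr κ s * h s ^ 2 + h' s ^ 2 / rr κ s

/-- The corrected WKB amplitude. -/
def AB (κ : ℝ) (h h' : ℝ → ℝ) (s : ℝ) : ℝ := AA κ h h' s - uu κ s * (h s * h' s)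

namespace HSol

variable {κ : ℝ} {h h' : ℝ → ℝ} (H : HSol κ h h')

lemma abs_hh'_le {s : ℝ} (hs : s ^ 2 < κ ^ 2) : |h s * h' s| ≤ AA κ h h' s / 2 := by
  have hr := rr_pos hs
  unfold AA
  have h1 : 2 * |h s * h' s| ≤ rr κ s * h s ^ 2 + h' s ^ 2 / rr κ s := by
    have e : rr κ s * h s ^ 2 + h' s ^ 2 / rr κ s
        = ((rr κ s * |h s|) ^ 2 + |h' s| ^ 2) / rr κ s := by
      rw [mul_pow, sq_abs, sq_abs]; field_simp
    rw [e, le_div_iff₀ hr, abs_mul]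
    nlinarith [sq_nonneg (rr κ s * |h s| - |h' s|)]
  linarith

lemma AA_nonneg {s : ℝ} : 0 ≤ AA κ h h' s := by
  unfold AA
  have : 0 ≤ rr κ s := Real.sqrt_nonneg _
  positivity

include H in
lemma hasDerivAt_AB {s : ℝ} (hs : s ^ 2 < κ ^ 2) :
    HasDerivAt (AB κ h h') (-((1 / rr κ s ^ 3 + 3 * s ^ 2 / rr κ s ^ 5) * (h s * h' s))) s := by
  have hr := rr_pos hs
  have hr2 := rr_sq hs.le
  have e1 := hasDerivAt_rr hs
  have e2 := (H.d1 s).pow 2
  have e3 := (H.d2 s).pow 2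
  have e4 := (e1.mul e2).add (e3.div e1 hr.ne')
  have e5 := (hasDerivAt_uu hs).mul ((H.d1 s).mul (H.d2 s))
  have e6 := e4.sub e5
  refine (e6.congr_deriv ?_)
  have hk : κ ^ 2 = rr κ s ^ 2 + s ^ 2 := by linarith
  simp only [uu, Pi.pow_apply, Pi.mul_apply]
  rw [hk]
  field_simp
  ring

lemma AB_ge {s : ℝ} (hs0 : 0 ≤ s) (hs : s ^ 2 < κ ^ 2) (hu : 2 * s ≤ rr κ s ^ 3) :
    3 / 4 * AA κ h h' s ≤ AB κ h h' s := by
  have hr := rr_pos hs
  have hu1 : uu κ s ≤ 1 / 2 := by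
    unfold uu; rw [div_le_iff₀ (by positivity)]; linarith
  have hu0 : 0 ≤ uu κ s := by unfold uu; positivity
  have h1 := abs_hh'_le (h := h) (h' := h') hs
  have h2 : uu κ s * (h s * h' s) ≤ 1 / 2 * (AA κ h h' s / 2) := by
    calc uu κ s * (h s * h' s) ≤ uu κ s * |h s * h' s| :=
          mul_le_mul_of_nonneg_left (le_abs_self _) hu0
      _ ≤ 1 / 2 * (AA κ h h' s / 2) := mul_le_mul hu1 h1 (abs_nonneg _) (by norm_num)
  unfold AB
  linarith

lemma AB_le {s : ℝ} (hs0 : 0 ≤ s) (hs : s ^ 2 < κ ^ 2) (hu : 2 * s ≤ rr κ s ^ 3) :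
    AB κ h h' s ≤ 5 / 4 * AA κ h h' s := by
  have hr := rr_pos hs
  have hu1 : uu κ s ≤ 1 / 2 := by
    unfold uu; rw [div_le_iff₀ (by positivity)]; linarith
  have hu0 : 0 ≤ uu κ s := by unfold uu; positivity
  have h1 := abs_hh'_le (h := h) (h' := h') hs
  have h2 : -(uu κ s * (h s * h' s)) ≤ 1 / 2 * (AA κ h h' s / 2) := by
    calc -(uu κ s * (h s * h' s)) = uu κ s * (-(h s * h' s)) := by ring
      _ ≤ uu κ s * |h s * h' s| := mul_le_mul_of_nonneg_left (neg_le_abs _) hu0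
      _ ≤ 1 / 2 * (AA κ h h' s / 2) := mul_le_mul hu1 h1 (abs_nonneg _) (by norm_num)
  unfold AB
  linarith

/-- The condition `2 s ≤ r³` is inherited by smaller `s`. -/
lemma cond_mono {s t : ℝ} (hs0 : 0 ≤ s) (hst : s ≤ t) (ht : 2 * t ≤ rr κ t ^ 3) :
    2 * s ≤ rr κ s ^ 3 := by
  have h1 : rr κ t ≤ rr κ s := by
    unfold rr; apply Real.sqrt_le_sqrt; nlinarith
  have h0 : 0 ≤ rr κ t := Real.sqrt_nonneg _
  calc 2 * s ≤ 2 * t := by linarith
    _ ≤ rr κ t ^ 3 := ht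
    _ ≤ rr κ s ^ 3 := pow_le_pow_left₀ h0 h1 3

include H in
/-- Two-sided control of the corrected amplitude. -/
lemma AB_exp {s : ℝ} (hs0 : 0 ≤ s) (hs : s ^ 2 < κ ^ 2) (hu : 2 * s ≤ rr κ s ^ 3) :
    AB κ h h' s ≤ AB κ h h' 0 * Real.exp (2 / 3 * uu κ s) ∧
    AB κ h h' 0 ≤ AB κ h h' s * Real.exp (2 / 3 * uu κ s) := by
  have hlt : ∀ t ∈ Icc 0 s, t ^ 2 < κ ^ 2 := by
    intro t ht
    have : t ^ 2 ≤ s ^ 2 := pow_le_pow_left₀ ht.1 ht.2 2
    linarith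
  have hc : ∀ t ∈ Icc 0 s, 2 * t ≤ rr κ t ^ 3 := fun t ht => cond_mono ht.1 ht.2 hu
  have hder : ∀ t ∈ Icc 0 s, ∀ σ : ℝ, HasDerivAt (fun t => AB κ h h' t * Real.exp (σ * uu κ t))
      ((-((1 / rr κ t ^ 3 + 3 * t ^ 2 / rr κ t ^ 5) * (h t * h' t))) * Real.exp (σ * uu κ t)
        + AB κ h h' t * (Real.exp (σ * uu κ t) * (σ * (1 / rr κ t ^ 3 + 3 * t ^ 2 / rr κ t ^ 5)))) t := by
    intro t ht σ
    exact (H.hasDerivAt_AB (hlt t ht)).mul (((hasDerivAt_uu (hlt t ht)).const_mul σ).exp)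
  have hdiff : ∀ σ : ℝ, DifferentiableOn ℝ (fun t => AB κ h h' t * Real.exp (σ * uu κ t)) (Icc 0 s) :=
    fun σ t ht => ((hder t ht σ).differentiableAt).differentiableWithinAt
  have hkey : ∀ t ∈ Icc 0 s, |(1 / rr κ t ^ 3 + 3 * t ^ 2 / rr κ t ^ 5) * (h t * h' t)|
      ≤ 2 / 3 * (1 / rr κ t ^ 3 + 3 * t ^ 2 / rr κ t ^ 5) * AB κ h h' t := by
    intro t ht
    have h0 := duu_nonneg (hlt t ht)
    rw [abs_mul, abs_of_nonneg h0]
    have h1 := abs_hh'_le (h := h) (h' := h') (hlt t ht)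
    have h2 := AB_ge (h := h) (h' := h') ht.1 (hlt t ht) (hc t ht)
    have h3 : |h t * h' t| ≤ 2 / 3 * AB κ h h' t := by linarith
    calc _ ≤ (1 / rr κ t ^ 3 + 3 * t ^ 2 / rr κ t ^ 5) * (2 / 3 * AB κ h h' t) :=
          mul_le_mul_of_nonneg_left h3 h0
      _ = _ := by ring
  have hanti : AntitoneOn (fun t => AB κ h h' t * Real.exp (-(2 / 3) * uu κ t)) (Icc 0 s) := by
    apply antitoneOn_of_deriv_nonpos (convex_Icc 0 s) (hdiff _).continuousOn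
      ((hdiff _).mono interior_subset)
    intro t ht
    have ht' := interior_subset ht
    rw [(hder t ht' _).deriv]
    have hk := (abs_le.mp (hkey t ht')).1
    have hexp := Real.exp_pos (-(2 / 3) * uu κ t)
    have : -((1 / rr κ t ^ 3 + 3 * t ^ 2 / rr κ t ^ 5) * (h t * h' t))
        - 2 / 3 * (1 / rr κ t ^ 3 + 3 * t ^ 2 / rr κ t ^ 5) * AB κ h h' t ≤ 0 := by linarith
    nlinarith
  have hmono : MonotoneOn (fun t => AB κ h h' t * Real.exp (2 / 3 * uu κ t)) (Icc 0 s) := by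
    apply monotoneOn_of_deriv_nonneg (convex_Icc 0 s) (hdiff _).continuousOn
      ((hdiff _).mono interior_subset)
    intro t ht
    have ht' := interior_subset ht
    rw [(hder t ht' _).deriv]
    have hk := (abs_le.mp (hkey t ht')).2
    have hexp := Real.exp_pos (2 / 3 * uu κ t)
    have : 0 ≤ -((1 / rr κ t ^ 3 + 3 * t ^ 2 / rr κ t ^ 5) * (h t * h' t))
        + 2 / 3 * (1 / rr κ t ^ 3 + 3 * t ^ 2 / rr κ t ^ 5) * AB κ h h' t := by linarith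
    nlinarith
  have hu00 : uu κ 0 = 0 := by simp [uu]
  have m0 : (0:ℝ) ∈ Icc 0 s := ⟨le_rfl, hs0⟩
  have ms : s ∈ Icc 0 s := ⟨hs0, le_rfl⟩
  constructor
  · have := hanti m0 ms hs0
    simp only [hu00, mul_zero, Real.exp_zero, mul_one] at this
    have he : Real.exp (-(2 / 3) * uu κ s) = (Real.exp (2 / 3 * uu κ s))⁻¹ := by
      rw [← Real.exp_neg]; congr 1; ring
    rw [he, ← div_eq_mul_inv, div_le_iff₀ (Real.exp_pos _)] at this
    exact this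
  · have := hmono m0 ms hs0
    simpa only [hu00, mul_zero, Real.exp_zero, mul_one] using this

lemma exp_third_le : Real.exp (1 / 3) ≤ 7 / 5 := by
  have h1 : Real.exp (1/3) ^ 3 = Real.exp 1 := by
    rw [← Real.exp_nat_mul]; norm_num
  have h2 := Real.exp_one_lt_d9
  by_contra hc
  push Not at hc
  have : (7/5 : ℝ) ^ 3 < Real.exp (1/3) ^ 3 := pow_lt_pow_left₀ hc (by norm_num) (by norm_num)
  rw [h1] at this
  norm_num at this
  linarith

include H in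
/-- (W2) The WKB amplitude stays within a factor two of its value at zero. -/
theorem AA_two_sided {s : ℝ} (hs0 : 0 ≤ s) (hs : s ^ 2 < κ ^ 2) (hu : 2 * s ≤ rr κ s ^ 3) :
    AA κ h h' s ≤ 2 * AA κ h h' 0 ∧ AA κ h h' 0 ≤ 2 * AA κ h h' s := by
  obtain ⟨h1, h2⟩ := H.AB_exp hs0 hs hu
  have hr := rr_pos hs
  have hu1 : uu κ s ≤ 1 / 2 := by
    unfold uu; rw [div_le_iff₀ (by positivity)]; linarith
  have hexp : Real.exp (2 / 3 * uu κ s) ≤ 7 / 5 :=
    (Real.exp_le_exp.mpr (by linarith)).trans exp_third_le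
  have hA0 : AB κ h h' 0 = AA κ h h' 0 := by simp [AB, uu]
  rw [hA0] at h1 h2
  have g1 := AB_ge (h := h) (h' := h') hs0 hs hu
  have g2 := AB_le (h := h) (h' := h') hs0 hs hu
  have n0 : 0 ≤ AA κ h h' 0 := AA_nonneg
  have ns : 0 ≤ AA κ h h' s := AA_nonneg
  constructor
  · have : AA κ h h' 0 * Real.exp (2 / 3 * uu κ s) ≤ AA κ h h' 0 * (7 / 5) :=
      mul_le_mul_of_nonneg_left hexp n0
    linarith
  · have hb : 0 ≤ AB κ h h' s := by linarith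
    have : AB κ h h' s * Real.exp (2 / 3 * uu κ s) ≤ AB κ h h' s * (7 / 5) :=
      mul_le_mul_of_nonneg_left hexp hb
    linarith

end HSol

end Crest.Agent.R338.WKB

end
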