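import Crest.Agent.R338.HO1a
import Crest.Agent.R338.WKB1

/-!
Row 338, node WKB, part 2 (D.1 of the blueprint): the Hermite functions as solutions of the ODE,
parity, exact values at the origin, `κ/2 ≤ A(0) ≤ κ`.
-/

set_option autoImplicit false

noncomputable section

open Set MeasureTheory Real
open Crest.Agent.R338.HO

namespace Crest.Agent.R338.WKB

/-- `κ_m = √(2m+1)`. -/
def kap (m : ℕ) : ℝ := √(2 * (m : ℝ) + 1)

/-- The derivative of `hf m`. -/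
def hfd (m : ℕ) (x : ℝ) : ℝ :=
  √((m : ℝ) / 2) * hf (m - 1) x - √(((m : ℝ) + 1) / 2) * hf (m + 1) x

lemma kap_sq (m : ℕ) : kap m ^ 2 = 2 * (m : ℝ) + 1 := Real.sq_sqrt (by positivity)

lemma kap_pos (m : ℕ) : 0 < kap m := Real.sqrt_pos.mpr (by positivity)

lemma one_le_kap (m : ℕ) : 1 ≤ kap m := by
  unfold kap
  rw [Real.one_le_sqrt]
  have : (0:ℝ) ≤ m := Nat.cast_nonneg m
  linarith

lemma hf_deriv (m : ℕ) (x : ℝ) : HasDerivAt (hf m) (hfd m x) x := hasDerivAt_hf m x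

lemma hfd_eq_deriv (m : ℕ) (x : ℝ) : hfd m x = deriv (hf m) x := (hasDerivAt_hf m x).deriv.symm

/-- The Hermite functions solve the ODE. -/
theorem hsol (m : ℕ) : HSol (kap m) (hf m) (hfd m) where
  d1 := hf_deriv m
  d2 := fun s => by
    rw [kap_sq]
    exact hasDerivAt_deriv_hf m s

/-- parity -/
theorem hf_neg (m : ℕ) (x : ℝ) : hf m (-x) = (-1) ^ m * hf m x := by
  have key : ∀ n : ℕ, (∀ x : ℝ, hf n (-x) = (-1) ^ n * hf n x) ∧
      (∀ x : ℝ, hf (n + 1) (-x) = (-1) ^ (n + 1) * hf (n + 1) x) := by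
    intro n
    induction n with
    | zero =>
      have h0 : ∀ x : ℝ, hf 0 (-x) = hf 0 x := by
        intro x; rw [hf_zero, hf_zero]; simp
      refine ⟨fun x => by rw [h0]; simp, fun x => ?_⟩
      have e1 := x_mul_hf 0 x
      have e2 := x_mul_hf 0 (-x)
      simp only [Nat.cast_zero, zero_div, Real.sqrt_zero, zero_mul, add_zero, zero_add] at e1 e2
      rw [h0] at e2
      have hs : √((1:ℝ) / 2) ≠ 0 := (Real.sqrt_pos.mpr (by norm_num)).ne'
      have : √((1:ℝ) / 2) * hf 1 (-x) = √((1:ℝ) / 2) * (-hf 1 x) := by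
        rw [← e2]; rw [mul_neg, ← e1]; ring
      have := mul_left_cancel₀ hs this
      simp only [zero_add, pow_one]
      rw [this]; ring
    | succ n ih =>
      refine ⟨ih.2, fun x => ?_⟩
      have e1 := x_mul_hf (n + 1) x
      have e2 := x_mul_hf (n + 1) (-x)
      simp only [Nat.add_sub_cancel] at e1 e2
      rw [ih.2, ih.1] at e2
      have hs : √((((n + 1 : ℕ) : ℝ) + 1) / 2) ≠ 0 := (Real.sqrt_pos.mpr (by positivity)).ne'
      have : √((((n + 1 : ℕ) : ℝ) + 1) / 2) * hf (n + 1 + 1) (-x)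
          = √((((n + 1 : ℕ) : ℝ) + 1) / 2) * ((-1) ^ (n + 1 + 1) * hf (n + 1 + 1) x) := by
        have e3 : √((((n + 1 : ℕ) : ℝ) + 1) / 2) * hf (n + 1 + 1) x
            = x * hf (n + 1) x - √(((n + 1 : ℕ) : ℝ) / 2) * hf n x := by linarith
        have e4 : √((((n + 1 : ℕ) : ℝ) + 1) / 2) * hf (n + 1 + 1) (-x)
            = -x * ((-1) ^ (n + 1) * hf (n + 1) x)
              - √(((n + 1 : ℕ) : ℝ) / 2) * ((-1) ^ n * hf n x) := by linarith
        have e5 : √((((n + 1 : ℕ) : ℝ) + 1) / 2) * ((-1) ^ (n + 1 + 1) * hf (n + 1 + 1) x)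
            = (-1) ^ (n + 1 + 1) * (√((((n + 1 : ℕ) : ℝ) + 1) / 2) * hf (n + 1 + 1) x) := by ring
        rw [e4, e5, e3]
        ring
      exact mul_left_cancel₀ hs this
  exact (key m).1 x

lemma hf_neg_sq (m : ℕ) (x : ℝ) : hf m (-x) ^ 2 = hf m x ^ 2 := by
  rw [hf_neg, mul_pow, ← pow_mul, mul_comm m 2, pow_mul]; simp

lemma hf_abs_sq (m : ℕ) (x : ℝ) : hf m |x| ^ 2 = hf m x ^ 2 := by
  rcases abs_choice x with h | h
  · rw [h]
  · rw [h, hf_neg_sq]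

/-- recursion at the origin -/
lemma hf_zero_rec (m : ℕ) : hf (m + 2) 0 ^ 2 = ((m : ℝ) + 1) / ((m : ℝ) + 2) * hf m 0 ^ 2 := by
  have e := x_mul_hf (m + 1) 0
  simp only [zero_mul, Nat.add_sub_cancel] at e
  have e2 : √((((m + 1 : ℕ) : ℝ) + 1) / 2) * hf (m + 1 + 1) 0 = -(√(((m + 1 : ℕ) : ℝ) / 2) * hf m 0) := by
    linarith
  have e3 := congrArg (fun t => t ^ 2) e2
  simp only [mul_pow, neg_sq] at e3
  rw [Real.sq_sqrt (by positivity), Real.sq_sqrt (by positivity)] at e3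
  have hm : (0:ℝ) < (m:ℝ) + 2 := by positivity
  have e4 : m + 1 + 1 = m + 2 := rfl
  rw [e4] at e3
  push_cast at e3
  field_simp
  nlinarith

lemma hf_zero_zero_sq : hf 0 0 ^ 2 = 1 / √π := by
  rw [hf_zero]
  simp only [ne_eq, OfNat.ofNat_ne_zero, not_false_eq_true, zero_pow, neg_zero, zero_div,
    Real.exp_zero, mul_one]
  rw [← Real.rpow_natCast, ← Real.rpow_mul Real.pi_pos.le, Real.sqrt_eq_rpow, one_div (π ^ _),
    ← Real.rpow_neg Real.pi_pos.le]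
  norm_num

/-- two-sided bound for even Hermite functions at the origin -/
lemma hf_even_origin (k : ℕ) :
    1 ≤ (4 * (k : ℝ) + 1) * (π * (hf (2 * k) 0 ^ 2) ^ 2) ∧
      (2 * (k : ℝ) + 1) * (π * (hf (2 * k) 0 ^ 2) ^ 2) ≤ 1 := by
  induction k with
  | zero =>
    simp only [mul_zero, hf_zero_zero_sq, Nat.cast_zero, zero_add, one_mul, div_pow, one_pow]
    rw [Real.sq_sqrt Real.pi_pos.le]
    have : π * (1 / π) = 1 := by field_simp
    rw [this]; exact ⟨le_rfl, le_rfl⟩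
  | succ k ih =>
    have e : 2 * (k + 1) = 2 * k + 2 := by ring
    rw [e, hf_zero_rec]
    set a := (hf (2 * k) 0 ^ 2) with ha
    have h0 : (0:ℝ) ≤ π * a ^ 2 := by positivity
    obtain ⟨h1, h2⟩ := ih
    set b := π * a ^ 2 with hb
    have hk : (0:ℝ) ≤ k := Nat.cast_nonneg k
    have e2 : π * ((((2 * k : ℕ) : ℝ) + 1) / (((2 * k : ℕ) : ℝ) + 2) * a) ^ 2
        = ((2 * (k:ℝ) + 1) / (2 * (k:ℝ) + 2)) ^ 2 * b := by
      push_cast; rw [hb]; ring
    rw [e2]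
    push_cast
    constructor
    · have : (4 * (k:ℝ) + 1) ≤ (4 * ((k:ℝ) + 1) + 1) * ((2 * (k:ℝ) + 1) / (2 * (k:ℝ) + 2)) ^ 2 := by
        rw [div_pow, mul_div_assoc', le_div_iff₀ (by positivity)]
        nlinarith
      calc 1 ≤ (4 * (k:ℝ) + 1) * b := h1
        _ ≤ ((4 * ((k:ℝ) + 1) + 1) * ((2 * (k:ℝ) + 1) / (2 * (k:ℝ) + 2)) ^ 2) * b :=
          mul_le_mul_of_nonneg_right this h0
        _ = _ := by ring
    · have : (2 * ((k:ℝ) + 1) + 1) * ((2 * (k:ℝ) + 1) / (2 * (k:ℝ) + 2)) ^ 2 ≤ 2 * (k:ℝ) + 1 := by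
        rw [div_pow, mul_div_assoc', div_le_iff₀ (by positivity)]
        nlinarith
      calc (2 * ((k:ℝ) + 1) + 1) * (((2 * (k:ℝ) + 1) / (2 * (k:ℝ) + 2)) ^ 2 * b)
          = ((2 * ((k:ℝ) + 1) + 1) * ((2 * (k:ℝ) + 1) / (2 * (k:ℝ) + 2)) ^ 2) * b := by ring
        _ ≤ (2 * (k:ℝ) + 1) * b := mul_le_mul_of_nonneg_right this h0
        _ ≤ 1 := h2

/-- the energy function of `hf m` -/
def Eh (m : ℕ) (s : ℝ) : ℝ := hfd m s ^ 2 + (kap m ^ 2 - s ^ 2) * hf m s ^ 2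

lemma Eh_eq (m : ℕ) : Eh m = (hsol m).En := rfl

/-- odd Hermite functions vanish at the origin -/
lemma hf_odd_origin (k : ℕ) : hf (2 * k + 1) 0 = 0 := by
  have := hf_neg (2 * k + 1) 0
  rw [neg_zero, Odd.neg_one_pow ⟨k, rfl⟩] at this
  linarith

lemma Eh_even (k : ℕ) : Eh (2 * k) 0 = kap (2 * k) ^ 2 * hf (2 * k) 0 ^ 2 := by
  have h0 : hfd (2 * k) 0 = 0 := by
    unfold hfd
    rw [hf_odd_origin]
    rcases Nat.eq_zero_or_pos k with rfl | hk
    · simp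
    · obtain ⟨j, rfl⟩ : ∃ j, k = j + 1 := ⟨k - 1, by omega⟩
      have : 2 * (j + 1) - 1 = 2 * j + 1 := by omega
      rw [this, hf_odd_origin]; simp
  unfold Eh
  rw [h0]; ring

lemma Eh_odd (k : ℕ) : Eh (2 * k + 1) 0 = (4 * (k : ℝ) + 2) * hf (2 * k) 0 ^ 2 := by
  have e := x_mul_hf (2 * k + 1) 0
  simp only [zero_mul, Nat.add_sub_cancel] at e
  have h1 : hfd (2 * k + 1) 0 = 2 * (√(((2 * k + 1 : ℕ) : ℝ) / 2) * hf (2 * k) 0) := by
    unfold hfd
    simp only [Nat.add_sub_cancel]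
    linarith
  unfold Eh
  rw [h1, hf_odd_origin, mul_pow, mul_pow, Real.sq_sqrt (by positivity)]
  push_cast
  ring

lemma sqrt_pi_bounds : 0 < √π ∧ √π ≤ 2 ∧ 2 ≤ π := by
  refine ⟨Real.sqrt_pos.mpr Real.pi_pos, ?_, Real.two_le_pi⟩
  rw [Real.sqrt_le_left (by norm_num)]
  have := Real.pi_le_four
  norm_num
  linarith

/-- (D.1) `κ/2 ≤ A(0) ≤ κ`. -/
theorem Eh_zero_bounds (m : ℕ) : kap m / 2 ≤ Eh m 0 ∧ Eh m 0 ≤ kap m := by
  have hpi2 := Real.two_le_pi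
  have hpi4 := Real.pi_le_four
  -- it suffices to compare squares
  have key : ∀ e : ℝ, 0 ≤ e → kap m ^ 2 ≤ 4 * e ^ 2 → e ^ 2 ≤ kap m ^ 2 →
      kap m / 2 ≤ e ∧ e ≤ kap m := by
    intro e he h1 h2
    have hk := kap_pos m
    constructor
    · nlinarith [abs_le_of_sq_le_sq' (show kap m ^ 2 ≤ (2 * e) ^ 2 by nlinarith) (by positivity)]
    · exact (abs_le_of_sq_le_sq' h2 hk.le).2
  rcases Nat.even_or_odd' m with ⟨k, hk | hk⟩
  · subst hk
    obtain ⟨h1, h2⟩ := hf_even_origin k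
    rw [Eh_even]
    set a := hf (2 * k) 0 ^ 2 with ha
    have hk0 : (0:ℝ) ≤ k := Nat.cast_nonneg k
    have hkap : kap (2 * k) ^ 2 = 4 * (k:ℝ) + 1 := by rw [kap_sq]; push_cast; ring
    have ha0 : 0 ≤ a := sq_nonneg _
    have ha2 : (0:ℝ) ≤ a ^ 2 := sq_nonneg _
    apply key
    · positivity
    · rw [hkap]
      -- 4k+1 ≤ 4 (4k+1)^2 a^2 ; π ≤ 4
      have : 1 ≤ 4 * ((4 * (k:ℝ) + 1) * a ^ 2) := by
        calc 1 ≤ (4 * (k:ℝ) + 1) * (π * a ^ 2) := h1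
          _ ≤ (4 * (k:ℝ) + 1) * (4 * a ^ 2) := by
            apply mul_le_mul_of_nonneg_left _ (by positivity)
            exact mul_le_mul_of_nonneg_right hpi4 ha2
          _ = _ := by ring
      nlinarith
    · rw [hkap]
      have : 2 * ((2 * (k:ℝ) + 1) * a ^ 2) ≤ 1 := by
        calc 2 * ((2 * (k:ℝ) + 1) * a ^ 2) = (2 * (k:ℝ) + 1) * (2 * a ^ 2) := by ring
          _ ≤ (2 * (k:ℝ) + 1) * (π * a ^ 2) := by
            apply mul_le_mul_of_nonneg_left _ (by positivity)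
            exact mul_le_mul_of_nonneg_right hpi2 ha2
          _ ≤ 1 := h2
      nlinarith
  · subst hk
    obtain ⟨h1, h2⟩ := hf_even_origin k
    rw [Eh_odd]
    set a := hf (2 * k) 0 ^ 2 with ha
    have hk0 : (0:ℝ) ≤ k := Nat.cast_nonneg k
    have hkap : kap (2 * k + 1) ^ 2 = 4 * (k:ℝ) + 3 := by rw [kap_sq]; push_cast; ring
    have ha0 : 0 ≤ a := sq_nonneg _
    have ha2 : (0:ℝ) ≤ a ^ 2 := sq_nonneg _
    apply key
    · positivity
    · rw [hkap]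
      have : 1 ≤ 4 * ((4 * (k:ℝ) + 1) * a ^ 2) := by
        calc 1 ≤ (4 * (k:ℝ) + 1) * (π * a ^ 2) := h1
          _ ≤ (4 * (k:ℝ) + 1) * (4 * a ^ 2) := by
            apply mul_le_mul_of_nonneg_left _ (by positivity)
            exact mul_le_mul_of_nonneg_right hpi4 ha2
          _ = _ := by ring
      nlinarith
    · rw [hkap]
      have : 2 * ((2 * (k:ℝ) + 1) * a ^ 2) ≤ 1 := by
        calc 2 * ((2 * (k:ℝ) + 1) * a ^ 2) = (2 * (k:ℝ) + 1) * (2 * a ^ 2) := by ring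
          _ ≤ (2 * (k:ℝ) + 1) * (π * a ^ 2) := by
            apply mul_le_mul_of_nonneg_left _ (by positivity)
            exact mul_le_mul_of_nonneg_right hpi2 ha2
          _ ≤ 1 := h2
      nlinarith

end Crest.Agent.R338.WKB

end
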