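import Crest.Agent.R338.EX0
import Crest.Agent.R338.WCBase
import Crest.Agent.R338.NuH

/-!
# Row 338, node WP (helper518), file 2: Hermite functions and cutoffs at real points are
computable reals (`PTR`, calculus of helper860)
-/

set_option autoImplicit false

open Crest.Agent.Lib.PT Crest.Agent.R338.Nu

noncomputable section

namespace Crest.Agent.R338.WP

variable {α : Type} [PTCode α]

/-! ### Hermite polynomials -/

theorem ptr_hc {m p : α → ℕ} (hm : PTU m) (hp : PTU p) :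
    PTR (fun a => ((EX.hc (m a) (p a) : ℚ) : ℝ)) := by
  have hd : PTU (fun a => (m a - p a) / 2) := ptu_div (PTU.sub hm hp) (PTU.const 2)
  have hmod : PTU (fun a => (m a - p a) % 2) := ptu_mod (PTU.sub hm hp) (PTU.const 2)
  have h1 : PTR (fun a => (-1 : ℝ) ^ ((m a - p a) / 2) * ((m a).factorial : ℝ) * 2 ^ (p a) /
      ((((m a - p a) / 2).factorial : ℝ) * ((p a).factorial : ℝ))) := by
    have h2 := ((PTR.negOnePow hd).mul (PTR.factorial hm)).mul (PTR.twoPow hp)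
    have h3 := (PTR.factorialInv hd).mul (PTR.factorialInv hp)
    refine (h2.mul h3).of_eq (fun a => ?_)
    rw [div_eq_mul_inv, mul_inv]
  refine (PTR.ite (p := fun a => p a ≤ m a ∧ (m a - p a) % 2 = 0)
    (PTPred.and (PTU.le hp hm) (PTU.eq hmod (PTU.const 0))) h1 PTR.zero).of_eq (fun a => ?_)
  unfold EX.hc
  split_ifs with h
  · push_cast; rfl
  · simp

theorem sqrt_sqrt_pi_ge : (1 : ℝ) ≤ √√Real.pi := by
  have h1 : (1 : ℝ) ≤ Real.pi := by linarith [Real.pi_gt_three]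
  have h2 : (1 : ℝ) ≤ √Real.pi := by
    rw [show (1 : ℝ) = √1 by simp]; exact Real.sqrt_le_sqrt h1
  rw [show (1 : ℝ) = √1 by simp]
  exact Real.sqrt_le_sqrt h2

theorem pi_rpow : Real.pi ^ (-(1 / 4) : ℝ) = (√√Real.pi)⁻¹ := by
  have hp := Real.pi_pos
  rw [Real.rpow_neg hp.le, Real.sqrt_eq_rpow, Real.sqrt_eq_rpow, ← Real.rpow_mul hp.le]
  norm_num

/-- `π^(-1/4)` -/
theorem ptr_pi4 : PTR (fun _ : α => Real.pi ^ (-(1 / 4) : ℝ)) := by
  have h : PTR (fun _ : α => √√Real.pi) := (PTR.pi.sqrt).sqrt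
  refine (h.inv' (c := fun _ => 1) (PTU.const 1) (fun a => ?_)).of_eq (fun a => pi_rpow.symm)
  rw [abs_of_nonneg (Real.sqrt_nonneg _)]
  simpa using sqrt_sqrt_pi_ge

theorem ptr_hn {m : α → ℕ} (hm : PTU m) : PTR (fun a => EX.hn (m a)) := by
  have h1 : PTR (fun a => √((2 : ℝ) ^ (m a) * ((m a).factorial : ℝ))) :=
    ((PTR.twoPow hm).mul (PTR.factorial hm)).sqrt
  refine ptr_pi4.div h1 (c := fun _ => 1) (PTU.const 1) (fun a => ?_)
  rw [abs_of_nonneg (Real.sqrt_nonneg _)]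
  have h2 : (1 : ℝ) ≤ (2 : ℝ) ^ (m a) := one_le_pow₀ (by norm_num)
  have h3 : (1 : ℝ) ≤ ((m a).factorial : ℝ) := by exact_mod_cast (m a).factorial_pos
  have h4 : (1 : ℝ) ≤ (2 : ℝ) ^ (m a) * ((m a).factorial : ℝ) := by nlinarith
  simp only [Nat.cast_one, one_mul]
  rw [show (1 : ℝ) = √1 by simp]
  exact Real.sqrt_le_sqrt h4

theorem ptr_HP {m : α → ℕ} (hm : PTU m) {x : α → ℝ} (hx : PTR x) :
    PTR (fun a => (EX.HP (m a)).eval (x a)) := by
  have h : PTR (fun a => ∑ p ∈ Finset.range (m a + 1), ((EX.hc (m a) p : ℚ) : ℝ) * x a ^ p) :=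
    PTR.sumRange (r := fun a p => ((EX.hc (m a) p : ℚ) : ℝ) * x a ^ p) (PTU.succ hm)
      ((ptr_hc (α := α × Un) (m := fun p => m p.1) (p := fun p => p.2.val)
        (PTU.comp hm PTF.fst) ptu_snd).mul (PTR.pow (hx.comp PTF.fst) ptu_snd))
  exact h.of_eq (fun a => (EX.eval_HP (m a) (x a)).symm)

/-- Gaussians -/
theorem ptr_gauss {x : α → ℝ} (hx : PTR x) {B : α → ℕ} (hB : PTU B) (h : ∀ a, |x a| ≤ B a) :
    PTR (fun a => Real.exp (-(x a ^ 2) / 2)) := by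
  refine PTR.exp ((hx.powConst 2).neg.divOfNat 2) (B := fun a => B a ^ 2) (PTU.pow hB 2) (fun a => ?_)
  rw [abs_div, abs_neg, abs_pow, abs_two]
  push_cast
  have h1 : |x a| ^ 2 ≤ (B a : ℝ) ^ 2 := by gcongr; exact h a
  have h2 : 0 ≤ |x a| ^ 2 := by positivity
  linarith

theorem ptr_gauss2 {x : α → ℝ} (hx : PTR x) {B : α → ℕ} (hB : PTU B) (h : ∀ a, |x a| ≤ B a) :
    PTR (fun a => Real.exp (-2 * x a ^ 2)) := by
  have h0 := ptr_gauss hx hB h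
  refine (h0.powConst 4).of_eq (fun a => ?_)
  rw [← Real.exp_nat_mul]
  congr 1; push_cast; ring

/-- **Hermite functions at real points** -/
theorem ptr_hf {m : α → ℕ} (hm : PTU m) {x : α → ℝ} (hx : PTR x) {B : α → ℕ} (hB : PTU B)
    (h : ∀ a, |x a| ≤ B a) : PTR (fun a => HO.hf (m a) (x a)) :=
  (((ptr_hn hm).mul (ptr_HP hm hx)).mul (ptr_gauss hx hB h)).of_eq
    (fun a => (EX.hf_eq (m a) (x a)).symm)

theorem ptr_dhf {m : α → ℕ} (hm : PTU m) {x : α → ℝ} (hx : PTR x) {B : α → ℕ} (hB : PTU B)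
    (h : ∀ a, |x a| ≤ B a) : PTR (fun a => WC.dhf (m a) (x a)) := by
  have h1 : PTR (fun a => √((m a : ℝ) / 2)) := ((PTR.natCastU hm).divOfNat 2).sqrt
  have h2 : PTR (fun a => √(((m a : ℝ) + 1) / 2)) :=
    (((PTR.natCastU hm).add PTR.one).divOfNat 2).sqrt
  exact (h1.mul (ptr_hf (PTU.sub hm (PTU.const 1)) hx hB h)).sub
    (h2.mul (ptr_hf (PTU.succ hm) hx hB h))

theorem ptr_vv {m k : α → ℕ} (hm : PTU m) (hk : PTU k) {x : α → ℝ} (hx : PTR x) {B : α → ℕ}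
    (hB : PTU B) (h : ∀ a, |x a| ≤ B a) : PTR (fun a => WC.vv (m a) (k a) (x a)) :=
  (ptr_gauss2 hx hB h).mul ((ptr_hf hm hx hB h).mul (ptr_hf hk hx hB h))

theorem ptr_dvv {m k : α → ℕ} (hm : PTU m) (hk : PTU k) {x : α → ℝ} (hx : PTR x) {B : α → ℕ}
    (hB : PTU B) (h : ∀ a, |x a| ≤ B a) : PTR (fun a => WC.dvv (m a) (k a) (x a)) := by
  have h4 : PTR (fun a => -4 * x a) := (PTR.ofNat 4).neg.mul hx
  exact (((ptr_gauss2 hx hB h).mul h4).mul ((ptr_hf hm hx hB h).mul (ptr_hf hk hx hB h))).add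
    ((ptr_gauss2 hx hB h).mul (((ptr_dhf hm hx hB h).mul (ptr_hf hk hx hB h)).add
      ((ptr_hf hm hx hB h).mul (ptr_dhf hk hx hB h))))

/-! ### the cutoff -/

theorem ptr_cl {u : α → ℝ} (hu : PTR u) : PTR (fun a => WC.cl (u a)) :=
  PTR.zero.max (PTR.one.min hu)

theorem ptr_Sc {u : α → ℝ} (hu : PTR u) : PTR (fun a => WC.Sc (u a)) := by
  have h := ptr_cl hu
  unfold WC.Sc WC.Sm
  fun_prop

theorem ptr_Sc1 {u : α → ℝ} (hu : PTR u) : PTR (fun a => WC.Sc1 (u a)) := by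
  have h := ptr_cl hu
  unfold WC.Sc1 WC.Sm1
  fun_prop

theorem ptr_chi {t : α → ℝ} (ht : PTR t) : PTR (fun a => WC.chi (t a)) :=
  ptr_Sc ((PTR.ofNat 2).sub ht.abs)

theorem ptr_chi1 {t : α → ℝ} (ht : PTR t) : PTR (fun a => WC.chi1 (t a)) := by
  have h1 : PTR (fun a => 2 - t a) := (PTR.ofNat 2).sub ht
  have h2 : PTR (fun a => 2 + t a) := (PTR.ofNat 2).add ht
  exact ((ptr_Sc h1).mul (ptr_Sc1 h2)).sub ((ptr_Sc1 h1).mul (ptr_Sc h2))

theorem ptr_inv2R {R : α → ℝ} (hR : PTR R) (h1 : ∀ a, 1 ≤ R a) : PTR (fun a => (2 * R a)⁻¹) := by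
  refine ((PTR.ofNat 2).mul hR).inv' (c := fun _ => 1) (PTU.const 1) (fun a => ?_)
  have := h1 a
  rw [abs_of_nonneg (by linarith)]
  push_cast
  linarith

theorem ptr_chR {R t : α → ℝ} (hR : PTR R) (h1 : ∀ a, 1 ≤ R a) (ht : PTR t) :
    PTR (fun a => WC.chR (R a) (t a)) :=
  ptr_chi (ht.div_of_inv (ptr_inv2R hR h1))

theorem ptr_dchR {R t : α → ℝ} (hR : PTR R) (h1 : ∀ a, 1 ≤ R a) (ht : PTR t) :
    PTR (fun a => WC.dchR (R a) (t a)) :=
  (ptr_chi1 (ht.div_of_inv (ptr_inv2R hR h1))).div_of_inv (ptr_inv2R hR h1)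

end Crest.Agent.R338.WP
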