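import Crest.Agent.R338.WP2
import Crest.Agent.R338.LagPT

/-!
# Row 338, node WP (helper518), file 3: the partial derivatives `dwc` of the cut-off designer
potential at real points are computable reals (`PTR`)
-/

set_option autoImplicit false

open Crest.Agent.Lib.PT Crest.Agent.R338.Nu
open Crest.MathPhysics.ElectronicCoulomb

noncomputable section

namespace Crest.Agent.R338.WP

variable {α : Type} [PTCode α]

theorem ptu_mi' {n k i : α → ℕ} (hn : PTU n) (hk : PTU k) (hi : PTU i) :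
    PTU (fun a => WC.mi' (n a) (k a) (i a)) := by
  unfold WC.mi'; fun_prop

/-- the data of the potential, computable -/
structure PTW (n k : α → ℕ) (Lam R : α → ℝ) (A : α → ℕ → ℕ → ℝ) (a : α → ℕ → ℝ) : Prop where
  hn : PTU n
  hk : PTU k
  hL : PTR Lam
  hR : PTR R
  h1 : ∀ x, 1 ≤ R x
  hA : PTR (fun p : (α × Un) × Un => A p.1.1 p.1.2.val p.2.val)
  ha : PTR (fun p : α × Un => a p.1 p.2.val)

variable {n k : α → ℕ} {Lam R : α → ℝ} {A : α → ℕ → ℕ → ℝ} {a : α → ℕ → ℝ}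

/-- selection sums -/
theorem PTW.sel (H : PTW n k Lam R A a) {F : ℕ → ℝ → ℝ}
    (hF : ∀ {β : Type} [PTCode β] {m B : β → ℕ} {x : β → ℝ}, PTU m → PTR x → PTU B →
      (∀ b, |x b| ≤ B b) → PTR (fun b => F (m b) (x b)))
    {x : α → ℝ} (hx : PTR x) {B : α → ℕ} (hB : PTU B) (h : ∀ y, |x y| ≤ B y) :
    PTR (fun y => ∑ i ∈ Finset.range (n y), (Lam y - a y i) * F (mi (n y) (k y) i) (x y)) := by
  refine PTR.sumRange (r := fun y i => (Lam y - a y i) * F (mi (n y) (k y) i) (x y)) H.hn ?_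
  have hm : PTU (fun p : α × Un => mi (n p.1) (k p.1) p.2.val) :=
    ptu_mi (PTU.comp H.hn PTF.fst) (PTU.comp H.hk PTF.fst) ptu_snd
  exact ((H.hL.comp PTF.fst).sub H.ha).mul
    (hF (β := α × Un) (m := fun p => mi (n p.1) (k p.1) p.2.val) (B := fun p => B p.1)
      (x := fun p => x p.1) hm (hx.comp PTF.fst) (PTU.comp hB PTF.fst) (fun b => h b.1))

/-- hopping sums -/
theorem PTW.hop (H : PTW n k Lam R A a) {F F' : ℕ → ℕ → ℝ → ℝ}
    (hF : ∀ {β : Type} [PTCode β] {m m' B : β → ℕ} {x : β → ℝ}, PTU m → PTU m' → PTR x → PTU B →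
      (∀ b, |x b| ≤ B b) → PTR (fun b => F (m b) (m' b) (x b)))
    (hF' : ∀ {β : Type} [PTCode β] {m m' B : β → ℕ} {x : β → ℝ}, PTU m → PTU m' → PTR x → PTU B →
      (∀ b, |x b| ≤ B b) → PTR (fun b => F' (m b) (m' b) (x b)))
    {x x' : α → ℝ} (hx : PTR x) (hx' : PTR x') {B : α → ℕ} (hB : PTU B) (h : ∀ y, |x y| ≤ B y)
    (h' : ∀ y, |x' y| ≤ B y) :
    PTR (fun y => ∑ i ∈ Finset.range (n y), ∑ j ∈ Finset.range (n y), if i < j then
      A y i j * (F (mi (n y) (k y) i) (mi (n y) (k y) j) (x y) *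
        F' (WC.mi' (n y) (k y) i) (WC.mi' (n y) (k y) j) (x' y)) else 0) := by
  refine PTR.sum2lt (r := fun y i j => A y i j * (F (mi (n y) (k y) i) (mi (n y) (k y) j) (x y) *
        F' (WC.mi' (n y) (k y) i) (WC.mi' (n y) (k y) j) (x' y))) H.hn H.hn ?_
  have e1 : PTF (fun p : (α × Un) × Un => p.1.1) := PTF.comp PTF.fst PTF.fst
  have ui : PTU (fun p : (α × Un) × Un => p.1.2.val) := PTU.val (by fun_prop)
  have uj : PTU (fun p : (α × Un) × Un => p.2.val) := ptu_snd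
  have un : PTU (fun p : (α × Un) × Un => n p.1.1) := PTU.comp H.hn e1
  have uk : PTU (fun p : (α × Un) × Un => k p.1.1) := PTU.comp H.hk e1
  have uB : PTU (fun p : (α × Un) × Un => B p.1.1) := PTU.comp hB e1
  exact H.hA.mul ((hF (β := (α × Un) × Un) (m := fun p => mi (n p.1.1) (k p.1.1) p.1.2.val)
      (m' := fun p => mi (n p.1.1) (k p.1.1) p.2.val) (B := fun p => B p.1.1)
      (x := fun p => x p.1.1) (ptu_mi un uk ui) (ptu_mi un uk uj) (hx.comp e1) uB
      (fun b => h b.1.1)).mul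
    (hF' (β := (α × Un) × Un) (m := fun p => WC.mi' (n p.1.1) (k p.1.1) p.1.2.val)
      (m' := fun p => WC.mi' (n p.1.1) (k p.1.1) p.2.val) (B := fun p => B p.1.1)
      (x := fun p => x' p.1.1) (ptu_mi' un uk ui) (ptu_mi' un uk uj) (hx'.comp e1) uB
      (fun b => h' b.1.1)))

section
variable {x : α → Pos3} {B : α → ℕ}

theorem PTW.wpot (H : PTW n k Lam R A a) (hx : ∀ c, PTR (fun y => x y c)) (hB : PTU B)
    (h : ∀ y c, |x y c| ≤ B y) :
    PTR (fun y => wpot (n y) (k y) (Lam y) (A y) (a y) (x y)) := by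
  have h1 : PTR (fun y => -Lam y * Lag.Dsel 0 (x y 2)) :=
    H.hL.neg.mul (Lag.PTR.Dsel (m := fun _ => 0) (PTU.const 0) (hx 2) hB (fun y => h y 2))
  have h2 := H.sel (F := Lag.Dsel) (fun hm hx hB h => Lag.PTR.Dsel hm hx hB h) (hx 0) hB (fun y => h y 0)
  have h3 := H.hop (F := WC.vv) (F' := WC.vv) (fun hm hm' hx hB h => ptr_vv hm hm' hx hB h)
    (fun hm hm' hx hB h => ptr_vv hm hm' hx hB h) (hx 0) (hx 1) hB (fun y => h y 0) (fun y => h y 1)
  exact ((h1.sub h2).add h3).of_eq (fun y => (WC.wpot_eq _ _ _ _ _ _).symm)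

theorem PTW.dw (H : PTW n k Lam R A a) (hx : ∀ c, PTR (fun y => x y c)) (hB : PTU B)
    (h : ∀ y c, |x y c| ≤ B y) (c : Fin 3) :
    PTR (fun y => WC.dw (n y) (k y) (Lam y) (A y) (a y) c (x y)) := by
  fin_cases c
  · have h2 := H.sel (F := WC.dD) (fun hm hx hB h => Lag.PTR.derivDsel hm hx hB h) (hx 0) hB
      (fun y => h y 0)
    have h3 := H.hop (F := WC.dvv) (F' := WC.vv) (fun hm hm' hx hB h => ptr_dvv hm hm' hx hB h)
      (fun hm hm' hx hB h => ptr_vv hm hm' hx hB h) (hx 0) (hx 1) hB (fun y => h y 0)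
      (fun y => h y 1)
    exact (h2.neg.add h3).of_eq (fun y => rfl)
  · have h3 := H.hop (F := WC.vv) (F' := WC.dvv) (fun hm hm' hx hB h => ptr_vv hm hm' hx hB h)
      (fun hm hm' hx hB h => ptr_dvv hm hm' hx hB h) (hx 0) (hx 1) hB (fun y => h y 0)
      (fun y => h y 1)
    exact h3.of_eq (fun y => rfl)
  · have h1 : PTR (fun y => -Lam y * WC.dD 0 (x y 2)) :=
      H.hL.neg.mul (Lag.PTR.derivDsel (m := fun _ => 0) (PTU.const 0) (hx 2) hB (fun y => h y 2))
    exact h1.of_eq (fun y => rfl)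

/-- **the partial derivatives of the cut-off potential are computable** -/
theorem PTW.dwc (H : PTW n k Lam R A a) (hx : ∀ c, PTR (fun y => x y c)) (hB : PTU B)
    (h : ∀ y c, |x y c| ≤ B y) (c : Fin 3) :
    PTR (fun y => WC.dwc (n y) (k y) (Lam y) (A y) (a y) (R y) c (x y)) := by
  have hc : ∀ c, PTR (fun y => WC.chR (R y) (x y c)) := fun c => ptr_chR H.hR H.h1 (hx c)
  have hd : ∀ c, PTR (fun y => WC.dchR (R y) (x y c)) := fun c => ptr_dchR H.hR H.h1 (hx c)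
  have h1 := (H.dw hx hB h c).mul (((hc 0).mul (hc 1)).mul (hc 2))
  have h2 := H.wpot hx hB h
  fin_cases c
  · exact (h1.add (h2.mul (((hd 0).mul (hc 1)).mul (hc 2)))).of_eq (fun y => rfl)
  · exact (h1.add (h2.mul (((hc 0).mul (hd 1)).mul (hc 2)))).of_eq (fun y => rfl)
  · exact (h1.add (h2.mul (((hc 0).mul (hc 1)).mul (hd 2)))).of_eq (fun y => rfl)

end

end Crest.Agent.R338.WP
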