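import Mathlib

/-!
# Row 338, module XF1 (helper345): Gaussian moments
-/

set_option autoImplicit false

open MeasureTheory Real Finset

noncomputable section

namespace Crest.Agent.R338.XF

/-- `(2k-1)!!` -/
def df (k : ℕ) : ℕ := ∏ i ∈ range k, (2 * i + 1)

theorem df_succ (k : ℕ) : df (k + 1) = df k * (2 * k + 1) := by
  unfold df; rw [prod_range_succ]

theorem df_zero : df 0 = 1 := by simp [df]

theorem integrable_pow_gauss (n : ℕ) {b : ℝ} (hb : 0 < b) :
    Integrable (fun x : ℝ => x ^ n * Real.exp (-b * x ^ 2)) := by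
  have h := integrable_rpow_mul_exp_neg_mul_sq hb (s := (n : ℝ)) (by
    have := n.cast_nonneg (α := ℝ); linarith)
  refine h.congr (Filter.Eventually.of_forall fun x => ?_)
  simp only [Real.rpow_natCast]

theorem gauss_moment_rec (n : ℕ) {b : ℝ} (hb : 0 < b) :
    ∫ x : ℝ, x ^ (n + 2) * Real.exp (-b * x ^ 2) =
      ((n : ℝ) + 1) / (2 * b) * ∫ x : ℝ, x ^ n * Real.exp (-b * x ^ 2) := by
  have hd : ∀ x : ℝ, HasDerivAt (fun x : ℝ => x ^ (n + 1) * Real.exp (-b * x ^ 2))
      (((n : ℝ) + 1) * (x ^ n * Real.exp (-b * x ^ 2)) -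
        2 * b * (x ^ (n + 2) * Real.exp (-b * x ^ 2))) x := by
    intro x
    have h1 : HasDerivAt (fun x : ℝ => x ^ (n + 1)) (((n : ℝ) + 1) * x ^ n) x := by
      have := hasDerivAt_pow (n + 1) x
      simpa using this
    have h2 : HasDerivAt (fun x : ℝ => -b * x ^ 2) (-b * (2 * x)) x := by
      have := (hasDerivAt_pow 2 x).const_mul (-b)
      simpa using this
    have h3 := h1.mul h2.exp
    refine h3.congr_deriv ?_
    ring
  have hi1 := integrable_pow_gauss n hb
  have hi2 := integrable_pow_gauss (n + 2) hb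
  have h := integral_eq_zero_of_hasDerivAt_of_integrable hd
    ((hi1.const_mul _).sub (hi2.const_mul _)) (integrable_pow_gauss (n + 1) hb)
  rw [integral_sub (hi1.const_mul _) (hi2.const_mul _), integral_const_mul, integral_const_mul] at h
  have hb' : (2 * b) ≠ 0 := by positivity
  rw [div_mul_eq_mul_div, eq_div_iff hb']
  linarith

theorem gauss_moment_even (k : ℕ) {b : ℝ} (hb : 0 < b) :
    ∫ x : ℝ, x ^ (2 * k) * Real.exp (-b * x ^ 2) = √(π / b) * ((df k : ℝ) / (2 * b) ^ k) := by
  induction k with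
  | zero =>
    have := integral_gaussian b
    simp only [mul_zero, pow_zero, one_mul, df_zero, Nat.cast_one, div_one, mul_one]
    exact this
  | succ k ih =>
    have e : 2 * (k + 1) = 2 * k + 2 := by ring
    rw [e, gauss_moment_rec _ hb, ih, df_succ]
    push_cast
    rw [pow_succ]
    field_simp

theorem gauss_moment_odd (k : ℕ) {b : ℝ} (hb : 0 < b) :
    ∫ x : ℝ, x ^ (2 * k + 1) * Real.exp (-b * x ^ 2) = 0 := by
  have h := integral_neg_eq_self (fun x : ℝ => x ^ (2 * k + 1) * Real.exp (-b * x ^ 2)) volume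
  have e : (fun x : ℝ => (-x) ^ (2 * k + 1) * Real.exp (-b * (-x) ^ 2)) =
      fun x => -(x ^ (2 * k + 1) * Real.exp (-b * x ^ 2)) := by
    ext x
    rw [Odd.neg_pow ⟨k, rfl⟩, neg_sq]; ring
  rw [e, integral_neg] at h
  linarith

/-- all moments: `gmom n = (n-1)!!` for even `n`, `0` for odd `n` (variance one) -/
def gmom (n : ℕ) : ℕ := if n % 2 = 0 then df (n / 2) else 0

theorem gauss_moment (n : ℕ) {b : ℝ} (hb : 0 < b) :
    ∫ x : ℝ, x ^ n * Real.exp (-b * x ^ 2) = √(π / b) * ((gmom n : ℝ) / (2 * b) ^ (n / 2)) := by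
  unfold gmom
  rcases Nat.even_or_odd' n with ⟨k, rfl | rfl⟩
  · have h1 : 2 * k % 2 = 0 := by omega
    have h2 : 2 * k / 2 = k := by omega
    rw [if_pos h1, h2, gauss_moment_even k hb]
  · have h1 : ¬ ((2 * k + 1) % 2 = 0) := by omega
    rw [if_neg h1, gauss_moment_odd k hb]; simp

end Crest.Agent.R338.XF
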