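import Crest.Agent.R338.XF1

/-!
# Row 338, module XF2 (helper345): the one dimensional factor of the Coulomb integrals

`∫∫ x^p y^q exp (-x²-y²-t²(x-y)²) dx dy = π √v R_{p,q}(v)`, `v = 1/(1+2t²)`.
-/

set_option autoImplicit false

open MeasureTheory Real Finset

noncomputable section

namespace Crest.Agent.R338.XF

/-- the integrand -/
def gk (p q : ℕ) (t x y : ℝ) : ℝ :=
  x ^ p * y ^ q * Real.exp (-x ^ 2 - y ^ 2 - t ^ 2 * (x - y) ^ 2)

theorem continuous_gk (p q : ℕ) (t : ℝ) :
    Continuous (fun z : ℝ × ℝ => gk p q t z.1 z.2) := by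
  unfold gk; fun_prop

theorem integrable_gk (p q : ℕ) (t : ℝ) :
    Integrable (fun z : ℝ × ℝ => gk p q t z.1 z.2) (volume.prod volume) := by
  have h := (integrable_pow_gauss p one_pos).mul_prod (integrable_pow_gauss q one_pos)
  refine h.mono (continuous_gk p q t).aestronglyMeasurable (Filter.Eventually.of_forall ?_)
  rintro ⟨x, y⟩
  simp only [gk]
  have e : x ^ p * Real.exp (-1 * x ^ 2) * (y ^ q * Real.exp (-1 * y ^ 2)) =
      x ^ p * y ^ q * Real.exp (-x ^ 2 - y ^ 2) := by
    have : -x ^ 2 - y ^ 2 = -1 * x ^ 2 + -1 * y ^ 2 := by ring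
    rw [this, Real.exp_add]; ring
  rw [e, norm_mul, norm_mul (x ^ p * y ^ q)]
  gcongr
  rw [Real.norm_eq_abs, Real.norm_eq_abs, abs_of_pos (Real.exp_pos _), abs_of_pos (Real.exp_pos _)]
  apply Real.exp_le_exp.2
  have : 0 ≤ t ^ 2 * (x - y) ^ 2 := by positivity
  linarith

/-- `v = 1/(1+2t²)` -/
def vv (t : ℝ) : ℝ := (1 + 2 * t ^ 2)⁻¹

theorem vv_pos (t : ℝ) : 0 < vv t := by unfold vv; positivity

theorem vv_le_one (t : ℝ) : vv t ≤ 1 := by
  unfold vv
  apply inv_le_one_of_one_le₀
  nlinarith [sq_nonneg t]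

/-- the polynomial `R_{p,q}` -/
def Rpq (p q : ℕ) (v : ℝ) : ℝ :=
  (1 / 2) ^ (p + q) * ∑ i ∈ range (p + 1), ∑ j ∈ range (q + 1),
    (-1) ^ i * (p.choose i : ℝ) * (q.choose j : ℝ) * (gmom (p + q - (i + j)) : ℝ) *
      (gmom (i + j) : ℝ) * v ^ ((i + j) / 2)

theorem pow_expand (p q : ℕ) (r w : ℝ) : (r - w) ^ p * (r + w) ^ q =
    ∑ i ∈ range (p + 1), ∑ j ∈ range (q + 1),
      ((-1) ^ i * (p.choose i : ℝ) * (q.choose j : ℝ)) * (r ^ (p + q - (i + j)) * w ^ (i + j)) := by
  have h1 : (r - w) ^ p = ∑ i ∈ range (p + 1), ((-1) ^ i * (p.choose i : ℝ)) * (r ^ (p - i) * w ^ i) := by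
    rw [sub_eq_neg_add, add_pow]
    refine sum_congr rfl fun i _ => ?_
    rw [neg_pow]; ring
  have h2 : (r + w) ^ q = ∑ j ∈ range (q + 1), (q.choose j : ℝ) * (r ^ (q - j) * w ^ j) := by
    rw [add_comm, add_pow]
    refine sum_congr rfl fun i _ => ?_
    ring
  rw [h1, h2, sum_mul_sum]
  refine sum_congr rfl fun i hi => sum_congr rfl fun j hj => ?_
  rw [mem_range] at hi hj
  have e : p + q - (i + j) = (p - i) + (q - j) := by omega
  rw [e, pow_add, pow_add]
  ring

theorem gmom_odd {n : ℕ} (h : ¬ n % 2 = 0) : gmom n = 0 := if_neg h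

theorem double_gauss (p q : ℕ) (t : ℝ) :
    ∫ x : ℝ, ∫ y : ℝ, gk p q t x y = π * √(vv t) * Rpq p q (vv t) := by
  -- y = x + s
  have s1 : ∀ x : ℝ, ∫ y : ℝ, gk p q t x y = ∫ s : ℝ, gk p q t x (x + s) := by
    intro x
    exact (integral_add_left_eq_self (fun y => gk p q t x y) x).symm
  simp only [s1]
  have hint : Integrable (fun z : ℝ × ℝ => gk p q t z.1 (z.1 + z.2)) (volume.prod volume) := by
    have h := (measurePreserving_prod_add (volume : Measure ℝ) (volume : Measure ℝ)).integrable_comp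
      (g := fun z : ℝ × ℝ => gk p q t z.1 z.2)
      (continuous_gk p q t).aestronglyMeasurable
    exact h.2 (integrable_gk p q t)
  rw [integral_integral_swap hint]
  -- x = r - s/2
  have s2 : ∀ s : ℝ, ∫ x : ℝ, gk p q t x (x + s) =
      ∫ r : ℝ, ((r - s / 2) ^ p * (r + s / 2) ^ q) *
        (Real.exp (-2 * r ^ 2) * Real.exp (-(1 / 2 + t ^ 2) * s ^ 2)) := by
    intro s
    rw [← integral_sub_right_eq_self (fun x => gk p q t x (x + s)) (s / 2)]
    refine integral_congr_ae (Filter.Eventually.of_forall fun r => ?_)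
    simp only [gk]
    have e1 : r - s / 2 + s = r + s / 2 := by ring
    rw [e1, ← Real.exp_add]
    congr 2
    ring
  simp only [s2]
  -- expand
  have hb1 : (0 : ℝ) < 2 := two_pos
  have hb2 : (0 : ℝ) < 1 / 2 + t ^ 2 := by positivity
  have s3 : ∀ s : ℝ, ∫ r : ℝ, ((r - s / 2) ^ p * (r + s / 2) ^ q) *
        (Real.exp (-2 * r ^ 2) * Real.exp (-(1 / 2 + t ^ 2) * s ^ 2)) =
      ∑ i ∈ range (p + 1), ∑ j ∈ range (q + 1),
        ((-1) ^ i * (p.choose i : ℝ) * (q.choose j : ℝ)) *
        ((√(π / 2) * ((gmom (p + q - (i + j)) : ℝ) / (2 * 2) ^ ((p + q - (i + j)) / 2))) *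
          ((1 / 2) ^ (i + j) * (s ^ (i + j) * Real.exp (-(1 / 2 + t ^ 2) * s ^ 2)))) := by
    intro s
    have e : ∀ r : ℝ, ((r - s / 2) ^ p * (r + s / 2) ^ q) *
        (Real.exp (-2 * r ^ 2) * Real.exp (-(1 / 2 + t ^ 2) * s ^ 2)) =
        ∑ i ∈ range (p + 1), ∑ j ∈ range (q + 1),
        (((-1) ^ i * (p.choose i : ℝ) * (q.choose j : ℝ)) *
          ((1 / 2) ^ (i + j) * (s ^ (i + j) * Real.exp (-(1 / 2 + t ^ 2) * s ^ 2)))) *
          (r ^ (p + q - (i + j)) * Real.exp (-2 * r ^ 2)) := by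
      intro r
      rw [pow_expand, sum_mul]
      refine sum_congr rfl fun i _ => ?_
      rw [sum_mul]
      refine sum_congr rfl fun j _ => ?_
      rw [div_pow, div_eq_mul_inv, ← inv_pow, one_div]
      ring
    simp only [e]
    rw [integral_finsetSum]
    · refine sum_congr rfl fun i _ => ?_
      rw [integral_finsetSum]
      · refine sum_congr rfl fun j _ => ?_
        rw [integral_const_mul, gauss_moment _ hb1]
        ring
      · intro j _
        exact (integrable_pow_gauss _ hb1).const_mul _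
    · intro i _
      refine integrable_finsetSum _ fun j _ => ?_
      exact (integrable_pow_gauss _ hb1).const_mul _
  simp only [s3]
  rw [integral_finsetSum]
  · have s4 : ∀ i ∈ range (p + 1), ∫ s : ℝ, ∑ j ∈ range (q + 1),
        ((-1) ^ i * (p.choose i : ℝ) * (q.choose j : ℝ)) *
        ((√(π / 2) * ((gmom (p + q - (i + j)) : ℝ) / (2 * 2) ^ ((p + q - (i + j)) / 2))) *
          ((1 / 2) ^ (i + j) * (s ^ (i + j) * Real.exp (-(1 / 2 + t ^ 2) * s ^ 2)))) =
        ∑ j ∈ range (q + 1), π * √(vv t) * ((1 / 2) ^ (p + q) *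
          ((-1) ^ i * (p.choose i : ℝ) * (q.choose j : ℝ) * (gmom (p + q - (i + j)) : ℝ) *
            (gmom (i + j) : ℝ) * (vv t) ^ ((i + j) / 2))) := by
      intro i hi
      rw [integral_finsetSum]
      · refine sum_congr rfl fun j hj => ?_
        rw [mem_range] at hi hj
        rw [integral_const_mul, integral_const_mul, integral_const_mul, gauss_moment _ hb2]
        by_cases h1 : (i + j) % 2 = 0
        · by_cases h2 : (p + q - (i + j)) % 2 = 0
          · obtain ⟨a, ha⟩ : ∃ a, i + j = 2 * a := ⟨(i + j) / 2, by omega⟩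
            obtain ⟨b, hb⟩ : ∃ b, p + q - (i + j) = 2 * b := ⟨(p + q - (i + j)) / 2, by omega⟩
            have hpq : p + q = 2 * b + 2 * a := by omega
            have ea : 2 * a / 2 = a := by omega
            have eb : 2 * b / 2 = b := by omega
            have hs : √(π / 2) * √(π / (1 / 2 + t ^ 2)) = π * √(vv t) := by
              rw [← Real.sqrt_mul (by positivity)]
              have : π / 2 * (π / (1 / 2 + t ^ 2)) = π ^ 2 * vv t := by
                unfold vv; field_simp
              rw [this, Real.sqrt_mul (by positivity), Real.sqrt_sq Real.pi_pos.le]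
            have hv : (2 * (1 / 2 + t ^ 2)) = (vv t)⁻¹ := by
              unfold vv; rw [inv_inv]; ring
            rw [ha] at *
            rw [hb, ea, eb, hv, hpq, ← hs]
            have e4 : ((2 : ℝ) * 2) ^ b = 2 ^ (2 * b) := by
              rw [pow_mul]; norm_num
            have hv0 : (vv t) ≠ 0 := (vv_pos t).ne'
            rw [e4, pow_add, inv_pow, one_div, inv_pow, inv_pow, div_inv_eq_mul]
            field_simp
          · rw [gmom_odd h2]; simp
        · rw [gmom_odd h1]; simp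
      · intro j _
        exact (((integrable_pow_gauss _ hb2).const_mul _).const_mul _).const_mul _
    rw [sum_congr rfl s4]
    unfold Rpq
    rw [mul_sum, mul_sum]
    refine sum_congr rfl fun i _ => ?_
    rw [mul_sum, mul_sum]
  · intro i _
    refine integrable_finsetSum _ fun j _ => ?_
    exact (((integrable_pow_gauss _ hb2).const_mul _).const_mul _).const_mul _

end Crest.Agent.R338.XF
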