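import Crest.Agent.R338.XF2

/-!
# Row 338, module XF3 (helper345): `∫_0^∞ v^{k+3/2} dt`, `v = 1/(1+2t²)`
-/

set_option autoImplicit false

open MeasureTheory Real Finset Filter Topology

noncomputable section

namespace Crest.Agent.R338.XF

/-- Wallis numbers `∏_{i<k} (2i+2)/(2i+3)` -/
def wal (k : ℕ) : ℚ := ∏ i ∈ range k, ((2 * i + 2 : ℚ) / (2 * i + 3))

theorem wal_zero : wal 0 = 1 := by simp [wal]

theorem wal_succ (k : ℕ) : wal (k + 1) = wal k * ((2 * k + 2 : ℚ) / (2 * k + 3)) := by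
  unfold wal; rw [prod_range_succ]

/-- `v^{k+3/2}` -/
def vk (k : ℕ) (t : ℝ) : ℝ := √(vv t) * (vv t) ^ (k + 1)

theorem vk_pos (k : ℕ) (t : ℝ) : 0 < vk k t := by
  unfold vk
  have := vv_pos t
  positivity

theorem continuous_vv : Continuous vv := by
  unfold vv
  exact Continuous.inv₀ (by fun_prop) (fun t => by positivity)

theorem continuous_vk (k : ℕ) : Continuous (vk k) := by
  unfold vk
  have := continuous_vv
  fun_prop

theorem vk_succ_le (k : ℕ) (t : ℝ) : vk (k + 1) t ≤ vk k t := by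
  unfold vk
  have h0 := vv_pos t
  have h1 := vv_le_one t
  have : vv t ^ (k + 1 + 1) ≤ vv t ^ (k + 1) := pow_le_pow_of_le_one h0.le h1 (by omega)
  gcongr

theorem hasDerivAt_vv (t : ℝ) : HasDerivAt vv (-(4 * t) * (vv t) ^ 2) t := by
  have h1 : HasDerivAt (fun t : ℝ => 1 + 2 * t ^ 2) (2 * (2 * t)) t := by
    have := ((hasDerivAt_pow 2 t).const_mul 2).const_add 1
    simpa using this
  have h2 := h1.inv (by positivity : (1 + 2 * t ^ 2) ≠ 0)
  refine HasDerivAt.congr_deriv (f := vv) h2 ?_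
  unfold vv
  field_simp
  ring

theorem hasDerivAt_sqrt_vv (t : ℝ) : HasDerivAt (fun t => √(vv t)) (-(2 * t) * (√(vv t) * vv t)) t := by
  have h := (hasDerivAt_vv t).sqrt (vv_pos t).ne'
  refine h.congr_deriv ?_
  have h0 := vv_pos t
  have hs : √(vv t) ≠ 0 := (Real.sqrt_pos.2 h0).ne'
  have h2 := Real.mul_self_sqrt h0.le
  rw [div_eq_iff (by positivity)]
  have : -(2 * t) * (√(vv t) * vv t) * (2 * √(vv t)) = -(4 * t) * vv t * (√(vv t) * √(vv t)) := by ring
  rw [this, h2]; ring

/-- antiderivative of `vk 0` : `t √v` -/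
theorem hasDerivAt_anti (t : ℝ) : HasDerivAt (fun t => t * √(vv t)) (vk 0 t) t := by
  have h := (hasDerivAt_id t).mul (hasDerivAt_sqrt_vv t)
  refine h.congr_deriv ?_
  unfold vk
  have e : vv t * (1 + 2 * t ^ 2) = 1 := by
    unfold vv; rw [inv_mul_cancel₀ (by positivity)]
  simp only [id, one_mul, zero_add, pow_one]
  have : √(vv t) = √(vv t) * (vv t * (1 + 2 * t ^ 2)) := by rw [e, mul_one]
  nlinarith [this]

theorem tendsto_anti : Tendsto (fun t => t * √(vv t)) atTop (𝓝 (1 / √2)) := by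
  have h1 : Tendsto (fun t : ℝ => √(t ^ 2 * vv t)) atTop (𝓝 (√(1 / 2))) := by
    refine (Real.continuous_sqrt.tendsto _).comp ?_
    have e : ∀ᶠ t : ℝ in atTop, 1 / 2 - 1 / 2 * vv t = t ^ 2 * vv t := by
      refine Eventually.of_forall fun t => ?_
      unfold vv; field_simp; ring
    refine Tendsto.congr' e ?_
    have h0 : Tendsto vv atTop (𝓝 0) := by
      unfold vv
      refine Tendsto.comp tendsto_inv_atTop_zero ?_
      refine tendsto_atTop_add_const_left _ _ ?_
      exact Tendsto.const_mul_atTop two_pos (tendsto_pow_atTop two_ne_zero)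
    have := (h0.const_mul (1 / 2)).const_sub (1 / 2)
    simpa using this
  have h2 : √(1 / 2 : ℝ) = 1 / √2 := by rw [Real.sqrt_div zero_le_one, Real.sqrt_one]
  rw [h2] at h1
  refine h1.congr' ?_
  filter_upwards [eventually_ge_atTop (0 : ℝ)] with t ht
  rw [Real.sqrt_mul (sq_nonneg t), Real.sqrt_sq ht]

theorem integrableOn_vk_zero : IntegrableOn (vk 0) (Set.Ioi 0) := by
  refine integrableOn_Ioi_deriv_of_nonneg' (g := fun t => t * √(vv t)) (a := 0)
    (fun t _ => hasDerivAt_anti t) (fun t _ => (vk_pos 0 t).le) tendsto_anti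

theorem integrableOn_vk (k : ℕ) : IntegrableOn (vk k) (Set.Ioi 0) := by
  induction k with
  | zero => exact integrableOn_vk_zero
  | succ k ih =>
    refine ih.mono' (continuous_vk _).aestronglyMeasurable (Eventually.of_forall fun t => ?_)
    rw [Real.norm_eq_abs, abs_of_pos (vk_pos _ t)]
    exact vk_succ_le k t

theorem integral_vk_zero : ∫ t in Set.Ioi 0, vk 0 t = 1 / √2 := by
  have h := integral_Ioi_of_hasDerivAt_of_tendsto' (f := fun t => t * √(vv t)) (a := 0)
    (fun t _ => hasDerivAt_anti t) integrableOn_vk_zero tendsto_anti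
  simpa using h

theorem hasDerivAt_rec (k : ℕ) (t : ℝ) : HasDerivAt (fun t => t * vk k t)
    (-(2 * k + 2) * vk k t + (2 * k + 3) * vk (k + 1) t) t := by
  have h1 : HasDerivAt (vk k) (-(2 * t) * (√(vv t) * vv t) * vv t ^ (k + 1) +
      √(vv t) * (((k : ℝ) + 1) * vv t ^ k * (-(4 * t) * (vv t) ^ 2))) t := by
    have ha := (hasDerivAt_vv t).pow (k + 1)
    have h := (hasDerivAt_sqrt_vv t).mul ha
    refine HasDerivAt.congr_deriv (f := vk k) h ?_
    push_cast
    simp only [Pi.pow_apply, Nat.add_sub_cancel]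
  have h := (hasDerivAt_id t).mul h1
  refine h.congr_deriv ?_
  have e : 2 * t ^ 2 * vv t = 1 - vv t := by
    unfold vv; field_simp; ring
  simp only [id, one_mul]
  unfold vk
  have : t * (-(2 * t) * (√(vv t) * vv t) * vv t ^ (k + 1) +
      √(vv t) * (((k : ℝ) + 1) * vv t ^ k * (-(4 * t) * (vv t) ^ 2))) =
      -(2 * t ^ 2 * vv t) * (2 * k + 3) * (√(vv t) * vv t ^ (k + 1)) := by
    ring
  rw [this, e]
  ring

theorem tendsto_rec (k : ℕ) : Tendsto (fun t => t * vk k t) atTop (𝓝 0) := by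
  have h0 : Tendsto vv atTop (𝓝 0) := by
    unfold vv
    refine Tendsto.comp tendsto_inv_atTop_zero ?_
    refine tendsto_atTop_add_const_left _ _ ?_
    exact Tendsto.const_mul_atTop two_pos (tendsto_pow_atTop two_ne_zero)
  have h1 : Tendsto (fun t => vv t ^ (k + 1)) atTop (𝓝 0) := by
    have := h0.pow (k + 1)
    simpa using this
  have := tendsto_anti.mul h1
  rw [mul_zero] at this
  refine this.congr fun t => ?_
  unfold vk; ring

theorem integral_vk (k : ℕ) : ∫ t in Set.Ioi 0, vk k t = (wal k : ℝ) * (1 / √2) := by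
  induction k with
  | zero => rw [integral_vk_zero, wal_zero]; simp
  | succ k ih =>
    have hi : IntegrableOn (fun t => -(2 * (k : ℝ) + 2) * vk k t + (2 * k + 3) * vk (k + 1) t)
        (Set.Ioi 0) := ((integrableOn_vk k).const_mul _).add ((integrableOn_vk (k + 1)).const_mul _)
    have h := integral_Ioi_of_hasDerivAt_of_tendsto' (f := fun t => t * vk k t) (a := 0)
      (fun t _ => hasDerivAt_rec k t) hi (tendsto_rec k)
    rw [integral_add ((integrableOn_vk k).const_mul _) ((integrableOn_vk (k + 1)).const_mul _),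
      integral_const_mul, integral_const_mul, ih] at h
    rw [wal_succ]
    push_cast
    have h3 : (2 * (k : ℝ) + 3) ≠ 0 := by positivity
    have h2 : √2 ≠ 0 := by positivity
    rw [zero_mul, sub_zero] at h
    have h4 : (2 * (k : ℝ) + 3) * ∫ t in Set.Ioi 0, vk (k + 1) t =
      (2 * k + 2) * ((wal k : ℝ) * (1 / √2)) := by linarith
    rw [← mul_right_inj' h3, h4]
    field_simp

end Crest.Agent.R338.XF
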